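import Crest.Agent.R129.Hilb

/-!
# R129 / Abs : abstract Hilbert space lemmas (indefinite Lax–Milgram, spectral projection)
-/

set_option autoImplicit false
open scoped InnerProductSpace ComplexConjugate

namespace Crest.Agent.R129

variable {H H' : Type} [NormedAddCommGroup H] [InnerProductSpace ℂ H] [CompleteSpace H]
  [NormedAddCommGroup H'] [InnerProductSpace ℂ H'] [CompleteSpace H']

theorem Abs_sa {F : H →L[ℂ] H} (hF : IsSelfAdjoint F) (x y : H) : ⟪F x, y⟫_ℂ = ⟪x, F y⟫_ℂ :=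
  hF.isSymmetric x y

omit [CompleteSpace H] in
theorem Abs_re_le (x y : H) : (⟪x, y⟫_ℂ).re ≤ ‖x‖ * ‖y‖ := re_inner_le_norm (𝕜 := ℂ) x y

omit [CompleteSpace H] in
theorem Abs_re_self (x : H) : (⟪x, x⟫_ℂ).re = ‖x‖ ^ 2 := inner_self_eq_norm_sq (𝕜 := ℂ) x

theorem Abs_proj_le {R : H →L[ℂ] H} (hR : IsSelfAdjoint R) (hRR : R * R = R) : ‖R‖ ≤ 1 :=
  IsStarProjection.norm_le _ ⟨hRR, hR⟩

/-- a self-adjoint operator that is bounded below is invertible (closed range, trivial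
orthogonal complement of the range; e.g. `ContinuousLinearMap.isUnit_iff_bijective`,
`AntilipschitzWith.isClosed_range`, `Submodule.orthogonal_eq_bot_iff`). -/
theorem isUnit_of_bddBelow {F : H →L[ℂ] H} (hF : IsSelfAdjoint F) {γ : ℝ} (hγ : 0 < γ)
    (h : ∀ x, γ * ‖x‖ ≤ ‖F x‖) : IsUnit F := by
  rw [ContinuousLinearMap.isUnit_iff_bijective,
    ContinuousLinearMap.bijective_iff_dense_range_and_antilipschitz]
  refine ⟨?_, ⟨⟨γ⁻¹, by positivity⟩, F.antilipschitz_of_bound fun x =>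
    (le_inv_mul_iff₀ hγ).2 (h x)⟩⟩
  rw [Submodule.topologicalClosure_eq_top_iff, Submodule.eq_bot_iff]
  intro x hx
  have h1 : ⟪F (F x), x⟫_ℂ = 0 := hx _ ⟨F x, rfl⟩
  rw [Abs_sa hF, inner_self_eq_zero] at h1
  have h2 := h x
  rw [h1, norm_zero] at h2
  exact norm_le_zero_iff.1 (nonpos_of_mul_nonpos_right h2 hγ)

/-- indefinite Lax–Milgram inequality: if `F` is self-adjoint, `fm F u ≤ -γ‖u‖²`, `fm F k ≥ γ‖k‖²`
then `Re ⟪k - u, F (u + k)⟫ = fm F k - fm F u ≥ γ (‖u‖² + ‖k‖²)`, so (parallelogram) `γ/2 ‖u+k‖ ≤ ‖R F (u+k)‖`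
for any orthogonal projection `R` fixing `u` and `k`. -/
theorem indef_ineq {F R : H →L[ℂ] H} (hF : IsSelfAdjoint F) (hR : IsSelfAdjoint R) {γ : ℝ}
    (hγ : 0 ≤ γ) (u k : H) (hu : R u = u) (hk : R k = k) (h1 : fm F u ≤ -γ * ‖u‖ ^ 2)
    (h2 : γ * ‖k‖ ^ 2 ≤ fm F k) : γ / 2 * ‖u + k‖ ≤ ‖R (F (u + k))‖ := by
  have e1 : (⟪u, F k⟫_ℂ).re = (⟪k, F u⟫_ℂ).re := by
    rw [← Abs_sa hF, ← inner_conj_symm, Complex.conj_re]
  have e2 : (⟪k - u, R (F (u + k))⟫_ℂ).re = fm F k - fm F u := by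
    rw [← Abs_sa hR, map_sub, hu, hk, map_add]
    simp only [inner_sub_left, inner_add_right, Complex.sub_re, Complex.add_re, fm, e1]
    ring
  have h3 := (Abs_re_le (k - u) (R (F (u + k)))).trans
    (mul_le_mul_of_nonneg_right (norm_sub_le k u) (norm_nonneg _))
  have h4 : γ / 2 * ‖u + k‖ ≤ γ / 2 * (‖k‖ + ‖u‖) :=
    mul_le_mul_of_nonneg_left ((norm_add_le u k).trans_eq (add_comm _ _)) (by positivity)
  refine h4.trans ?_
  rcases (add_nonneg (norm_nonneg k) (norm_nonneg u)).eq_or_lt with h0 | h0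
  · rw [← h0, mul_zero]
    exact norm_nonneg _
  · refine le_of_mul_le_mul_left ?_ h0
    nlinarith [mul_nonneg hγ (sq_nonneg (‖k‖ - ‖u‖))]

/-- **Compression lemma.**  `B` self-adjoint, `‖B‖ ≤ M`, form `≥ a` on the range of the projection
`P₀`, `≤ b` on its kernel, `R` a projection with `‖(1-R)P₀‖ ≤ η ≤ 1/2`.  Then `ζ - B` compressed to the
range of `R` is bounded below.  Plan: `P₀ R P₀ + (1 - P₀)` is invertible (it is `1 - P₀(1-R)P₀`, norm of
the perturbation `≤ η² < 1`, or use `isUnit_of_bddBelow`), so for `f = R f` there is `w = P₀ w` with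
`P₀ f = P₀ R w`; put `u = R w`, `k = f - u`; `fm B u ≥ (a - 3Mη)‖w‖²`, `‖u‖ ≤ ‖w‖`; `indef_ineq`
with `F = ζ - B`. -/
theorem compress {B P₀ R : H →L[ℂ] H} (hB : IsSelfAdjoint B) (hP : IsSelfAdjoint P₀)
    (hPP : P₀ * P₀ = P₀) (hR : IsSelfAdjoint R) (hRR : R * R = R) {M η a b ζ γ : ℝ}
    (hM : ‖B‖ ≤ M) (hη : ‖(1 - R) * P₀‖ ≤ η) (hη' : η ≤ 1 / 2) (hζ : 0 ≤ ζ) (hγ : 0 ≤ γ)
    (ha : ζ + γ + 3 * M * η ≤ a) (hb : b + γ ≤ ζ)
    (hL : ∀ w, P₀ w = w → a * ‖w‖ ^ 2 ≤ fm B w) (hU : ∀ f, P₀ f = 0 → fm B f ≤ b * ‖f‖ ^ 2)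
    (f : H) (hf : R f = f) : γ / 2 * ‖f‖ ≤ ‖R ((ζ : ℂ) • f - B f)‖ := by
  have hP1 := Abs_proj_le hP hPP
  have hPw : ∀ x, P₀ (P₀ x) = P₀ x := fun x => congrArg (fun T : H →L[ℂ] H => T x) hPP
  have hRw : ∀ x, R (R x) = R x := fun x => congrArg (fun T : H →L[ℂ] H => T x) hRR
  have hT : IsUnit (1 - P₀ * ((1 - R) * P₀)) := isUnit_one_sub_of_norm_lt_one <|
    (norm_mul_le _ _).trans_lt <| (mul_le_of_le_one_left (norm_nonneg _) hP1).trans_lt (by linarith)
  obtain ⟨w', hw'⟩ := (ContinuousLinearMap.isUnit_iff_bijective.1 hT).2 (P₀ f)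
  have h1 : P₀ (f - R (P₀ w')) = 0 := by
    have := congrArg P₀ hw'
    simp only [sub_apply, mul_apply_eq_comp, one_apply_eq_self, map_sub, hPw] at this
    rw [map_sub, ← this]
    abel
  set w := P₀ w' with hw
  have hw1 : P₀ w = w := hPw w'
  have hF : IsSelfAdjoint ((ζ : ℂ) • (1 : H →L[ℂ] H) - B) :=
    (IsSelfAdjoint.smul (Complex.conj_ofReal ζ) (IsSelfAdjoint.one _)).sub hB
  have hfm : ∀ x, fm ((ζ : ℂ) • (1 : H →L[ℂ] H) - B) x = ζ * ‖x‖ ^ 2 - fm B x := fun x => by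
    simp only [fm, sub_apply, smul_apply, one_apply_eq_self, inner_sub_right, inner_smul_right,
      Complex.sub_re, Complex.re_ofReal_mul, Abs_re_self]
  have hM0 := (norm_nonneg _).trans hM
  have hη0 := (norm_nonneg _).trans hη
  have h2 : ‖R w‖ ≤ ‖w‖ :=
    (R.le_opNorm w).trans (mul_le_of_le_one_left (norm_nonneg _) (Abs_proj_le hR hRR))
  have h3 : ‖w - R w‖ ≤ η * ‖w‖ := by
    have := (((1 - R) * P₀).le_opNorm w).trans (mul_le_mul_of_nonneg_right hη (norm_nonneg _))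
    rwa [mul_apply_eq_comp, hw1] at this
  have hB' : ∀ x, ‖B x‖ ≤ M * ‖x‖ := fun x =>
    (B.le_opNorm x).trans (mul_le_mul_of_nonneg_right hM (norm_nonneg _))
  have h4 : fm B w - fm B (R w) ≤ 2 * M * η * ‖w‖ ^ 2 := by
    have e : fm B w - fm B (R w) = (⟪w - R w, B w⟫_ℂ).re + (⟪R w, B (w - R w)⟫_ℂ).re := by
      simp only [fm, inner_sub_left, map_sub, inner_sub_right, Complex.sub_re]
      ring
    have g1 : (⟪w - R w, B w⟫_ℂ).re ≤ η * ‖w‖ * (M * ‖w‖) :=
      (Abs_re_le _ _).trans (mul_le_mul h3 (hB' _) (norm_nonneg _) (by positivity))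
    have g2 : (⟪R w, B (w - R w)⟫_ℂ).re ≤ ‖w‖ * (M * (η * ‖w‖)) :=
      (Abs_re_le _ _).trans (mul_le_mul h2 ((hB' _).trans (mul_le_mul_of_nonneg_left h3 hM0))
        (norm_nonneg _) (norm_nonneg _))
    rw [e]
    linarith
  have h5 := indef_ineq hF hR hγ (R w) (f - R w) (hRw w) (by rw [map_sub, hf, hRw]) (by
    have g1 := hL w hw1
    have g2 := mul_le_mul_of_nonneg_right ha (sq_nonneg ‖w‖)
    have g3 := mul_le_mul_of_nonneg_left (pow_le_pow_left₀ (norm_nonneg _) h2 2) (add_nonneg hζ hγ)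
    have g4 : 0 ≤ M * η * ‖w‖ ^ 2 := by positivity
    rw [hfm]
    linarith) (by
    have g1 := hU _ h1
    have g2 := mul_le_mul_of_nonneg_right hb (sq_nonneg ‖f - R w‖)
    rw [hfm]
    linarith)
  rwa [add_sub_cancel] at h5

/-- `F` negative definite on the range of `V`, positive definite on `ker Ψ`, and `Ψ V` invertible:
every `f` is `V h + k` with `h = (ΨV)⁻¹ Ψ f`; `indef_ineq` with `R = 1` and `isUnit_of_bddBelow`. -/
theorem isUnit_of_indef {F : H →L[ℂ] H} (hF : IsSelfAdjoint F) (V : H' →L[ℂ] H) (Ψ : H →L[ℂ] H')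
    (hu : IsUnit (Ψ.comp V)) {γ : ℝ} (hγ : 0 < γ) (h1 : ∀ h, fm F (V h) ≤ -γ * ‖V h‖ ^ 2)
    (h2 : ∀ k, Ψ k = 0 → γ * ‖k‖ ^ 2 ≤ fm F k) : IsUnit F := by
  refine isUnit_of_bddBelow hF (half_pos hγ) fun f => ?_
  obtain ⟨h, hh⟩ := (ContinuousLinearMap.isUnit_iff_bijective.1 hu).2 (Ψ f)
  have := indef_ineq hF (IsSelfAdjoint.one _) hγ.le (V h) (f - V h) rfl rfl (h1 h)
    (h2 _ (by rw [map_sub, ← hh]; exact sub_self _))
  rwa [add_sub_cancel] at this

/-- a positive semidefinite real kernel is positive semidefinite on Hilbert-space valued functions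
(`Matrix.PosSemidef`, write `M = Nᴴ N`, or diagonalise). -/
theorem psd_vector {X : Type} (s : Finset X) (M : X → X → ℝ) (hs : ∀ x y, M x y = M y x)
    (h : ∀ φ : X → ℝ, 0 ≤ ∑ x ∈ s, ∑ y ∈ s, M x y * (φ x * φ y)) (a : X → H) :
    0 ≤ ∑ x ∈ s, ∑ y ∈ s, M x y * (⟪a x, a y⟫_ℂ).re := by
  classical
  have hA : (Matrix.of fun x y : s => M x y).PosSemidef := by
    refine .of_dotProduct_mulVec_nonneg (Matrix.IsHermitian.ext fun x y => hs _ _) fun v => ?_
    have := h fun x => if hx : x ∈ s then v ⟨x, hx⟩ else 0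
    simp only [← Finset.sum_coe_sort s, Finset.coe_mem, dite_true, Subtype.coe_eta] at this
    refine this.trans_eq ?_
    simp only [dotProduct, Matrix.mulVec, Matrix.of_apply, star_trivial, Finset.mul_sum]
    exact Finset.sum_congr rfl fun x _ => Finset.sum_congr rfl fun y _ => by ring
  obtain ⟨m, v, hv⟩ := Matrix.posSemidef_iff_eq_sum_vecMulVec.1 hA
  have e : ∀ x y : s, M x y = ∑ i, v i x * v i y := fun x y => by
    simpa [Matrix.sum_apply, Matrix.vecMulVec_apply] using congrFun (congrFun hv x) y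
  have e2 : ∑ x ∈ s, ∑ y ∈ s, M x y * (⟪a x, a y⟫_ℂ).re =
      ∑ i, ‖∑ x : s, (v i x : ℂ) • a x‖ ^ 2 := by
    simp only [← Finset.sum_coe_sort s, e, Finset.sum_mul, ← Abs_re_self, sum_inner, inner_sum,
      inner_smul_left, inner_smul_right, Complex.re_sum, Complex.conj_ofReal, Complex.re_ofReal_mul]
    rw [Finset.sum_comm, Finset.sum_comm (s := Finset.univ (α := Fin m))]
    refine Finset.sum_congr rfl fun y _ => ?_
    rw [Finset.sum_comm]
    exact Finset.sum_congr rfl fun i _ => by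
      rw [Finset.mul_sum]
      exact Finset.sum_congr rfl fun x _ => by ring
  rw [e2]
  positivity

/-- `P` self-adjoint, `G` self-adjoint with `G P P = P`: then `G P` is an orthogonal projection `E`
with `P E = P`, `P G E = E`. -/
theorem proj_of_GPP {P G : H →L[ℂ] H} (hP : IsSelfAdjoint P) (hG : IsSelfAdjoint G)
    (h : G * P * P = P) :
    IsSelfAdjoint (G * P) ∧ (G * P) * (G * P) = G * P ∧ P * (G * P) = P ∧
      P * G * (G * P) = G * P := by
  have h1 : P * (P * G) = P := by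
    simpa only [star_mul, hP.star_eq, hG.star_eq] using congrArg star h
  have h2 : G * P = P * G := by
    conv_lhs => rw [← h1, ← mul_assoc, ← mul_assoc, h]
  have h3 : G * P * (G * P) = G * P := by
    rw [← mul_assoc, mul_assoc G P G, ← h2, ← mul_assoc, mul_assoc G G, mul_assoc G, h]
  refine ⟨?_, h3, by rw [h2, h1], by rw [← h2, h3]⟩
  rw [IsSelfAdjoint, star_mul, hP.star_eq, hG.star_eq, h2]

/-- irrationality of a fast converging series of reciprocals. -/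
theorem irrational_of_fast (a : ℕ → ℕ) (h0 : ∀ n, 0 < a n)
    (h : ∀ n, 2 * (n + 1) * ∏ i ∈ Finset.range (n + 1), a i < a (n + 1)) {s : ℝ}
    (hs : HasSum (fun n => (1 : ℝ) / a n) s) : Irrational s := by
  rintro ⟨q, rfl⟩
  have hd : ∀ m, 2 * a m ≤ a (m + 1) := fun m => by
    refine le_trans ?_ (h m).le
    rw [Finset.prod_range_succ, ← mul_assoc]
    refine Nat.mul_le_mul_right _ ?_
    have := Finset.prod_pos (s := Finset.range m) fun i _ => h0 i
    nlinarith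
  have hg : ∀ n j, (1 : ℝ) / a (j + n) ≤ 1 / a n * (1 / 2) ^ j := fun n j => by
    induction j with
    | zero => simp
    | succ j ih =>
      have g1 : (2 : ℝ) * a (j + n) ≤ a (j + 1 + n) := by
        rw [add_right_comm]; exact_mod_cast hd (j + n)
      have g2 : (0 : ℝ) < a (j + n) := by exact_mod_cast h0 _
      have g3 := one_div_le_one_div_of_le (by positivity) g1
      rw [pow_succ, ← mul_assoc]
      refine g3.trans ?_
      rw [mul_comm 2, ← div_div]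
      linarith
  set n := q.den with hn
  have h1 := (hasSum_nat_add_iff' (n + 1)).2 hs
  have h2 := hasSum_le (hg (n + 1)) h1 (hasSum_geometric_two.mul_left _)
  have h3 := le_hasSum h1 0 fun j _ => by positivity
  have h4 : (0 : ℝ) < a (n + 1) := by exact_mod_cast h0 _
  set A := ∏ i ∈ Finset.range (n + 1), a i with hA
  have hA0 : (0 : ℝ) < A := by exact_mod_cast Finset.prod_pos fun i _ => h0 i
  have hn0 : (0 : ℝ) < n := by exact_mod_cast q.den_pos
  have h5 : ((q.num * A - n * ∑ i ∈ Finset.range (n + 1), (A / a i : ℕ) : ℤ) : ℝ) =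
      n * A * ((q : ℝ) - ∑ i ∈ Finset.range (n + 1), (1 : ℝ) / a i) := by
    have g1 : (q.num : ℝ) = n * q := by exact_mod_cast (Rat.den_mul_eq_num q).symm
    have g2 : ∀ i ∈ Finset.range (n + 1), ((A / a i : ℕ) : ℝ) = A * (1 / a i) := fun i hi => by
      rw [Nat.cast_div (Finset.dvd_prod_of_mem _ hi) (by exact_mod_cast (h0 i).ne'), mul_one_div]
    rw [Int.cast_sub, Int.cast_mul, Int.cast_mul, Int.cast_natCast, Int.cast_natCast,
      Int.cast_natCast, Nat.cast_sum, Finset.sum_congr rfl g2, ← Finset.mul_sum, g1]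
    ring
  have h6 : (2 : ℝ) * (n + 1) * A < a (n + 1) := by exact_mod_cast h n
  rw [zero_add] at h3
  have h7 : (0 : ℝ) < n * A * ((q : ℝ) - ∑ i ∈ Finset.range (n + 1), (1 : ℝ) / a i) :=
    mul_pos (mul_pos hn0 hA0) (lt_of_lt_of_le (by exact_mod_cast one_div_pos.2 h4) h3)
  have h8 : n * A * ((q : ℝ) - ∑ i ∈ Finset.range (n + 1), (1 : ℝ) / a i) < 1 := by
    refine (mul_le_mul_of_nonneg_left h2 (by positivity)).trans_lt ?_
    rw [one_div_mul_eq_div, ← mul_div_assoc, div_lt_one h4]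
    linarith
  rw [← h5] at h7 h8
  have h9 := Int.cast_pos.1 h7
  have h10 := Int.cast_lt.1 (h8.trans_eq Int.cast_one.symm)
  omega

end Crest.Agent.R129
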