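import Crest.Agent.R129.Abs

/-!
# R129 / AbsP : the spectral projection of the negative part
-/

set_option autoImplicit false
open scoped InnerProductSpace ComplexConjugate

namespace Crest.Agent.R129

variable {H H' : Type} [NormedAddCommGroup H] [InnerProductSpace ℂ H] [CompleteSpace H]
  [NormedAddCommGroup H'] [InnerProductSpace ℂ H'] [CompleteSpace H']

/-- the properties of the spectral projection of the negative part of `F`. -/
structure NegProj (F e : H →L[ℂ] H) : Prop where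
  idem : e * e = e
  sa : star e = e
  comm : F * e = e * F
  neg : ∀ x, fm F (e x) ≤ 0
  pos : ∀ x, 0 ≤ fm F (x - e x)
  mem : ∀ A : StarSubalgebra ℂ (H →L[ℂ] H), IsClosed (A : Set (H →L[ℂ] H)) → F ∈ A → e ∈ A

/-- `e = cfc (fun t : ℝ => if t < 0 then 1 else 0) F`; continuity on the spectrum because
`0 ∉ spectrum ℝ F` (closed set); `cfc_mul`, `cfc_nonneg`, `ContinuousLinearMap.nonneg_iff_isPositive`,
`cfc_mem`.  (`fm F (e x) = ⟪x, (e F e) x⟫`.) -/
theorem exists_negProj {F : H →L[ℂ] H} (hF : IsSelfAdjoint F) (hu : IsUnit F) :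
    ∃ e, NegProj F e := by
  set g : ℝ → ℝ := fun t => if t < 0 then 1 else 0 with hg
  have h0 : (0 : ℝ) ∉ spectrum ℝ F := spectrum.zero_notMem ℝ hu
  have hc : ContinuousOn g (spectrum ℝ F) := by
    intro t ht
    refine ContinuousAt.continuousWithinAt ?_
    rcases lt_trichotomy t 0 with h | h | h
    · refine (continuousAt_const (y := (1 : ℝ))).congr ?_
      filter_upwards [Iio_mem_nhds h] with s hs
      exact (if_pos hs).symm
    · exact absurd (h ▸ ht) h0
    · refine (continuousAt_const (y := (0 : ℝ))).congr ?_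
      filter_upwards [Ioi_mem_nhds h] with s hs
      exact (if_neg (not_lt.2 (le_of_lt hs))).symm
  have hsa : IsSelfAdjoint (cfc g F) := cfc_predicate g F
  have hid : cfc (fun t : ℝ => t) F = F := cfc_id' ℝ F
  have key : ∀ (T : H →L[ℂ] H), IsSelfAdjoint T → ∀ x, fm F (T x) = fm (T * F * T) x := by
    intro T hT x
    unfold fm
    rw [← ContinuousLinearMap.adjoint_inner_right, hT.adjoint_eq]
    rfl
  have hpos : ∀ (T : H →L[ℂ] H), 0 ≤ T → ∀ x, 0 ≤ fm T x := fun T hT x =>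
    ((ContinuousLinearMap.nonneg_iff_isPositive T).1 hT).re_inner_nonneg_right x
  refine ⟨cfc g F, ?_, hsa, ?_, fun x => ?_, fun x => ?_, fun A hA hFA => ?_⟩
  · rw [← cfc_mul g g F]
    refine cfc_congr fun t _ => ?_
    simp only [hg]
    split_ifs <;> simp
  · have := (cfc_commute_cfc (fun t : ℝ => t) g F).eq
    rwa [hid] at this
  · have h1 : -(cfc g F * F * cfc g F) = cfc (fun t => -(g t * t * g t)) F := by
      rw [cfc_neg, cfc_mul (fun t => g t * t) g F, cfc_mul g (fun t => t) F, hid]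
    have h2 : 0 ≤ -(cfc g F * F * cfc g F) := by
      rw [h1]
      refine cfc_nonneg fun t _ => ?_
      simp only [hg]
      split_ifs with h
      · linarith
      · simp
    have h3 := hpos _ h2 x
    rw [key _ hsa]
    unfold fm at h3 ⊢
    simpa using h3
  · have h1 : (1 - cfc g F) = cfc (fun t => 1 - g t) F := by
      rw [cfc_sub (fun _ => (1 : ℝ)) g F, cfc_const_one ℝ F]
    have h2 : 0 ≤ (1 - cfc g F) * F * (1 - cfc g F) := by
      have h4 : cfc (fun t => (1 - g t) * t * (1 - g t)) F =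
          (1 - cfc g F) * F * (1 - cfc g F) := by
        rw [cfc_mul (fun t => (1 - g t) * t) (fun t => 1 - g t) F,
          cfc_mul (fun t => 1 - g t) (fun t => t) F, hid, ← h1]
      rw [← h4]
      refine cfc_nonneg fun t _ => ?_
      simp only [hg]
      split_ifs with h
      · simp
      · linarith
    have h3 := hpos _ h2 x
    rw [← key _ ((IsSelfAdjoint.one _).sub hsa)] at h3
    exact h3
  · exact cfc_mem (𝕜' := ℂ) (hs := hA) g hFA

theorem NegProj.inner_e {F e : H →L[ℂ] H} (h : NegProj F e) (x y : H) :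
    ⟪e x, y⟫_ℂ = ⟪x, e y⟫_ℂ := by
  have hs : IsSelfAdjoint e := h.sa
  rw [← ContinuousLinearMap.adjoint_inner_right, hs.adjoint_eq]

theorem NegProj.ee {F e : H →L[ℂ] H} (h : NegProj F e) (x : H) : e (e x) = e x :=
  congrArg (fun T : H →L[ℂ] H => T x) h.idem

theorem NegProj.eF {F e : H →L[ℂ] H} (h : NegProj F e) (x : H) : F (e x) = e (F x) :=
  congrArg (fun T : H →L[ℂ] H => T x) h.comm

/-- if `F = c - T` then `c ‖e x‖ ≤ ‖T x‖`: `c‖ex‖² ≤ Re⟪ex, T e x⟫ = Re ⟪ex, e T x⟫ ≤ ‖ex‖ ‖Tx‖`. -/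
theorem NegProj.norm_le {T e : H →L[ℂ] H} {c : ℝ} (h : NegProj ((c : ℂ) • (1 : H →L[ℂ] H) - T) e)
    (x : H) : c * ‖e x‖ ≤ ‖T x‖ := by
  have h1 := h.neg x
  have h2 := h.eF x
  unfold fm at h1
  rw [h2, ← h.inner_e, h.ee] at h1
  simp only [sub_apply, smul_apply,
    one_apply_eq_self, inner_sub_right, inner_smul_right, Complex.sub_re,
    Complex.re_ofReal_mul] at h1
  have h3 : (⟪e x, x⟫_ℂ).re = ‖e x‖ ^ 2 := by
    rw [← h.ee x, h.inner_e, h.ee]
    exact inner_self_eq_norm_sq (𝕜 := ℂ) (e x)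
  have h4 : (⟪e x, T x⟫_ℂ).re ≤ ‖e x‖ * ‖T x‖ :=
    (Complex.re_le_norm _).trans (norm_inner_le_norm _ _)
  rcases (norm_nonneg (e x)).eq_or_lt with h5 | h5
  · rw [← h5, mul_zero]
    exact norm_nonneg _
  · refine le_of_mul_le_mul_left ?_ h5
    rw [h3] at h1
    nlinarith

theorem NegProj.ne_zero {F e : H →L[ℂ] H} (h : NegProj F e) {x : H} (hx : fm F x < 0) : e ≠ 0 := by
  rintro rfl
  have := h.pos x
  simp only [zero_apply, sub_zero] at this
  linarith

/-- In the situation of `isUnit_of_indef`, `Ψ` maps the range of the negative spectral projection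
bijectively onto `H'`.  Plan.  `K = ker Ψ`.  (a) `γ‖k‖² ≤ fm F k = fm F (e k) + fm F (k - e k) ≤
‖F‖ ‖k - e k‖²` on `K`, so `(1-e)(K)` is closed.  (b) it is all of `(1-e)H`: if `v = v - e v ⊥ (1-e)K` then
`v ⊥ K`; put `v' = F⁻¹ v` (`e v' = 0`), write `v' = V h + k'`; `fm F (V h) = fm F v' + fm F k' ≥ 0`
forces `V h = 0`, `k' = 0`... hence `v' = 0`.  (c) so every `x` is `y + k`, `e y = y`, `k ∈ K`;
`Ψ ∘ e`restricted to `range e` (closed subspace `ker (1 - e)`) is onto (Ψ is onto) and injective (a vector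
in `range e ∩ K` has `fm ≤ 0` and `≥ γ‖·‖²`); invert with `ContinuousLinearEquiv.ofBijective`. -/
theorem NegProj.exists_inverse {F e : H →L[ℂ] H} (he : NegProj F e) (hF : IsSelfAdjoint F)
    (hFu : IsUnit F) (V : H' →L[ℂ] H) (Ψ : H →L[ℂ] H')
    (hu : IsUnit (Ψ.comp V)) {γ : ℝ} (hγ : 0 < γ) (h1 : ∀ h, fm F (V h) ≤ -γ * ‖V h‖ ^ 2)
    (h2 : ∀ k, Ψ k = 0 → γ * ‖k‖ ^ 2 ≤ fm F k) :
    ∃ N : H' →L[ℂ] H, e.comp N = N ∧ Ψ.comp N = 1 ∧ N.comp (Ψ.comp e) = e := by
  have hFi : ∀ x y, ⟪F x, y⟫_ℂ = ⟪x, F y⟫_ℂ := fun x y => by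
    rw [← ContinuousLinearMap.adjoint_inner_right, hF.adjoint_eq]
  have hadd : ∀ x y, ⟪x, F y⟫_ℂ = 0 → fm F (x + y) = fm F x + fm F y := fun x y hxy => by
    have h3 : ⟪y, F x⟫_ℂ = 0 := by rw [← hFi, inner_eq_zero_symm, hxy]
    unfold fm
    rw [map_add, inner_add_left, inner_add_right, inner_add_right, hxy, h3]
    simp
  obtain ⟨M, hM⟩ := hu.exists_right_inv
  have hM' : ∀ h, Ψ (V (M h)) = h := fun h => congrArg (fun T : H' →L[ℂ] H' => T h) hM
  -- (a)
  have ha : ∀ k, Ψ k = 0 → ‖k‖ ≤ (‖F‖ / γ + 1) * ‖k - e k‖ := fun k hk => by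
    have h3 := hadd (e k) (k - e k) (by
      rw [he.inner_e, ← he.eF, map_sub, he.ee, sub_self, map_zero, inner_zero_right])
    rw [add_sub_cancel] at h3
    have h4 : fm F (k - e k) ≤ ‖F‖ * ‖k - e k‖ ^ 2 := by
      refine (Complex.re_le_norm _).trans ((norm_inner_le_norm _ _).trans ?_)
      have := F.le_opNorm (k - e k)
      nlinarith [norm_nonneg (k - e k)]
    have h5 : ‖k‖ ^ 2 ≤ ‖F‖ / γ * ‖k - e k‖ ^ 2 := by
      rw [div_mul_eq_mul_div, le_div_iff₀ hγ]
      linarith [h2 k hk, he.neg k]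
    have h6 : 0 ≤ ‖F‖ / γ := by positivity
    refine le_of_sq_le_sq (h5.trans ?_) (by positivity)
    rw [mul_pow]
    exact mul_le_mul_of_nonneg_right (by nlinarith) (by positivity)
  set K : Submodule ℂ H := Ψ.ker with hK
  have hKc : IsClosed (K : Set H) := Ψ.isClosed_ker
  have : CompleteSpace K := hKc.completeSpace_coe
  set φ : K →L[ℂ] H := (1 - e).comp K.subtypeL with hφ
  have hφc : IsClosed (Set.range φ) := by
    refine (φ.antilipschitz_of_bound (K := ⟨‖F‖ / γ + 1, by positivity⟩) fun k => ?_).isClosed_range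
      φ.uniformContinuous
    exact ha k k.2
  set U : Submodule ℂ H := φ.range.comap (1 - e : H →L[ℂ] H).toLinearMap with hU
  have hUc : IsClosed (U : Set H) := hφc.preimage (1 - e : H →L[ℂ] H).continuous
  have : CompleteSpace U := hUc.completeSpace_coe
  -- (b)
  have hUt : U = ⊤ := by
    rw [← Submodule.orthogonal_eq_bot_iff, Submodule.eq_bot_iff]
    intro v hv
    rw [Submodule.mem_orthogonal] at hv
    have hev : e v = 0 := by
      have h3 := hv (e (e v)) ⟨0, by simp [he.ee]⟩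
      rw [he.inner_e] at h3
      exact inner_self_eq_zero.1 h3
    obtain ⟨G, hG⟩ := hFu.exists_right_inv
    obtain ⟨G', hG'⟩ := hFu.exists_left_inv
    have hGv : F (G v) = v := congrArg (fun T : H →L[ℂ] H => T v) hG
    have hinj : ∀ x, F x = 0 → x = 0 := fun x hx => by
      have h3 : G' (F x) = x := congrArg (fun T : H →L[ℂ] H => T x) hG'
      rw [← h3, hx, map_zero]
    have hev' : e (G v) = 0 := hinj _ (by rw [he.eF, hGv, hev])
    set w := V (M (Ψ (G v))) with hw
    have hk : Ψ (w - G v) = 0 := by rw [map_sub, hw, hM', sub_self]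
    have h3 := hadd (w - G v) (G v) (by rw [hGv]; exact hv _ ⟨⟨_, hk⟩, rfl⟩)
    rw [sub_add_cancel] at h3
    have h4 := he.pos (G v)
    rw [hev', sub_zero] at h4
    have h5 := h1 (M (Ψ (G v)))
    have h6 := h2 _ hk
    rw [← hw] at h5
    have h7 : 0 ≤ γ * ‖w‖ ^ 2 := by positivity
    have h8 : 0 ≤ γ * ‖w - G v‖ ^ 2 := by positivity
    have h9 : γ * ‖w‖ ^ 2 = 0 := by linarith
    have h10 : γ * ‖w - G v‖ ^ 2 = 0 := by linarith
    have h11 : w = 0 := by simpa [hγ.ne'] using h9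
    have h12 : w - G v = 0 := by simpa [hγ.ne'] using h10
    rw [h11, zero_sub, neg_eq_zero] at h12
    rw [← hGv, h12, map_zero]
  -- (c)
  set E : Submodule ℂ H := (1 - e : H →L[ℂ] H).ker with hE
  have hEc : IsClosed (E : Set H) := (1 - e : H →L[ℂ] H).isClosed_ker
  have : CompleteSpace E := hEc.completeSpace_coe
  have hEm : ∀ x, x ∈ E ↔ e x = x := fun x => by
    change x - e x = 0 ↔ _
    rw [sub_eq_zero, eq_comm]
  set T : E →L[ℂ] H' := Ψ.comp E.subtypeL with hT
  have hker : T.ker = ⊥ := by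
    rw [Submodule.eq_bot_iff]
    intro y hy
    have h3 := h2 y hy
    have h4 := he.neg y
    rw [(hEm _).1 y.2] at h4
    have h5 : 0 ≤ γ * ‖(y : H)‖ ^ 2 := by positivity
    have h6 : γ * ‖(y : H)‖ ^ 2 = 0 := by linarith
    simpa [hγ.ne'] using h6
  have hran : T.range = ⊤ := by
    rw [Submodule.eq_top_iff']
    intro h
    obtain ⟨k, hk⟩ : V (M h) ∈ U := hUt ▸ Submodule.mem_top
    have hk' : (k : H) - e k = V (M h) - e (V (M h)) := hk
    have hk0 : Ψ k = 0 := k.2
    refine ⟨⟨V (M h) - k, (hEm _).2 ?_⟩, ?_⟩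
    · rw [map_sub]
      linear_combination (norm := module) hk'
    · change Ψ (V (M h) - k) = h
      rw [map_sub, hM', hk0, sub_zero]
  set Q := ContinuousLinearEquiv.ofBijective T hker hran with hQ
  have hQT : ∀ y, Q y = T y := fun y => rfl
  refine ⟨E.subtypeL.comp Q.symm.toContinuousLinearMap, ?_, ?_, ?_⟩
  · ext h
    exact (hEm _).1 (Q.symm h).2
  · ext h
    exact (hQT _).symm.trans (Q.apply_symm_apply h)
  · ext x
    have := Q.symm_apply_apply ⟨e x, (hEm _).2 (he.ee x)⟩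
    exact congrArg Subtype.val this

end Crest.Agent.R129
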