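import Crest.Agent.R129.HilbG

/-!
# R129 / Apx : finitely supported approximations
-/

set_option autoImplicit false
open scoped InnerProductSpace ComplexConjugate Pointwise
open UnitAddTorus

namespace Crest.Agent.R129

section Apx
variable {Q : Type} [Group Q]

/-- `X` is within `δ` of a finitely supported element with support in `S` and `ℓ¹` norm `≤ B`. -/
def Apx (X : L2 Q ℂ →L[ℂ] L2 Q ℂ) (S : Set Q) (B δ : ℝ) : Prop :=
  ∃ a : Q →₀ ℂ, (a.support : Set Q) ⊆ S ∧ l1 a ≤ B ∧ ‖lamS a - X‖ ≤ δ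

theorem Apx_lamS (a : Q →₀ ℂ) : lamS a = Finsupp.linearCombination ℂ lam a := rfl

omit [Group Q] in
theorem Apx_l1_nonneg (a : Q →₀ ℂ) : 0 ≤ l1 a := Finset.sum_nonneg fun _ _ => norm_nonneg _

omit [Group Q] in
theorem Apx_l1_add (a b : Q →₀ ℂ) : l1 (a + b) ≤ l1 a + l1 b := by
  classical
  have h : ∀ c : Q →₀ ℂ, c.support ⊆ a.support ∪ b.support →
      l1 c = ∑ g ∈ a.support ∪ b.support, ‖c g‖ := fun c hc =>
    Finsupp.sum_of_support_subset c hc (fun _ c => ‖c‖) fun _ _ => norm_zero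
  rw [h _ Finsupp.support_add, h a Finset.subset_union_left, h b Finset.subset_union_right,
    ← Finset.sum_add_distrib]
  exact Finset.sum_le_sum fun g _ => norm_add_le _ _

/-- a finite combination of translations -/
theorem Apx_fam {α : Type} (s : Finset α) (g : α → Q) (c : α → ℂ) (S : Set Q) (h : ∀ i ∈ s, g i ∈ S) :
    ∃ a : Q →₀ ℂ, (a.support : Set Q) ⊆ S ∧ l1 a ≤ ∑ i ∈ s, ‖c i‖ ∧
      lamS a = ∑ i ∈ s, c i • lam (g i) := by
  classical
  induction s using Finset.induction_on with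
  | empty => exact ⟨0, by simp, by simp [l1], by simp [lamS]⟩
  | insert i s hi ih =>
    obtain ⟨a, h1, h2, h3⟩ := ih fun j hj => h j (Finset.mem_insert_of_mem hj)
    refine ⟨Finsupp.single (g i) (c i) + a, ?_, ?_, ?_⟩
    · intro x hx
      rcases Finset.mem_union.1 (Finsupp.support_add hx) with hx | hx
      · rw [Finset.mem_singleton.1 (Finsupp.support_single_subset hx)]
        exact h i (Finset.mem_insert_self _ _)
      · exact h1 hx
    · rw [Finset.sum_insert hi]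
      refine (Apx_l1_add _ _).trans (add_le_add (le_of_eq ?_) h2)
      exact Finsupp.sum_single_index norm_zero
    · rw [Finset.sum_insert hi, Apx_lamS, map_add, Finsupp.linearCombination_single, ← Apx_lamS, h3]

theorem Apx.mono {X : L2 Q ℂ →L[ℂ] L2 Q ℂ} {S S' : Set Q} {B δ B' δ' : ℝ} (h : Apx X S B δ)
    (hS : S ⊆ S') (hB : B ≤ B') (hδ : δ ≤ δ') : Apx X S' B' δ' := by
  obtain ⟨a, h1, h2, h3⟩ := h
  exact ⟨a, h1.trans hS, h2.trans hB, h3.trans hδ⟩

theorem Apx.add {X X' : L2 Q ℂ →L[ℂ] L2 Q ℂ} {S : Set Q} {B δ B' δ' : ℝ} (h : Apx X S B δ)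
    (h' : Apx X' S B' δ') : Apx (X + X') S (B + B') (δ + δ') := by
  classical
  obtain ⟨a, h1, h2, h3⟩ := h
  obtain ⟨b, h1', h2', h3'⟩ := h'
  refine ⟨a + b, fun x hx => ?_, (Apx_l1_add a b).trans (add_le_add h2 h2'), ?_⟩
  · rcases Finset.mem_union.1 (Finsupp.support_add hx) with hx | hx
    · exact h1 hx
    · exact h1' hx
  · rw [Apx_lamS, map_add, ← Apx_lamS, ← Apx_lamS, add_sub_add_comm]
    exact (norm_add_le _ _).trans (add_le_add h3 h3')

/-- convolution `a.sum fun g c => b.sum fun h d => single (g * h) (c * d)`. -/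
theorem Apx.mul {X X' : L2 Q ℂ →L[ℂ] L2 Q ℂ} {S S' : Set Q} {B δ B' δ' : ℝ} (h : Apx X S B δ)
    (h' : Apx X' S' B' δ') : Apx (X * X') (S * S') (B * B') (B * δ' + δ * (B' + δ')) := by
  obtain ⟨a, h1, h2, h3⟩ := h
  obtain ⟨b, h1', h2', h3'⟩ := h'
  obtain ⟨c, k1, k2, k3⟩ := Apx_fam (a.support ×ˢ b.support) (fun p => p.1 * p.2)
    (fun p => a p.1 * b p.2) (S * S') fun p hp =>
      Set.mul_mem_mul (h1 (Finset.mem_product.1 hp).1) (h1' (Finset.mem_product.1 hp).2)
  have e1 : ∑ p ∈ a.support ×ˢ b.support, ‖a p.1 * b p.2‖ = l1 a * l1 b := by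
    unfold l1 Finsupp.sum
    rw [Finset.sum_mul_sum, Finset.sum_product]
    simp only [norm_mul]
  have e2 : lamS c = lamS a * lamS b := by
    rw [k3]
    unfold lamS Finsupp.sum
    rw [Finset.sum_mul_sum, Finset.sum_product]
    simp only [lam_mul, smul_mul_smul_comm]
  have hB : 0 ≤ B := (Apx_l1_nonneg a).trans h2
  have hδ : 0 ≤ δ := (norm_nonneg _).trans h3
  refine ⟨c, k1, k2.trans (e1.le.trans (mul_le_mul h2 h2' (Apx_l1_nonneg b) hB)), ?_⟩
  have e3 : lamS a * lamS b - X * X' = lamS a * (lamS b - X') + (lamS a - X) * X' := by noncomm_ring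
  have hX' : ‖X'‖ ≤ B' + δ' := by
    have : X' = lamS b - (lamS b - X') := by abel
    rw [this]
    exact (norm_sub_le _ _).trans (add_le_add ((norm_lamS_le b).trans h2') h3')
  rw [e2, e3]
  refine (norm_add_le _ _).trans (add_le_add ((norm_mul_le _ _).trans ?_) ((norm_mul_le _ _).trans ?_))
  · exact mul_le_mul ((norm_lamS_le a).trans h2) h3' (norm_nonneg _) hB
  · exact mul_le_mul h3 hX' (norm_nonneg _) hδ

theorem Apx.smul {X : L2 Q ℂ →L[ℂ] L2 Q ℂ} {S : Set Q} {B δ : ℝ} (h : Apx X S B δ) (c : ℂ) :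
    Apx (c • X) S (‖c‖ * B) (‖c‖ * δ) := by
  obtain ⟨a, h1, h2, h3⟩ := h
  obtain ⟨b, k1, k2, k3⟩ := Apx_fam a.support (fun g => g) (fun g => c * a g) S fun g hg => h1 hg
  refine ⟨b, k1, k2.trans ?_, ?_⟩
  · simp only [norm_mul]
    rw [← Finset.mul_sum]
    exact mul_le_mul_of_nonneg_left h2 (norm_nonneg _)
  · have e : lamS b = c • lamS a := by
      rw [k3]
      unfold lamS Finsupp.sum
      rw [Finset.smul_sum]
      simp only [mul_smul]
    rw [e, ← smul_sub, norm_smul]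
    exact mul_le_mul_of_nonneg_left h3 (norm_nonneg _)

theorem apx_sum_lam {α : Type} (s : Finset α) (g : α → Q) (S : Set Q) (h : ∀ a ∈ s, g a ∈ S) :
    Apx (∑ a ∈ s, lam (g a)) S s.card 0 := by
  obtain ⟨b, k1, k2, k3⟩ := Apx_fam s g (fun _ => 1) S h
  refine ⟨b, k1, by simpa using k2, ?_⟩
  rw [k3]
  simp

end Apx

end Crest.Agent.R129
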