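import Mathlib

/-!
# R129 / Avg : averaging over subgroups, Bessel inequality
-/

set_option autoImplicit false

namespace Crest.Agent.R129

section avg
variable {A : Type} [AddCommGroup A] [Fintype A]

open Classical in
/-- average over the cosets of `H`. -/
noncomputable def avg (H : AddSubgroup A) (f : A → ℝ) : A → ℝ :=
  fun z => (∑ h ∈ Finset.univ.filter (· ∈ H), f (z + h)) / (Finset.univ.filter (· ∈ H)).card

open Classical in
theorem avg_card_pos (H : AddSubgroup A) : (0 : ℝ) < (Finset.univ.filter (· ∈ H)).card := by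
  exact_mod_cast Finset.card_pos.2 ⟨0, by simp⟩

theorem avg_inv (H : AddSubgroup A) (f : A → ℝ) (z : A) {k : A} (hk : k ∈ H) :
    avg H f (z + k) = avg H f z := by
  classical
  unfold avg
  congr 1
  refine Finset.sum_equiv (Equiv.addLeft k) (fun h => ?_) (fun h _ => ?_)
  · simp [H.add_mem_cancel_left hk]
  · simp [add_assoc]

theorem avg_of_inv (H : AddSubgroup A) {g : A → ℝ} (hg : ∀ z, ∀ k ∈ H, g (z + k) = g z) :
    avg H g = g := by
  classical
  funext z
  unfold avg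
  rw [Finset.sum_congr rfl (fun h hh => hg z h (Finset.mem_filter.1 hh).2), Finset.sum_const,
    nsmul_eq_mul, mul_div_cancel_left₀ _ (avg_card_pos H).ne']

theorem avg_comm (H H' : AddSubgroup A) (f : A → ℝ) : avg H (avg H' f) = avg H' (avg H f) := by
  classical
  funext z
  unfold avg
  simp only [← Finset.sum_div]
  rw [Finset.sum_comm, div_right_comm]
  simp only [add_right_comm z]

theorem avg_avg_le {H K : AddSubgroup A} (h : H ≤ K) (f : A → ℝ) : avg K (avg H f) = avg K f := by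
  rw [avg_comm, avg_of_inv H fun z k hk => avg_inv K f z (h hk)]

theorem avg_avg (H H' : AddSubgroup A) (f : A → ℝ) : avg H (avg H' f) = avg (H ⊔ H') f := by
  rw [← avg_avg_le (le_sup_right : H' ≤ H ⊔ H') f, ← avg_avg_le (le_sup_left : H ≤ H ⊔ H')]
  refine (avg_of_inv _ fun z k hk => ?_).symm
  obtain ⟨h, hh, h', hh', rfl⟩ := AddSubgroup.mem_sup.1 hk
  rw [← add_assoc, avg_comm, avg_inv H' _ _ hh', avg_comm, avg_inv H _ _ hh]

theorem avg_symm (H : AddSubgroup A) (f g : A → ℝ) :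
    ∑ z, avg H f z * g z = ∑ z, f z * avg H g z := by
  classical
  unfold avg
  simp only [div_mul_eq_mul_div, mul_div_assoc', ← Finset.sum_div, Finset.sum_mul, Finset.mul_sum]
  congr 1
  rw [Finset.sum_comm, Finset.sum_comm (s := Finset.univ)]
  refine Finset.sum_equiv (Equiv.neg A) (fun h => by simp) (fun h _ => ?_)
  refine Finset.sum_equiv (Equiv.addRight h) (fun z => by simp) (fun z _ => by simp)

theorem avg_comp (H : AddSubgroup A) (φ : A ≃+ A) (f : A → ℝ) :
    avg H (f ∘ φ) = avg (H.map φ.toAddMonoidHom) f ∘ φ := by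
  classical
  funext z
  have hm : ∀ h, h ∈ Finset.univ.filter (· ∈ H) ↔
      φ.toEquiv h ∈ Finset.univ.filter (· ∈ H.map φ.toAddMonoidHom) := fun h => by simp
  unfold avg
  simp only [Function.comp]
  congr 1
  · exact Finset.sum_equiv φ.toEquiv hm fun h _ => by simp
  · exact_mod_cast Finset.card_equiv φ.toEquiv hm

theorem avg_inner (X Y : AddSubgroup A) (f : A → ℝ) :
    ∑ z, avg X f z * avg Y f z = ∑ z, f z * avg (X ⊔ Y) f z := by
  rw [avg_symm, avg_avg]

theorem avg_inner_sub (X X' Y Y' : AddSubgroup A) (f : A → ℝ) :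
    ∑ z, (avg X f z - avg X' f z) * (avg Y f z - avg Y' f z) =
      ∑ z, f z * avg (X ⊔ Y) f z - ∑ z, f z * avg (X ⊔ Y') f z - ∑ z, f z * avg (X' ⊔ Y) f z +
        ∑ z, f z * avg (X' ⊔ Y') f z := by
  simp only [← avg_inner, ← Finset.sum_sub_distrib, ← Finset.sum_add_distrib]
  exact Finset.sum_congr rfl fun z _ => by ring

/-- Bessel inequality for the projections `avg (H i) - avg (H' i)`, `H i ≤ H' i`, when they are mutually
orthogonal: either `H i ⊔ H j = H' i = H' j`, or `H' j ≤ H i`, or `H' i ≤ H j`. -/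
theorem bessel_avg {ι : Type} (s : Finset ι) (H H' : ι → AddSubgroup A) (hle : ∀ i ∈ s, H i ≤ H' i)
    (ho : ∀ i ∈ s, ∀ j ∈ s, i ≠ j →
      (H i ⊔ H j = H' i ∧ H' i = H' j) ∨ H' j ≤ H i ∨ H' i ≤ H j) (f : A → ℝ) :
    ∑ i ∈ s, ∑ z, (avg (H i) f z - avg (H' i) f z) ^ 2 ≤ ∑ z, f z ^ 2 := by
  classical
  set P : ι → A → ℝ := fun i z => avg (H i) f z - avg (H' i) f z with hP
  have h1 : ∀ i ∈ s, ∑ z, f z * P i z = ∑ z, P i z ^ 2 := by
    intro i hi
    simp only [sq, hP]
    rw [avg_inner_sub, sup_idem, sup_idem, sup_eq_right.2 (hle i hi), sup_eq_left.2 (hle i hi)]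
    simp only [mul_sub, Finset.sum_sub_distrib]
    ring
  have h2 : ∀ i ∈ s, ∀ j ∈ s, i ≠ j → ∑ z, P i z * P j z = 0 := by
    intro i hi j hj hij
    simp only [hP]
    rw [avg_inner_sub]
    have a := hle i hi
    have b := hle j hj
    rcases ho i hi j hj hij with ⟨e1, e2⟩ | e | e
    · rw [e1, ← e2, sup_idem, sup_eq_right.2 a, sup_eq_left.2 (e2 ▸ b)]
      ring
    · rw [sup_eq_left.2 (b.trans e), sup_eq_left.2 e, sup_eq_left.2 ((b.trans e).trans a),
        sup_eq_left.2 (e.trans a)]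
      ring
    · rw [sup_eq_right.2 (a.trans e), sup_eq_right.2 ((a.trans e).trans b), sup_eq_right.2 e,
        sup_eq_right.2 (e.trans b)]
      ring
  have h3 : ∑ z, (∑ i ∈ s, P i z) ^ 2 = ∑ i ∈ s, ∑ z, P i z ^ 2 := by
    simp only [sq, Finset.sum_mul_sum]
    rw [Finset.sum_comm]
    refine Finset.sum_congr rfl fun i hi => ?_
    rw [Finset.sum_comm, Finset.sum_eq_single_of_mem i hi fun j hj hji => h2 i hi j hj hji.symm]
  have h4 : ∑ z, f z * ∑ i ∈ s, P i z = ∑ i ∈ s, ∑ z, P i z ^ 2 := by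
    simp only [Finset.mul_sum]
    rw [Finset.sum_comm]
    exact Finset.sum_congr rfl h1
  have h5 : 0 ≤ ∑ z, (f z - ∑ i ∈ s, P i z) ^ 2 := Finset.sum_nonneg fun z _ => sq_nonneg _
  have h6 : ∑ z, (f z - ∑ i ∈ s, P i z) ^ 2 =
      ∑ z, f z ^ 2 - 2 * ∑ z, f z * ∑ i ∈ s, P i z + ∑ z, (∑ i ∈ s, P i z) ^ 2 := by
    rw [Finset.mul_sum, ← Finset.sum_sub_distrib, ← Finset.sum_add_distrib]
    exact Finset.sum_congr rfl fun z _ => by ring
  change ∑ i ∈ s, ∑ z, P i z ^ 2 ≤ _
  linarith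

end avg

end Crest.Agent.R129
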