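import Crest.Agent.R129.BaseLev

/-!
# R129 / Base : existence of the base graph package
-/

set_option autoImplicit false
open FreeGroup

namespace Crest.Agent.R129

section
variable (t q K : ℕ) [Fact q.Prime] (π : ZMod q → Loc (ZMod q)) (D : ℤ → Finset (ℕ → ZMod q))

/-- vertices: a level and a non-deleted point of it. -/
def BV : Type := {p : ℤ × (ℕ → ZMod q) // p.2 ∈ Lvl t q K p.1 ∧ p.2 ∉ D p.1}

/-- edges: a letter and a source, such that the target is not deleted. -/
def BE : Type := {p : ZMod q × BV t q K D // allowed t q p.1 p.2.1.1 ∧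
  Gm (dat t q K π p.1) p.1 p.2.1.2 ∈ Lvl t q K (tlev t q p.1 p.2.1.1) ∧
  Gm (dat t q K π p.1) p.1 p.2.1.2 ∉ D (tlev t q p.1 p.2.1.1)}

def BG : EG (BV t q K D) (BE t q K π D) where
  src e := e.1.2
  tgt e := ⟨(tlev t q e.1.1 e.1.2.1.1, Gm (dat t q K π e.1.1) e.1.1 e.1.2.1.2), e.2.2⟩

def Blab (e : BE t q K π D) : ZMod q × ZMod q := (e.1.1, e.1.2.1.2 0)

/-- the map to the edges of the full graph. -/
def toFull (e : BE t q K π D) : {l : ZMod q // l ≠ 0} × (ℕ → ZMod q) := (⟨e.1.1, e.2.1.1⟩, e.1.2.1.2)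

variable {t q K π D}

theorem Par.Base_BV_ext (h : Par t q K) {x y : BV t q K D} (e : x.1.2 = y.1.2) : x = y :=
  Subtype.ext (Prod.ext (h.lvl_disj x.2.1 (e ▸ y.2.1)) e)

theorem Base_hs (a : BE t q K π D × Bool) :
    (fullG (dat t q K π)).hs (toFull t q K π D a.1, a.2) = ((BG t q K π D).hs a).1.2 := by
  obtain ⟨e, _ | _⟩ := a <;> rfl

theorem Base_ht (a : BE t q K π D × Bool) :
    (fullG (dat t q K π)).ht (toFull t q K π D a.1, a.2) = ((BG t q K π D).ht a).1.2 := by
  obtain ⟨e, _ | _⟩ := a <;> rfl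

theorem Base_src_inj {e e' : BE t q K π D} (hl : e.1.1 = e'.1.1)
    (hs : (BG t q K π D).src e = (BG t q K π D).src e') : e = e' :=
  Subtype.ext (Prod.ext hl hs)

theorem Par.Base_tgt_inj (h : Par t q K) {e e' : BE t q K π D} (hl : e.1.1 = e'.1.1)
    (hs : (BG t q K π D).tgt e = (BG t q K π D).tgt e') : e = e' := by
  have h1 : Gm (dat t q K π e.1.1) e.1.1 e.1.2.1.2 = Gm (dat t q K π e'.1.1) e'.1.1 e'.1.2.1.2 :=
    congrArg (fun x : BV t q K D => x.1.2) hs
  rw [← hl] at h1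
  exact Subtype.ext (Prod.ext hl (h.Base_BV_ext (Gm_injective _ _ h1)))

theorem Par.Base_edge_lev (h : Par t q K) (e : BE t q K π D) :
    (((BG t q K π D).src e).1.1 - ((BG t q K π D).tgt e).1.1).natAbs ≤ 1 := by
  show (e.1.2.1.1 - tlev t q e.1.1 e.1.2.1.1).natAbs ≤ 1
  unfold tlev
  rcases hb : knd t q e.1.1 e.1.2.1.1 with _ | b
  · simp
  · have h1 := h.knd_bs e.2.1 hb
    show (e.1.2.1.1 - bt b).natAbs ≤ 1
    rw [← h1]
    unfold bs bt
    split_ifs <;> omega

omit [Fact q.Prime] in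
theorem Base_isReduced_lw {A B : Type} {f : A → B} (hf : Function.Injective f)
    {ω : List (A × Bool)} (hr : IsReduced ω) : IsReduced (lw f ω) := by
  unfold FreeGroup.IsReduced lw
  rw [List.isChain_map]
  exact hr.imp fun a b hab e => hab (hf e)

theorem Par.toFull_injective (h : Par t q K) : Function.Injective (toFull t q K π D) := by
  intro e e' he
  exact Subtype.ext (Prod.ext (congrArg (fun x => x.1.1) he) (h.Base_BV_ext (Prod.mk.inj he).2))

theorem walk_toFull {x y : BV t q K D} {ω : List (BE t q K π D × Bool)}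
    (hw : (BG t q K π D).Walk x ω y) :
    (fullG (dat t q K π)).Walk x.1.2 (lw (toFull t q K π D) ω) y.1.2 := by
  induction ω generalizing x with
  | nil =>
    obtain rfl := LG.reads_nil_iff.1 hw
    exact LG.Reads.nil _
  | cons a ω ih =>
    obtain ⟨m, ⟨h1, h2⟩, h3⟩ := LG.reads_cons_iff.1 hw
    refine LG.Reads.cons (y := m.1.2) ⟨?_, ?_⟩ (ih h3)
    · rw [Base_hs, ← h1]
    · rw [Base_ht, ← h2]

theorem Par.B_fold (h : Par t q K) : (BG t q K π D).Fold (Blab t q K π D) := by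
  exact ⟨fun e e' hl hs => Base_src_inj (Prod.mk.inj hl).1 hs,
    fun e e' hl hs => h.Base_tgt_inj (Prod.mk.inj hl).1 hs⟩

theorem Par.B_hdeg (h : Par t q K) : (BG t q K π D).HDeg (2 * q) := by
  intro x s hs
  have h1 : s.card ≤ (Finset.univ : Finset (ZMod q × Bool)).card := by
    refine Finset.card_le_card_of_injOn (fun a => (a.1.1.1, a.2)) (fun _ _ => Finset.mem_univ _) ?_
    rintro ⟨e, b⟩ ha ⟨e', b'⟩ ha' hab
    obtain ⟨h1, h2⟩ := Prod.mk.inj hab
    obtain rfl : b = b' := h2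
    have h3 := (hs _ ha).trans (hs _ ha').symm
    cases b
    · exact Prod.ext (h.Base_tgt_inj h1 h3) rfl
    · exact Prod.ext (Base_src_inj h1 h3) rfl
  rw [Finset.card_univ, Fintype.card_prod, ZMod.card, Fintype.card_bool] at h1
  omega

theorem Par.B_lev_lip (h : Par t q K) {x y : BV t q K D} {ω : List (BE t q K π D × Bool)}
    (hw : (BG t q K π D).Walk x ω y) : (x.1.1 - y.1.1).natAbs ≤ ω.length := by
  induction ω generalizing x with
  | nil =>
    obtain rfl := LG.reads_nil_iff.1 hw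
    simp
  | cons a ω ih =>
    obtain ⟨m, ⟨h1, h2⟩, h3⟩ := LG.reads_cons_iff.1 hw
    have h4 := ih h3
    have h5 := h.Base_edge_lev a.1
    have h6 : (x.1.1 - m.1.1).natAbs ≤ 1 := by
      rw [h1, h2]
      obtain ⟨e, _ | _⟩ := a
      · show (((BG t q K π D).tgt e).1.1 - ((BG t q K π D).src e).1.1).natAbs ≤ 1
        simp only at h5
        omega
      · exact h5
    rw [List.length_cons]
    omega

open Classical in
/-- `piece`: `full_piece` gives the top pair `(u, u')`, points of non-deleted levels, so `fd u u' ≤ 2 min (depths)` by the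
shadowing condition; `length ≤ 4 dep u`, and `400 dep u ≤ 400 dep x + length + 400`. -/
theorem Par.B_scale (h : Par t q K)
    (hg : ∀ n, ∀ z ∈ Lvl t q K n \ D n, ∀ ω, (fullG (dat t q K π)).Walk z ω z → IsReduced ω → ω ≠ [] →
        depOf K n ≤ 4 * ω.length)
    (hs : ∀ n, ∀ z ∈ Lvl t q K n \ D n, ∀ P', 200 ≤ P' → 2 * P' < depOf K n →
        ∃ j, P' < j ∧ j ≤ 2 * P' ∧ z j ≠ 0) :
    ∃ sl : (BG t q K π D).Scale (Blab t q K π D), ∀ x, sl.dep x = depOf K x.1.1 := by
  have big : ∀ n, 200 ≤ depOf K n := fun n => Nat.le_add_right _ _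
  have hmem : ∀ x : BV t q K D, x.1.2 ∈ Lvl t q K x.1.1 \ D x.1.1 := fun x =>
    Finset.mem_sdiff.2 x.2
  have hpre : ∀ {x y : BV t q K D} {ω : List (BE t q K π D × Bool)} {p u},
      (BG t q K π D).Walk x ω y → p <+: lw (toFull t q K π D) ω →
      (fullG (dat t q K π)).Walk x.1.2 p u →
      ∃ w : BV t q K D, w.1.2 = u ∧ (x.1.1 - w.1.1).natAbs ≤ ω.length := by
    intro x y ω p u hw hp hu
    obtain ⟨p₀, hp₀, rfl⟩ := List.prefix_map_iff.1 hp
    obtain ⟨r, rfl⟩ := hp₀
    obtain ⟨w, h1, -⟩ := LG.reads_append_iff.1 hw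
    refine ⟨w, (walk_toFull h1).unique hu, (h.B_lev_lip h1).trans ?_⟩
    simp
  refine ⟨⟨fun x => depOf K x.1.1, fun x => big _, fun {x ω y} hw => ?_,
    fun {x ω y x' ω' y'} hw hw' hne hl hr => ?_, fun {x ω} hw hr hne => ?_⟩, fun x => rfl⟩
  · have h1 := h.dep_lip x.1.1 y.1.1
    have h2 := h.B_lev_lip hw
    omega
  · have hl' : lw fullLab (lw (toFull t q K π D) ω) = lw fullLab (lw (toFull t q K π D) ω') := by
      simp only [lw, List.map_map] at hl ⊢
      exact hl
    obtain ⟨p, p', u, u', hp, hp', hu, hu', huu, hlen⟩ := full_piece _ (walk_toFull hw)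
      (walk_toFull hw') (fun e => hne (h.Base_BV_ext e)) hl'
      (Base_isReduced_lw h.toFull_injective hr)
    obtain ⟨w, rfl, hw1⟩ := hpre hw hp hu
    obtain ⟨w', rfl, -⟩ := hpre hw' hp' hu'
    obtain ⟨h1, h2⟩ := fd_spec huu
    have h3 := (mem_Lv.1 w.2.1).2
    have h4 := (mem_Lv.1 w'.2.1).2
    have h5 : fd w.1.2 w'.1.2 ≤ 2 * depOf K w.1.1 := by
      by_contra hlt
      push Not at hlt
      by_cases hc : 2 * depOf K w.1.1 < depOf K w'.1.1
      · obtain ⟨j, j1, j2, j3⟩ := hs _ _ (hmem w') _ (big _) hc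
        exact j3 ((h2 j (by omega)).symm.trans (h3 j j1))
      · exact h1 ((h3 _ (by omega)).trans (h4 _ (by omega)).symm)
    have h6 := h.dep_lip w.1.1 x.1.1
    have h7 := big x.1.1
    have h8 : (lw (toFull t q K π D) ω).length = ω.length := List.length_map _
    omega
  · have h1 := hg _ _ (hmem x) _ (walk_toFull hw) (Base_isReduced_lw h.toFull_injective hr)
      (by simpa [lw] using hne)
    rwa [lw, List.length_map] at h1

end

end Crest.Agent.R129
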