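import Crest.Agent.R129.EG

/-!
# R129 / BaseDef : the base graph package (interface)

Levels are indexed by `n : ℤ`.  Edges are *main* edges (inside a level, expanding, `s` out and `s` in per vertex) or *link*
edges of a block `b : ℤ × Bool` going from level `bs b` to level `bt b`.
-/

set_option autoImplicit false
open FreeGroup

namespace Crest.Agent.R129

/-- distance of a level from the middle. -/
def mlev (n : ℤ) : ℕ := if 0 ≤ n then n.toNat else (-n - 1).toNat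

/-- depth of a level. -/
def depOf (K : ℕ) (n : ℤ) : ℕ := 200 + mlev n / K

/-- source level of a block: `(n, false)` is the diagonal block of level `n`, `(n, true)` joins `n` and `n+1`. -/
def bs (b : ℤ × Bool) : ℤ := if b.2 = true ∧ b.1 < -1 then b.1 + 1 else b.1

/-- target level of a block. -/
def bt (b : ℤ × Bool) : ℤ := if b.2 = true ∧ -1 ≤ b.1 then b.1 + 1 else b.1

open Classical in
structure Base (t q K : ℕ) where
  V : Type
  E : Type
  L : Type
  [finL : Fintype L]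
  Gr : EG V E
  lab : E → L
  fold : Gr.Fold lab
  lev : V → ℤ
  sl : Gr.Scale lab
  dep_eq : ∀ x, sl.dep x = depOf K (lev x)
  hdeg : Gr.HDeg (2 * q)
  cardL : Fintype.card L ≤ q ^ 2
  LL : Finset L
  cardLL : LL.card ≤ 3 * t ^ 9 * q
  X : ℤ → Finset V
  mem_X : ∀ n x, x ∈ X n ↔ lev x = n
  cardX_le : ∀ n, (X n).card ≤ q ^ (depOf K n + 1)
  cardX_ge : ∀ n, q ^ 200 ≤ 2 * (X n).card
  kind : E → Option (ℤ × Bool)
  Em : ℤ → Finset E
  mem_Em : ∀ n e, e ∈ Em n ↔ kind e = none ∧ lev (Gr.src e) = n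
  Eb : ℤ × Bool → Finset E
  mem_Eb : ∀ b e, e ∈ Eb b ↔ kind e = some b
  main_lev : ∀ e, kind e = none → lev (Gr.tgt e) = lev (Gr.src e)
  link_lev : ∀ e b, kind e = some b → lev (Gr.src e) = bs b ∧ lev (Gr.tgt e) = bt b
  link_lab : ∀ e b, kind e = some b → lab e ∈ LL
  s : ℕ
  s_ge : q ≤ s + 3 * t ^ 9 + 1
  s_le : s ≤ q
  main_src : ∀ n x, ((Em n).filter fun e => Gr.src e = x).card ≤ s
  main_tgt : ∀ n x, ((Em n).filter fun e => Gr.tgt e = x).card ≤ s
  link_src : ∀ b x, ((Eb b).filter fun e => Gr.src e = x).card ≤ t ^ 9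
  link_tgt : ∀ b x, ((Eb b).filter fun e => Gr.tgt e = x).card ≤ t ^ 9
  Em_ge : ∀ n, (1 - 1 / (q : ℝ) ^ 3) * s * (X n).card ≤ (Em n).card
  Eb_ge : ∀ b, t ^ 18 * ((X (bs b)).card * (X (bt b)).card) ≤ 9 * t ^ 4 * (Eb b).card ^ 2
  expand : ∀ n (f : V → ℝ),
    1 / 800 * (2 * s) * (∑ x ∈ X n, f x ^ 2 - (∑ x ∈ X n, f x) ^ 2 / (X n).card) -
        1 / (q : ℝ) ^ 3 * (2 * s) * ∑ x ∈ X n, f x ^ 2 ≤
      2 * s * ∑ x ∈ X n, f x ^ 2 - 2 * ∑ e ∈ Em n, f (Gr.src e) * f (Gr.tgt e)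

attribute [instance] Base.finL

end Crest.Agent.R129
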