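import Crest.Agent.R129.Lv
import Crest.Agent.R129.BaseDef

/-!
# R129 / BaseLev : classes, levels and letter families over `ZMod q`
-/

set_option autoImplicit false
open FreeGroup

namespace Crest.Agent.R129

/-- the parameters. -/
structure Par (t q K : ℕ) : Prop where
  prime : q.Prime
  t_ge : 1000 ≤ t
  q_gt : t ^ 12 < q
  q_le : q ≤ 2 * t ^ 12
  K_ge : 400 ≤ K
  K_le : 2 * K ≤ t

/-- size of the class with index `i`. -/
def csz (t i : ℕ) : ℕ := if i = 0 then t ^ 3 else if i = 1 then t ^ 7 else t ^ 11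

/-- first element of a class. -/
def cst (t : ℕ) (σ : Bool) (i : ℕ) : ℕ := 1 + (2 * i + σ.toNat) * t ^ 11

section
variable (t q K : ℕ) [Fact q.Prime]

/-- the class `(σ, i)`, an interval of residues. -/
def cls (σ : Bool) (i : ℕ) : Finset (ZMod q) :=
  Finset.univ.filter fun c => cst t σ i ≤ c.val ∧ c.val < cst t σ i + csz t i

/-- the level `n`. -/
noncomputable def Lvl (n : ℤ) : Finset (ℕ → ZMod q) :=
  Lv (depOf K n) (cls t q (decide (n < 0)) (mlev n % K))

/-- shift by two class slots, corrected to fix `0`. -/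
def rhoUp : Equiv.Perm (ZMod q) :=
  (Equiv.addRight ((2 * t ^ 11 : ℕ) : ZMod q)).trans (Equiv.swap 0 ((2 * t ^ 11 : ℕ) : ZMod q))

/-- shift from class `(true, 0)` to class `(false, 0)`, corrected to fix `0`. -/
def rhoBr : Equiv.Perm (ZMod q) :=
  (Equiv.addRight (-((t ^ 11 : ℕ) : ZMod q))).trans (Equiv.swap 0 (-((t ^ 11 : ℕ) : ZMod q)))

/-- local permutations of the letters that go away from the middle. -/
def locUp : Loc (ZMod q) := fun j ν =>
  if ν (j - 1) ∈ cls t q false (K - 1) then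
    (rhoUp t q).trans (Equiv.swap 0 ((cst t false 0 : ℕ) : ZMod q))
  else if ν (j - 1) ∈ cls t q true (K - 1) then
    (rhoUp t q).trans (Equiv.swap 0 ((cst t true 0 : ℕ) : ZMod q))
  else rhoUp t q

/-- main letters. -/
def mainL : Finset (ZMod q) := Finset.univ.filter fun l => 3 * t ^ 9 < l.val

/-- all the data: diagonal letters (`val ≤ t⁹`), up letters, bridge letters, main letters. -/
def dat (π : ZMod q → Loc (ZMod q)) (l : ZMod q) : Loc (ZMod q) :=
  if l.val ≤ t ^ 9 then fun _ _ => 1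
  else if l.val ≤ 2 * t ^ 9 then locUp t q K
  else if l.val ≤ 3 * t ^ 9 then fun _ _ => rhoBr t q
  else π l

/-- bridge letters are only used at level `-1`. -/
def allowed (l : ZMod q) (n : ℤ) : Prop := l ≠ 0 ∧ (2 * t ^ 9 < l.val → l.val ≤ 3 * t ^ 9 → n = -1)

/-- kind of the edge with letter `l` that starts at level `n`. -/
def knd (l : ZMod q) (n : ℤ) : Option (ℤ × Bool) :=
  if l.val ≤ t ^ 9 then some (n, false)
  else if l.val ≤ 2 * t ^ 9 then some (if 0 ≤ n then n else n - 1, true)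
  else if l.val ≤ 3 * t ^ 9 then some (-1, true)
  else none

/-- target level. -/
def tlev (l : ZMod q) (n : ℤ) : ℤ :=
  match knd t q l n with
  | none => n
  | some b => bt b

variable {t q K}

theorem bl_card {a b : ℕ} (hb : b ≤ q) :
    (Finset.univ.filter fun c : ZMod q => a ≤ c.val ∧ c.val < b).card = b - a := by
  rw [← Nat.card_Ico]
  refine Finset.card_nbij' ZMod.val (fun n => (n : ZMod q)) (fun c hc => ?_) (fun n hn => ?_)
    (fun c _ => ZMod.natCast_zmod_val c) fun n hn => ?_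
  · simpa using hc
  · have h1 := Finset.mem_Ico.1 hn
    simpa [ZMod.val_cast_of_lt (h1.2.trans_le hb)] using h1
  · exact ZMod.val_cast_of_lt ((Finset.mem_Ico.1 hn).2.trans_le hb)

theorem bl_mem {σ : Bool} {i : ℕ} {c : ZMod q} :
    c ∈ cls t q σ i ↔ cst t σ i ≤ c.val ∧ c.val < cst t σ i + csz t i := by
  simp [cls]

omit [Fact q.Prime] in
theorem Par.bl_pow (h : Par t q K) {a b : ℕ} (hab : a ≤ b) : t ^ a ≤ t ^ b :=
  Nat.pow_le_pow_right (by have := h.t_ge; omega) hab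

omit [Fact q.Prime] in
theorem Par.bl_csz (h : Par t q K) (i : ℕ) :
    1 ≤ csz t i ∧ csz t i ≤ t ^ 11 ∧ csz t i ≤ csz t (i + 1) ∧ csz t (i + 1) ≤ t ^ 4 * csz t i := by
  have h1 := h.bl_pow (show 0 ≤ 3 by norm_num)
  have h2 := h.bl_pow (show 3 ≤ 7 by norm_num)
  have h3 := h.bl_pow (show 7 ≤ 11 by norm_num)
  have h4 := h.bl_pow (show 11 ≤ 4 + 11 by norm_num)
  rw [pow_add] at h4
  have h5 : t ^ 4 * t ^ 3 = t ^ 7 := by ring
  have h6 : t ^ 4 * t ^ 7 = t ^ 11 := by ring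
  rw [pow_zero] at h1
  rcases i with _ | _ | i <;> simp [csz] <;> omega

omit [Fact q.Prime] in
theorem Par.bl_le (h : Par t q K) (σ : Bool) {i : ℕ} (hi : i < K) : cst t σ i + csz t i ≤ q := by
  have h1 := (h.bl_csz i).2.1
  have h2 := h.q_gt
  have h3 := h.K_le
  have h4 : σ.toNat ≤ 1 := Bool.toNat_le σ
  have h5 : (2 * i + σ.toNat + 1) * t ^ 11 ≤ t * t ^ 11 := Nat.mul_le_mul_right _ (by omega)
  rw [show t * t ^ 11 = t ^ 12 by ring, add_mul, one_mul] at h5
  unfold cst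
  omega

omit [Fact q.Prime] in
theorem Par.bl_nine (h : Par t q K) : 1 ≤ t ^ 9 ∧ 3 * t ^ 9 + 1 ≤ q := by
  have h1 := h.bl_pow (show 0 ≤ 9 by norm_num)
  have h2 := h.bl_pow (show 10 ≤ 12 by norm_num)
  have h3 : 3 * t ^ 9 ≤ t * t ^ 9 := Nat.mul_le_mul_right _ (by have := h.t_ge; omega)
  rw [show t * t ^ 9 = t ^ 10 by ring] at h3
  rw [pow_zero] at h1
  have h4 := h.q_gt
  omega

theorem bl_rhoUp_zero : rhoUp t q 0 = 0 := by
  simp [rhoUp]

theorem bl_shift {a : ZMod q} {c : ZMod q} (h : c ≠ 0) (h' : c + a ≠ 0) :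
    (Equiv.addRight a).trans (Equiv.swap 0 a) c = c + a := by
  rw [Equiv.trans_apply, Equiv.coe_addRight, Equiv.swap_apply_of_ne_of_ne h' (by simpa using h)]

theorem bl_mlev {n n' : ℤ} (h : mlev n = mlev n') (h' : decide (n < 0) = decide (n' < 0)) :
    n = n' := by
  rw [decide_eq_decide] at h'
  unfold mlev at h
  split_ifs at h <;> omega

theorem Par.card_cls (h : Par t q K) (σ : Bool) {i : ℕ} (hi : i < K) :
    (cls t q σ i).card = csz t i := by
  rw [cls, bl_card (h.bl_le σ hi), Nat.add_sub_cancel_left]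

theorem Par.zero_not_mem_cls (h : Par t q K) (σ : Bool) (i : ℕ) : (0 : ZMod q) ∉ cls t q σ i := by
  have _ := h
  rw [bl_mem, ZMod.val_zero, cst]
  omega

theorem Par.cls_disj (h : Par t q K) {σ σ' : Bool} {i i' : ℕ} {c : ZMod q} (hc : c ∈ cls t q σ i)
    (hc' : c ∈ cls t q σ' i') : σ = σ' ∧ i = i' := by
  have key : ∀ {σ σ' : Bool} {i i' : ℕ}, c ∈ cls t q σ i → c ∈ cls t q σ' i' →
      2 * i + σ.toNat ≤ 2 * i' + σ'.toNat := fun {σ σ' i i'} h1 h2 => by
    have h3 := (bl_mem.1 h1).1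
    have h4 := (bl_mem.1 h2).2
    have h5 := (h.bl_csz i').2.1
    unfold cst at h3 h4
    have h6 : (2 * i + σ.toNat) * t ^ 11 < (2 * i' + σ'.toNat + 1) * t ^ 11 := by
      rw [add_mul _ 1, one_mul]
      omega
    exact Nat.lt_succ_iff.1 (Nat.lt_of_mul_lt_mul_right h6)
  have h1 := key hc hc'
  have h2 := key hc' hc
  cases σ <;> cases σ' <;> simp at h1 h2 ⊢ <;> omega

/-- the levels are disjoint (the depth is the last non-zero position). -/
theorem Par.lvl_disj (h : Par t q K) {n n' : ℤ} {z : ℕ → ZMod q} (hz : z ∈ Lvl t q K n)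
    (hz' : z ∈ Lvl t q K n') : n = n' := by
  obtain ⟨h1, h2⟩ := mem_Lv.1 hz
  obtain ⟨h3, h4⟩ := mem_Lv.1 hz'
  have h5 : depOf K n = depOf K n' := by
    rcases lt_trichotomy (depOf K n) (depOf K n') with h5 | h5 | h5
    · exact absurd (h2 _ h5 ▸ h3) (h.zero_not_mem_cls _ _)
    · exact h5
    · exact absurd (h4 _ h5 ▸ h1) (h.zero_not_mem_cls _ _)
  rw [h5] at h1
  obtain ⟨h6, h7⟩ := h.cls_disj h1 h3
  refine bl_mlev ?_ h6
  rw [← Nat.div_add_mod (mlev n) K, ← Nat.div_add_mod (mlev n') K, h7,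
    Nat.add_left_cancel h5]

theorem Par.card_mainL (h : Par t q K) : (mainL t q).card + 3 * t ^ 9 + 1 = q := by
  have h1 := bl_card (q := q) (a := 3 * t ^ 9 + 1) le_rfl
  have h2 := h.bl_nine.2
  rw [Finset.filter_congr (q := fun l : ZMod q => 3 * t ^ 9 < l.val) fun c _ =>
    ⟨fun h => h.1, fun h => ⟨h, ZMod.val_lt c⟩⟩] at h1
  rw [mainL, h1]
  omega

theorem Par.knd_bs (h : Par t q K) {l : ZMod q} {n : ℤ} (ha : allowed t q l n) {b : ℤ × Bool}
    (hb : knd t q l n = some b) : bs b = n := by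
  have _ := h
  have h1 := ha.2
  unfold knd at hb
  split_ifs at hb <;> obtain rfl := Option.some.inj hb <;> simp only [bs] <;> split_ifs <;>
    simp_all <;> omega

/-- each block has exactly `t⁹` letters. -/
theorem Par.exists_fam (h : Par t q K) (b : ℤ × Bool) :
    ∃ Λ : Finset (ZMod q), Λ.card = t ^ 9 ∧
      ∀ l n, (allowed t q l n ∧ knd t q l n = some b) ↔ (l ∈ Λ ∧ n = bs b) := by
  obtain ⟨h1, h2⟩ := h.bl_nine
  obtain ⟨m, σ⟩ := b
  have h3 : ∀ l : ZMod q, l ≠ 0 ↔ 1 ≤ l.val := fun l => by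
    rw [Nat.one_le_iff_ne_zero, Ne, Ne, ZMod.val_eq_zero]
  cases σ
  · refine ⟨_, (bl_card (a := 1) (b := t ^ 9 + 1) (by omega)).trans (by omega), fun l n => ?_⟩
    simp only [allowed, knd, bs, h3, Finset.mem_filter, Finset.mem_univ, true_and]
    split_ifs <;> simp_all <;> omega
  by_cases hm : m = -1
  · refine ⟨_, (bl_card (a := 2 * t ^ 9 + 1) (b := 3 * t ^ 9 + 1) (by omega)).trans (by omega),
      fun l n => ?_⟩
    simp only [allowed, knd, bs, h3, Finset.mem_filter, Finset.mem_univ, true_and]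
    split_ifs <;> simp_all <;> omega
  · refine ⟨_, (bl_card (a := t ^ 9 + 1) (b := 2 * t ^ 9 + 1) (by omega)).trans (by omega),
      fun l n => ?_⟩
    simp only [allowed, knd, bs, h3, Finset.mem_filter, Finset.mem_univ, true_and]
    split_ifs <;> simp_all <;> omega

theorem Par.bl_up (h : Par t q K) {σ : Bool} {i : ℕ} (hi : i + 1 < K) {c : ZMod q}
    (hc : c ∈ cls t q σ i) : rhoUp t q c ∈ cls t q σ (i + 1) := by
  obtain ⟨h1, h2⟩ := bl_mem.1 hc
  have h3 := h.bl_le σ hi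
  have h4 := (h.bl_csz i).2.2.1
  have h5 : cst t σ (i + 1) = cst t σ i + 2 * t ^ 11 := by
    unfold cst
    ring
  have h6 : (c + ((2 * t ^ 11 : ℕ) : ZMod q)).val = c.val + 2 * t ^ 11 := by
    rw [ZMod.val_add_of_lt, ZMod.val_cast_of_lt] <;> try rw [ZMod.val_cast_of_lt]
    all_goals omega
  have h7 : c + ((2 * t ^ 11 : ℕ) : ZMod q) ∈ cls t q σ (i + 1) := by
    rw [bl_mem, h6]
    omega
  rwa [rhoUp, bl_shift (fun h0 => h.zero_not_mem_cls _ _ (h0 ▸ hc))
    fun h0 => h.zero_not_mem_cls _ _ (h0 ▸ h7)]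

theorem Par.bl_br (h : Par t q K) {c : ZMod q} (hc : c ∈ cls t q true 0) :
    rhoBr t q c ∈ cls t q false 0 := by
  obtain ⟨h1, h2⟩ := bl_mem.1 hc
  have h3 := ZMod.val_lt c
  simp only [cst, Bool.toNat_true, mul_zero, zero_add, one_mul] at h1 h2
  have h6 : (c + -((t ^ 11 : ℕ) : ZMod q)).val = c.val - t ^ 11 := by
    rw [← sub_eq_add_neg, ZMod.val_sub, ZMod.val_cast_of_lt] <;> try rw [ZMod.val_cast_of_lt]
    all_goals omega
  have h7 : c + -((t ^ 11 : ℕ) : ZMod q) ∈ cls t q false 0 := by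
    rw [bl_mem, h6]
    simp only [cst, Bool.toNat_false, mul_zero, zero_add, zero_mul]
    omega
  rwa [rhoBr, bl_shift (fun h0 => h.zero_not_mem_cls _ _ (h0 ▸ hc))
    fun h0 => h.zero_not_mem_cls _ _ (h0 ▸ h7)]

theorem Par.bl_cst (h : Par t q K) (σ : Bool) : ((cst t σ 0 : ℕ) : ZMod q) ∈ cls t q σ 0 := by
  have h1 := h.bl_le σ (i := 0) (by have := h.K_ge; omega)
  have h2 := (h.bl_csz 0).1
  rw [bl_mem, ZMod.val_cast_of_lt] <;> omega

theorem Par.bl_tr (h : Par t q K) {σ : Bool} {a : ℕ} {w : ℕ → ZMod q}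
    (hw : w ∈ Lv (200 + a / K) (cls t q σ (a % K))) :
    Tr (locUp t q K) w ∈ Lv (200 + (a + 1) / K) (cls t q σ ((a + 1) % K)) := by
  obtain ⟨h1, h2⟩ := mem_Lv.1 hw
  have hK := h.K_ge
  have h3 : ∀ j, 0 < j → trunc j w (j - 1) = w (j - 1) := fun j hj => if_pos (by omega)
  have h4 : ∀ j, 200 + a / K < j → (∀ σ', w (j - 1) ∉ cls t q σ' (K - 1)) →
      Tr (locUp t q K) w j = 0 := fun j hj hj' => by
    simp only [Tr, locUp]
    rw [h3 j (Nat.zero_lt_of_lt hj), if_neg (hj' _), if_neg (hj' _), h2 j hj, bl_rhoUp_zero]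
  have h5 := Nat.mod_lt a (show 0 < K by omega)
  have h6 := Nat.div_add_mod a K
  by_cases hi : a % K + 1 < K
  · obtain ⟨h7, h8⟩ := (Nat.div_mod_unique (a := a + 1) (d := a / K) (c := a % K + 1)
      (show 0 < K by omega)).2 ⟨by omega, hi⟩
    rw [h7, h8]
    refine mem_Lv.2 ⟨?_, fun j hj => h4 j hj fun σ' h9 => ?_⟩
    · have h9 := h.bl_up hi h1
      have h10 : ∀ σ', Equiv.swap 0 ((cst t σ' 0 : ℕ) : ZMod q) (rhoUp t q (w (200 + a / K))) =
          rhoUp t q (w (200 + a / K)) := fun σ' => Equiv.swap_apply_of_ne_of_ne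
        (fun h0 => h.zero_not_mem_cls _ _ (h0 ▸ h9))
        fun h0 => absurd (h.cls_disj (h0 ▸ h9) (h.bl_cst σ')).2 (Nat.succ_ne_zero _)
      simp only [Tr, locUp]
      split_ifs
      · rwa [Equiv.trans_apply, h10]
      · rwa [Equiv.trans_apply, h10]
      · exact h9
    · by_cases hj' : j - 1 = 200 + a / K
      · have := (h.cls_disj (hj' ▸ h9) h1).2
        omega
      · exact h.zero_not_mem_cls _ _ (h2 (j - 1) (by omega) ▸ h9)
  · obtain ⟨h7, h8⟩ := (Nat.div_mod_unique (a := a + 1) (d := a / K + 1) (c := 0)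
      (show 0 < K by omega)).2 ⟨by rw [mul_add]; omega, by omega⟩
    rw [h7, h8, ← add_assoc]
    rw [show a % K = K - 1 by omega] at h1
    refine mem_Lv.2 ⟨?_, fun j hj => h4 j (by omega) fun σ' h9 =>
      h.zero_not_mem_cls _ _ (h2 (j - 1) (by omega) ▸ h9)⟩
    simp only [Tr, locUp]
    rw [h3 _ (Nat.add_one_pos _), Nat.add_sub_cancel, h2 _ (Nat.lt_succ_self _)]
    cases σ
    · rw [if_pos h1, Equiv.trans_apply, bl_rhoUp_zero, Equiv.swap_apply_left]
      exact h.bl_cst _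
    · rw [if_neg fun h9 => by simpa using (h.cls_disj h9 h1).1, if_pos h1, Equiv.trans_apply,
        bl_rhoUp_zero, Equiv.swap_apply_left]
      exact h.bl_cst _

/-- the letters map levels to levels.  Up letters: for class index `i < K - 1` the class is shifted at the position
`P` and the tail stays zero; for `i = K - 1` the position `P + 1` receives the first element of the class `(σ, 0)`. -/
theorem Par.maps_to (h : Par t q K) {π : ZMod q → Loc (ZMod q)} (h0 : ∀ l, Fix0 (π l))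
    (hc : ∀ l j ν σ i, i < K → ∀ c ∈ cls t q σ i, π l j ν c ∈ cls t q σ i) {l : ZMod q} {n : ℤ}
    (ha : allowed t q l n) {z : ℕ → ZMod q} (hz : z ∈ Lvl t q K n) :
    Gm (dat t q K π l) l z ∈ Lvl t q K (tlev t q l n) := by
  have hK := h.K_ge
  unfold dat tlev knd
  by_cases h1 : l.val ≤ t ^ 9
  · simp only [h1, if_true, bt, Bool.false_eq_true, false_and, if_false]
    exact Gm_mem_Lv (fun _ _ => rfl) (fun _ c hc => hc) l hz
  by_cases h2 : l.val ≤ 2 * t ^ 9
  · simp only [h1, h2, if_true, if_false]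
    have h3 : mlev (bt (if 0 ≤ n then n else n - 1, true)) = mlev n + 1 := by
      simp only [mlev, bt, true_and]
      split_ifs <;> omega
    have h4 : decide (bt (if 0 ≤ n then n else n - 1, true) < 0) = decide (n < 0) := by
      simp only [decide_eq_decide, bt, true_and]
      split_ifs <;> omega
    rw [Lvl, depOf, h3, h4]
    exact (Sh'_mem_Lv l).2 (h.bl_tr ((Sh_mem_Lv l).2 hz))
  by_cases h3 : l.val ≤ 3 * t ^ 9
  · obtain rfl := ha.2 (by omega) h3
    simp only [h1, h2, h3, if_true, if_false]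
    exact Gm_mem_Lv (P := 200 + 0 / K) (C := cls t q true (0 % K)) (C' := cls t q false (0 % K))
      (fun _ _ => by simp [rhoBr]) (fun _ c hc => by simpa using h.bl_br (by simpa using hc)) l hz
  · simp only [h1, h2, h3, if_false]
    exact Gm_mem_Lv (h0 l) (fun ν => hc l _ ν _ _ (Nat.mod_lt _ (by omega))) l hz

theorem Par.bl_card_lvl (h : Par t q K) (n : ℤ) :
    (Lvl t q K n).card = q ^ (200 + mlev n / K) * csz t (mlev n % K) := by
  rw [Lvl, card_Lv, ZMod.card, h.card_cls _ (Nat.mod_lt _ (by have := h.K_ge; omega)), depOf]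

theorem Par.card_lvl (h : Par t q K) (n : ℤ) :
    q ^ depOf K n ≤ (Lvl t q K n).card ∧ (Lvl t q K n).card ≤ q ^ (depOf K n + 1) := by
  have h1 := h.bl_le false (Nat.mod_lt (mlev n) (show 0 < K by have := h.K_ge; omega))
  rw [h.bl_card_lvl, depOf, pow_succ]
  exact ⟨Nat.le_mul_of_pos_right _ (h.bl_csz _).1, Nat.mul_le_mul_left _ (by omega)⟩

theorem Par.card_lvl_bt (h : Par t q K) (b : ℤ × Bool) :
    (Lvl t q K (bt b)).card ≤ 2 * t ^ 4 * (Lvl t q K (bs b)).card := by
  have hK := h.K_ge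
  have h1 : mlev (bt b) = mlev (bs b) ∨ mlev (bt b) = mlev (bs b) + 1 := by
    obtain ⟨m, σ⟩ := b
    cases σ
    · exact Or.inl (by simp [bt, bs])
    · simp only [mlev, bt, bs, true_and]
      split_ifs <;> omega
  have h2 := h.bl_pow (show 0 ≤ 4 by norm_num)
  rw [pow_zero] at h2
  rw [h.bl_card_lvl, h.bl_card_lvl]
  rcases h1 with h1 | h1 <;> rw [h1]
  · exact Nat.le_mul_of_pos_left _ (by omega)
  generalize mlev (bs b) = a
  have h5 := Nat.mod_lt a (show 0 < K by omega)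
  have h6 := Nat.div_add_mod a K
  by_cases hi : a % K + 1 < K
  · obtain ⟨h7, h8⟩ := (Nat.div_mod_unique (a := a + 1) (d := a / K) (c := a % K + 1)
      (show 0 < K by omega)).2 ⟨by omega, hi⟩
    rw [h7, h8, mul_left_comm, mul_assoc]
    exact Nat.mul_le_mul_left _ ((h.bl_csz _).2.2.2.trans (by omega))
  · obtain ⟨h7, h8⟩ := (Nat.div_mod_unique (a := a + 1) (d := a / K + 1) (c := 0)
      (show 0 < K by omega)).2 ⟨by rw [mul_add]; omega, by omega⟩
    rw [h7, h8, ← add_assoc, pow_succ, mul_left_comm, mul_assoc, csz, csz, if_pos rfl,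
      if_neg (by omega), if_neg (by omega)]
    refine Nat.mul_le_mul_left _ ((Nat.mul_le_mul_right _ h.q_le).trans (le_of_eq ?_))
    ring

theorem Par.dep_lip (h : Par t q K) (n n' : ℤ) :
    400 * depOf K n ≤ 400 * depOf K n' + (n - n').natAbs + 400 := by
  have hK := h.K_ge
  have h1 : mlev n ≤ mlev n' + (n - n').natAbs := by
    unfold mlev
    split_ifs <;> omega
  generalize (n - n').natAbs = d at h1
  have h2 : mlev n / K ≤ mlev n' / K + d / K + 1 :=
    (Nat.div_le_div_right h1).trans (Nat.add_div_le_div_add_div_add_one _ _ _)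
  have h3 : 400 * (d / K) ≤ d := (Nat.mul_le_mul_right _ hK).trans (Nat.mul_div_le d K)
  unfold depOf
  omega

end

end Crest.Agent.R129
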