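import Crest.Agent.R129.Expand2
import Crest.Agent.R129.BaseLev

/-!
# R129 / BaseD : main data and deleted sets
-/

set_option autoImplicit false
open FreeGroup

namespace Crest.Agent.R129

section
variable {t q K : ℕ} [Fact q.Prime]

theorem bd_dat_main (π : ZMod q → Loc (ZMod q)) {l : ZMod q} (hl : l ∈ mainL t q) :
    dat t q K π l = π l := by
  have h : 3 * t ^ 9 < l.val := (Finset.mem_filter.1 hl).2
  rw [dat, if_neg (by omega), if_neg (by omega), if_neg (by omega)]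

omit [Fact q.Prime] in
theorem bd_q_ge (h : Par t q K) : 10000 ≤ q := by
  have h1 : 1000 ^ 12 ≤ t ^ 12 := Nat.pow_le_pow_left h.t_ge 12
  have h2 := h.q_gt
  omega

open Classical in
theorem bd_cycles {F : Type} [Field F] [Fintype F] (hq : 4 ≤ Fintype.card F) (Dt : F → Loc F) {P : ℕ}
    (hP : 16 ≤ P) (X : Finset (ℕ → F)) :
    (X.filter fun z => ∃ ω, (fullG Dt).Walk z ω z ∧ IsReduced ω ∧ ω ≠ [] ∧ 4 * ω.length < P).card *
      Fintype.card F ^ 4 ≤ Fintype.card F ^ P := by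
  have h1 := card_short_cycles Dt (P / 4)
    (X.filter fun z => ∃ ω, (fullG Dt).Walk z ω z ∧ IsReduced ω ∧ ω ≠ [] ∧ 4 * ω.length < P)
    fun z hz => by
      obtain ⟨ω, a1, a2, a3, a4⟩ := (Finset.mem_filter.1 hz).2
      exact ⟨ω, a1, a2, a3, by omega⟩
  have h2 : 2 * Fintype.card F ^ 2 + 1 ≤ Fintype.card F ^ 3 := by
    have a1 : 1 ≤ Fintype.card F ^ 2 := Nat.one_le_pow _ _ (by omega)
    have a2 := Nat.mul_le_mul_right (Fintype.card F ^ 2) hq
    rw [pow_succ' _ 2]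
    omega
  refine (Nat.mul_le_mul_right _ (h1.trans (Nat.pow_le_pow_left h2 _))).trans ?_
  rw [← pow_mul, ← pow_add]
  exact Nat.pow_le_pow_right (by omega) (by omega)

open Classical in
theorem bd_shadow {F : Type} [Field F] [Fintype F] (hq : 4 ≤ Fintype.card F) (P : ℕ) (C : Finset F) :
    ((Lv P C).filter fun z => ∃ P', 200 ≤ P' ∧ 2 * P' < P ∧
      ∀ j, P' < j → j ≤ 2 * P' → z j = 0).card * Fintype.card F ^ 4 ≤ (Lv P C).card := by
  obtain ⟨s, hs⟩ : ∃ s : ℕ → Finset (ℕ → F), ∀ P' z, z ∈ s P' ↔ z ∈ Lv P C ∧ 200 ≤ P' ∧ 2 * P' < P ∧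
      ∀ j, P' < j → j ≤ 2 * P' → z j = 0 :=
    ⟨fun P' => (Lv P C).filter fun z => 200 ≤ P' ∧ 2 * P' < P ∧ ∀ j, P' < j → j ≤ 2 * P' → z j = 0,
      fun P' z => Finset.mem_filter⟩
  have h1 : ((Lv P C).filter fun z => ∃ P', 200 ≤ P' ∧ 2 * P' < P ∧
      ∀ j, P' < j → j ≤ 2 * P' → z j = 0) ⊆ (Finset.range P).biUnion s := by
    intro z hz
    obtain ⟨a1, P', a2⟩ := Finset.mem_filter.1 hz
    exact Finset.mem_biUnion.2 ⟨P', Finset.mem_range.2 (by omega), (hs _ _).2 ⟨a1, a2⟩⟩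
  have h2 : ∀ P' ∈ Finset.range P, (((s P').card * Fintype.card F ^ 4 : ℕ) : ℝ) ≤
      (Lv P C).card / 2 * (1 / 2) ^ P' := by
    intro P' _
    rcases (s P').eq_empty_or_nonempty with e | ⟨z, hz⟩
    · rw [e, Finset.card_empty, zero_mul, Nat.cast_zero]
      positivity
    obtain ⟨-, a1, a2, -⟩ := (hs _ _).1 hz
    have a3 := card_shadow P P' a2 C (s P') fun z hz => ⟨((hs _ _).1 hz).1, ((hs _ _).1 hz).2.2.2⟩
    have a4 : Fintype.card F ^ 4 * (2 * 2 ^ P') ≤ Fintype.card F ^ P' := by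
      obtain ⟨m, rfl⟩ : ∃ m, P' = 4 + m := ⟨P' - 4, by omega⟩
      rw [pow_add (Fintype.card F)]
      refine Nat.mul_le_mul_left _ (le_trans ?_ (Nat.pow_le_pow_left hq m))
      rw [← pow_succ', show 4 = 2 ^ 2 from rfl, ← pow_mul]
      exact Nat.pow_le_pow_right (by norm_num) (by omega)
    have a5 : (s P').card * Fintype.card F ^ 4 * (2 * 2 ^ P') ≤ (Lv P C).card := by
      rw [mul_assoc]
      exact (Nat.mul_le_mul_left _ a4).trans a3
    have a6 : (((s P').card * Fintype.card F ^ 4 : ℕ) : ℝ) * (2 * 2 ^ P') ≤ (Lv P C).card := by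
      exact_mod_cast a5
    rw [one_div, inv_pow, ← div_eq_mul_inv, div_div, le_div_iff₀ (by positivity)]
    exact a6
  have h3 := (Finset.card_le_card h1).trans Finset.card_biUnion_le
  have h4 := Nat.mul_le_mul_right (Fintype.card F ^ 4) h3
  rw [Finset.sum_mul] at h4
  refine h4.trans ?_
  have h5 := Finset.sum_le_sum h2
  rw [← Finset.mul_sum, ← Nat.cast_sum] at h5
  have h6 := mul_le_mul_of_nonneg_left (sum_geometric_two_le P)
    (show (0 : ℝ) ≤ (Lv P C).card / 2 by positivity)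
  have h7 := h5.trans h6
  rw [div_mul_cancel₀ _ two_ne_zero] at h7
  exact_mod_cast h7

open Classical in
/-- **Deleted sets.**  `D n` = points of `Lvl n` on a short cycle (`card_short_cycles` with length `≤ P/4`), shadowing points
(`card_shadow`, sum over `200 ≤ P'`, `2P' < P`), and the set given by `exists_main` (`ι = Bool × Fin K`); transfer `ExpOK`
from `π` to `dat π` (equal on main letters). -/
theorem Par.exists_data (h : Par t q K) :
    ∃ (π : ZMod q → Loc (ZMod q)) (D : ℤ → Finset (ℕ → ZMod q)), (∀ l, Fix0 (π l)) ∧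
      (∀ l j ν σ i, i < K → ∀ c ∈ cls t q σ i, π l j ν c ∈ cls t q σ i) ∧
      (∀ n, (D n).card * q ^ 4 ≤ 3 * (Lvl t q K n).card) ∧
      (∀ n, ∀ z ∈ Lvl t q K n \ D n, ∀ ω, (fullG (dat t q K π)).Walk z ω z → IsReduced ω → ω ≠ [] →
        depOf K n ≤ 4 * ω.length) ∧
      (∀ n, ∀ z ∈ Lvl t q K n \ D n, ∀ P', 200 ≤ P' → 2 * P' < depOf K n →
        ∃ j, P' < j ∧ j ≤ 2 * P' ∧ z j ≠ 0) ∧
      ∀ n, ∀ S ⊆ Lvl t q K n \ D n, 2 * S.card ≤ (Lvl t q K n).card →
        10 * ∑ l ∈ mainL t q, (S.filter fun z => Gm (dat t q K π l) l z ∈ S).card ≤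
          9 * (mainL t q).card * S.card := by
  have hq := bd_q_ge h
  have hcard : Fintype.card (ZMod q) = q := ZMod.card q
  have hK : 0 < K := by have := h.K_ge; omega
  obtain ⟨π, h0, hc, hD⟩ := exists_main (ι := Bool × Fin K) (F := ZMod q) (by rw [hcard]; exact hq)
    (fun i => cls t q i.1 i.2)
    (fun i j c hi hj => Prod.ext (h.cls_disj hi hj).1 (Fin.ext (h.cls_disj hi hj).2))
    (fun i => h.zero_not_mem_cls _ _)
    (fun i => by
      have a0 : 1 ≤ t := by have := h.t_ge; omega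
      have a1 : 1000 ^ 3 ≤ t ^ 3 := Nat.pow_le_pow_left h.t_ge 3
      have a2 : t ^ 3 ≤ t ^ 7 := Nat.pow_le_pow_right a0 (by norm_num)
      have a3 : t ^ 3 ≤ t ^ 11 := Nat.pow_le_pow_right a0 (by norm_num)
      rw [h.card_cls _ i.2.2, csz]
      split_ifs <;> omega)
    (mainL t q) (by
      have a1 := h.card_mainL
      have a2 := h.q_gt
      have a3 : 1000 ^ 3 * t ^ 9 ≤ t ^ 12 := by
        rw [show 12 = 3 + 9 from rfl, pow_add]
        exact Nat.mul_le_mul_right _ (Nat.pow_le_pow_left h.t_ge 3)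
      rw [hcard]
      omega)
  choose D₃ hD₃ hE using hD
  refine ⟨π, fun n => ((Lvl t q K n).filter fun z => ∃ ω, (fullG (dat t q K π)).Walk z ω z ∧
      IsReduced ω ∧ ω ≠ [] ∧ 4 * ω.length < depOf K n) ∪
    ((Lvl t q K n).filter fun z => ∃ P', 200 ≤ P' ∧ 2 * P' < depOf K n ∧
      ∀ j, P' < j → j ≤ 2 * P' → z j = 0) ∪
    D₃ (depOf K n) (decide (n < 0), ⟨mlev n % K, Nat.mod_lt _ hK⟩), h0,
    fun l j ν σ i hi => hc l j ν (σ, ⟨i, hi⟩), fun n => ?_, fun n z hz ω a1 a2 a3 => ?_,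
    fun n z hz P' a1 a2 => ?_, fun n S hS hS2 => ?_⟩
  · have a1 := bd_cycles (F := ZMod q) (by omega) (dat t q K π) (P := depOf K n)
      (le_trans (by norm_num) (Nat.le_add_right 200 _)) (Lvl t q K n)
    have a2 := bd_shadow (F := ZMod q) (by omega) (depOf K n) (cls t q (decide (n < 0)) (mlev n % K))
    have a3 := hD₃ (depOf K n) (decide (n < 0), ⟨mlev n % K, Nat.mod_lt _ hK⟩)
    rw [hcard] at a1 a2 a3
    have a4 := a1.trans (h.card_lvl n).1
    refine (Nat.mul_le_mul_right _ ((Finset.card_union_le _ _).trans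
      (Nat.add_le_add_right (Finset.card_union_le _ _) _))).trans ?_
    rw [add_mul, add_mul]
    exact (Nat.add_le_add (Nat.add_le_add a4 a2) a3).trans (le_of_eq (by rw [Lvl]; ring))
  · obtain ⟨b1, b2⟩ := Finset.mem_sdiff.1 hz
    by_contra b3
    exact b2 (Finset.mem_union_left _ (Finset.mem_union_left _
      (Finset.mem_filter.2 ⟨b1, ω, a1, a2, a3, not_le.1 b3⟩)))
  · obtain ⟨b1, b2⟩ := Finset.mem_sdiff.1 hz
    by_contra b3
    push Not at b3
    exact b2 (Finset.mem_union_left _ (Finset.mem_union_right _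
      (Finset.mem_filter.2 ⟨b1, P', a1, a2, b3⟩)))
  · have a1 := hE (depOf K n) (decide (n < 0), ⟨mlev n % K, Nat.mod_lt _ hK⟩) S (fun z hz => by
      obtain ⟨b1, b2⟩ := Finset.mem_sdiff.1 (hS hz)
      exact Finset.mem_sdiff.2 ⟨b1, fun b3 => b2 (Finset.mem_union_right _ b3)⟩) hS2
    rw [Finset.sum_congr rfl fun l hl => by rw [bd_dat_main π hl]]
    exact a1

end

end Crest.Agent.R129
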