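import Mathlib

/-!
# R129 / Cheeger : Cheeger inequality with killing
-/

set_option autoImplicit false

namespace Crest.Agent.R129

open Classical in
theorem chg_layer {V E : Type} (X : Finset V) (Em : Finset E) (src tgt : E → V) (s : ℕ)
    (hX : ∀ e ∈ Em, src e ∈ X ∧ tgt e ∈ X)
    (hexp : ∀ S ⊆ X, 2 * S.card ≤ X.card →
      10 * (Em.filter fun e => src e ∈ S ∧ tgt e ∈ S).card ≤ 9 * s * S.card) :
    ∀ (n : ℕ) (S : Finset V) (φ : V → ℝ), S.card = n → S ⊆ X → 2 * S.card ≤ X.card →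
      (∀ x ∈ X, 0 ≤ φ x) → (∀ x ∈ X, x ∉ S → φ x = 0) →
      10 * ∑ e ∈ Em, min (φ (src e)) (φ (tgt e)) ≤ 9 * s * ∑ x ∈ X, φ x := by
  intro n
  induction n with
  | zero =>
    intro S φ hS _ _ _ h0
    rw [Finset.card_eq_zero] at hS
    subst hS
    have h1 : ∀ x ∈ X, φ x = 0 := fun x hx => h0 x hx (Finset.notMem_empty x)
    rw [Finset.sum_eq_zero h1, Finset.sum_eq_zero (fun e he => by
      rw [h1 _ (hX e he).1, h1 _ (hX e he).2, min_self])]
    simp
  | succ n ih =>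
    intro S φ hS hSX h2 hnn h0
    have hne : S.Nonempty := Finset.card_pos.1 (by omega)
    obtain ⟨x0, hx0, hmin⟩ := S.exists_min_image φ hne
    set c := φ x0 with hc
    have hc0 : 0 ≤ c := hnn x0 (hSX hx0)
    set ψ : V → ℝ := fun x => φ x - if x ∈ S then c else 0 with hψ
    have hcard : (S.erase x0).card = n := by rw [Finset.card_erase_of_mem hx0]; omega
    have hψ0 : ∀ x ∈ X, 0 ≤ ψ x := by
      intro x hx
      simp only [hψ]
      split_ifs with h
      · linarith [hmin x h]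
      · linarith [hnn x hx]
    have i1 := ih (S.erase x0) ψ hcard ((Finset.erase_subset _ _).trans hSX) (by omega) hψ0 (by
      intro x hx hxS
      simp only [hψ]
      split_ifs with h
      · have : x = x0 := by
          by_contra hne
          exact hxS (Finset.mem_erase.2 ⟨hne, h⟩)
        rw [this, hc, sub_self]
      · rw [h0 x hx h, sub_zero])
    have i2 : ∑ e ∈ Em, min (φ (src e)) (φ (tgt e)) ≤ ∑ e ∈ Em, (min (ψ (src e)) (ψ (tgt e)) +
        if src e ∈ S ∧ tgt e ∈ S then c else 0) := by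
      refine Finset.sum_le_sum (fun e he => ?_)
      obtain ⟨a1, a2⟩ := hX e he
      have p : 0 ≤ min (ψ (src e)) (ψ (tgt e)) := le_min (hψ0 _ a1) (hψ0 _ a2)
      split_ifs with h
      · simp only [hψ, h.1, h.2, if_true]
        rw [min_sub_sub_right]
        linarith
      · rw [add_zero]
        refine le_trans ?_ p
        rcases not_and_or.1 h with h | h
        · exact (min_le_left _ _).trans (h0 _ a1 h).le
        · exact (min_le_right _ _).trans (h0 _ a2 h).le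
    rw [Finset.sum_add_distrib, ← Finset.sum_filter, Finset.sum_const, nsmul_eq_mul] at i2
    have i3 : ∑ x ∈ X, ψ x = ∑ x ∈ X, φ x - S.card * c := by
      simp only [hψ]
      rw [Finset.sum_sub_distrib, ← Finset.sum_filter, Finset.sum_const, nsmul_eq_mul,
        Finset.filter_mem_eq_inter, Finset.inter_eq_right.2 hSX]
    have i4 : (10 : ℝ) * (Em.filter fun e => src e ∈ S ∧ tgt e ∈ S).card ≤ 9 * s * S.card := by
      exact_mod_cast hexp S hSX h2
    have i5 := mul_le_mul_of_nonneg_right i4 hc0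
    rw [i3] at i1
    linarith

open Classical in
theorem chg_fib {V E : Type} (X : Finset V) (Em : Finset E) (p : E → V) (hX : ∀ e ∈ Em, p e ∈ X)
    (F : V → ℝ) :
    ∑ e ∈ Em, F (p e) = ∑ x ∈ X, ((Em.filter fun e => p e = x).card : ℝ) * F x := by
  rw [← Finset.sum_fiberwise_of_maps_to hX]
  refine Finset.sum_congr rfl (fun x _ => ?_)
  rw [Finset.sum_congr rfl (g := fun _ => F x) (fun e he => by rw [(Finset.mem_filter.1 he).2]),
    Finset.sum_const, nsmul_eq_mul]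

theorem chg_pt (a b : ℝ) : 2 * (a * b) ≤ 19 / 20 * (a ^ 2 + b ^ 2) + 21 / 200 * min (a ^ 2) (b ^ 2) := by
  rcases le_total (a ^ 2) (b ^ 2) with h | h
  · rw [min_eq_left h]
    nlinarith [sq_nonneg (19 * b - 20 * a), sq_nonneg a]
  · rw [min_eq_right h]
    nlinarith [sq_nonneg (19 * a - 20 * b), sq_nonneg b]

open Classical in
theorem chg_small {V E : Type} (X : Finset V) (Em : Finset E) (src tgt : E → V) (s : ℕ)
    (hX : ∀ e ∈ Em, src e ∈ X ∧ tgt e ∈ X)
    (h₁ : ∀ x, (Em.filter fun e => src e = x).card ≤ s)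
    (h₂ : ∀ x, (Em.filter fun e => tgt e = x).card ≤ s)
    (hexp : ∀ S ⊆ X, 2 * S.card ≤ X.card →
      10 * (Em.filter fun e => src e ∈ S ∧ tgt e ∈ S).card ≤ 9 * s * S.card)
    (g : V → ℝ) (S : Finset V) (hS : S ⊆ X) (h2 : 2 * S.card ≤ X.card)
    (h0 : ∀ x ∈ X, x ∉ S → g x = 0) :
    2 * ∑ e ∈ Em, g (src e) * g (tgt e) ≤ (1 - 1 / 400) * (2 * s) * ∑ x ∈ X, g x ^ 2 := by
  have i1 := chg_layer X Em src tgt s hX hexp _ S (fun x => g x ^ 2) rfl hS h2
    (fun x _ => sq_nonneg _) (fun x hx hxS => by rw [h0 x hx hxS]; ring)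
  have i2 : ∑ e ∈ Em, g (src e) ^ 2 ≤ s * ∑ x ∈ X, g x ^ 2 := by
    rw [chg_fib X Em src (fun e he => (hX e he).1) (fun x => g x ^ 2), Finset.mul_sum]
    exact Finset.sum_le_sum (fun x _ =>
      mul_le_mul_of_nonneg_right (by exact_mod_cast h₁ x) (sq_nonneg _))
  have i3 : ∑ e ∈ Em, g (tgt e) ^ 2 ≤ s * ∑ x ∈ X, g x ^ 2 := by
    rw [chg_fib X Em tgt (fun e he => (hX e he).2) (fun x => g x ^ 2), Finset.mul_sum]
    exact Finset.sum_le_sum (fun x _ =>
      mul_le_mul_of_nonneg_right (by exact_mod_cast h₂ x) (sq_nonneg _))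
  have i4 := Finset.sum_le_sum (s := Em) (fun e _ => chg_pt (g (src e)) (g (tgt e)))
  rw [Finset.sum_add_distrib, ← Finset.mul_sum, ← Finset.mul_sum, ← Finset.mul_sum,
    Finset.sum_add_distrib] at i4
  have i5 : 0 ≤ (s : ℝ) * ∑ x ∈ X, g x ^ 2 :=
    mul_nonneg (Nat.cast_nonneg _) (Finset.sum_nonneg fun x _ => sq_nonneg _)
  nlinarith

open Classical in
theorem chg_median {V : Type} (X : Finset V) (f : V → ℝ) :
    ∃ m : ℝ, 2 * (X.filter fun x => m < f x).card ≤ X.card ∧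
      2 * (X.filter fun x => f x < m).card ≤ X.card := by
  rcases X.eq_empty_or_nonempty with rfl | hne
  · exact ⟨0, by simp, by simp⟩
  set T := X.filter (fun x => 2 * (X.filter fun y => f x < f y).card ≤ X.card) with hT
  have hTne : T.Nonempty := by
    obtain ⟨x, hx, hmax⟩ := X.exists_max_image f hne
    refine ⟨x, Finset.mem_filter.2 ⟨hx, ?_⟩⟩
    rw [Finset.filter_eq_empty_iff.2 (fun y hy => not_lt.2 (hmax y hy))]
    simp
  obtain ⟨x0, hx0, hmin⟩ := T.exists_min_image f hTne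
  refine ⟨f x0, (Finset.mem_filter.1 hx0).2, ?_⟩
  rcases (X.filter fun x => f x < f x0).eq_empty_or_nonempty with h | h
  · rw [h]; simp
  obtain ⟨x1, hx1, hmax⟩ := Finset.exists_max_image _ f h
  obtain ⟨a1, a2⟩ := Finset.mem_filter.1 hx1
  have hx1T : x1 ∉ T := fun h' => absurd (hmin x1 h') (not_le.2 a2)
  have h3 : X.card < 2 * (X.filter fun y => f x1 < f y).card := by
    by_contra h'
    exact hx1T (Finset.mem_filter.2 ⟨a1, not_lt.1 h'⟩)
  have h4 : (X.filter fun y => f x1 < f y) ⊆ X.filter fun y => ¬ f y < f x0 := by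
    intro y hy
    obtain ⟨b1, b2⟩ := Finset.mem_filter.1 hy
    exact Finset.mem_filter.2 ⟨b1, fun h' =>
      absurd (hmax y (Finset.mem_filter.2 ⟨b1, h'⟩)) (not_le.2 b2)⟩
  have h5 := Finset.card_le_card h4
  have h6 := Finset.card_filter_add_card_filter_not (s := X) (fun y => f y < f x0)
  omega

open Classical in
theorem chg_msq {V : Type} (X : Finset V) (f : V → ℝ) {m : ℝ} (hm : 0 ≤ m)
    (h : 2 * (X.filter fun x => f x < m).card ≤ X.card) :
    m ^ 2 * X.card ≤ 2 * ∑ x ∈ X, f x ^ 2 := by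
  have h6 := Finset.card_filter_add_card_filter_not (s := X) (fun y => f y < m)
  have h1 : (X.card : ℝ) ≤ 2 * (X.filter fun y => ¬ f y < m).card := by
    exact_mod_cast (by omega : X.card ≤ 2 * (X.filter fun y => ¬ f y < m).card)
  have h2 : ∑ _x ∈ X.filter (fun y => ¬ f y < m), m ^ 2 ≤
      ∑ x ∈ X.filter (fun y => ¬ f y < m), f x ^ 2 :=
    Finset.sum_le_sum (fun x hx => pow_le_pow_left₀ hm (not_lt.1 (Finset.mem_filter.1 hx).2) 2)
  have h3 : ∑ x ∈ X.filter (fun y => ¬ f y < m), f x ^ 2 ≤ ∑ x ∈ X, f x ^ 2 :=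
    Finset.sum_le_sum_of_subset_of_nonneg (Finset.filter_subset _ _) (fun x _ _ => sq_nonneg _)
  rw [Finset.sum_const, nsmul_eq_mul] at h2
  nlinarith [sq_nonneg m]

open Classical in
/-- **Cheeger.**  (1) layer cake: for `φ ≥ 0` supported on at most half of `X`, `10 ∑_e min (φ src) (φ tgt) ≤ 9 s ∑ φ`
(induction on the support, subtract the minimal positive value).  (2) `2ab ≤ (19/20)(a²+b²) + (21/200) min(a²,b²)` gives
`2 ∑_e g src g tgt ≤ (1 - 1/400) 2s ‖g‖²` for such `g ≥ 0`.  (3) median `m`, `g = f - m = g₊ - g₋`, `𝓔(g) ≥ 𝓔(g₊) + 𝓔(g₋)`,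
where `𝓔(f) = 2s‖f‖² - 2∑_e f f = ∑_e (f src - f tgt)² + ∑_x def(x) f(x)²`; `𝓔(g) ≤ 2 𝓔(f) + 2 m² ∑ def`,
`∑ def ≤ 2 ε s |X|`, `m² |X| ≤ 2 ‖f‖²`, `‖g‖² ≥ ‖f‖² - (∑ f)²/|X|`. -/
theorem cheeger {V E : Type} (X : Finset V) (Em : Finset E) (src tgt : E → V) (s : ℕ) (ε : ℝ)
    (hε : 0 ≤ ε) (hX : ∀ e ∈ Em, src e ∈ X ∧ tgt e ∈ X)
    (h₁ : ∀ x, (Em.filter fun e => src e = x).card ≤ s)
    (h₂ : ∀ x, (Em.filter fun e => tgt e = x).card ≤ s)
    (hdef : (1 - ε) * s * X.card ≤ Em.card)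
    (hexp : ∀ S ⊆ X, 2 * S.card ≤ X.card →
      10 * (Em.filter fun e => src e ∈ S ∧ tgt e ∈ S).card ≤ 9 * s * S.card) (f : V → ℝ) :
    1 / 800 * (2 * s) * (∑ x ∈ X, f x ^ 2 - (∑ x ∈ X, f x) ^ 2 / X.card) -
        4 * ε * (2 * s) * ∑ x ∈ X, f x ^ 2 ≤
      2 * s * ∑ x ∈ X, f x ^ 2 - 2 * ∑ e ∈ Em, f (src e) * f (tgt e) := by
  obtain ⟨m, m1, m2⟩ := chg_median X f
  have hm : m ^ 2 * X.card ≤ 2 * ∑ x ∈ X, f x ^ 2 := by
    rcases le_total 0 m with h | h
    · exact chg_msq X f h m2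
    · have := chg_msq X (fun x => -f x) (m := -m) (by linarith) (by simpa using m1)
      simpa using this
  set gp : V → ℝ := fun x => max (f x - m) 0 with hgp
  set gm : V → ℝ := fun x => max (m - f x) 0 with hgm
  have a1 := chg_small X Em src tgt s hX h₁ h₂ hexp gp _ (Finset.filter_subset _ _) m1 (by
    intro x hx hxS
    have : ¬ m < f x := fun h => hxS (Finset.mem_filter.2 ⟨hx, h⟩)
    exact max_eq_right (by linarith [not_lt.1 this]))
  have a2 := chg_small X Em src tgt s hX h₁ h₂ hexp gm _ (Finset.filter_subset _ _) m2 (by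
    intro x hx hxS
    have : ¬ f x < m := fun h => hxS (Finset.mem_filter.2 ⟨hx, h⟩)
    exact max_eq_right (by linarith [not_lt.1 this]))
  have b0 : ∀ x, f x - m = gp x - gm x := by
    intro x
    simp only [hgp, hgm]
    rcases le_total (f x) m with h | h
    · rw [max_eq_right (by linarith), max_eq_left (by linarith)]; ring
    · rw [max_eq_left (by linarith), max_eq_right (by linarith)]; ring
  have b1 : ∀ x, (f x - m) ^ 2 = gp x ^ 2 + gm x ^ 2 := by
    intro x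
    simp only [hgp, hgm]
    rcases le_total (f x) m with h | h
    · rw [max_eq_right (by linarith), max_eq_left (by linarith)]; ring
    · rw [max_eq_left (by linarith), max_eq_right (by linarith)]; ring
  have b2 : ∑ x ∈ X, (f x - m) ^ 2 = ∑ x ∈ X, gp x ^ 2 + ∑ x ∈ X, gm x ^ 2 := by
    rw [← Finset.sum_add_distrib]
    exact Finset.sum_congr rfl (fun x _ => b1 x)
  have b3 : ∑ e ∈ Em, (f (src e) - m) * (f (tgt e) - m) ≤
      ∑ e ∈ Em, gp (src e) * gp (tgt e) + ∑ e ∈ Em, gm (src e) * gm (tgt e) := by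
    rw [← Finset.sum_add_distrib]
    refine Finset.sum_le_sum (fun e _ => ?_)
    rw [b0, b0]
    have p1 : 0 ≤ gp (src e) * gm (tgt e) := mul_nonneg (le_max_right _ _) (le_max_right _ _)
    have p2 : 0 ≤ gm (src e) * gp (tgt e) := mul_nonneg (le_max_right _ _) (le_max_right _ _)
    nlinarith
  set d : V → ℝ := fun x => 2 * s - ((Em.filter fun e => src e = x).card +
    (Em.filter fun e => tgt e = x).card) with hd
  have d0 : ∀ x, 0 ≤ d x := by
    intro x
    have q1 : ((Em.filter fun e => src e = x).card : ℝ) ≤ s := by exact_mod_cast h₁ x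
    have q2 : ((Em.filter fun e => tgt e = x).card : ℝ) ≤ s := by exact_mod_cast h₂ x
    simp only [hd]
    linarith
  have hE : ∀ F : V → ℝ, 2 * s * ∑ x ∈ X, F x ^ 2 - 2 * ∑ e ∈ Em, F (src e) * F (tgt e) =
      ∑ e ∈ Em, (F (src e) - F (tgt e)) ^ 2 + ∑ x ∈ X, d x * F x ^ 2 := by
    intro F
    have q1 := chg_fib X Em src (fun e he => (hX e he).1) (fun x => F x ^ 2)
    have q2 := chg_fib X Em tgt (fun e he => (hX e he).2) (fun x => F x ^ 2)
    have q3 : ∑ x ∈ X, d x * F x ^ 2 = 2 * s * ∑ x ∈ X, F x ^ 2 -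
        (∑ e ∈ Em, F (src e) ^ 2 + ∑ e ∈ Em, F (tgt e) ^ 2) := by
      rw [q1, q2, Finset.mul_sum, ← Finset.sum_add_distrib, ← Finset.sum_sub_distrib]
      refine Finset.sum_congr rfl (fun x _ => ?_)
      simp only [hd]
      ring
    have q4 : ∑ e ∈ Em, (F (src e) - F (tgt e)) ^ 2 = ∑ e ∈ Em, F (src e) ^ 2 +
        ∑ e ∈ Em, F (tgt e) ^ 2 - 2 * ∑ e ∈ Em, F (src e) * F (tgt e) := by
      rw [Finset.mul_sum, ← Finset.sum_add_distrib, ← Finset.sum_sub_distrib]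
      exact Finset.sum_congr rfl (fun e _ => by ring)
    rw [q3, q4]
    ring
  have c1 := hE f
  have c2 := hE (fun x => f x - m)
  have c0 := hE (fun _ => 1)
  simp only [one_pow, mul_one, Finset.sum_const, nsmul_eq_mul, sub_self, ne_eq, OfNat.ofNat_ne_zero,
    not_false_eq_true, zero_pow, mul_zero, zero_add] at c0
  simp only [sub_sub_sub_cancel_right] at c2
  have c3 : ∑ x ∈ X, d x * (f x - m) ^ 2 ≤
      2 * ∑ x ∈ X, d x * f x ^ 2 + 2 * m ^ 2 * ∑ x ∈ X, d x := by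
    rw [Finset.mul_sum, Finset.mul_sum, ← Finset.sum_add_distrib]
    refine Finset.sum_le_sum (fun x _ => ?_)
    have := mul_nonneg (d0 x) (sq_nonneg (f x + m))
    nlinarith
  have c4 : ∑ x ∈ X, d x ≤ 2 * ε * s * X.card := by linarith
  have hs : (0 : ℝ) ≤ s := Nat.cast_nonneg _
  have c5 : m ^ 2 * ∑ x ∈ X, d x ≤ 4 * ε * s * ∑ x ∈ X, f x ^ 2 := by
    calc m ^ 2 * ∑ x ∈ X, d x ≤ m ^ 2 * (2 * ε * s * X.card) :=
          mul_le_mul_of_nonneg_left c4 (sq_nonneg _)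
      _ = 2 * ε * s * (m ^ 2 * X.card) := by ring
      _ ≤ 2 * ε * s * (2 * ∑ x ∈ X, f x ^ 2) := mul_le_mul_of_nonneg_left hm (by positivity)
      _ = _ := by ring
  have c6 : ∑ x ∈ X, f x ^ 2 - (∑ x ∈ X, f x) ^ 2 / X.card ≤ ∑ x ∈ X, (f x - m) ^ 2 := by
    have q1 : ∑ x ∈ X, (f x - m) ^ 2 =
        ∑ x ∈ X, f x ^ 2 - 2 * m * ∑ x ∈ X, f x + m ^ 2 * X.card := by
      rw [Finset.mul_sum, ← Finset.sum_sub_distrib, mul_comm (m ^ 2), ← nsmul_eq_mul,
        ← Finset.sum_const, ← Finset.sum_add_distrib]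
      exact Finset.sum_congr rfl (fun x _ => by ring)
    rcases X.eq_empty_or_nonempty with rfl | hne
    · simp
    have hn : (0 : ℝ) < X.card := by exact_mod_cast hne.card_pos
    have q2 : 2 * m * ∑ x ∈ X, f x - m ^ 2 * X.card ≤ (∑ x ∈ X, f x) ^ 2 / X.card := by
      rw [le_div_iff₀ hn]
      nlinarith [sq_nonneg (∑ x ∈ X, f x - m * X.card)]
    linarith
  have c7 := mul_le_mul_of_nonneg_left c6 hs
  have c8 : 0 ≤ ∑ e ∈ Em, (f (src e) - f (tgt e)) ^ 2 := Finset.sum_nonneg fun e _ => sq_nonneg _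
  have c9 : 0 ≤ ε * s * ∑ x ∈ X, f x ^ 2 :=
    mul_nonneg (by positivity) (Finset.sum_nonneg fun x _ => sq_nonneg _)
  rw [b2] at c2 c7
  linarith

end Crest.Agent.R129
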