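import Crest.Agent.R129.Base
import Crest.Agent.R129.BaseD
import Crest.Agent.R129.Cheeger

/-!
# R129 / Base2 : existence of the base graph package
-/

set_option autoImplicit false
open FreeGroup

namespace Crest.Agent.R129

section aux
variable (t q K : ℕ) [Fact q.Prime] (π : ZMod q → Loc (ZMod q)) (D : ℤ → Finset (ℕ → ZMod q))

open Classical in
/-- the vertices of level `n`. -/
noncomputable def b2X (n : ℤ) : Finset (BV t q K D) :=
  (({n} : Finset ℤ) ×ˢ (Lvl t q K n \ D n)).subtype _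

open Classical in
/-- the edges with letter in `Λ` and source level `n`. -/
noncomputable def b2E (Λ : Finset (ZMod q)) (n : ℤ) : Finset (BE t q K π D) :=
  (Λ ×ˢ b2X t q K D n).subtype _

variable {t q K π D}

theorem b2_ext {x y : BV t q K D} (h1 : x.1.1 = y.1.1) (h2 : x.1.2 = y.1.2) : x = y :=
  Subtype.ext (Prod.ext h1 h2)

theorem b2_memX {n : ℤ} {x : BV t q K D} : x ∈ b2X t q K D n ↔ x.1.1 = n := by
  classical
  obtain ⟨⟨m, z⟩, h1, h2⟩ := x
  refine Finset.mem_subtype.trans ?_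
  simp only [Finset.mem_product, Finset.mem_singleton, Finset.mem_sdiff]
  exact ⟨fun h => h.1, fun h => ⟨h, h ▸ h1, h ▸ h2⟩⟩

theorem b2_memE {Λ : Finset (ZMod q)} {n : ℤ} {e : BE t q K π D} :
    e ∈ b2E t q K π D Λ n ↔ e.1.1 ∈ Λ ∧ e.1.2.1.1 = n := by
  classical
  refine Finset.mem_subtype.trans ?_
  rw [Finset.mem_product, b2_memX]

open Classical in
theorem b2_cardX (n : ℤ) : (b2X t q K D n).card = (Lvl t q K n \ D n).card := by
  refine (Finset.card_subtype _ _).trans ?_
  rw [Finset.filter_true_of_mem, Finset.card_product, Finset.card_singleton, one_mul]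
  rintro ⟨m, z⟩ h
  simp only [Finset.mem_product, Finset.mem_singleton, Finset.mem_sdiff] at h
  exact h.1 ▸ h.2

theorem b2_cardX_le (n : ℤ) : (b2X t q K D n).card ≤ (Lvl t q K n).card := by
  classical
  rw [b2_cardX]
  exact Finset.card_le_card Finset.sdiff_subset

theorem b2_cardX_ge (n : ℤ) : (Lvl t q K n).card ≤ (b2X t q K D n).card + (D n).card := by
  classical
  rw [b2_cardX]
  exact Finset.card_le_card_sdiff_add_card

open Classical in
theorem b2_src (Λ : Finset (ZMod q)) (n : ℤ) (x : BV t q K D) :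
    ((b2E t q K π D Λ n).filter fun e => (BG t q K π D).src e = x).card ≤ Λ.card := by
  refine Finset.card_le_card_of_injOn (fun e => e.1.1) (fun e he => ?_) fun e he e' he' h => ?_
  · exact (b2_memE.1 (Finset.mem_filter.1 he).1).1
  · exact Subtype.ext (Prod.ext h
      ((Finset.mem_filter.1 he).2.trans (Finset.mem_filter.1 he').2.symm))

open Classical in
theorem b2_tgt (Λ : Finset (ZMod q)) (n : ℤ) (x : BV t q K D) :
    ((b2E t q K π D Λ n).filter fun e => (BG t q K π D).tgt e = x).card ≤ Λ.card := by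
  refine Finset.card_le_card_of_injOn (fun e => e.1.1) (fun e he => ?_) fun e he e' he' h => ?_
  · exact (b2_memE.1 (Finset.mem_filter.1 he).1).1
  · obtain ⟨h1, h2⟩ := Finset.mem_filter.1 he
    obtain ⟨h3, h4⟩ := Finset.mem_filter.1 he'
    have h5 : Gm (dat t q K π e.1.1) e.1.1 e.1.2.1.2 = Gm (dat t q K π e'.1.1) e'.1.1 e'.1.2.1.2 :=
      congrArg (fun x : BV t q K D => x.1.2) (h2.trans h4.symm)
    have h6 : e.1.1 = e'.1.1 := h
    rw [← h6] at h5
    exact Subtype.ext (Prod.ext h6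
      (b2_ext ((b2_memE.1 h1).2.trans (b2_memE.1 h3).2.symm) (Gm_injective _ _ h5)))

theorem b2_cardE (h : Par t q K) (h0 : ∀ l, Fix0 (π l))
    (hc : ∀ l j ν σ i, i < K → ∀ c ∈ cls t q σ i, π l j ν c ∈ cls t q σ i)
    {Λ : Finset (ZMod q)} {n m : ℤ} (hΛ : ∀ l ∈ Λ, allowed t q l n ∧ tlev t q l n = m) :
    Λ.card * (b2X t q K D n).card ≤ (b2E t q K π D Λ n).card + Λ.card * (D m).card := by
  classical
  have h1 : (b2E t q K π D Λ n).card = ∑ l ∈ Λ, ((b2X t q K D n).filter fun x =>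
      allowed t q l x.1.1 ∧ Gm (dat t q K π l) l x.1.2 ∈ Lvl t q K (tlev t q l x.1.1) ∧
        Gm (dat t q K π l) l x.1.2 ∉ D (tlev t q l x.1.1)).card := by
    refine (Finset.card_subtype _ _).trans ?_
    rw [Finset.card_filter, Finset.sum_product]
    refine Finset.sum_congr rfl fun l _ => ?_
    rw [Finset.card_filter]
  rw [h1, ← smul_eq_mul, ← smul_eq_mul, ← Finset.sum_const, ← Finset.sum_const,
    ← Finset.sum_add_distrib]
  refine Finset.sum_le_sum fun l hl => ?_
  rw [← Finset.card_filter_add_card_filter_not (s := b2X t q K D n) (fun x =>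
      allowed t q l x.1.1 ∧ Gm (dat t q K π l) l x.1.2 ∈ Lvl t q K (tlev t q l x.1.1) ∧
        Gm (dat t q K π l) l x.1.2 ∉ D (tlev t q l x.1.1))]
  refine Nat.add_le_add_left (Finset.card_le_card_of_injOn
    (fun x => Gm (dat t q K π l) l x.1.2) (fun x hx => ?_) fun x hx y hy e => ?_) _
  · obtain ⟨h2, h3⟩ := Finset.mem_filter.1 hx
    have h4 := b2_memX.1 h2
    have h5 : allowed t q l x.1.1 := h4 ▸ (hΛ l hl).1
    by_contra h6
    refine h3 ⟨h5, h.maps_to h0 hc h5 x.2.1, ?_⟩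
    rw [h4, (hΛ l hl).2]
    exact h6
  · exact b2_ext ((b2_memX.1 (Finset.mem_filter.1 hx).1).trans
      (b2_memX.1 (Finset.mem_filter.1 hy).1).symm) (Gm_injective _ _ e)

omit [Fact q.Prime] in
theorem b2_knd {l : ZMod q} {n : ℤ} : knd t q l n = none ↔ 3 * t ^ 9 < l.val := by
  unfold knd
  split_ifs <;> simp <;> omega

theorem b2_main {l : ZMod q} {n : ℤ} : l ∈ mainL t q ↔ knd t q l n = none := by
  rw [b2_knd, mainL, Finset.mem_filter]
  simp

omit [Fact q.Prime] in
theorem b2_tlev_none {l : ZMod q} {n : ℤ} (h : knd t q l n = none) : tlev t q l n = n := by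
  rw [tlev, h]

omit [Fact q.Prime] in
theorem b2_tlev_some {l : ZMod q} {n : ℤ} {b : ℤ × Bool} (h : knd t q l n = some b) :
    tlev t q l n = bt b := by
  rw [tlev, h]

theorem b2_allowed {l : ZMod q} (hl : l ∈ mainL t q) (n : ℤ) : allowed t q l n := by
  have h : 3 * t ^ 9 < l.val := b2_knd.1 (b2_main.1 hl : knd t q l n = none)
  refine ⟨?_, fun _ _ => by omega⟩
  rintro rfl
  simp at h

open Classical in
theorem b2_exp {n : ℤ} (hexp : ∀ S ⊆ Lvl t q K n \ D n, 2 * S.card ≤ (Lvl t q K n).card →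
      10 * ∑ l ∈ mainL t q, (S.filter fun z => Gm (dat t q K π l) l z ∈ S).card ≤
        9 * (mainL t q).card * S.card) (S : Finset (BV t q K D)) (hS : S ⊆ b2X t q K D n)
    (h2 : 2 * S.card ≤ (b2X t q K D n).card) :
    10 * ((b2E t q K π D (mainL t q) n).filter fun e =>
      (BG t q K π D).src e ∈ S ∧ (BG t q K π D).tgt e ∈ S).card ≤ 9 * (mainL t q).card * S.card := by
  have h1 : (S.image fun x => x.1.2).card = S.card :=
    Finset.card_image_of_injOn fun x hx y hy e =>
      b2_ext ((b2_memX.1 (hS hx)).trans (b2_memX.1 (hS hy)).symm) e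
  have h3 := hexp (S.image fun x => x.1.2) (fun z hz => by
    obtain ⟨x, hx, rfl⟩ := Finset.mem_image.1 hz
    have := b2_memX.1 (hS hx)
    exact Finset.mem_sdiff.2 (this ▸ x.2)) (by
      rw [h1]
      exact h2.trans (b2_cardX_le n))
  rw [h1] at h3
  refine le_trans (Nat.mul_le_mul_left _ ?_) h3
  rw [← Finset.card_sigma]
  refine Finset.card_le_card_of_injOn (fun e => ⟨e.1.1, e.1.2.1.2⟩) (fun e he => ?_)
    fun e he e' he' h => ?_
  · obtain ⟨h4, h5, h6⟩ := Finset.mem_filter.1 he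
    refine Finset.mem_coe.2 (Finset.mem_sigma.2 ⟨(b2_memE.1 h4).1, Finset.mem_filter.2 ⟨?_, ?_⟩⟩)
    · exact Finset.mem_image_of_mem _ h5
    · exact Finset.mem_image.2 ⟨_, h6, rfl⟩
  · have h4 : e.1.1 = e'.1.1 := congrArg Sigma.fst h
    have h5 : e.1.2.1.2 = e'.1.2.1.2 :=
      congrArg (fun p : (_ : ZMod q) × (ℕ → ZMod q) => p.2) h
    exact Subtype.ext (Prod.ext h4 (b2_ext ((b2_memE.1 (Finset.mem_filter.1 he).1).2.trans
      (b2_memE.1 (Finset.mem_filter.1 he').1).2.symm) h5))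

end aux

/-- `Par.exists_data`; `X n` = vertices of level `n`, `kind e = knd l n`, `LL` = labels with `1 ≤ val ≤ 3t⁹`,
`s = |mainL|`.  Counting: for a letter `l` allowed at level `n`, the sources `z ∈ Lvl n \ D n` with
`Gm l z ∉ D` number at least `|Lvl n| - |D n| - |D (tlev)|` (`Gm_injective`, `maps_to`).  `expand`: `cheeger` with
`ε = 12/q⁴`. -/
theorem exists_base {t q K : ℕ} (h : Par t q K) : Nonempty (Base t q K) := by
  classical
  haveI : Fact q.Prime := ⟨h.prime⟩
  obtain ⟨π, D, h0, hc, hD, hg, hs, hexp⟩ := h.exists_data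
  obtain ⟨sl, hsl⟩ := h.B_scale (π := π) (D := D) hg hs
  choose Λ hΛ1 hΛ2 using h.exists_fam
  have ht := h.t_ge
  have hq3 : 3 * t ≤ q := by
    have h1 : t ^ 2 ≤ t ^ 12 := Nat.pow_le_pow_right (by omega) (by norm_num)
    have h2 := h.q_gt
    nlinarith
  have hq4 : 81 * t ^ 4 ≤ q ^ 4 := by
    calc 81 * t ^ 4 = (3 * t) ^ 4 := by ring
      _ ≤ _ := Nat.pow_le_pow_left hq3 4
  have ht4 : 1 ≤ t ^ 4 := Nat.one_le_pow _ _ (by omega)
  have hL : ∀ n, (Lvl t q K n).card ≤ 2 * (b2X t q K D n).card := fun n => by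
    have h1 := b2_cardX_ge (t := t) (K := K) (D := D) n
    have h2 : (D n).card * 6 ≤ (D n).card * q ^ 4 := Nat.mul_le_mul_left _ (by omega)
    have h3 := hD n
    omega
  have hq0 : (0 : ℝ) < q := by
    have : 0 < q := by omega
    exact_mod_cast this
  have hq24 : (24 : ℝ) ≤ q := by
    have : 24 ≤ q := by omega
    exact_mod_cast this
  have hε : 4 * (6 / (q : ℝ) ^ 4) ≤ 1 / (q : ℝ) ^ 3 := by
    rw [← mul_div_assoc, div_le_div_iff₀ (by positivity) (by positivity)]
    nlinarith [pow_pos hq0 3]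
  have hε0 : 0 ≤ 6 / (q : ℝ) ^ 4 := by positivity
  have hEm : ∀ n, (1 - 6 / (q : ℝ) ^ 4) * (mainL t q).card * (b2X t q K D n).card ≤
      (b2E t q K π D (mainL t q) n).card := fun n => by
    have h1 : ((mainL t q).card : ℝ) * (b2X t q K D n).card ≤
        (b2E t q K π D (mainL t q) n).card + (mainL t q).card * (D n).card := by
      exact_mod_cast b2_cardE h h0 hc fun l hl => ⟨b2_allowed hl n, b2_tlev_none (b2_main.1 hl)⟩
    have h2 : ((D n).card : ℝ) ≤ 6 / (q : ℝ) ^ 4 * (b2X t q K D n).card := by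
      rw [div_mul_eq_mul_div, le_div_iff₀ (by positivity)]
      have : (D n).card * q ^ 4 ≤ 6 * (b2X t q K D n).card := by
        have := hD n
        have := hL n
        omega
      exact_mod_cast this
    have h3 := mul_le_mul_of_nonneg_left h2 (Nat.cast_nonneg (mainL t q).card)
    linarith
  refine ⟨{
    V := BV t q K D
    E := BE t q K π D
    L := ZMod q × ZMod q
    Gr := BG t q K π D
    lab := Blab t q K π D
    fold := h.B_fold
    lev := fun x => x.1.1
    sl := sl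
    dep_eq := hsl
    hdeg := h.B_hdeg
    cardL := ?_
    LL := (Finset.univ.filter fun l : ZMod q => 1 ≤ l.val ∧ l.val ≤ 3 * t ^ 9) ×ˢ Finset.univ
    cardLL := ?_
    X := b2X t q K D
    mem_X := fun n x => b2_memX
    cardX_le := fun n => (b2_cardX_le n).trans (h.card_lvl n).2
    cardX_ge := fun n => ?_
    kind := fun e => knd t q e.1.1 e.1.2.1.1
    Em := b2E t q K π D (mainL t q)
    mem_Em := fun n e => b2_memE.trans (and_congr_left' b2_main)
    Eb := fun b => b2E t q K π D (Λ b) (bs b)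
    mem_Eb := fun b e => b2_memE.trans ((hΛ2 b _ _).symm.trans (and_iff_right e.2.1))
    main_lev := fun e he => b2_tlev_none he
    link_lev := fun e b he => ⟨h.knd_bs e.2.1 he |>.symm, b2_tlev_some he⟩
    link_lab := fun e b he => ?_
    s := (mainL t q).card
    s_ge := h.card_mainL.ge
    s_le := by have := h.card_mainL; omega
    main_src := fun n x => b2_src _ _ _
    main_tgt := fun n x => b2_tgt _ _ _
    link_src := fun b x => hΛ1 b ▸ b2_src _ _ _
    link_tgt := fun b x => hΛ1 b ▸ b2_tgt _ _ _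
    Em_ge := fun n => le_trans ?_ (hEm n)
    Eb_ge := fun b => ?_
    expand := fun n f => le_trans ?_ (cheeger (b2X t q K D n) (b2E t q K π D (mainL t q) n)
      (BG t q K π D).src (BG t q K π D).tgt (mainL t q).card _ hε0 (fun e he => ?_)
      (b2_src _ _) (b2_tgt _ _) (hEm n) (b2_exp (hexp n)) f) }⟩
  · rw [Fintype.card_prod, ZMod.card, sq]
  · rw [Finset.card_product, Finset.card_univ, ZMod.card]
    refine Nat.mul_le_mul_right _ ?_
    refine (Finset.card_le_card_of_injOn (t := Finset.Icc 1 (3 * t ^ 9)) ZMod.val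
      (fun l hl => ?_) (ZMod.val_injective q).injOn).trans (by simp)
    exact Finset.mem_coe.2 (Finset.mem_Icc.2 (Finset.mem_filter.1 hl).2)
  · refine le_trans (Nat.pow_le_pow_right (by omega) ?_) ((h.card_lvl n).1.trans (hL n))
    exact Nat.le_add_right _ _
  · refine Finset.mem_product.2 ⟨Finset.mem_filter.2 ⟨Finset.mem_univ _, ?_, ?_⟩, Finset.mem_univ _⟩
    · exact Nat.one_le_iff_ne_zero.2 fun h1 => e.2.1.1 ((ZMod.val_eq_zero _).1 h1)
    · by_contra h1
      have h2 : knd t q e.1.1 e.1.2.1.1 = none := b2_knd.2 (not_le.1 h1)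
      simp [h2] at he
  · have : 1 - 1 / (q : ℝ) ^ 3 ≤ 1 - 6 / (q : ℝ) ^ 4 := by linarith
    exact mul_le_mul_of_nonneg_right (mul_le_mul_of_nonneg_right this (Nat.cast_nonneg _))
      (Nat.cast_nonneg _)
  · have h1 : t ^ 9 * (b2X t q K D (bs b)).card ≤
        (b2E t q K π D (Λ b) (bs b)).card + t ^ 9 * (D (bt b)).card := by
      rw [← hΛ1 b]
      exact b2_cardE h h0 hc fun l hl =>
        ⟨((hΛ2 b l _).2 ⟨hl, rfl⟩).1, b2_tlev_some ((hΛ2 b l _).2 ⟨hl, rfl⟩).2⟩
    have h2 : (Lvl t q K (bt b)).card ≤ 4 * (t ^ 4 * (b2X t q K D (bs b)).card) := by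
      calc _ ≤ _ := h.card_lvl_bt b
        _ ≤ 2 * t ^ 4 * (2 * (b2X t q K D (bs b)).card) := Nat.mul_le_mul_left _ (hL _)
        _ = _ := by ring
    have h3 : 3 * (D (bt b)).card ≤ (b2X t q K D (bs b)).card := by
      refine Nat.le_of_mul_le_mul_left (c := t ^ 4) ?_ ht4
      have h4 := hD (bt b)
      have h5 : (D (bt b)).card * (81 * t ^ 4) ≤ (D (bt b)).card * q ^ 4 :=
        Nat.mul_le_mul_left _ hq4
      nlinarith
    have h4 := (b2_cardX_le (D := D) (bt b)).trans h2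
    generalize (b2X t q K D (bs b)).card = a at h1 h3 h4 ⊢
    generalize (b2X t q K D (bt b)).card = c at h4 ⊢
    generalize (b2E t q K π D (Λ b) (bs b)).card = e at h1 ⊢
    have h5 : 2 * (t ^ 9 * a) ≤ 3 * e := by
      have := Nat.mul_le_mul_left (t ^ 9) h3
      nlinarith
    calc t ^ 18 * (a * c) ≤ t ^ 18 * (a * (4 * (t ^ 4 * a))) := by gcongr
      _ = t ^ 4 * (2 * (t ^ 9 * a)) ^ 2 := by ring
      _ ≤ t ^ 4 * (3 * e) ^ 2 := by gcongr
      _ = _ := by ring
  · have : 0 ≤ ∑ x ∈ b2X t q K D n, f x ^ 2 := Finset.sum_nonneg fun _ _ => sq_nonneg _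
    gcongr
  · obtain ⟨h1, h2⟩ := b2_memE.1 he
    exact ⟨b2_memX.2 h2, b2_memX.2 ((b2_tlev_none (b2_main.1 h1)).trans h2)⟩

end Crest.Agent.R129
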