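import Crest.Agent.R129.SC

/-!
# R129 / Copy : copies of components of `Γ` in the Cayley graph as classes of germs
-/

set_option autoImplicit false
open FreeGroup

namespace Crest.Agent.R129
namespace Str
variable {S Y : Type} {Γ : LG S Y} {sc : SC Γ} {y₀ : Y} {G : Type} [Group G] (st : Str Γ sc y₀ G)

/-- two germs of the Cayley graph define the same copy. -/
def SameC (γ γ' : G × Y) : Prop :=
  ∃ w x, Γ.Reads γ.2 w x ∧ sc.eqv x γ'.2 ∧ γ'.1 = (wv st.π w)⁻¹ * γ.1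

theorem sameC_equivalence : Equivalence st.SameC := by
  refine ⟨fun γ => ⟨[], γ.2, LG.Reads.nil _, sc.eqv.refl _, by simp⟩, ?_, ?_⟩
  · rintro γ γ' ⟨w, x, h₁, h₂, h₃⟩
    obtain ⟨z, hz, hz'⟩ := sc.lift_reads h₂ h₁.invRev
    exact ⟨invRev w, z, hz, sc.eqv.symm hz', by rw [h₃, wv_invRev]; group⟩
  · rintro γ γ' γ'' ⟨w, x, h₁, h₂, h₃⟩ ⟨w', x', h₁', h₂', h₃'⟩
    obtain ⟨z, hz, hz'⟩ := sc.lift_reads (sc.eqv.symm h₂) h₁'
    exact ⟨w ++ w', z, h₁.append hz, sc.eqv.trans (sc.eqv.symm hz') h₂',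
      by rw [h₃', h₃, wv_append]; group⟩

def copySetoid : Setoid (G × Y) := ⟨st.SameC, st.sameC_equivalence⟩

/-- the set of copies. -/
def Copy : Type := Quotient st.copySetoid

/-- the copy through a germ. -/
def cp (v : G) (y : Y) : st.Copy := Quotient.mk st.copySetoid (v, y)

theorem cp_eq_iff {v v' : G} {y y' : Y} : st.cp v y = st.cp v' y' ↔ st.SameC (v, y) (v', y') :=
  Quotient.eq (r := st.copySetoid)

theorem cp_surj (Z : st.Copy) : ∃ v y, Z = st.cp v y := by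
  obtain ⟨⟨v, y⟩, rfl⟩ := Quotient.exists_rep Z
  exact ⟨v, y, rfl⟩

theorem cp_reads {v : G} {y x : Y} {w : List (S × Bool)} (h : Γ.Reads y w x) :
    st.cp ((wv st.π w)⁻¹ * v) x = st.cp v y := by
  exact (st.cp_eq_iff.2 ⟨w, x, h, sc.eqv.refl _, rfl⟩).symm

theorem cp_eqv {v : G} {y y' : Y} (h : sc.eqv y y') : st.cp v y = st.cp v y' := by
  exact st.cp_eq_iff.2 ⟨[], y, LG.Reads.nil _, h, by simp⟩

/-- a copy passes through a vertex only once (`inj`, `sc.lift_reads`). -/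
theorem eqv_of_cp_eq {v : G} {y y' : Y} (h : st.cp v y = st.cp v y') : sc.eqv y y' := by
  obtain ⟨w, x, h₁, h₂, h₃⟩ := st.cp_eq_iff.1 h
  have h₄ : wv st.π w = 1 := by simpa using h₃
  obtain rfl : x = y := st.inj h₁ h₄
  exact h₂

theorem rk_eq_of_cp_eq {v v' : G} {y y' : Y} (h : st.cp v y = st.cp v' y') :
    st.rk v y = st.rk v' y' := by
  obtain ⟨w, x, h₁, h₂, h₃⟩ := st.cp_eq_iff.1 h
  obtain rfl : v' = (wv st.π w)⁻¹ * v := h₃
  exact (st.rk_reads h₁).symm.trans (st.rk_eqv h₂)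

/-- right translation of copies. -/
def act (g : G) (Z : st.Copy) : st.Copy :=
  Quotient.map' (s₁ := st.copySetoid) (s₂ := st.copySetoid) (fun γ => (γ.1 * g, γ.2))
    (by
      rintro γ γ' ⟨w, x, h₁, h₂, h₃⟩
      exact ⟨w, x, h₁, h₂, by simp only [h₃, mul_assoc]⟩) Z

theorem act_cp (g v : G) (y : Y) : st.act g (st.cp v y) = st.cp (v * g) y := rfl

theorem act_one (Z : st.Copy) : st.act 1 Z = Z := by
  obtain ⟨v, y, rfl⟩ := st.cp_surj Z
  rw [act_cp, mul_one]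

theorem act_mul (g h : G) (Z : st.Copy) : st.act (g * h) Z = st.act h (st.act g Z) := by
  obtain ⟨v, y, rfl⟩ := st.cp_surj Z
  rw [act_cp, act_cp, act_cp, mul_assoc]

/-- `Old` only depends on the vertex and the point. -/
theorem old_iff {v : G} {y x : Y} {w : List (S × Bool)} (h : Γ.Reads y w x) :
    Old Γ sc.eqv st.π st.home v y x ↔ ¬ sc.eqv x (st.home ((wv st.π w)⁻¹ * v)) := by
  refine ⟨?_, fun h' => ⟨w, h, h'⟩⟩
  rintro ⟨w', h₁, h₂⟩
  rwa [st.wv_eq h h₁]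

end Str
end Crest.Agent.R129
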