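import Crest.Agent.R129.Abs

/-!
# R129 / Forest : the factorisation `c - T = (1 - μ S*)(ζ - J)(1 - μ S) + small`
-/

set_option autoImplicit false
open scoped InnerProductSpace ComplexConjugate
open ContinuousLinearMap

namespace Crest.Agent.R129

variable {H : Type} [NormedAddCommGroup H] [InnerProductSpace ℂ H] [CompleteSpace H]

/-- `T` is a rooted forest (`S + S*`) plus an operator `J` on the roots plus a small error. -/
structure Forest (T : H →L[ℂ] H) (κ dt : ℝ) where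
  S : H →L[ℂ] H
  J : H →L[ℂ] H
  E : H →L[ℂ] H
  dec : T = S + adjoint S + J + E + adjoint E
  J_sa : IsSelfAdjoint J
  JS : J * S = 0
  S_le : ∀ f, ‖S f‖ ^ 2 ≤ κ * ‖f‖ ^ 2
  S_ge : ∀ f, (κ - dt - 1) * ‖f‖ ^ 2 ≤ ‖S f‖ ^ 2
  E_le : ‖E‖ ≤ √dt

namespace Forest
variable {T : H →L[ℂ] H} {κ dt : ℝ} (F : Forest T κ dt)

/-- `X = 1 - S/ζ`. -/
noncomputable def X (ζ : ℝ) : H →L[ℂ] H := 1 - ((ζ⁻¹ : ℝ) : ℂ) • F.S

/-- the error bound. -/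
noncomputable def err (dt ζ : ℝ) : ℝ := (dt + 1) / ζ + 2 * √dt

variable {ζ : ℝ}

include F in
theorem T_sa : IsSelfAdjoint T := by
  have h := F.J_sa.star_eq
  rw [F.dec, IsSelfAdjoint]
  simp only [← star_eq_adjoint, star_add, star_star, h]
  abel

private theorem norm_muS (hζ : 0 < ζ) (hκ : κ ≤ 9 / 16 * ζ ^ 2) :
    ‖((ζ⁻¹ : ℝ) : ℂ) • F.S‖ ≤ 3 / 4 := by
  have h : ‖F.S‖ ≤ 3 / 4 * ζ := by
    refine F.S.opNorm_le_bound (by positivity) fun f => ?_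
    refine (pow_le_pow_iff_left₀ (norm_nonneg _) (by positivity) two_ne_zero).1
      ((F.S_le f).trans ?_)
    have := mul_le_mul_of_nonneg_right hκ (sq_nonneg ‖f‖)
    linarith
  rw [norm_smul, Complex.norm_real, Real.norm_eq_abs, abs_of_pos (inv_pos.2 hζ),
    inv_mul_le_iff₀ hζ]
  linarith

omit [CompleteSpace H] in
private theorem lower_of_norm {A : H →L[ℂ] H} (hA : ‖A‖ ≤ 3 / 4) (f : H) :
    ‖f‖ ≤ 4 * ‖(1 - A) f‖ := by
  have h1 : ‖A f‖ ≤ 3 / 4 * ‖f‖ :=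
    (A.le_opNorm f).trans (mul_le_mul_of_nonneg_right hA (norm_nonneg _))
  have h2 : ‖f‖ - ‖A f‖ ≤ ‖f - A f‖ := norm_sub_norm_le _ _
  have h3 : (1 - A) f = f - A f := rfl
  rw [h3]
  linarith

private theorem norm_le_of_fm {A : H →L[ℂ] H} (hA : IsSelfAdjoint A) {c : ℝ} (hc : 0 ≤ c)
    (h : ∀ f, |fm A f| ≤ c * ‖f‖ ^ 2) : ‖A‖ ≤ c := by
  rw [A.norm_eq_iSup_rayleighQuotient hA.isSymmetric]
  refine ciSup_le fun x => ?_
  rw [rayleighQuotient, abs_div, abs_sq]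
  refine div_le_of_le_mul₀ (sq_nonneg _) hc ?_
  have h1 : A.reApplyInnerSelf x = fm A x := by
    rw [reApplyInnerSelf_apply, Abs_sa hA]
    rfl
  rw [h1]
  exact h x

omit [CompleteSpace H] in
private theorem abs_fm_le (A : H →L[ℂ] H) (f : H) : |fm A f| ≤ ‖A‖ * ‖f‖ ^ 2 := by
  refine (Complex.abs_re_le_norm _).trans ((norm_inner_le_norm _ _).trans ?_)
  have := mul_le_mul_of_nonneg_left (A.le_opNorm f) (norm_nonneg f)
  linarith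

theorem X_lower (hζ : 0 < ζ) (hκ : κ ≤ 9 / 16 * ζ ^ 2) (f : H) : ‖f‖ ≤ 4 * ‖F.X ζ f‖ := by
  exact lower_of_norm (F.norm_muS hζ hκ) f

theorem X_adj_lower (hζ : 0 < ζ) (hκ : κ ≤ 9 / 16 * ζ ^ 2) (f : H) :
    ‖f‖ ≤ 4 * ‖adjoint (F.X ζ) f‖ := by
  rw [X, ← star_eq_adjoint, star_sub, star_one]
  exact lower_of_norm (by rw [norm_star]; exact F.norm_muS hζ hκ) f

theorem X_isUnit (hζ : 0 < ζ) (hκ : κ ≤ 9 / 16 * ζ ^ 2) : IsUnit (F.X ζ) := by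
  exact isUnit_one_sub_of_norm_lt_one ((F.norm_muS hζ hκ).trans_lt (by norm_num))

/-- `X* (ζ - J) X = ζ + S*S/ζ - S - S* - J` because `J S = 0 = S* J`; the difference is
`(κ - S*S)/ζ - E - E*`, and `0 ≤ κ - S*S ≤ dt + 1` (e.g. `CStarAlgebra.norm_le_iff_le_algebraMap`, or
the polarisation bound for self-adjoint operators). -/
theorem factor (hζ : 0 < ζ) (hdt : 0 ≤ dt) :
    ‖(((ζ + κ / ζ : ℝ) : ℂ) • (1 : H →L[ℂ] H) - T) -
      adjoint (F.X ζ) * ((ζ : ℂ) • (1 : H →L[ℂ] H) - F.J) * F.X ζ‖ ≤ err dt ζ := by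
  have hJ := F.J_sa.star_eq
  have hSJ : star F.S * F.J = 0 := by
    have := congrArg star F.JS
    rwa [star_mul, hJ, star_zero] at this
  have hζ' : (ζ : ℂ) ≠ 0 := by exact_mod_cast hζ.ne'
  have e : (((ζ + κ / ζ : ℝ) : ℂ) • (1 : H →L[ℂ] H) - T) -
      adjoint (F.X ζ) * ((ζ : ℂ) • (1 : H →L[ℂ] H) - F.J) * F.X ζ =
      ((ζ⁻¹ : ℝ) : ℂ) • ((κ : ℂ) • (1 : H →L[ℂ] H) - star F.S * F.S) - F.E - star F.E := by
    rw [congrArg (fun Y => ((ζ + κ / ζ : ℝ) : ℂ) • (1 : H →L[ℂ] H) - Y) F.dec]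
    simp only [X, ← star_eq_adjoint, star_sub, star_one, star_smul, Complex.star_def,
      Complex.conj_ofReal, mul_sub, sub_mul, one_mul, mul_one, smul_mul_assoc, mul_smul_comm,
      F.JS, hSJ, smul_zero, sub_zero, smul_smul, smul_sub]
    push_cast
    rw [add_smul]
    match_scalars <;> field_simp <;> ring
  have h1 : ‖(κ : ℂ) • (1 : H →L[ℂ] H) - star F.S * F.S‖ ≤ dt + 1 := by
    refine norm_le_of_fm ((IsSelfAdjoint.smul (Complex.conj_ofReal κ) (IsSelfAdjoint.one _)).sub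
      (IsSelfAdjoint.star_mul_self _)) (by positivity) fun f => ?_
    have h2 : fm ((κ : ℂ) • (1 : H →L[ℂ] H) - star F.S * F.S) f = κ * ‖f‖ ^ 2 - ‖F.S f‖ ^ 2 := by
      simp only [fm, sub_apply, smul_apply, one_apply_eq_self, inner_sub_right, inner_smul_right,
        Complex.sub_re, Complex.re_ofReal_mul, Abs_re_self, mul_apply_eq_comp, star_eq_adjoint,
        adjoint_inner_right]
    rw [h2, abs_of_nonneg (sub_nonneg.2 (F.S_le f))]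
    linarith [F.S_ge f]
  have h3 : ‖((ζ⁻¹ : ℝ) : ℂ) • ((κ : ℂ) • (1 : H →L[ℂ] H) - star F.S * F.S)‖ ≤ (dt + 1) / ζ := by
    rw [norm_smul, Complex.norm_real, Real.norm_eq_abs, abs_of_pos (inv_pos.2 hζ),
      div_eq_inv_mul]
    exact mul_le_mul_of_nonneg_left h1 (inv_pos.2 hζ).le
  rw [e, err]
  refine (norm_sub_le _ _).trans ((add_le_add_left (norm_sub_le _ _) _).trans ?_)
  rw [norm_star]
  linarith [F.E_le]

theorem fm_factor (hζ : 0 < ζ) (hdt : 0 ≤ dt) (f : H) :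
    |fm (((ζ + κ / ζ : ℝ) : ℂ) • (1 : H →L[ℂ] H) - T) f -
      fm ((ζ : ℂ) • (1 : H →L[ℂ] H) - F.J) (F.X ζ f)| ≤ err dt ζ * ‖f‖ ^ 2 := by
  have h1 : fm ((ζ : ℂ) • (1 : H →L[ℂ] H) - F.J) (F.X ζ f) =
      fm (adjoint (F.X ζ) * ((ζ : ℂ) • (1 : H →L[ℂ] H) - F.J) * F.X ζ) f := by
    simp only [fm, mul_apply_eq_comp, adjoint_inner_right]
  have h2 : ∀ A B : H →L[ℂ] H, fm A f - fm B f = fm (A - B) f := fun A B => by
    simp only [fm, sub_apply, inner_sub_right, Complex.sub_re]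
  rw [h1, h2]
  exact (abs_fm_le _ f).trans (mul_le_mul_of_nonneg_right (F.factor hζ hdt) (sq_nonneg _))

theorem isUnit_of_gap (hζ : 0 < ζ) (hdt : 0 ≤ dt) (hκ : κ ≤ 9 / 16 * ζ ^ 2) {γ : ℝ}
    (herr : 16 * err dt ζ < γ) (hJ : ∀ f, γ * ‖f‖ ≤ ‖(ζ : ℂ) • f - F.J f‖) :
    IsUnit (((ζ + κ / ζ : ℝ) : ℂ) • (1 : H →L[ℂ] H) - T) := by
  have herr0 : 0 ≤ err dt ζ := by unfold err; positivity
  refine isUnit_of_bddBelow ((IsSelfAdjoint.smul (Complex.conj_ofReal _)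
    (IsSelfAdjoint.one _)).sub F.T_sa) (γ := γ / 16 - err dt ζ) (by linarith) fun f => ?_
  set A := ((ζ + κ / ζ : ℝ) : ℂ) • (1 : H →L[ℂ] H) - T
  set B := adjoint (F.X ζ) * ((ζ : ℂ) • (1 : H →L[ℂ] H) - F.J) * F.X ζ with hB
  have h1 : ‖(A - B) f‖ ≤ err dt ζ * ‖f‖ :=
    ((A - B).le_opNorm f).trans (mul_le_mul_of_nonneg_right (F.factor hζ hdt) (norm_nonneg _))
  have h2 : ‖B f‖ - ‖A f‖ ≤ ‖(A - B) f‖ := by
    exact (norm_sub_norm_le (B f) (A f)).trans_eq (norm_sub_rev (B f) (A f))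
  have h3 : ‖(ζ : ℂ) • F.X ζ f - F.J (F.X ζ f)‖ ≤ 4 * ‖B f‖ := F.X_adj_lower hζ hκ _
  have h4 := hJ (F.X ζ f)
  have h5 := mul_le_mul_of_nonneg_left (F.X_lower hζ hκ f) (show 0 ≤ γ by linarith)
  linarith

theorem exists_neg (hζ : 0 < ζ) (hdt : 0 ≤ dt) (hκ : κ ≤ 9 / 16 * ζ ^ 2) {γ : ℝ}
    (herr : 16 * err dt ζ < γ) {w : H} (hw : w ≠ 0)
    (h : fm ((ζ : ℂ) • (1 : H →L[ℂ] H) - F.J) w ≤ -γ * ‖w‖ ^ 2) :
    ∃ x, fm (((ζ + κ / ζ : ℝ) : ℂ) • (1 : H →L[ℂ] H) - T) x < 0 := by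
  obtain ⟨x, rfl⟩ := (ContinuousLinearMap.isUnit_iff_bijective.1 (F.X_isUnit hζ hκ)).2 w
  refine ⟨x, ?_⟩
  have herr0 : 0 ≤ err dt ζ := by unfold err; positivity
  have h1 := (abs_le.1 (F.fm_factor hζ hdt x)).2
  have h2 : ‖x‖ ^ 2 ≤ (4 * ‖F.X ζ x‖) ^ 2 :=
    pow_le_pow_left₀ (norm_nonneg x) (F.X_lower hζ hκ x) 2
  have h3 := mul_le_mul_of_nonneg_left h2 herr0
  have h4 := mul_lt_mul_of_pos_right herr (pow_pos (show 0 < ‖F.X ζ x‖ from norm_pos_iff.2 hw) 2)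
  linarith

end Forest

end Crest.Agent.R129
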