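import Crest.Agent.R129.Op
import Crest.Agent.R129.Forest
import Crest.Agent.R129.Copy

/-!
# R129 / Classify : child / parent / block edges of the Cayley graph; the forest structure of `T`
-/

set_option autoImplicit false
open scoped InnerProductSpace ComplexConjugate
open FreeGroup

namespace Crest.Agent.R129
namespace Str
variable {S Y : Type} {Γ : LG S Y} {sc : SC Γ} {y₀ : Y} {G : Type} [Group G] (st : Str Γ sc y₀ G)

/-- the edge `(v, a)` goes from an old point of the home copy of its end point. -/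
def Child (v : G) (a : S × Bool) : Prop :=
  ∃ x, Γ.E x a (st.home ((lv st.π a)⁻¹ * v)) ∧ ¬ sc.eqv x (st.home v)

/-- the edge `(v, a)` joins two home points of the same copy. -/
def Block (v : G) (a : S × Bool) : Prop :=
  ∃ x, Γ.E (st.home v) a x ∧ sc.eqv x (st.home ((lv st.π a)⁻¹ * v))

/-- `v` has a parent. -/
def Near (v : G) : Prop := ∃ a, st.Child ((lv st.π a)⁻¹ * v) (linv a)

def Far (v : G) (a : S × Bool) : Prop :=
  st.Block v a ∧ ¬ st.Near v ∧ ¬ st.Near ((lv st.π a)⁻¹ * v)

def NearOut (v : G) (a : S × Bool) : Prop := st.Block v a ∧ st.Near v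

theorem Classify_back (v : G) (a : S × Bool) :
    (lv st.π (linv a))⁻¹ * ((lv st.π a)⁻¹ * v) = v := by
  rw [lv_linv, inv_inv, mul_inv_cancel_left]

theorem Classify_E_linv {x y : Y} {a : S × Bool} : Γ.E x (linv a) y ↔ Γ.E y a x :=
  ⟨fun h => by simpa using Γ.symm h, fun h => Γ.symm h⟩

theorem Classify_red2 {a b : S × Bool} (h : b ≠ linv a) : IsReduced [a, b] := by
  rw [isReduced_cons_cons]
  refine ⟨fun e => ?_, IsReduced.singleton⟩
  by_contra e'
  refine h (Prod.ext e.symm ?_)
  revert e'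
  simp only [linv]
  cases a.2 <;> cases b.2 <;> simp

theorem Classify_wv1 (a : S × Bool) : wv st.π [a] = lv st.π a := by
  rw [wv_cons, wv_nil, mul_one]

theorem Classify_home_not_old (v : G) :
    ¬ Old Γ sc.eqv st.π st.home v (st.home v) (st.home v) := by
  rw [st.old_iff (LG.Reads.nil _), wv_nil, inv_one, one_mul]
  exact fun h => h (sc.eqv.refl _)

theorem child_rev_iff (v : G) (a : S × Bool) : st.Child ((lv st.π a)⁻¹ * v) (linv a) ↔
    ∃ x, Γ.E (st.home v) a x ∧ ¬ sc.eqv x (st.home ((lv st.π a)⁻¹ * v)) := by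
  unfold Child
  rw [st.Classify_back]
  exact exists_congr fun x => and_congr_left' Classify_E_linv

theorem block_rev_iff (v : G) (a : S × Bool) :
    st.Block ((lv st.π a)⁻¹ * v) (linv a) ↔ st.Block v a := by
  unfold Block
  rw [st.Classify_back]
  constructor
  · rintro ⟨x, h1, h2⟩
    obtain ⟨z, h3, h4⟩ := sc.lift h2 (Classify_E_linv.1 h1)
    exact ⟨z, h3, sc.eqv.symm h4⟩
  · rintro ⟨x, h1, h2⟩
    obtain ⟨z, h3, h4⟩ := sc.lift h2 (Γ.symm h1)
    exact ⟨z, h3, sc.eqv.symm h4⟩

theorem trichotomy (v : G) (a : S × Bool) :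
    st.Child v a ∨ st.Child ((lv st.π a)⁻¹ * v) (linv a) ∨ st.Block v a := by
  rcases st.cover v a with ⟨x, h⟩ | ⟨x, h⟩
  · by_cases e : sc.eqv x (st.home ((lv st.π a)⁻¹ * v))
    · exact Or.inr (Or.inr ⟨x, h, e⟩)
    · exact Or.inr (Or.inl ((st.child_rev_iff v a).2 ⟨x, h, e⟩))
  · by_cases e : sc.eqv x (st.home v)
    · obtain ⟨z, h3, h4⟩ := sc.lift e h
      exact Or.inr (Or.inr ⟨z, h3, sc.eqv.symm h4⟩)
    · exact Or.inl ⟨x, h, e⟩

theorem Child.not_edge {v : G} {a : S × Bool} (h : st.Child v a) : ¬ ∃ x, Γ.E (st.home v) a x := by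
  rintro ⟨x', h'⟩
  obtain ⟨x, h1, h2⟩ := h
  obtain ⟨z, h3, h4⟩ := sc.lift (st.excl h' h1) (Γ.symm h')
  obtain rfl := Γ.func h3 (Γ.symm h1)
  exact h2 (sc.eqv.symm h4)

/-- an entering walk into the old part of the germ `(v, home v)`. -/
def Classify_Enter (v : G) (w : List (S × Bool)) : Prop :=
  IsReduced w ∧ w.length ≤ 2 ∧
    (∃ z, Γ.Reads (st.home v) w z ∧ Old Γ sc.eqv st.π st.home v (st.home v) z) ∧
    ∀ p y, p <+: w → p ≠ w → Γ.Reads (st.home v) p y →
      ¬ Old Γ sc.eqv st.π st.home v (st.home v) y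

theorem Classify_enter_unique {v : G} {w w' : List (S × Bool)} (h : st.Classify_Enter v w)
    (h' : st.Classify_Enter v w') : w = w' := by
  obtain ⟨o, ho⟩ := st.old_conn v (st.home v)
  obtain ⟨r₁, l₁, ⟨z₁, h₁, hz₁⟩, p₁⟩ := h
  obtain ⟨r₂, l₂, ⟨z₂, h₂, hz₂⟩, p₂⟩ := h'
  exact sc.enter_unique (O := {x | Old Γ sc.eqv st.π st.home v (st.home v) x}) ho h₁ h₂ hz₁ hz₂
    r₁ r₂ l₁ l₂ p₁ p₂

theorem Classify_enter_one {v : G} {a : S × Bool} (h : st.Child ((lv st.π a)⁻¹ * v) (linv a)) :
    st.Classify_Enter v [a] := by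
  obtain ⟨x, h1, h2⟩ := (st.child_rev_iff v a).1 h
  have hr : Γ.Reads (st.home v) [a] x := LG.reads_singleton_iff.2 h1
  refine ⟨IsReduced.singleton, by simp, ⟨x, hr, ?_⟩, ?_⟩
  · rw [st.old_iff hr, st.Classify_wv1]
    exact h2
  · intro p y hp hne hy
    rcases List.prefix_cons_iff.1 hp with rfl | ⟨t, rfl, ht⟩
    · obtain rfl := LG.reads_nil_iff.1 hy
      exact st.Classify_home_not_old v
    · obtain rfl := List.prefix_nil.1 ht
      exact absurd rfl hne

theorem Classify_enter_two {v : G} {a : S × Bool} (h : st.Block v a)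
    (hn : st.Near ((lv st.π a)⁻¹ * v)) : ∃ b, st.Classify_Enter v [a, b] := by
  obtain ⟨x, h1, h2⟩ := h
  obtain ⟨b, hb⟩ := hn
  obtain ⟨x₂, h3, h4⟩ := (st.child_rev_iff _ b).1 hb
  obtain ⟨z, h5, h6⟩ := sc.lift (sc.eqv.symm h2) h3
  have h7 : ¬ sc.eqv z (st.home ((lv st.π b)⁻¹ * ((lv st.π a)⁻¹ * v))) :=
    fun e => h4 (sc.eqv.trans h6 e)
  have hr1 : Γ.Reads (st.home v) [a] x := LG.reads_singleton_iff.2 h1
  have hr : Γ.Reads (st.home v) [a, b] z := LG.Reads.cons h1 (LG.reads_singleton_iff.2 h5)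
  refine ⟨b, Classify_red2 ?_, by simp, ⟨z, hr, ?_⟩, ?_⟩
  · rintro rfl
    rw [st.Classify_back] at h7
    obtain rfl := Γ.func h5 (Γ.symm h1)
    exact h7 (sc.eqv.refl _)
  · rw [st.old_iff hr, wv_cons, st.Classify_wv1, mul_inv_rev, mul_assoc]
    exact h7
  · intro p y hp hne hy
    rcases List.prefix_cons_iff.1 hp with rfl | ⟨t, rfl, ht⟩
    · obtain rfl := LG.reads_nil_iff.1 hy
      exact st.Classify_home_not_old v
    · rcases List.prefix_cons_iff.1 ht with rfl | ⟨t', rfl, ht'⟩
      · obtain rfl := hy.unique hr1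
        rw [st.old_iff hr1, st.Classify_wv1]
        exact fun e => e h2
      · obtain rfl := List.prefix_nil.1 ht'
        exact absurd rfl hne

theorem Classify_linv_inj {a a' : S × Bool} (h : linv a = linv a') : a = a' := by
  rw [← linv_linv a, h, linv_linv]

theorem Classify_fwd (w : G) (a : S × Bool) : (lv st.π (linv a))⁻¹ * w = lv st.π a * w := by
  rw [lv_linv, inv_inv]

/-- (P1) at most one parent: `enter_unique` for the old part of the germ `(w, home w)`. -/
theorem parent_unique {w : G} {a a' : S × Bool} (h : st.Child (lv st.π a * w) a)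
    (h' : st.Child (lv st.π a' * w) a') : a = a' := by
  have key : ∀ b, st.Child (lv st.π b * w) b → st.Classify_Enter w [linv b] := by
    intro b hb
    apply st.Classify_enter_one
    rwa [st.Classify_fwd, linv_linv]
  have := st.Classify_enter_unique (key a h) (key a' h')
  exact Classify_linv_inj (List.cons.inj this).1

/-- (P2) a block edge does not join two vertices with parents (entering walks of lengths 1 and 2). -/
theorem Block.not_near {v : G} {a : S × Bool} (h : st.Block v a) (hv : st.Near v) :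
    ¬ st.Near ((lv st.π a)⁻¹ * v) := by
  intro hn
  obtain ⟨b, hb⟩ := hv
  obtain ⟨b', hb'⟩ := st.Classify_enter_two h hn
  have := st.Classify_enter_unique (st.Classify_enter_one hb) hb'
  simp at this

/-- (P3) a vertex has at most one block neighbour with a parent (two entering walks of length 2). -/
theorem nearOut_unique {w : G} {a a' : S × Bool} (h : st.NearOut (lv st.π a * w) a)
    (h' : st.NearOut (lv st.π a' * w) a') : a = a' := by
  have key : ∀ b, st.NearOut (lv st.π b * w) b → ∃ b', st.Classify_Enter w [linv b, b'] := by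
    intro b hb
    have h1 := (st.block_rev_iff _ _).2 hb.1
    rw [inv_mul_cancel_left] at h1
    apply st.Classify_enter_two h1
    rw [st.Classify_fwd]
    exact hb.2
  obtain ⟨b, hb⟩ := key a h
  obtain ⟨b', hb'⟩ := key a' h'
  have := st.Classify_enter_unique hb hb'
  exact Classify_linv_inj (List.cons.inj this).1

theorem Classify_child_or (v : G) (a : S × Bool) :
    st.Child v a ∨ ∃ x, Γ.E (st.home v) a x := by
  rcases st.trichotomy v a with h | h | h
  · exact Or.inl h
  · obtain ⟨x, h1, -⟩ := (st.child_rev_iff v a).1 h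
    exact Or.inr ⟨x, h1⟩
  · obtain ⟨x, h1, -⟩ := h
    exact Or.inr ⟨x, h1⟩

/-- distinct letters are distinct in `G`.  (At `v = 1`, `w = (lv a)⁻¹ = (lv a')⁻¹`: two child edges:
`parent_unique`; a child edge and an edge from `home v`: ranks give `eqv x (home v)`; two edges from
`home v`: `inj'` and `sc.tree` for `[a, linv a']`, as `2 ≤ rad` by `sc.chain`.) -/
theorem lv_injective : Function.Injective (lv st.π) := by
  have mixed : ∀ {v : G} {a a' : S × Bool} {x' : Y}, lv st.π a = lv st.π a' → st.Child v a →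
      Γ.E (st.home v) a' x' → False := by
    rintro v a a' x' he ⟨x, h1, h2⟩ h3
    refine h2 (st.rk_eq _ _ (le_antisymm (st.rk_min _ _) ?_))
    rw [← st.rk_edge (v := v) h1, ← st.rk_edge (v := v) h3, he]
    exact st.rk_min _ _
  intro a a' he
  rcases st.Classify_child_or 1 a with h | ⟨x, h⟩ <;>
    rcases st.Classify_child_or 1 a' with h' | ⟨x', h'⟩
  · refine st.parent_unique (w := (lv st.π a)⁻¹) ?_ ?_
    · rwa [mul_inv_cancel]
    · rwa [← he, mul_inv_cancel]
  · exact (mixed he h h').elim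
  · exact (mixed he.symm h' h).elim
  · obtain rfl : x = x' := st.inj' (LG.reads_singleton_iff.2 h) (LG.reads_singleton_iff.2 h')
      (by rw [st.Classify_wv1, st.Classify_wv1, he])
    by_contra hne
    obtain ⟨w, -, hw⟩ := sc.chain (y := st.home 1) (z := st.home 1)
      ⟨_, ⟨_, sc.pc_refl _, sc.pc_refl _⟩, sc.pc_refl _⟩
    have := sc.tree (LG.Reads.cons h (LG.reads_singleton_iff.2 (Γ.symm h')))
      (Classify_red2 fun e => hne (Classify_linv_inj e).symm) (by simp; omega)
    simp at this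

theorem Classify_far_rev (v : G) (a : S × Bool) :
    st.Far ((lv st.π a)⁻¹ * v) (linv a) ↔ st.Far v a := by
  unfold Far
  rw [st.block_rev_iff, st.Classify_back]
  tauto

theorem Classify_nearOut_rev (v : G) (a : S × Bool) :
    st.NearOut ((lv st.π a)⁻¹ * v) (linv a) ↔ st.Block v a ∧ st.Near ((lv st.π a)⁻¹ * v) := by
  unfold NearOut
  rw [st.block_rev_iff]

theorem Classify_not_block {v : G} {a : S × Bool} (h : st.Child ((lv st.π a)⁻¹ * v) (linv a)) :
    ¬ st.Block v a := by
  obtain ⟨x, h1, h2⟩ := (st.child_rev_iff v a).1 h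
  rintro ⟨x', h3, h4⟩
  exact h2 (Γ.func h3 h1 ▸ h4)

theorem Classify_norm_le {V : Type} (f : L2 V ℂ) {κ : V → ℝ} {A c : ℝ}
    (h : HasSum (fun v => κ v * ‖f v‖ ^ 2) A) (hc : ∀ v, κ v ≤ c) : A ≤ c * ‖f‖ ^ 2 :=
  hasSum_le (fun v => mul_le_mul_of_nonneg_right (hc v) (by positivity)) h
    ((L2_hasSum_norm f).mul_left c)

theorem Classify_norm_ge {V : Type} (f : L2 V ℂ) {κ : V → ℝ} {A c : ℝ}
    (h : HasSum (fun v => κ v * ‖f v‖ ^ 2) A) (hc : ∀ v, c ≤ κ v) : c * ‖f‖ ^ 2 ≤ A :=
  hasSum_le (fun v => mul_le_mul_of_nonneg_right (hc v) (by positivity))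
    ((L2_hasSum_norm f).mul_left c) h

/-- `S = eop Child`, `J = eop Far`, `E = eop NearOut`.  The five edge sets `Child`, reversed `Child`, `Far`,
`NearOut`, reversed `NearOut` partition the edges (`eop_or`, `adjoint_eop`).  `J S = 0`: `S f` vanishes at
vertices without parent.  Norms: `hasSum_eop`; a letter at `v` that is not `Child` is a letter of `home v`. -/
theorem exists_forest [Fintype S] {c : S → ℂ} (hc : ∀ s, ‖c s‖ = 1) {dt : ℕ} (hd : Γ.DegLe dt) :
    ∃ F : Forest (Top st.π c) (2 * Fintype.card S) dt,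
      F.S = eop st.π c st.Child ∧ F.J = eop st.π c st.Far := by
  classical
  have hedge : ∀ {v a}, st.Block v a → ∃ x, Γ.E (st.home v) a x := fun ⟨x, h, _⟩ => ⟨x, h⟩
  refine ⟨⟨eop st.π c st.Child, eop st.π c st.Far, eop st.π c st.NearOut, ?_, ?_, ?_, ?_, ?_, ?_⟩,
    rfl, rfl⟩
  · rw [Top_eq, adjoint_eop, adjoint_eop, ← eop_or, ← eop_or, ← eop_or, ← eop_or]
    · congr 1
      funext v a
      rw [st.Classify_nearOut_rev]
      simp only [eq_iff_iff, true_iff]
      unfold Far NearOut
      rcases st.trichotomy v a with h | h | h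
      · tauto
      · tauto
      · tauto
    · rintro v a (((h | h) | h) | h) h'
      · exact h.not_edge st (hedge ((st.Classify_nearOut_rev v a).1 h').1)
      · exact st.Classify_not_block h ((st.Classify_nearOut_rev v a).1 h').1
      · exact h.2.2 ((st.Classify_nearOut_rev v a).1 h').2
      · exact h.1.not_near st h.2 ((st.Classify_nearOut_rev v a).1 h').2
    · rintro v a ((h | h) | h) h'
      · exact h.not_edge st (hedge h'.1)
      · exact st.Classify_not_block h h'.1
      · exact h.2.1 h'.2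
    · rintro v a (h | h) h'
      · exact h.not_edge st (hedge h'.1)
      · exact st.Classify_not_block h h'.1
    · rintro v a h h'
      obtain ⟨x, h1, -⟩ := (st.child_rev_iff v a).1 h'
      exact h.not_edge st ⟨x, h1⟩
  · rw [ContinuousLinearMap.isSelfAdjoint_iff', adjoint_eop]
    congr 1
    funext v a
    exact propext (st.Classify_far_rev v a)
  · ext f w
    have hS : ∀ u, ¬ st.Near u → eop st.π c st.Child f u = 0 := by
      intro u hu
      rw [eop_apply]
      refine Finset.sum_eq_zero fun b _ => if_neg fun hb => hu ⟨linv b, ?_⟩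
      rwa [st.Classify_fwd, linv_linv]
    show eop st.π c st.Far (eop st.π c st.Child f) w = (0 : L2 G ℂ) w
    rw [eop_apply]
    refine (Finset.sum_eq_zero fun a _ => ?_).trans rfl
    split_ifs with h
    · rw [hS _ h.2.1, mul_zero]
    · rfl
  · intro f
    refine Classify_norm_le f (hasSum_eop st.π c hc st.Child (fun w a a' => st.parent_unique) f)
      fun v => ?_
    have := Finset.card_filter_le (Finset.univ : Finset (S × Bool)) (fun a => st.Child v a)
    rw [Finset.card_univ, Fintype.card_prod, Fintype.card_bool] at this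
    have h2 : ((Finset.univ.filter fun a => st.Child v a).card : ℝ) ≤ Fintype.card S * 2 := by
      exact_mod_cast this
    linarith
  · intro f
    refine Classify_norm_ge f (hasSum_eop st.π c hc st.Child (fun w a a' => st.parent_unique) f)
      fun v => ?_
    have h1 := Finset.card_filter_add_card_filter_not (s := (Finset.univ : Finset (S × Bool)))
      (fun a => st.Child v a)
    rw [Finset.card_univ, Fintype.card_prod, Fintype.card_bool] at h1
    have h2 := hd (st.home v) (Finset.univ.filter fun a => ¬ st.Child v a) fun a ha =>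
      (st.Classify_child_or v a).resolve_left (Finset.mem_filter.1 ha).2
    have h3 : Fintype.card S * 2 ≤ (Finset.univ.filter fun a => st.Child v a).card + dt := by omega
    have h4 : (Fintype.card S * 2 : ℝ) ≤
        ((Finset.univ.filter fun a => st.Child v a).card : ℝ) + dt := by exact_mod_cast h3
    linarith
  · refine ContinuousLinearMap.opNorm_le_bound _ (Real.sqrt_nonneg _) fun f => ?_
    have h1 := Classify_norm_le f (c := dt)
      (hasSum_eop st.π c hc st.NearOut (fun w a a' => st.nearOut_unique) f) fun v => by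
        exact_mod_cast hd (st.home v) (Finset.univ.filter fun a => st.NearOut v a)
          fun a ha => hedge (Finset.mem_filter.1 ha).2.1
    refine (pow_le_pow_iff_left₀ (by positivity) (by positivity) two_ne_zero).1 ?_
    rwa [mul_pow, Real.sq_sqrt (by positivity)]

open Classical in
/-- the vertex of the point `x` in the copy through the germ `(v, y)`. -/
noncomputable def pt (v : G) (y x : Y) : G :=
  if h : ∃ w, Γ.Reads y w x then (wv st.π h.choose)⁻¹ * v else v

theorem pt_eq {v : G} {y x : Y} {w : List (S × Bool)} (h : Γ.Reads y w x) :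
    st.pt v y x = (wv st.π w)⁻¹ * v := by
  have h' : ∃ w, Γ.Reads y w x := ⟨w, h⟩
  rw [pt, dif_pos h', st.wv_eq h'.choose_spec h]

/-- the old part together with its neighbours. -/
def Dset (v : G) (y : Y) : Set Y :=
  {x | Old Γ sc.eqv st.π st.home v y x ∨ ∃ a x', Γ.E x a x' ∧ Old Γ sc.eqv st.π st.home v y x'}

theorem Dset_subset_comp (v : G) (y : Y) : st.Dset v y ⊆ Γ.Comp y := by
  rintro x (⟨w, h, -⟩ | ⟨a, x', h1, w, h, -⟩)
  · exact ⟨w, h⟩
  · exact ⟨w ++ [linv a], h.append (LG.reads_singleton_iff.2 (Γ.symm h1))⟩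

theorem Dset_subset (v : G) (y : Y) :
    ∃ o, st.Dset v y ⊆ Γ.Ball o (sc.rad o) ∧ ((st.Dset v y).Nonempty → o ∈ Γ.Comp y) := by
  obtain ⟨o, ho⟩ := st.old_conn v y
  refine ⟨o, ?_, ?_⟩
  · rintro x (h | ⟨a, x', h1, h⟩)
    · exact sc.ch3_mem_ball (ho x h).1
    · obtain ⟨w, h2, h3⟩ := sc.chain (ho x' h).1
      refine ⟨w ++ [linv a], h2.append (LG.reads_singleton_iff.2 (Γ.symm h1)), ?_⟩
      rw [List.length_append, List.length_singleton]
      omega
  · have key : ∀ x, Old Γ sc.eqv st.π st.home v y x → o ∈ Γ.Comp y := by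
      intro x hx
      obtain ⟨-, u, hu⟩ := ho x hx
      obtain ⟨w, h, -⟩ := hx
      exact ⟨w ++ invRev u, h.append hu.reads.invRev⟩
    rintro ⟨x, h | ⟨a, x', -, h⟩⟩
    · exact key x h
    · exact key x' h

theorem Dset_base : st.Dset 1 y₀ = ∅ := by
  have key : ∀ x, ¬ Old Γ sc.eqv st.π st.home 1 y₀ x := by
    rintro x ⟨w, h, h'⟩
    rw [mul_one] at h'
    exact h' (st.base h)
  refine Set.eq_empty_of_forall_notMem ?_
  rintro x (h | ⟨a, x', -, h⟩)
  · exact key x h
  · exact key x' h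

theorem Classify_old_step {v : G} {y x x' : Y} {w : List (S × Bool)} {a : S × Bool}
    (h : Γ.Reads y w x) (h' : Γ.E x a x') : Old Γ sc.eqv st.π st.home v y x' ↔
      ¬ sc.eqv x' (st.home ((lv st.π a)⁻¹ * ((wv st.π w)⁻¹ * v))) := by
  rw [st.old_iff (h.append (LG.reads_singleton_iff.2 h')), wv_append, st.Classify_wv1,
    mul_inv_rev, mul_assoc]

/-- the points of `Comp y \ Dset v y` are the roots whose home copy is the copy of `(v, y)`. -/
theorem root_of_mem {v : G} {y x : Y} (hx : x ∈ Γ.Comp y) (hD : x ∉ st.Dset v y) :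
    ¬ st.Near (st.pt v y x) ∧ sc.eqv x (st.home (st.pt v y x)) := by
  obtain ⟨w, hw⟩ := hx
  rw [st.pt_eq hw]
  have he : sc.eqv x (st.home ((wv st.π w)⁻¹ * v)) := by
    by_contra h
    exact hD (Or.inl ⟨w, hw, h⟩)
  refine ⟨?_, he⟩
  rintro ⟨a, ha⟩
  obtain ⟨x₁, h1, h2⟩ := (st.child_rev_iff _ a).1 ha
  obtain ⟨z, h3, h4⟩ := sc.lift (sc.eqv.symm he) h1
  exact hD (Or.inr ⟨a, z, h3, (st.Classify_old_step hw h3).2 fun e => h2 (sc.eqv.trans h4 e)⟩)

theorem mem_of_root {v u : G} {y : Y} (hu : ¬ st.Near u) (h : st.cp u (st.home u) = st.cp v y) :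
    ∃ x ∈ Γ.Comp y, x ∉ st.Dset v y ∧ st.pt v y x = u := by
  obtain ⟨w, x, h1, h2, h3⟩ := st.cp_eq_iff.1 h.symm
  obtain rfl : u = (wv st.π w)⁻¹ * v := h3
  refine ⟨x, ⟨w, h1⟩, ?_, st.pt_eq h1⟩
  rintro (hx | ⟨a, x', h4, hx⟩)
  · exact (st.old_iff h1).1 hx h2
  · obtain ⟨z, h5, h6⟩ := sc.lift h2 h4
    refine hu ⟨a, (st.child_rev_iff _ a).2 ⟨z, h5, fun e => ?_⟩⟩
    exact (st.Classify_old_step h1 h4).1 hx (sc.eqv.trans h6 e)

end Str
end Crest.Agent.R129
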