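import Mathlib

/-!
# R129 / Comb : permutation tail bound, connected sets, Cheeger inequality, dependent choice
-/

set_option autoImplicit false

namespace Crest.Agent.R129

open Classical in
/-- `#{π | π U ⊆ V} · n^|U| ≤ |V|^|U| · n!`.  Induction on `U`: for `z ∉ U` the number of `π` with `π U ⊆ V`, `π z ∈ V` does not
depend on `z` (compose with a swap), and the sum over `z ∉ U` is `#{π U ⊆ V} · (|V| - |U|)`. -/
theorem card_perm_maps_to {α : Type} [Fintype α] (U V : Finset α) :
    (Finset.univ.filter fun π : Equiv.Perm α => ∀ u ∈ U, π u ∈ V).card * Fintype.card α ^ U.card ≤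
      V.card ^ U.card * Fintype.card (Equiv.Perm α) := by
  induction U using Finset.induction_on with
  | empty => simp
  | insert u U hu ih =>
    set A := Finset.univ.filter fun π : Equiv.Perm α => ∀ u ∈ U, π u ∈ V with hA
    have e0 : (Finset.univ.filter fun π : Equiv.Perm α => ∀ w ∈ insert u U, π w ∈ V) =
        A.filter fun π => π u ∈ V := by
      ext π
      simp only [hA, Finset.mem_filter, Finset.mem_univ, true_and, Finset.forall_mem_insert]
      exact and_comm
    have key : ∀ z z', z ∉ U → z' ∉ U → ∀ π ∈ A.filter (fun π => π z ∈ V),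
        π * Equiv.swap z z' ∈ A.filter (fun π => π z' ∈ V) := by
      intro z z' hz hz' π hπ
      simp only [hA, Finset.mem_filter, Finset.mem_univ, true_and, Equiv.Perm.coe_mul,
        Function.comp_apply, Equiv.swap_apply_right] at hπ ⊢
      refine ⟨fun w hw => ?_, hπ.2⟩
      rw [Equiv.swap_apply_of_ne_of_ne (fun h : w = z => hz (h ▸ hw))
        (fun h : w = z' => hz' (h ▸ hw))]
      exact hπ.1 w hw
    have e1 : ∀ z ∈ Uᶜ, (A.filter fun π => π z ∈ V).card = (A.filter fun π => π u ∈ V).card := by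
      intro z hz
      have hz' := Finset.mem_compl.1 hz
      refine Finset.card_bij' (fun π _ => π * Equiv.swap z u) (fun π _ => π * Equiv.swap u z)
        (key z u hz' hu) (key u z hu hz') (fun π _ => ?_) (fun π _ => ?_)
      · rw [mul_assoc, Equiv.swap_comm u z, Equiv.swap_mul_self, mul_one]
      · rw [mul_assoc, Equiv.swap_comm u z, Equiv.swap_mul_self, mul_one]
    have e2 : ∀ π ∈ A, (Uᶜ.filter fun z => π z ∈ V).card + U.card = V.card := by
      intro π hπ
      have h1 : (Uᶜ.filter fun z => π z ∈ V) ∪ U = V.map π.symm.toEmbedding := by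
        ext z
        simp only [Finset.mem_union, Finset.mem_filter, Finset.mem_compl,
          Finset.mem_map_equiv, Equiv.symm_symm]
        have := (Finset.mem_filter.1 hπ).2 z
        tauto
      rw [← Finset.card_union_of_disjoint, h1, Finset.card_map]
      exact Finset.disjoint_left.2 fun z hz => Finset.mem_compl.1 (Finset.mem_filter.1 hz).1
    have e3 : ∑ z ∈ Uᶜ, (A.filter fun π => π z ∈ V).card =
        ∑ π ∈ A, (Uᶜ.filter fun z => π z ∈ V).card := by
      simp only [Finset.card_filter]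
      exact Finset.sum_comm
    have e4 : Uᶜ.card * (A.filter fun π => π u ∈ V).card + A.card * U.card = A.card * V.card := by
      rw [← smul_eq_mul, ← Finset.sum_const, ← Finset.sum_congr rfl e1, e3, ← smul_eq_mul,
        ← smul_eq_mul, ← Finset.sum_const, ← Finset.sum_const, ← Finset.sum_add_distrib]
      exact Finset.sum_congr rfl e2
    have e5 : (A.filter fun π => π u ∈ V).card ≤ A.card := Finset.card_filter_le _ _
    have e6 : Uᶜ.card + U.card = Fintype.card α := Finset.card_compl_add_card U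
    have e7 : (A.filter fun π => π u ∈ V).card * Fintype.card α ≤ A.card * V.card := by
      rw [← e4, ← e6]
      nlinarith [Nat.mul_le_mul_right U.card e5]
    rw [e0, Finset.card_insert_of_notMem hu]
    calc (A.filter fun π => π u ∈ V).card * Fintype.card α ^ (U.card + 1)
        = (A.filter fun π => π u ∈ V).card * Fintype.card α * Fintype.card α ^ U.card := by ring
      _ ≤ A.card * V.card * Fintype.card α ^ U.card := Nat.mul_le_mul_right _ e7
      _ = A.card * Fintype.card α ^ U.card * V.card := by ring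
      _ ≤ V.card ^ U.card * Fintype.card (Equiv.Perm α) * V.card := Nat.mul_le_mul_right _ ih
      _ = _ := by ring

open Classical in
/-- `2^{#{u ∈ U | π u ∈ V}} = ∑_{U' ⊆ U} 1[π U' ⊆ V]`; the average is `≤ (1 + |V|/n)^|U| ≤ exp (|U||V|/n)`. -/
theorem sum_two_pow_perm {α : Type} [Fintype α] (U V : Finset α) :
    ∑ π : Equiv.Perm α, (2 : ℝ) ^ (U.filter fun u => π u ∈ V).card ≤
      Fintype.card (Equiv.Perm α) * Real.exp (U.card * V.card / Fintype.card α) := by
  rcases isEmpty_or_nonempty α with hα | hα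
  · have : U = ∅ := Finset.eq_empty_of_isEmpty U
    subst this
    simp
  have hn : (0 : ℝ) < Fintype.card α := by exact_mod_cast Fintype.card_pos
  have e1 : ∀ π : Equiv.Perm α, (2 : ℝ) ^ (U.filter fun u => π u ∈ V).card =
      ∑ T ∈ U.powerset, if ∀ u ∈ T, π u ∈ V then (1 : ℝ) else 0 := by
    intro π
    rw [Finset.sum_boole]
    have : (U.powerset.filter fun T => ∀ u ∈ T, π u ∈ V) =
        (U.filter fun u => π u ∈ V).powerset := by
      ext T
      simp only [Finset.mem_filter, Finset.mem_powerset, Finset.subset_iff]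
      exact ⟨fun h x hx => ⟨h.1 hx, h.2 x hx⟩, fun h => ⟨fun x hx => (h hx).1, fun x hx => (h hx).2⟩⟩
    rw [this, Finset.card_powerset]
    push_cast
    rfl
  set x : ℝ := V.card / Fintype.card α with hx
  have hx0 : 0 ≤ x := by positivity
  calc ∑ π : Equiv.Perm α, (2 : ℝ) ^ (U.filter fun u => π u ∈ V).card
      = ∑ T ∈ U.powerset, ∑ π : Equiv.Perm α, if ∀ u ∈ T, π u ∈ V then (1 : ℝ) else 0 := by
        rw [Finset.sum_congr rfl fun π _ => e1 π, Finset.sum_comm]
    _ ≤ ∑ T ∈ U.powerset, Fintype.card (Equiv.Perm α) * ∏ _i ∈ T, x := by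
        refine Finset.sum_le_sum fun T _ => ?_
        rw [Finset.sum_boole, Finset.prod_const, hx, div_pow, ← mul_div_assoc,
          le_div_iff₀ (by positivity), mul_comm (Fintype.card (Equiv.Perm α) : ℝ)]
        exact_mod_cast card_perm_maps_to T V
    _ = Fintype.card (Equiv.Perm α) * ∏ _i ∈ U, (1 + x) := by
        rw [Finset.prod_one_add, Finset.mul_sum]
    _ ≤ _ := by
        refine mul_le_mul_of_nonneg_left ?_ (Nat.cast_nonneg _)
        rw [Finset.prod_const, mul_div_assoc, ← hx, Real.exp_nat_mul]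
        exact pow_le_pow_left₀ (by linarith) (by linarith [Real.add_one_le_exp x]) _

/-- `S` is connected to `x` inside `S`. -/
def ConnIn {α : Type} (r : α → α → Prop) (S : Finset α) (x : α) : Prop :=
  x ∈ S ∧ ∀ y ∈ S, Relation.ReflTransGen (fun a b => a ∈ S ∧ b ∈ S ∧ r a b) x y

theorem comb_walks {α : Type} (r : α → α → Prop) {Δ : ℕ}
    (hd : ∀ a (s : Finset α), (∀ b ∈ s, r a b) → s.card ≤ Δ) (k : ℕ) : ∀ x : α,
    ∃ F : Finset (List α), F.card ≤ Δ ^ k ∧
      ∀ l : List α, l.length = k → List.IsChain r (x :: l) → l ∈ F := by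
  classical
  induction k with
  | zero => exact fun x => ⟨{[]}, by simp, fun l hl _ => by simpa using hl⟩
  | succ k ih =>
    intro x
    choose F hF hF' using ih
    have hfin : {b | r x b}.Finite := by
      by_contra hinf
      obtain ⟨s, hs, hc⟩ := Set.Infinite.exists_subset_card_eq hinf (Δ + 1)
      have := hd x s fun b hb => hs hb
      omega
    refine ⟨hfin.toFinset.biUnion fun y => (F y).image (List.cons y), ?_, fun l hl hc => ?_⟩
    · refine (Finset.card_biUnion_le_card_mul _ _ (Δ ^ k)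
        fun y _ => Finset.card_image_le.trans (hF y)).trans ?_
      rw [pow_succ']
      exact Nat.mul_le_mul_right _ (hd x _ fun b hb => by simpa using hb)
    · obtain _ | ⟨y, l⟩ := l
      · simp at hl
      · rw [List.isChain_cons_cons] at hc
        exact Finset.mem_biUnion.2 ⟨y, by simpa using hc.1,
          Finset.mem_image.2 ⟨l, hF' y l (by simpa using hl) hc.2, rfl⟩⟩

theorem comb_detour {α : Type} {r : α → α → Prop} {a b : α} (hab : r a b) (hba : r b a)
    (l : List α) : ∀ x : α, List.IsChain r (x :: l) → a ∈ x :: l →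
    ∃ l' : List α, l'.length = l.length + 2 ∧ List.IsChain r (x :: l') ∧
      ∀ z, z ∈ x :: l' ↔ z = b ∨ z ∈ x :: l := by
  have base : ∀ l : List α, List.IsChain r (a :: l) →
      ∃ l' : List α, l'.length = l.length + 2 ∧ List.IsChain r (a :: l') ∧
        ∀ z, z ∈ a :: l' ↔ z = b ∨ z ∈ a :: l := fun l hc =>
    ⟨b :: a :: l, rfl, List.isChain_cons_cons.2 ⟨hab, List.isChain_cons_cons.2 ⟨hba, hc⟩⟩,
      fun z => by simp only [List.mem_cons]; tauto⟩
  induction l with
  | nil =>
    intro x hc ha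
    obtain rfl : a = x := by simpa using ha
    exact base _ hc
  | cons y l ih =>
    intro x hc ha
    rcases List.mem_cons.1 ha with rfl | ha'
    · exact base _ hc
    · rw [List.isChain_cons_cons] at hc
      obtain ⟨l', h1, h2, h3⟩ := ih y hc.2 ha'
      refine ⟨y :: l', by simp [h1], List.isChain_cons_cons.2 ⟨hc.1, h2⟩, fun z => ?_⟩
      rw [List.mem_cons, h3 z, List.mem_cons (a := z) (b := x)]
      tauto

theorem comb_exit {α : Type} {r : α → α → Prop} {T : Finset α} {x y : α} (hx : x ∈ T)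
    (h : Relation.ReflTransGen r x y) : y ∉ T → ∃ a b, a ∈ T ∧ b ∉ T ∧ r a b := by
  induction h with
  | refl => exact fun h => absurd hx h
  | @tail b c _ hbc ih =>
    intro hc
    by_cases hb : b ∈ T
    · exact ⟨b, c, hb, hc, hbc⟩
    · exact ih hb

theorem comb_tour {α : Type} [DecidableEq α] {r : α → α → Prop} (hs : ∀ a b, r a b → r b a)
    {S : Finset α} {x : α} (h : ConnIn r S x) (j : ℕ) : j + 1 ≤ S.card →
    ∃ l : List α, l.length = 2 * j ∧ List.IsChain r (x :: l) ∧ (x :: l).toFinset ⊆ S ∧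
      (x :: l).toFinset.card = j + 1 := by
  induction j with
  | zero => exact fun _ => ⟨[], rfl, List.isChain_singleton x, by simpa using h.1, by simp⟩
  | succ j ih =>
    intro hj
    obtain ⟨l, h1, h2, h3, h4⟩ := ih (by omega)
    obtain ⟨y, hy, hy'⟩ := Finset.exists_mem_notMem_of_card_lt_card
      (s := (x :: l).toFinset) (t := S) (by omega)
    obtain ⟨a, b, ha, hb, -, hbS, hab⟩ := comb_exit (T := (x :: l).toFinset) (by simp)
      (h.2 y hy) hy'
    obtain ⟨l', e1, e2, e3⟩ := comb_detour hab (hs _ _ hab) l x h2 (List.mem_toFinset.1 ha)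
    have e : (x :: l').toFinset = insert b (x :: l).toFinset := by
      ext z
      rw [List.mem_toFinset, e3, Finset.mem_insert, List.mem_toFinset]
    refine ⟨l', by omega, e2, ?_, ?_⟩
    · rw [e]; exact Finset.insert_subset hbS h3
    · rw [e, Finset.card_insert_of_notMem hb, h4]

/-- a connected set of size `m` is the vertex set of an `r`-walk from `x` with `2(m-1)` steps (add the vertices one
at a time, inserting a detour `u, v, u`); there are at most `Δ^(2m)` such walks. -/
theorem card_connected {α : Type} (r : α → α → Prop) (hs : ∀ a b, r a b → r b a) {Δ : ℕ} (hΔ : 1 ≤ Δ)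
    (hd : ∀ a (s : Finset α), (∀ b ∈ s, r a b) → s.card ≤ Δ) (x : α) (m : ℕ) (𝒮 : Finset (Finset α))
    (h : ∀ S ∈ 𝒮, S.card = m ∧ ConnIn r S x) : 𝒮.card ≤ Δ ^ (2 * m) := by
  classical
  obtain ⟨F, hF, hF'⟩ := comb_walks r hd (2 * (m - 1)) x
  have hsub : 𝒮 ⊆ F.image fun l => (x :: l).toFinset := by
    intro S hS
    obtain ⟨h1, h2⟩ := h S hS
    have hm : 1 ≤ m := h1 ▸ Finset.card_pos.2 ⟨x, h2.1⟩
    obtain ⟨l, e1, e2, e3, e4⟩ := comb_tour hs h2 (m - 1) (by omega)
    exact Finset.mem_image.2 ⟨l, hF' l e1 e2, Finset.eq_of_subset_of_card_le e3 (by omega)⟩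
  exact (Finset.card_le_card hsub).trans (Finset.card_image_le.trans
    (hF.trans (Nat.pow_le_pow_right hΔ (by omega))))

open Classical in
/-- a dense set has a dense connected component (strong induction on `S`, remove one component). -/
theorem exists_dense_component {α ι : Type} (r : α → α → Prop) (hs : ∀ a b, r a b → r b a)
    (Λ : Finset ι) (G : ι → α → α) (a b : ℕ) (S : Finset α) (hG : ∀ l ∈ Λ, ∀ z ∈ S, r z (G l z))
    (h : b * S.card < a * ∑ l ∈ Λ, (S.filter fun z => G l z ∈ S).card) :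
    ∃ S' ⊆ S, (∀ y ∈ S', ConnIn r S' y) ∧
      b * S'.card < a * ∑ l ∈ Λ, (S'.filter fun z => G l z ∈ S').card := by
  induction S using Finset.strongInduction with
  | H S ih =>
    rcases S.eq_empty_or_nonempty with rfl | ⟨x, hx⟩
    · simp at h
    set K := S.filter fun y => Relation.ReflTransGen (fun a b => a ∈ S ∧ b ∈ S ∧ r a b) x y
      with hK
    have hKS : K ⊆ S := Finset.filter_subset _ _
    have hxK : x ∈ K := Finset.mem_filter.2 ⟨hx, Relation.ReflTransGen.refl⟩
    have hstep : ∀ u v, u ∈ K → v ∈ S → r u v → v ∈ K := fun u v hu hv huv =>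
      Finset.mem_filter.2 ⟨hv, (Finset.mem_filter.1 hu).2.tail ⟨hKS hu, hv, huv⟩⟩
    have hin : ∀ y, Relation.ReflTransGen (fun a b => a ∈ S ∧ b ∈ S ∧ r a b) x y →
        y ∈ K ∧ Relation.ReflTransGen (fun a b => a ∈ K ∧ b ∈ K ∧ r a b) x y ∧
          Relation.ReflTransGen (fun a b => a ∈ K ∧ b ∈ K ∧ r a b) y x := by
      intro y hy
      induction hy with
      | refl => exact ⟨hxK, Relation.ReflTransGen.refl, Relation.ReflTransGen.refl⟩
      | @tail u v _ huv ih' =>
        have hv := hstep u v ih'.1 huv.2.1 huv.2.2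
        exact ⟨hv, ih'.2.1.tail ⟨ih'.1, hv, huv.2.2⟩,
          Relation.ReflTransGen.head ⟨hv, ih'.1, hs _ _ huv.2.2⟩ ih'.2.2⟩
    have hconn : ∀ y ∈ K, ConnIn r K y := fun y hy => ⟨hy, fun y' hy' =>
      (hin y (Finset.mem_filter.1 hy).2).2.2.trans (hin y' (Finset.mem_filter.1 hy').2).2.1⟩
    by_cases hc : b * K.card < a * ∑ l ∈ Λ, (K.filter fun z => G l z ∈ K).card
    · exact ⟨K, hKS, hconn, hc⟩
    have hsplit : ∀ l ∈ Λ, (S.filter fun z => G l z ∈ S).card ≤
        (K.filter fun z => G l z ∈ K).card + ((S \ K).filter fun z => G l z ∈ S \ K).card := by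
      intro l hl
      refine le_trans (Finset.card_le_card fun z hz => ?_) (Finset.card_union_le _ _)
      obtain ⟨z1, z2⟩ := Finset.mem_filter.1 hz
      by_cases hzK : z ∈ K
      · exact Finset.mem_union_left _ (Finset.mem_filter.2 ⟨hzK, hstep _ _ hzK z2 (hG l hl z z1)⟩)
      · exact Finset.mem_union_right _ (Finset.mem_filter.2 ⟨Finset.mem_sdiff.2 ⟨z1, hzK⟩,
          Finset.mem_sdiff.2 ⟨z2, fun h' => hzK (hstep _ _ h' z1 (hs _ _ (hG l hl z z1)))⟩⟩)
    have h1 := Finset.sum_le_sum hsplit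
    rw [Finset.sum_add_distrib] at h1
    have h2 := Nat.mul_le_mul_left a h1
    have h3 : (S \ K).card + K.card = S.card := Finset.card_sdiff_add_card_eq_card hKS
    have h4 : b * (S \ K).card < a * ∑ l ∈ Λ, ((S \ K).filter fun z => G l z ∈ S \ K).card := by
      rw [← h3, mul_add] at h
      rw [mul_add] at h2
      omega
    obtain ⟨S', e1, e2, e3⟩ := ih (S \ K) (Finset.sdiff_ssubset hKS ⟨x, hxK⟩)
      (fun l hl z hz => hG l hl z (Finset.mem_sdiff.1 hz).1) h4
    exact ⟨S', e1.trans Finset.sdiff_subset, e2, e3⟩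

/-- the sequence chosen step by step -/
noncomputable def comb_seq {α : Type} [Nonempty α] (F : ℕ → (ℕ → α) → α) (n : ℕ) : α :=
  F n fun j => if _h : j < n then comb_seq F j else Classical.arbitrary α
termination_by n

/-- dependent choice for conditions that look at the earlier values. -/
theorem exists_seq_dep {α : Type} [Nonempty α] (Good : ℕ → (ℕ → α) → α → Prop)
    (hdep : ∀ n f f' a, (∀ j < n, f j = f' j) → Good n f a → Good n f' a)
    (hex : ∀ n f, ∃ a, Good n f a) : ∃ f, ∀ n, Good n f (f n) := by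
  choose F hF using hex
  refine ⟨comb_seq F, fun n => ?_⟩
  rw [comb_seq]
  exact hdep n _ _ _ (fun j hj => dif_pos hj) (hF n _)

/-- glue permutations of disjoint subsets. -/
theorem exists_glue_perm {α ι : Type} [Finite α] (C : ι → Finset α)
    (hd : ∀ i j c, c ∈ C i → c ∈ C j → i = j) (ρ : ι → Equiv.Perm α)
    (hρ : ∀ i, ∀ c ∈ C i, ρ i c ∈ C i) :
    ∃ σ : Equiv.Perm α, (∀ i, ∀ c ∈ C i, σ c = ρ i c) ∧ ∀ c, (∀ i, c ∉ C i) → σ c = c := by
  classical
  let σ : α → α := fun c => if h : ∃ i, c ∈ C i then ρ h.choose c else c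
  have h1 : ∀ i, ∀ c ∈ C i, σ c = ρ i c := by
    intro i c hc
    have h : ∃ i, c ∈ C i := ⟨i, hc⟩
    simp only [σ, dif_pos h]
    rw [hd _ _ c h.choose_spec hc]
  have h2 : ∀ c, (∀ i, c ∉ C i) → σ c = c := fun c hc => dif_neg (not_exists.2 hc)
  have hinj : Function.Injective σ := by
    intro c c' h
    by_cases hc : ∃ i, c ∈ C i <;> by_cases hc' : ∃ i, c' ∈ C i
    · obtain ⟨i, hi⟩ := hc
      obtain ⟨j, hj⟩ := hc'
      rw [h1 i c hi, h1 j c' hj] at h
      obtain rfl : i = j := hd i j _ (hρ i c hi) (h ▸ hρ j c' hj)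
      exact (ρ i).injective h
    · obtain ⟨i, hi⟩ := hc
      rw [h1 i c hi, h2 c' (not_exists.1 hc')] at h
      exact absurd ⟨i, h ▸ hρ i c hi⟩ hc'
    · obtain ⟨j, hj⟩ := hc'
      rw [h1 j c' hj, h2 c (not_exists.1 hc)] at h
      exact absurd ⟨j, h ▸ hρ j c' hj⟩ hc
    · rwa [h2 c (not_exists.1 hc), h2 c' (not_exists.1 hc')] at h
  exact ⟨Equiv.ofBijective σ (Finite.injective_iff_bijective.1 hinj), h1, h2⟩

end Crest.Agent.R129
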