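import Crest.Agent.R129.EG

/-!
# R129 / Count : walks that use every edge at least twice
-/

set_option autoImplicit false
open FreeGroup

namespace Crest.Agent.R129

open Classical in
/-- number of expensive steps of `l` after the prefix `p`. -/
noncomputable def nExp {α : Type} (chp : List α → Finset α) : List α → List α → ℕ
  | _, [] => 0
  | p, a :: q => (if a ∈ chp p then 0 else 1) + nExp chp (p ++ [a]) q

/-- induction on `n` (generalising `b`, `p₀`, `T`): split `T` by the first letter. -/
theorem count_seq {α : Type} (opt chp : List α → Finset α) {c d : ℕ} (hc : ∀ p, (chp p).card ≤ c)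
    (hd : ∀ p, (opt p).card ≤ d) (hd1 : 1 ≤ d) (n b : ℕ) (p₀ : List α) (T : Finset (List α))
    (hT : ∀ l ∈ T, l.length = n ∧ (∀ p a q, l = p ++ a :: q → a ∈ opt (p₀ ++ p) ∨ a ∈ chp (p₀ ++ p)) ∧
      nExp chp p₀ l ≤ b) : T.card ≤ (c + 1) ^ n * d ^ b := by
  classical
  induction n generalizing b p₀ T with
  | zero =>
    have h1 : T ⊆ {[]} := fun l hl =>
      Finset.mem_singleton.2 (List.length_eq_zero_iff.1 (hT l hl).1)
    have h2 := Finset.card_le_card h1
    rw [Finset.card_singleton] at h2
    rw [pow_zero, one_mul]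
    exact h2.trans (Nat.one_le_pow _ _ hd1)
  | succ n ih =>
    set U : α → Finset (List α) := fun a => (T.image List.tail).filter (fun q => a :: q ∈ T)
      with hU
    have hstep : ∀ a b', (∀ q, a :: q ∈ T → nExp chp (p₀ ++ [a]) q ≤ b') →
        (U a).card ≤ (c + 1) ^ n * d ^ b' := by
      intro a b' hb'
      refine ih b' (p₀ ++ [a]) (U a) fun q hq => ?_
      have hq' : a :: q ∈ T := (Finset.mem_filter.1 hq).2
      obtain ⟨h1, h2, -⟩ := hT _ hq'
      refine ⟨by simpa using h1, fun p a' q' e => ?_, hb' q hq'⟩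
      have := h2 (a :: p) a' q' (by rw [e]; rfl)
      simpa using this
    have hsub : T ⊆ ((chp p₀).biUnion fun a => (U a).image (a :: ·)) ∪
        ((opt p₀ \ chp p₀).biUnion fun a => (U a).image (a :: ·)) := by
      intro l hl
      obtain ⟨h1, h2, -⟩ := hT l hl
      obtain ⟨a, q, rfl⟩ : ∃ a q, l = a :: q := by
        cases l with
        | nil => simp at h1
        | cons a q => exact ⟨a, q, rfl⟩
      have hm : a :: q ∈ (U a).image (a :: ·) :=
        Finset.mem_image.2 ⟨q, Finset.mem_filter.2 ⟨Finset.mem_image.2 ⟨_, hl, rfl⟩, hl⟩, rfl⟩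
      have h3 := h2 [] a q rfl
      rw [List.append_nil] at h3
      by_cases ha : a ∈ chp p₀
      · exact Finset.mem_union_left _ (Finset.mem_biUnion.2 ⟨a, ha, hm⟩)
      · exact Finset.mem_union_right _ (Finset.mem_biUnion.2
          ⟨a, Finset.mem_sdiff.2 ⟨h3.resolve_right ha, ha⟩, hm⟩)
    have hA : ((chp p₀).biUnion fun a => (U a).image (a :: ·)).card ≤ c * ((c + 1) ^ n * d ^ b) := by
      refine (Finset.card_biUnion_le_card_mul _ _ ((c + 1) ^ n * d ^ b) fun a _ => ?_).trans
        (Nat.mul_le_mul_right _ (hc p₀))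
      refine Finset.card_image_le.trans (hstep a b fun q hq => ?_)
      have := (hT _ hq).2.2
      rw [nExp] at this
      omega
    have hB : ((opt p₀ \ chp p₀).biUnion fun a => (U a).image (a :: ·)).card ≤
        (c + 1) ^ n * d ^ b := by
      have key : ∀ a ∈ opt p₀ \ chp p₀, ∀ q, a :: q ∈ T → nExp chp (p₀ ++ [a]) q + 1 ≤ b := by
        intro a ha q hq
        have := (hT _ hq).2.2
        rw [nExp, if_neg (Finset.mem_sdiff.1 ha).2] at this
        omega
      cases b with
      | zero =>
        refine le_trans (Finset.card_biUnion_le_card_mul _ _ 0 fun a ha => ?_) (by simp)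
        refine Finset.card_image_le.trans (le_of_eq (Finset.card_eq_zero.2 ?_))
        refine Finset.eq_empty_of_forall_notMem fun q hq => ?_
        have := key a ha q (Finset.mem_filter.1 hq).2
        omega
      | succ b =>
        refine (Finset.card_biUnion_le_card_mul _ _ ((c + 1) ^ n * d ^ b) fun a ha => ?_).trans ?_
        · refine Finset.card_image_le.trans (hstep a b fun q hq => ?_)
          have := key a ha q hq
          omega
        · have h1 : (opt p₀ \ chp p₀).card ≤ d :=
            (Finset.card_le_card Finset.sdiff_subset).trans (hd p₀)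
          calc _ ≤ d * ((c + 1) ^ n * d ^ b) := Nat.mul_le_mul_right _ h1
            _ = (c + 1) ^ n * d ^ (b + 1) := by ring
    calc T.card ≤ _ := Finset.card_le_card hsub
      _ ≤ _ := Finset.card_union_le _ _
      _ ≤ c * ((c + 1) ^ n * d ^ b) + (c + 1) ^ n * d ^ b := Nat.add_le_add hA hB
      _ = (c + 1) ^ (n + 1) * d ^ b := by ring

section stack
variable {E : Type}

open Classical in
/-- one step of the free reduction with a stack. -/
noncomputable def Count_push (s : List (E × Bool)) (h : E × Bool) : List (E × Bool) :=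
  if s.getLast? = some (linv h) then s.dropLast else s ++ [h]

/-- the stack after reading `p`. -/
noncomputable def Count_stk (p : List (E × Bool)) : List (E × Bool) := p.foldl Count_push []

theorem Count_stk_nil : Count_stk ([] : List (E × Bool)) = [] := rfl

theorem Count_stk_cases (p : List (E × Bool)) (h : E × Bool) :
    ((Count_stk p).getLast? = some (linv h) ∧ Count_stk p = Count_stk (p ++ [h]) ++ [linv h]) ∨
      ((Count_stk p).getLast? ≠ some (linv h) ∧ Count_stk (p ++ [h]) = Count_stk p ++ [h]) := by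
  have e : Count_stk (p ++ [h]) = Count_push (Count_stk p) h := by
    simp [Count_stk, List.foldl_append]
  rw [e, Count_push]
  split_ifs with hh
  · exact Or.inl ⟨hh, (List.dropLast_append_getLast? _ hh).symm⟩
  · exact Or.inr ⟨hh, rfl⟩

theorem Count_stk_reads {V : Type} {Γ : LG E V} {x y : V} {p : List (E × Bool)}
    (h : Γ.Reads x p y) : Γ.Reads x (Count_stk p) y := by
  induction p using List.reverseRecOn generalizing y with
  | nil => exact h
  | append_singleton p a ih =>
    obtain ⟨u, h1, h2⟩ := LG.reads_append_iff.1 h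
    have h3 := ih h1
    rcases Count_stk_cases p a with ⟨-, e⟩ | ⟨-, e⟩
    · rw [e] at h3
      obtain ⟨u', h4, h5⟩ := LG.reads_append_iff.1 h3
      have h6 := Γ.symm (LG.reads_singleton_iff.1 h5)
      rw [linv_linv] at h6
      exact Γ.func h6 (LG.reads_singleton_iff.1 h2) ▸ h4
    · rw [e]
      exact h3.append h2

theorem Count_stk_reduced (p : List (E × Bool)) : IsReduced (Count_stk p) := by
  induction p using List.reverseRecOn with
  | nil => exact IsReduced.nil
  | append_singleton p a ih =>
    rcases Count_stk_cases p a with ⟨-, e⟩ | ⟨hne, e⟩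
    · rw [e] at ih
      exact ih.infix ⟨[], [linv a], by simp⟩
    · rw [e]
      refine List.IsChain.append ih IsReduced.singleton ?_
      intro u hu w hw e1
      simp only [List.head?_cons, Option.mem_def, Option.some.injEq] at hw
      subst hw
      by_contra e2
      refine hne ((Option.mem_def.1 hu).trans (congrArg some (Prod.ext e1 ?_)))
      revert e2
      simp only [linv]
      cases u.2 <;> cases a.2 <;> simp

theorem Count_stk_sublist (p : List (E × Bool)) : (Count_stk p).Sublist p := by
  induction p using List.reverseRecOn with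
  | nil => exact List.Sublist.refl _
  | append_singleton p a ih =>
    rcases Count_stk_cases p a with ⟨-, e⟩ | ⟨-, e⟩
    · rw [e] at ih
      exact ((List.sublist_append_left _ _).trans ih).trans (List.sublist_append_left _ _)
    · rw [e]
      exact ih.append (List.Sublist.refl _)

open Classical in
/-- the set of edges of a word. -/
noncomputable def Count_ed (p : List (E × Bool)) : Finset E := (p.map Prod.fst).toFinset

theorem Count_mem_ed {p : List (E × Bool)} {e : E} : e ∈ Count_ed p ↔ ∃ a ∈ p, a.1 = e := by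
  simp only [Count_ed, List.mem_toFinset, List.mem_map]

open Classical in
/-- number of letters off the edge set `D`. -/
noncomputable def Count_off (D : Finset E) (p : List (E × Bool)) : ℕ :=
  p.countP (fun b => b.1 ∉ D)

open Classical in
theorem Count_off_concat (D : Finset E) (p : List (E × Bool)) (h : E × Bool) :
    Count_off D (p ++ [h]) = Count_off D p + if h.1 ∈ D then 0 else 1 := by
  unfold Count_off
  rw [List.countP_append]
  by_cases hh : h.1 ∈ D <;> simp [hh]

open Classical in
theorem Count_off_add (D : Finset E) (p : List (E × Bool)) :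
    Count_off D p + ∑ e ∈ D, (p.filter fun b => b.1 = e).length = p.length := by
  induction p using List.reverseRecOn with
  | nil => simp [Count_off]
  | append_singleton p a ih =>
    rw [Count_off_concat, List.length_append, List.length_singleton, ← ih]
    have : ∀ e, ((p ++ [a]).filter fun b => b.1 = e).length =
        (p.filter fun b => b.1 = e).length + if a.1 = e then 1 else 0 := by
      intro e
      rw [List.filter_append, List.length_append]
      by_cases hh : a.1 = e <;> simp [hh]
    simp only [this, Finset.sum_add_distrib, Finset.sum_ite_eq]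
    split_ifs <;> omega

theorem Count_off_stk (p : List (E × Bool)) :
    Count_off (Count_ed (Count_stk p)) (Count_stk p) = 0 := by
  unfold Count_off
  rw [List.countP_eq_zero]
  intro a ha
  simp only [decide_eq_true_eq, not_not]
  exact Count_mem_ed.2 ⟨a, ha, rfl⟩

/-- the invariant of phase 2. -/
theorem Count_inv (D : Finset E) (chp : List (E × Bool) → Finset (E × Bool))
    (q p : List (E × Bool))
    (h : ∀ p' a q', q = p' ++ a :: q' →
      (a.1 ∈ D ∨ (Count_stk (p ++ p')).getLast? = some (linv a)) → a ∈ chp (p ++ p')) :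
    2 * nExp chp p q + Count_off D p + Count_off D (Count_stk p) ≤
      Count_off D (p ++ q) + Count_off D (Count_stk (p ++ q)) := by
  induction q generalizing p with
  | nil => simp [nExp]
  | cons a q ih =>
    have h1 := ih (p ++ [a]) fun p' a' q' e h' => by
      have := h (a :: p') a' q' (by rw [e]; rfl) (by simpa using h')
      simpa using this
    rw [List.append_assoc, List.singleton_append, Count_off_concat] at h1
    have h2 := h [] a q rfl
    rw [List.append_nil] at h2
    rw [nExp]
    rcases Count_stk_cases p a with ⟨e1, e⟩ | ⟨e1, e⟩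
    · rw [if_pos (h2 (Or.inr e1))]
      have h3 := Count_off_concat D (Count_stk (p ++ [a])) (linv a)
      rw [← e] at h3
      have h4 : (linv a).1 = a.1 := rfl
      rw [h4] at h3
      omega
    · rw [e, Count_off_concat] at h1
      by_cases ha : a.1 ∈ D
      · rw [if_pos (h2 (Or.inl ha))]
        omega
      · rw [if_neg ha] at h1
        split_ifs <;> omega

/-- the invariant of phase 1. -/
theorem Count_inv1 (chp : List (E × Bool) → Finset (E × Bool)) (q p : List (E × Bool))
    (h : ∀ p' a q', q = p' ++ a :: q' → a.1 ∈ Count_ed (p ++ p') → a ∈ chp (p ++ p')) :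
    nExp chp p q + (Count_ed p).card ≤ (Count_ed (p ++ q)).card := by
  classical
  induction q generalizing p with
  | nil => simp [nExp]
  | cons a q ih =>
    have h1 := ih (p ++ [a]) fun p' a' q' e h' => by
      have := h (a :: p') a' q' (by rw [e]; rfl) (by simpa using h')
      simpa using this
    rw [List.append_assoc, List.singleton_append] at h1
    have h2 := h [] a q rfl
    rw [List.append_nil] at h2
    have h3 : Count_ed (p ++ [a]) = insert a.1 (Count_ed p) := by
      ext e
      simp only [Count_mem_ed, Finset.mem_insert, List.mem_append, List.mem_singleton]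
      constructor
      · rintro ⟨b, hb | rfl, rfl⟩
        · exact Or.inr ⟨b, hb, rfl⟩
        · exact Or.inl rfl
      · rintro (rfl | ⟨b, hb, rfl⟩)
        · exact ⟨a, Or.inr rfl, rfl⟩
        · exact ⟨b, Or.inl hb, rfl⟩
    rw [h3] at h1
    rw [nExp]
    by_cases ha : a.1 ∈ Count_ed p
    · rw [if_pos (h2 ha)]
      rw [Finset.insert_eq_of_mem ha] at h1
      omega
    · rw [Finset.card_insert_of_notMem ha] at h1
      split_ifs <;> omega

end stack

namespace EG
variable {V E : Type} (Gr : EG V E)

/-- degree bound inside the edge set `F`. -/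
def DegIn (F : Finset E) (d : ℕ) : Prop :=
  ∀ (x : V) (s : Finset (E × Bool)), (∀ h ∈ s, h.1 ∈ F ∧ Gr.hs h = x) → s.card ≤ d

/-- girth inside the edge set `F`. -/
def GirthIn (F : Finset E) (g : ℕ) : Prop :=
  ∀ x σ, Gr.Walk x σ x → IsReduced σ → σ ≠ [] → (∀ a ∈ σ, a.1 ∈ F) → g ≤ σ.length

open Classical in
/-- a reduced walk of length `≤ A g` visits a vertex at most `A + 1` times, so at most `2 (A+1)` half edges at
a vertex `z` belong to edges of the walk. -/
theorem local_deg {F : Finset E} {g A : ℕ} (hg : Gr.GirthIn F g) (hg0 : 0 < g) {x y : V}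
    {r : List (E × Bool)} (hw : Gr.Walk x r y) (hr : IsReduced r) (hF : ∀ a ∈ r, a.1 ∈ F)
    (hl : r.length ≤ A * g) (z : V) (s : Finset (E × Bool))
    (hs : ∀ h ∈ s, Gr.hs h = z ∧ ∃ a ∈ r, a.1 = h.1) : s.card ≤ 2 * (A + 1) := by
  set W : Finset ℕ := (Finset.range (r.length + 1)).filter (fun i => Gr.Walk x (r.take i) z)
    with hW
  have hgap : ∀ i ∈ W, ∀ j ∈ W, i < j → i + g ≤ j := by
    intro i hi j hj hij
    obtain ⟨-, hi2⟩ := Finset.mem_filter.1 hi
    obtain ⟨hj1, hj2⟩ := Finset.mem_filter.1 hj
    have hj1' := Finset.mem_range.1 hj1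
    have e : r.take j = r.take i ++ (r.take j).drop i := by
      conv_lhs => rw [← List.take_append_drop i (r.take j)]
      rw [List.take_take, min_eq_left hij.le]
    rw [e] at hj2
    obtain ⟨u, h1, h2⟩ := LG.reads_append_iff.1 hj2
    obtain rfl := h1.unique hi2
    have hinf : (r.take j).drop i <:+: r :=
      (List.drop_suffix _ _).isInfix.trans (List.take_prefix _ _).isInfix
    have hlen : ((r.take j).drop i).length = j - i := by
      rw [List.length_drop, List.length_take, min_eq_left (by omega)]
    have := hg _ _ h2 (hr.infix hinf) (fun e' => by rw [e'] at hlen; simp at hlen; omega)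
      (fun a ha => hF a (hinf.subset ha))
    omega
  have hWc : W.card ≤ A + 1 := by
    rw [← Finset.card_range (A + 1)]
    refine Finset.card_le_card_of_injOn (fun i => i / g) ?_ ?_
    · intro i hi
      have h1 := Finset.mem_range.1 (Finset.mem_filter.1 (Finset.mem_coe.1 hi)).1
      refine Finset.mem_coe.2 (Finset.mem_range.2 (Nat.lt_succ_of_le ?_))
      exact Nat.div_le_of_le_mul (by rw [mul_comm]; omega)
    · have key : ∀ i ∈ W, ∀ j ∈ W, i < j → i / g < j / g := by
        intro i hi j hj hij
        calc i / g < i / g + 1 := Nat.lt_succ_self _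
          _ = (i + g) / g := (Nat.add_div_right i hg0).symm
          _ ≤ j / g := Nat.div_le_div_right (hgap i hi j hj hij)
      intro i hi j hj e
      rcases lt_trichotomy i j with h | h | h
      · exact absurd e (key i hi j hj h).ne
      · exact h
      · exact absurd e (key j hj i hi h).ne'
  set φ : ℕ × Bool → Option (E × Bool) :=
    fun q => cond q.2 (r[q.1 - 1]?.map linv) r[q.1]? with hφ
  have hsub : s.image some ⊆ (W ×ˢ (Finset.univ : Finset Bool)).image φ := by
    intro o ho
    obtain ⟨h, hh, rfl⟩ := Finset.mem_image.1 ho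
    obtain ⟨h1, a, ha, h2⟩ := hs h hh
    obtain ⟨p, q, rfl⟩ := List.append_of_mem ha
    obtain ⟨u, h3, h4⟩ := LG.reads_append_iff.1 hw
    obtain ⟨u', h5, -⟩ := LG.reads_cons_iff.1 h4
    by_cases hb : a.2 = h.2
    · obtain rfl : a = h := Prod.ext h2 hb
      refine Finset.mem_image.2 ⟨(p.length, false), Finset.mem_product.2 ⟨Finset.mem_filter.2
        ⟨Finset.mem_range.2 (by simp), ?_⟩, Finset.mem_univ _⟩, by simp [hφ]⟩
      rw [List.take_left']
      · rw [← h1, ← h5.1]
        exact h3
      · rfl
    · obtain rfl : h = linv a := by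
        refine Prod.ext h2.symm ?_
        revert hb
        simp only [linv]
        cases a.2 <;> cases h.2 <;> simp
      refine Finset.mem_image.2 ⟨(p.length + 1, true), Finset.mem_product.2 ⟨Finset.mem_filter.2
        ⟨Finset.mem_range.2 (by simp), ?_⟩, Finset.mem_univ _⟩, by simp [hφ]⟩
      have e : (p ++ a :: q).take (p.length + 1) = p ++ [a] := by
        rw [show p ++ a :: q = (p ++ [a]) ++ q by simp, List.take_left']
        simp
      rw [e, ← h1, hs_linv, ← h5.2]
      exact h3.append (LG.reads_singleton_iff.2 h5)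
  calc s.card = (s.image some).card :=
        (Finset.card_image_of_injective _ (Option.some_injective _)).symm
    _ ≤ _ := Finset.card_le_card hsub
    _ ≤ (W ×ˢ (Finset.univ : Finset Bool)).card := Finset.card_image_le
    _ = W.card * 2 := by rw [Finset.card_product, Finset.card_univ, Fintype.card_bool]
    _ ≤ 2 * (A + 1) := by omega

open Classical in
/-- the half edges of `F` that continue the walk `p` from `x`. -/
noncomputable def Count_opt (F : Finset E) (x : V) (p : List (E × Bool)) : Finset (E × Bool) :=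
  (F ×ˢ (Finset.univ : Finset Bool)).filter fun h => Gr.Walk x p (Gr.hs h)

theorem Count_mem_opt {F : Finset E} {x : V} {p : List (E × Bool)} {h : E × Bool} :
    h ∈ Gr.Count_opt F x p ↔ h.1 ∈ F ∧ Gr.Walk x p (Gr.hs h) := by
  simp [Count_opt]

theorem Count_opt_end (F : Finset E) (x : V) (p : List (E × Bool)) :
    ∃ z, ∀ h ∈ Gr.Count_opt F x p, Gr.hs h = z := by
  by_cases hz : ∃ z, Gr.Walk x p z
  · obtain ⟨z, hz⟩ := hz
    exact ⟨z, fun h hh => (Gr.Count_mem_opt.1 hh).2.unique hz⟩
  · exact ⟨x, fun h hh => absurd ⟨_, (Gr.Count_mem_opt.1 hh).2⟩ hz⟩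

theorem Count_opt_card {F : Finset E} {d : ℕ} (hd : Gr.DegIn F d) (x : V) (p : List (E × Bool)) :
    (Gr.Count_opt F x p).card ≤ d := by
  obtain ⟨z, hz⟩ := Gr.Count_opt_end F x p
  exact hd z _ fun h hh => ⟨(Gr.Count_mem_opt.1 hh).1, hz h hh⟩

theorem Count_step_opt {F : Finset E} {x y : V} {p q : List (E × Bool)} {a : E × Bool}
    (hw : Gr.Walk x (p ++ a :: q) y) (hF : ∀ b ∈ p ++ a :: q, b.1 ∈ F) :
    a ∈ Gr.Count_opt F x p := by
  obtain ⟨u, h3, h4⟩ := LG.reads_append_iff.1 hw
  obtain ⟨u', h5, -⟩ := LG.reads_cons_iff.1 h4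
  refine Gr.Count_mem_opt.2 ⟨hF a (by simp), ?_⟩
  rw [← h5.1]
  exact h3

/-- a reduced walk in `F` of length at most `N`. -/
def Count_Good (F : Finset E) (x : V) (N : ℕ) (r : List (E × Bool)) : Prop :=
  (∃ y, Gr.Walk x r y) ∧ IsReduced r ∧ (∀ a ∈ r, a.1 ∈ F) ∧ r.length ≤ N

open Classical in
theorem Count_on_card {F : Finset E} {g A : ℕ} (hg : Gr.GirthIn F g) (hg0 : 0 < g) {x : V}
    {r : List (E × Bool)} (hr : Gr.Count_Good F x (A * g) r) (p : List (E × Bool)) :
    ((Gr.Count_opt F x p).filter fun h => h.1 ∈ Count_ed r).card ≤ 2 * (A + 1) := by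
  obtain ⟨⟨y, h1⟩, h2, h3, h4⟩ := hr
  obtain ⟨z, hz⟩ := Gr.Count_opt_end F x p
  exact Gr.local_deg hg hg0 h1 h2 h3 h4 z _ fun h hh =>
    ⟨hz h (Finset.mem_filter.1 hh).1, Count_mem_ed.1 (Finset.mem_filter.1 hh).2⟩

theorem Count_phase1 {F : Finset E} {d g A : ℕ} (hd : Gr.DegIn F d) (hd1 : 1 ≤ d)
    (hg : Gr.GirthIn F g) (hg0 : 0 < g) (x : V) (l a : ℕ) (R : Finset (List (E × Bool)))
    (hR : ∀ r ∈ R, Gr.Count_Good F x (A * g) r ∧ r.length = l ∧ (Count_ed r).card = a) :
    R.card ≤ (2 * (A + 1) + 1) ^ l * d ^ a := by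
  classical
  set chp : List (E × Bool) → Finset (E × Bool) := fun p =>
    if Gr.Count_Good F x (A * g) p then (Gr.Count_opt F x p).filter fun h => h.1 ∈ Count_ed p
    else ∅ with hchp
  refine count_seq (Gr.Count_opt F x) chp (fun p => ?_) (Gr.Count_opt_card hd x) hd1 l a [] R ?_
  · simp only [hchp]
    split_ifs with h
    · convert Gr.Count_on_card hg hg0 h p
    · simp
  · intro r hr
    obtain ⟨⟨⟨y, h1⟩, h2, h3, h4⟩, h5, h6⟩ := hR r hr
    refine ⟨h5, fun p b q e => Or.inl ?_, ?_⟩
    · subst e
      exact Gr.Count_step_opt h1 h3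
    · have := Count_inv1 chp r [] fun p b q e hb => by
        subst e
        rw [List.nil_append] at hb ⊢
        have hp : Gr.Count_Good F x (A * g) p := by
          obtain ⟨u, h7, -⟩ := LG.reads_append_iff.1 h1
          refine ⟨⟨u, h7⟩, h2.infix ⟨[], b :: q, by simp⟩, fun a ha => h3 a (by simp [ha]), ?_⟩
          rw [List.length_append] at h4
          omega
        simp only [hchp, if_pos hp]
        exact Finset.mem_filter.2 ⟨Gr.Count_step_opt h1 h3, hb⟩
      rw [List.nil_append] at this
      omega

open Classical in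
theorem Count_two_ed {ω : List (E × Bool)}
    (h : ∀ a ∈ ω, 2 ≤ (ω.filter fun b => b.1 = a.1).length) :
    Count_off (Count_ed (Count_stk ω)) ω + 2 * (Count_ed (Count_stk ω)).card ≤ ω.length := by
  rw [← Count_off_add (Count_ed (Count_stk ω)) ω, mul_comm]
  refine Nat.add_le_add_left ?_ _
  rw [← smul_eq_mul]
  refine Finset.card_nsmul_le_sum _ _ _ fun e he => ?_
  obtain ⟨a, ha, rfl⟩ := Count_mem_ed.1 he
  exact h a ((Count_stk_sublist ω).subset ha)

open Classical in
theorem Count_phase2 {F : Finset E} {d g A L : ℕ} (hd : Gr.DegIn F d) (hd1 : 1 ≤ d)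
    (hg : Gr.GirthIn F g) (hg0 : 0 < g) (x : V) {r : List (E × Bool)}
    (hr : Gr.Count_Good F x (A * g) r) (T : Finset (List (E × Bool)))
    (hT : ∀ ω ∈ T, Count_stk ω = r ∧ ω.length = 2 * L ∧ (∃ y, Gr.Walk x ω y) ∧ (∀ a ∈ ω, a.1 ∈ F) ∧
      ∀ a ∈ ω, 2 ≤ (ω.filter fun b => b.1 = a.1).length) :
    T.card ≤ (2 * (A + 1) + 1 + 1) ^ (2 * L) * d ^ (L - (Count_ed r).card) := by
  set chp : List (E × Bool) → Finset (E × Bool) := fun p =>
    ((Gr.Count_opt F x p).filter fun h => h.1 ∈ Count_ed r) ∪
      ((Count_stk p).getLast?.map linv).toFinset with hchp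
  refine count_seq (Gr.Count_opt F x) chp (fun p => ?_) (Gr.Count_opt_card hd x) hd1 _ _ [] T ?_
  · refine (Finset.card_union_le _ _).trans (Nat.add_le_add (Gr.Count_on_card hg hg0 hr p) ?_)
    cases (Count_stk p).getLast? <;> simp
  · intro ω hω
    obtain ⟨h0, h1, ⟨y, h2⟩, h3, h4⟩ := hT ω hω
    refine ⟨h1, fun p b q e => Or.inl ?_, ?_⟩
    · subst e
      exact Gr.Count_step_opt h2 h3
    · have h5 := Count_inv (Count_ed r) chp ω [] fun p b q e hb => by
        subst e
        rw [List.nil_append] at hb ⊢
        rcases hb with hb | hb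
        · exact Finset.mem_union_left _ (Finset.mem_filter.2 ⟨Gr.Count_step_opt h2 h3, hb⟩)
        · refine Finset.mem_union_right _ ?_
          rw [hb]
          simp
      have h6 := Count_two_ed h4
      have h7 := Count_off_stk ω
      rw [List.nil_append, h0] at h5
      rw [h0] at h6 h7
      omega

open Classical in
/-- **Counting lemma.**  Let `c = 2(A+1)`, `n = 2L`.  For `ω ∈ T` let `r = FreeGroup.reduce ω` (the final stack), with `a`
distinct edges.  Phase 1: for fixed length and `a` there are at most `(c+1)^n d^a` such `r` (`count_seq`; cheap =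
half edges at the current vertex along edges already used; `local_deg`).  Phase 2: given `r`, a step of `ω` after the
prefix `p` is cheap if it is the inverse of the last letter of `reduce p` (a pop) or lies on an edge of `r`:
`≤ c + 1` options.  An expensive step is a push off the edges of `r`.  Number of letters of `ω` off `r` `= 2 b`
where `b` is the number of such pushes (invariant: #off letters of `p` + #off letters of `reduce p` = 2 · #off pushes),
and the letters on `r` are at least `2a`.  So `a + b ≤ L`.  Sum over the `≤ (n+1)² ≤ 4^n` pairs (length, `a`). -/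
theorem count_walks {F : Finset E} {d g A L : ℕ} (hd : Gr.DegIn F d) (hd1 : 1 ≤ d)
    (hg : Gr.GirthIn F g) (hg0 : 0 < g) (hL : 2 * L ≤ A * g) (x : V) (T : Finset (List (E × Bool)))
    (hT : ∀ ω ∈ T, ω.length = 2 * L ∧ (∃ y, Gr.Walk x ω y) ∧ (∀ a ∈ ω, a.1 ∈ F) ∧
      ∀ a ∈ ω, 2 ≤ (ω.filter fun b => b.1 = a.1).length) :
    T.card ≤ (4 * (2 * A + 4) ^ 2) ^ (2 * L) * d ^ L := by
  have hgood : ∀ ω ∈ T, Gr.Count_Good F x (A * g) (Count_stk ω) := by
    intro ω hω
    obtain ⟨h1, ⟨y, h2⟩, h3, -⟩ := hT ω hω
    refine ⟨⟨y, Count_stk_reads h2⟩, Count_stk_reduced ω,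
      fun a ha => h3 a ((Count_stk_sublist ω).subset ha), ?_⟩
    have := (Count_stk_sublist ω).length_le
    omega
  have hmain : T.card ≤ ((2 * A + 4) ^ (2 * L) * (2 * A + 4) ^ (2 * L) * d ^ L) *
      (Finset.range (2 * L + 1) ×ˢ Finset.range (L + 1)).card := by
    refine Finset.card_le_mul_card_image_of_maps_to
      (f := fun ω => ((Count_stk ω).length, (Count_ed (Count_stk ω)).card)) ?_ _ ?_
    · intro ω hω
      obtain ⟨h1, -, -, h4⟩ := hT ω hω
      have h5 := (Count_stk_sublist ω).length_le
      have h6 := Count_two_ed h4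
      exact Finset.mem_product.2 ⟨Finset.mem_range.2 (by simp only; omega),
        Finset.mem_range.2 (by simp only; omega)⟩
    · rintro ⟨l, a⟩ hla
      obtain ⟨hl, ha⟩ := Finset.mem_product.1 hla
      have hl' : l ≤ 2 * L := Nat.lt_succ_iff.1 (Finset.mem_range.1 hl)
      have ha' : a ≤ L := Nat.lt_succ_iff.1 (Finset.mem_range.1 ha)
      set T' := T.filter fun ω => ((Count_stk ω).length, (Count_ed (Count_stk ω)).card) = (l, a)
        with hT'
      have hR : ∀ r ∈ T'.image Count_stk,
          Gr.Count_Good F x (A * g) r ∧ r.length = l ∧ (Count_ed r).card = a := by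
        intro r hr
        obtain ⟨ω, hω, rfl⟩ := Finset.mem_image.1 hr
        obtain ⟨h1, h2⟩ := Finset.mem_filter.1 hω
        exact ⟨hgood ω h1, (Prod.mk.inj h2).1, (Prod.mk.inj h2).2⟩
      have h1 := Gr.Count_phase1 hd hd1 hg hg0 x l a _ hR
      have h2 : T'.card ≤ ((2 * A + 4) ^ (2 * L) * d ^ (L - a)) * (T'.image Count_stk).card := by
        refine Finset.card_le_mul_card_image _ _ fun r hr => ?_
        have h3 := Gr.Count_phase2 (L := L) hd hd1 hg hg0 x (hR r hr).1
          (T'.filter fun ω => Count_stk ω = r) fun ω hω =>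
            ⟨(Finset.mem_filter.1 hω).2, hT ω (Finset.mem_filter.1 (Finset.mem_filter.1 hω).1).1⟩
        rw [(hR r hr).2.2, show 2 * (A + 1) + 1 + 1 = 2 * A + 4 by ring] at h3
        exact h3
      have h3 : (2 * (A + 1) + 1) ^ l ≤ (2 * A + 4) ^ (2 * L) :=
        (Nat.pow_le_pow_left (by omega) l).trans (Nat.pow_le_pow_right (by omega) hl')
      calc T'.card ≤ ((2 * A + 4) ^ (2 * L) * d ^ (L - a)) * ((2 * A + 4) ^ (2 * L) * d ^ a) :=
            h2.trans (Nat.mul_le_mul_left _ (h1.trans (Nat.mul_le_mul_right _ h3)))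
        _ = (2 * A + 4) ^ (2 * L) * (2 * A + 4) ^ (2 * L) * (d ^ (L - a) * d ^ a) := by ring
        _ = _ := by rw [← pow_add d, Nat.sub_add_cancel ha']
  rw [Finset.card_product, Finset.card_range, Finset.card_range] at hmain
  have h1 : 2 * L + 1 ≤ 2 ^ (2 * L) := Nat.lt_two_pow_self
  have h2 : (2 * L + 1) * (L + 1) ≤ 2 ^ (2 * L) * 2 ^ (2 * L) := Nat.mul_le_mul h1 (by omega)
  calc T.card ≤ _ := hmain
    _ ≤ ((2 * A + 4) ^ (2 * L) * (2 * A + 4) ^ (2 * L) * d ^ L) * (2 ^ (2 * L) * 2 ^ (2 * L)) :=
        Nat.mul_le_mul_left _ h2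
    _ = (4 * (2 * A + 4) ^ 2) ^ (2 * L) * d ^ L := by
        rw [show 4 * (2 * A + 4) ^ 2 = (2 * A + 4) * (2 * A + 4) * (2 * 2) by ring, mul_pow,
          mul_pow, mul_pow]
        ring

end EG
end Crest.Agent.R129
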