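import Mathlib

/-!
# R129 / FP : expectations over finite products, compactness, separate Schwartz–Zippel
-/

set_option autoImplicit false

namespace Crest.Agent.R129

/-- independent finitely supported random variables indexed by `E`. -/
structure FP (E Θ : Type) where
  Ω : E → Finset Θ
  w : E → Θ → ℝ
  nonneg : ∀ e θ, 0 ≤ w e θ
  sum_one : ∀ e, ∑ θ ∈ Ω e, w e θ = 1
  x0 : E → Θ
  x0_mem : ∀ e, x0 e ∈ Ω e

/-- `Φ` only depends on the coordinates in `F`. -/
def DepOn {E Θ α : Type} (F : Finset E) (Φ : (E → Θ) → α) : Prop :=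
  ∀ x y, (∀ e ∈ F, x e = y e) → Φ x = Φ y

namespace FP
variable {E Θ : Type} (P : FP E Θ)

def Adm (x : E → Θ) : Prop := ∀ e, x e ∈ P.Ω e

open Classical in
noncomputable def ext (F : Finset E) (x : F → Θ) : E → Θ :=
  fun e => if h : e ∈ F then x ⟨e, h⟩ else P.x0 e

open Classical in
/-- expectation over the coordinates in `F` (the others are frozen at `x0`). -/
noncomputable def Ex (F : Finset E) (Φ : (E → Θ) → ℝ) : ℝ :=
  ∑ x ∈ Fintype.piFinset fun i : F => P.Ω i, (∏ i : F, P.w i (x i)) * Φ (P.ext F x)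

/-- probability of an event. -/
noncomputable def Pr (F : Finset E) (B : Set (E → Θ)) : ℝ := P.Ex F (B.indicator 1)

open Classical in
theorem adm_ext (F : Finset E) {x : F → Θ} (hx : x ∈ Fintype.piFinset fun i : F => P.Ω i) :
    P.Adm (P.ext F x) := by
  intro e
  unfold ext
  split_ifs with h
  · exact Fintype.mem_piFinset.1 hx ⟨e, h⟩
  · exact P.x0_mem e

theorem ext_coe (F : Finset E) (x : F → Θ) (i : F) : P.ext F x i = x i := by
  unfold ext
  rw [dif_pos i.2]

open Classical in
theorem sum_W (F : Finset E) :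
    ∑ x ∈ Fintype.piFinset fun i : F => P.Ω i, ∏ i : F, P.w i (x i) = 1 := by
  rw [← Finset.prod_univ_sum (fun i : F => P.Ω i) (fun i θ => P.w i θ)]
  simp only [P.sum_one, Finset.prod_const_one]

open Classical in
theorem Ex_mono' (F : Finset E) {Φ Ψ : (E → Θ) → ℝ}
    (h : ∀ x ∈ Fintype.piFinset fun i : F => P.Ω i, Φ (P.ext F x) ≤ Ψ (P.ext F x)) :
    P.Ex F Φ ≤ P.Ex F Ψ :=
  Finset.sum_le_sum fun x hx =>
    mul_le_mul_of_nonneg_left (h x hx) (Finset.prod_nonneg fun _ _ => P.nonneg _ _)

theorem Ex_const (F : Finset E) (a : ℝ) : P.Ex F (fun _ => a) = a := by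
  unfold Ex
  rw [← Finset.sum_mul, P.sum_W, one_mul]

theorem Ex_add (F : Finset E) (Φ Ψ : (E → Θ) → ℝ) :
    P.Ex F (fun x => Φ x + Ψ x) = P.Ex F Φ + P.Ex F Ψ := by
  unfold Ex
  simp only [mul_add, Finset.sum_add_distrib]

theorem Ex_const_mul (F : Finset E) (a : ℝ) (Φ : (E → Θ) → ℝ) :
    P.Ex F (fun x => a * Φ x) = a * P.Ex F Φ := by
  unfold Ex
  rw [Finset.mul_sum]
  exact Finset.sum_congr rfl fun x _ => by ring

theorem Ex_sum {ι : Type} (F : Finset E) (s : Finset ι) (Φ : ι → (E → Θ) → ℝ) :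
    P.Ex F (fun x => ∑ i ∈ s, Φ i x) = ∑ i ∈ s, P.Ex F (Φ i) := by
  unfold Ex
  simp only [Finset.mul_sum]
  exact Finset.sum_comm

theorem Ex_mono (F : Finset E) {Φ Ψ : (E → Θ) → ℝ} (h : ∀ x, P.Adm x → Φ x ≤ Ψ x) :
    P.Ex F Φ ≤ P.Ex F Ψ :=
  P.Ex_mono' F fun _ hx => h _ (P.adm_ext F hx)

theorem Ex_congr (F : Finset E) {Φ Ψ : (E → Θ) → ℝ} (h : ∀ x, P.Adm x → Φ x = Ψ x) :
    P.Ex F Φ = P.Ex F Ψ :=
  le_antisymm (P.Ex_mono F fun x hx => (h x hx).le) (P.Ex_mono F fun x hx => (h x hx).ge)

open Classical in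
/-- resampling one coordinate. -/
theorem Ex_resample (F : Finset E) {e : E} (he : e ∈ F) (Φ : (E → Θ) → ℝ) :
    P.Ex F Φ = P.Ex F fun x => ∑ θ ∈ P.Ω e, P.w e θ * Φ (Function.update x e θ) := by
  set i0 : F := ⟨e, he⟩ with hi0
  have hext : ∀ (x : F → Θ) (θ : Θ),
      Function.update (P.ext F x) e θ = P.ext F (Function.update x i0 θ) := by
    intro x θ
    funext e'
    by_cases h : e' = e
    · subst h
      rw [Function.update_self]
      have := P.ext_coe F (Function.update x i0 θ) i0
      rw [Function.update_self] at this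
      exact this.symm
    · rw [Function.update_of_ne h]
      unfold ext
      split_ifs with h'
      · rw [Function.update_of_ne (fun hh => h (congrArg Subtype.val hh))]
      · rfl
  have hW : ∀ (x : F → Θ) (θ : Θ), (∏ i : F, P.w i (x i)) * P.w e θ =
      (∏ i : F, P.w i (Function.update x i0 θ i)) * P.w e (x i0) := by
    intro x θ
    rw [← Finset.mul_prod_erase _ (fun i : F => P.w i (x i)) (Finset.mem_univ i0),
      ← Finset.mul_prod_erase _ (fun i : F => P.w i (Function.update x i0 θ i))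
        (Finset.mem_univ i0), Function.update_self]
    have : ∏ i ∈ Finset.univ.erase i0, P.w i (Function.update x i0 θ i) =
        ∏ i ∈ Finset.univ.erase i0, P.w i (x i) :=
      Finset.prod_congr rfl fun i hi => by rw [Function.update_of_ne (Finset.ne_of_mem_erase hi)]
    rw [this]
    ring
  unfold Ex
  simp only [hext, Finset.mul_sum]
  have e1 : ∑ x ∈ Fintype.piFinset fun i : F => P.Ω i, (∏ i : F, P.w i (x i)) * Φ (P.ext F x) =
      ∑ p ∈ (Fintype.piFinset fun i : F => P.Ω i) ×ˢ P.Ω e,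
        (∏ i : F, P.w i (p.1 i)) * P.w e p.2 * Φ (P.ext F p.1) := by
    rw [Finset.sum_product]
    refine Finset.sum_congr rfl fun x _ => ?_
    simp only
    rw [← Finset.sum_mul, ← Finset.mul_sum, P.sum_one, mul_one]
  rw [e1, ← Finset.sum_product' (f := fun (x : F → Θ) θ =>
    (∏ i : F, P.w i (x i)) * (P.w e θ * Φ (P.ext F (Function.update x i0 θ))))]
  have hmem : ∀ p ∈ (Fintype.piFinset fun i : F => P.Ω i) ×ˢ P.Ω e,
      (Function.update p.1 i0 p.2, p.1 i0) ∈ (Fintype.piFinset fun i : F => P.Ω i) ×ˢ P.Ω e := by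
    intro p hp
    rw [Finset.mem_product, Fintype.mem_piFinset] at hp ⊢
    refine ⟨fun i => ?_, hp.1 i0⟩
    by_cases h : i = i0
    · subst h
      simp only [Function.update_self]
      exact hp.2
    · simp only [Function.update_of_ne h]
      exact hp.1 i
  refine Finset.sum_nbij' (fun p => (Function.update p.1 i0 p.2, p.1 i0))
    (fun p => (Function.update p.1 i0 p.2, p.1 i0)) hmem hmem ?_ ?_ ?_
  · intro p _
    simp only [Function.update_idem, Function.update_eq_self, Function.update_self]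
  · intro p _
    simp only [Function.update_idem, Function.update_eq_self, Function.update_self]
  · intro p _
    simp only [Function.update_idem, Function.update_eq_self]
    rw [hW]
    ring

theorem Ex_subset {F F' : Finset E} (h : F ⊆ F') {Φ : (E → Θ) → ℝ} (hΦ : DepOn F Φ) :
    P.Ex F' Φ = P.Ex F Φ := by
  classical
  set res : (F' → Θ) → (F → Θ) := fun x i => x ⟨i.1, h i.2⟩ with hres
  have h1 : ∀ x : F' → Θ, Φ (P.ext F' x) = Φ (P.ext F (res x)) := by
    intro x
    refine hΦ _ _ fun e he => ?_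
    unfold ext
    rw [dif_pos (h he), dif_pos he]
  unfold Ex
  simp only [h1]
  rw [← Finset.sum_fiberwise_of_maps_to (t := Fintype.piFinset fun i : F => P.Ω i) (g := res)
    (fun x hx => Fintype.mem_piFinset.2 fun i => Fintype.mem_piFinset.1 hx ⟨i.1, h i.2⟩)]
  refine Finset.sum_congr (by congr!) fun y hy => ?_
  have hy' := Fintype.mem_piFinset.1 hy
  have h2 : (Fintype.piFinset fun i : F' => P.Ω i).filter (fun x => res x = y) =
      Fintype.piFinset fun i : F' => if hi : i.1 ∈ F then {y ⟨i.1, hi⟩} else P.Ω i := by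
    ext x
    simp only [Finset.mem_filter, Fintype.mem_piFinset]
    constructor
    · rintro ⟨hx, rfl⟩ i
      split_ifs with hi
      · exact Finset.mem_singleton.2 rfl
      · exact hx i
    · intro hx
      refine ⟨fun i => ?_, funext fun i => ?_⟩
      · have := hx i
        split_ifs at this with hi
        · rw [Finset.mem_singleton.1 this]; exact hy' ⟨i.1, hi⟩
        · exact this
      · have := hx ⟨i.1, h i.2⟩
        rw [dif_pos i.2] at this
        exact Finset.mem_singleton.1 this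
  have h3 : ∑ x ∈ (Fintype.piFinset fun i : F' => P.Ω i).filter (fun x => res x = y),
      (∏ i : F', P.w i (x i)) * Φ (P.ext F (res x)) =
      (∑ x ∈ (Fintype.piFinset fun i : F' => P.Ω i).filter (fun x => res x = y),
      ∏ i : F', P.w i (x i)) * Φ (P.ext F y) := by
    rw [Finset.sum_mul]
    exact Finset.sum_congr rfl fun x hx => by rw [(Finset.mem_filter.1 hx).2]
  rw [h3, h2, ← Finset.prod_univ_sum (fun i : F' => if hi : i.1 ∈ F then {y ⟨i.1, hi⟩} else P.Ω i)
    (fun i θ => P.w i θ)]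
  congr 1
  set g : E → ℝ := fun e => if hi : e ∈ F then P.w e (y ⟨e, hi⟩) else 1 with hg
  have h4 : ∀ i : F', ∑ θ ∈ (if hi : i.1 ∈ F then {y ⟨i.1, hi⟩} else P.Ω i), P.w i θ = g i := by
    intro i
    simp only [hg]
    split_ifs with hi
    · rw [Finset.sum_singleton]
    · exact P.sum_one _
  simp only [h4]
  rw [Finset.prod_coe_sort F' g, ← Finset.prod_subset h (fun e _ he => by simp only [hg, dif_neg he]),
    ← Finset.prod_coe_sort F g]
  exact Finset.prod_congr rfl fun i _ => by simp only [hg, dif_pos i.2]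

/-- independence: a product of functions of single coordinates. -/
theorem Ex_prod (F : Finset E) (φ : E → Θ → ℝ) :
    P.Ex F (fun x => ∏ e ∈ F, φ e (x e)) = ∏ e ∈ F, ∑ θ ∈ P.Ω e, P.w e θ * φ e θ := by
  classical
  unfold Ex
  rw [← Finset.prod_coe_sort F (fun e => ∑ θ ∈ P.Ω e, P.w e θ * φ e θ),
    Finset.prod_univ_sum (fun i : F => P.Ω i) (fun i θ => P.w i θ * φ i θ)]
  refine Finset.sum_congr (by congr!) fun x _ => ?_
  beta_reduce
  rw [← Finset.prod_coe_sort F (fun e => φ e (P.ext F x e)), ← Finset.prod_mul_distrib]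
  exact Finset.prod_congr rfl fun i _ => by rw [P.ext_coe]

theorem exists_le_Ex (F : Finset E) (Φ : (E → Θ) → ℝ) : ∃ x, P.Adm x ∧ Φ x ≤ P.Ex F Φ := by
  classical
  have hne : (Fintype.piFinset fun i : F => P.Ω i).Nonempty :=
    ⟨fun i => P.x0 i, Fintype.mem_piFinset.2 fun i => P.x0_mem i⟩
  obtain ⟨x, hx, hmin⟩ := Finset.exists_min_image _ (fun x => Φ (P.ext F x)) hne
  refine ⟨P.ext F x, P.adm_ext F (by convert hx), ?_⟩
  rw [← P.Ex_const F (Φ (P.ext F x))]
  exact P.Ex_mono' F fun y hy => hmin y (by convert hy)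

theorem Pr_mono (F : Finset E) {B B' : Set (E → Θ)} (h : ∀ x, P.Adm x → x ∈ B → x ∈ B') :
    P.Pr F B ≤ P.Pr F B' := by
  refine P.Ex_mono F fun x hx => ?_
  by_cases hB : x ∈ B
  · rw [Set.indicator_of_mem hB, Set.indicator_of_mem (h x hx hB)]
  · rw [Set.indicator_of_notMem hB]
    exact Set.indicator_nonneg (fun _ _ => zero_le_one) x

theorem Pr_biUnion_le {ι : Type} (F : Finset E) (s : Finset ι) (B : ι → Set (E → Θ)) :
    P.Pr F (⋃ i ∈ s, B i) ≤ ∑ i ∈ s, P.Pr F (B i) := by
  unfold Pr
  rw [← P.Ex_sum]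
  refine P.Ex_mono F fun x _ => ?_
  have h0 : ∀ i ∈ s, (0 : ℝ) ≤ (B i).indicator 1 x := fun i _ =>
    Set.indicator_nonneg (fun _ _ => zero_le_one) x
  by_cases hB : x ∈ ⋃ i ∈ s, B i
  · rw [Set.indicator_of_mem hB]
    obtain ⟨i, hi, hx⟩ := Set.mem_iUnion₂.1 hB
    have := Finset.single_le_sum h0 hi
    rwa [Set.indicator_of_mem hx] at this
  · rw [Set.indicator_of_notMem hB]
    exact Finset.sum_nonneg h0

theorem markov (F : Finset E) {Φ : (E → Θ) → ℝ} (hΦ : ∀ x, 0 ≤ Φ x) {η : ℝ} (hη : 0 < η) :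
    P.Pr F {x | η ≤ Φ x} ≤ P.Ex F Φ / η := by
  rw [div_eq_inv_mul, ← P.Ex_const_mul]
  refine P.Ex_mono F fun x _ => ?_
  by_cases hB : x ∈ {x | η ≤ Φ x}
  · rw [Set.indicator_of_mem hB, ← div_eq_inv_mul, Pi.one_apply, le_div_iff₀ hη, one_mul]
    exact hB
  · rw [Set.indicator_of_notMem hB]
    exact mul_nonneg (inv_nonneg.2 hη.le) (hΦ x)

/-- **Compactness.**  For a finite set `t` of coordinates the finitely many... careful: infinitely many events
may depend on coordinates in `t` only, but there are finitely many assignments on `t`; if each of them lies in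
some `B j` with `F j ⊆ t`, choose finitely many such `j` and contradict `∑ δ ≤ 1/2` (`Ex_subset`,
`Pr_biUnion_le`).  So for each `t` there is an admissible `g t` avoiding all `B j` with `F j ⊆ t`;
apply `Finset.rado_selection` to the finite types `↥(Ω e)`. -/
theorem exists_avoid {J : Type} (F : J → Finset E) (B : J → Set (E → Θ))
    (hB : ∀ j, DepOn (F j) fun x => x ∈ B j) (δ : J → ℝ) (hδ : ∀ j, P.Pr (F j) (B j) ≤ δ j)
    (hs : ∀ T : Finset J, ∑ j ∈ T, δ j ≤ 1 / 2) : ∃ x, P.Adm x ∧ ∀ j, x ∉ B j := by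
  classical
  have hB' : ∀ j x y, (∀ e ∈ F j, x e = y e) → (x ∈ B j ↔ y ∈ B j) := fun j x y h =>
    iff_of_eq (hB j x y h)
  have key : ∀ t : Finset E, ∃ x, P.Adm x ∧ ∀ j, F j ⊆ t → x ∉ B j := by
    intro t
    by_contra hcon
    push Not at hcon
    choose jj hj1 hj2 using hcon
    set T : Finset J := (Fintype.piFinset fun i : t => P.Ω i).attach.image
      (fun x => jj (P.ext t x.1) (P.adm_ext t (by convert x.2))) with hT
    have h1 : (1 : ℝ) ≤ P.Pr t (⋃ j ∈ T, B j) := by
      rw [← P.Ex_const t 1]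
      refine P.Ex_mono' t fun x hx => ?_
      have : P.ext t x ∈ ⋃ j ∈ T, B j := Set.mem_iUnion₂.2
        ⟨jj (P.ext t x) (P.adm_ext t hx),
          Finset.mem_image.2 ⟨⟨x, by convert hx⟩, Finset.mem_attach _ _, rfl⟩, hj2 _ _⟩
      rw [Set.indicator_of_mem this, Pi.one_apply]
    have h2 := P.Pr_biUnion_le t T B
    have h3 : ∑ j ∈ T, P.Pr t (B j) ≤ ∑ j ∈ T, δ j := by
      refine Finset.sum_le_sum fun j hj => ?_
      obtain ⟨x, -, rfl⟩ := Finset.mem_image.1 hj
      refine le_trans (le_of_eq ?_) (hδ _)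
      refine P.Ex_subset (hj1 _ _) fun x y hxy => ?_
      simp only [Set.indicator, hB' _ x y hxy, Pi.one_apply]
    linarith [hs T]
  choose g hg1 hg2 using key
  obtain ⟨χ, hχ⟩ := Finset.rado_selection (β := fun e => {θ // θ ∈ P.Ω e})
    (fun t e => ⟨g t e, hg1 t e⟩)
  refine ⟨fun e => (χ e).1, fun e => (χ e).2, fun j hj => ?_⟩
  obtain ⟨t, ht, h⟩ := hχ (F j)
  exact hg2 t j ht ((hB' j _ _ fun e he => congrArg Subtype.val (h e he)).1 hj)

open Classical in
/-- **Separate Schwartz–Zippel.**  Prove by induction on `F' ⊆ F`: the probability that the values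
`val e (x e)`, `e ∈ F'`, can not be completed (outside `F'`) to a good `v` is `≤ |F'| δ`; in the step use
`Ex_resample` and the completion of the smaller set as `v`. -/
theorem sepSZ {M : Type} (F : Finset E) (val : E → Θ → M) (Good : (E → M) → Prop)
    (hdep : DepOn F Good) (hex : ∃ v, Good v) {δ : ℝ} (hδ0 : 0 ≤ δ)
    (hδ : ∀ e ∈ F, ∀ v, Good v →
      ∑ θ ∈ (P.Ω e).filter fun θ => ¬ Good (Function.update v e (val e θ)), P.w e θ ≤ δ) :
    P.Pr F {x | ¬ Good fun e => val e (x e)} ≤ F.card * δ := by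
  have key : ∀ F' : Finset E, F' ⊆ F →
      P.Pr F {x | ¬ ∃ v, Good v ∧ ∀ e ∈ F', v e = val e (x e)} ≤ F'.card * δ := by
    intro F'
    induction F' using Finset.induction_on with
    | empty =>
      intro _
      have : {x : E → Θ | ¬ ∃ v, Good v ∧ ∀ e ∈ (∅ : Finset E), v e = val e (x e)} = ∅ := by
        ext x
        obtain ⟨v, hv⟩ := hex
        simp only [Set.mem_ofPred_eq, Set.mem_empty_iff_false, iff_false, not_not]
        exact ⟨v, hv, fun e he => absurd he (Finset.notMem_empty e)⟩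
      rw [this]
      unfold Pr
      rw [Set.indicator_empty, P.Ex_const]
      simp
    | insert e F' he ih =>
      intro hsub
      have heF : e ∈ F := hsub (Finset.mem_insert_self e F')
      have ih' := ih ((Finset.subset_insert e F').trans hsub)
      rw [Finset.card_insert_of_notMem he]
      unfold Pr at ih' ⊢
      rw [P.Ex_resample F heF]
      refine le_trans (P.Ex_mono F (Ψ := fun x =>
        {x | ¬ ∃ v, Good v ∧ ∀ e ∈ F', v e = val e (x e)}.indicator 1 x + δ) fun x _ => ?_) ?_
      · by_cases hx : ∃ v, Good v ∧ ∀ e ∈ F', v e = val e (x e)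
        · obtain ⟨v, hv, hvx⟩ := hx
          rw [Set.indicator_of_notMem (by
            simp only [Set.mem_ofPred_eq, not_not]; exact ⟨v, hv, hvx⟩), zero_add]
          refine le_trans ?_ (hδ e heF v hv)
          rw [Finset.sum_filter]
          refine Finset.sum_le_sum fun θ _ => ?_
          split_ifs with hg
          · rw [Set.indicator_of_notMem, mul_zero]
            simp only [Set.mem_ofPred_eq, not_not]
            refine ⟨_, hg, fun e' he' => ?_⟩
            rcases Finset.mem_insert.1 he' with rfl | he'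
            · simp only [Function.update_self]
            · have hne : e' ≠ e := fun hh => he (hh ▸ he')
              simp only [Function.update_of_ne hne]
              exact hvx e' he'
          · exact mul_le_of_le_one_right (P.nonneg _ _) (Set.indicator_le_self' (fun _ _ => zero_le_one) _)
        · rw [Set.indicator_of_mem (by simpa only [Set.mem_ofPred_eq] using hx), Pi.one_apply]
          refine le_trans ?_ (le_add_of_nonneg_right hδ0)
          rw [← P.sum_one e]
          refine Finset.sum_le_sum fun θ _ => ?_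
          exact mul_le_of_le_one_right (P.nonneg _ _) (Set.indicator_le_self' (fun _ _ => zero_le_one) _)
      · rw [P.Ex_add, P.Ex_const]
        push_cast
        linarith
  refine le_trans (P.Pr_mono F fun x _ hx => ?_) (key F le_rfl)
  rintro ⟨v, hv, hvx⟩
  exact hx ((iff_of_eq (hdep _ _ hvx)).1 hv)

end FP

end Crest.Agent.R129
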