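import Crest.Agent.R129.Uni

/-!
# R129 / Uni2 : words are detected in unitriangular groups; Schwartz–Zippel
-/

set_option autoImplicit false
open FreeGroup

namespace Crest.Agent.R129

/-- syllable decomposition of a word. -/
theorem u2_syl {α : Type} (w : List (α × Bool)) : ∃ l : List (α × ℤ),
    l.IsChain (fun a b => a.1 ≠ b.1) ∧ (∀ p ∈ l, p.2 ≠ 0 ∧ p.2.natAbs ≤ w.length) ∧
      l.length ≤ w.length ∧
      ∀ (G : Type) [Group G] (v : α → G), wv v w = (l.map fun p => v p.1 ^ p.2).prod := by
  classical
  induction w with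
  | nil => exact ⟨[], by simp, by simp, by simp, by simp⟩
  | cons a w ih =>
    obtain ⟨l, h1, h2, h3, h4⟩ := ih
    obtain ⟨ε, hε1, hε2⟩ : ∃ ε : ℤ, ε.natAbs = 1 ∧
        ∀ (G : Type) [Group G] (v : α → G), lv v a = v a.1 ^ ε := by
      obtain ⟨s, b⟩ := a
      cases b
      · exact ⟨-1, rfl, fun G _ v => by simp [lv]⟩
      · exact ⟨1, rfl, fun G _ v => by simp [lv]⟩
    have hnew : (∀ q ∈ l.head?, a.1 ≠ q.1) → ∃ l : List (α × ℤ),
        l.IsChain (fun a b => a.1 ≠ b.1) ∧ (∀ p ∈ l, p.2 ≠ 0 ∧ p.2.natAbs ≤ (a :: w).length) ∧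
        l.length ≤ (a :: w).length ∧
        ∀ (G : Type) [Group G] (v : α → G),
          wv v (a :: w) = (l.map fun p => v p.1 ^ p.2).prod := by
      intro hq
      refine ⟨(a.1, ε) :: l, List.IsChain.cons h1 hq, ?_, by simpa using h3, ?_⟩
      · intro p hp
        rcases List.mem_cons.1 hp with rfl | hp
        · simp only [List.length_cons]
          constructor <;> omega
        · have := h2 p hp
          simp only [List.length_cons]
          exact ⟨this.1, by omega⟩
      · intro G _ v
        rw [wv_cons, h4, hε2, List.map_cons, List.prod_cons]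
    cases l with
    | nil => exact hnew (by simp)
    | cons q l =>
      by_cases hq : a.1 = q.1
      swap
      · exact hnew (by simpa using hq)
      have hval : ∀ (G : Type) [Group G] (v : α → G),
          wv v (a :: w) = v q.1 ^ (ε + q.2) * (l.map fun p => v p.1 ^ p.2).prod := by
        intro G _ v
        rw [wv_cons, h4, hε2, List.map_cons, List.prod_cons, hq, zpow_add, mul_assoc]
      have hl : ∀ p ∈ l, p.2 ≠ 0 ∧ p.2.natAbs ≤ (a :: w).length := by
        intro p hp
        have := h2 p (List.mem_cons_of_mem _ hp)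
        simp only [List.length_cons]
        exact ⟨this.1, by omega⟩
      by_cases h0 : ε + q.2 = 0
      · refine ⟨l, h1.tail, hl, ?_, ?_⟩
        · simp only [List.length_cons] at h3 ⊢
          omega
        · intro G _ v
          rw [hval, h0, zpow_zero, one_mul]
      · refine ⟨(q.1, ε + q.2) :: l, ?_, ?_, ?_, ?_⟩
        · rw [List.isChain_cons] at h1 ⊢
          exact h1
        · intro p hp
          rcases List.mem_cons.1 hp with rfl | hp
          · have := (h2 q List.mem_cons_self).2
            simp only [List.length_cons]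
            exact ⟨h0, by omega⟩
          · exact hl p hp
        · simp only [List.length_cons] at h3 ⊢
          omega
        · intro G _ v
          rw [hval, List.map_cons, List.prod_cons]

theorem u2_zpow {R : Type} [CommRing R] {k : ℕ} (g : U k R) (N : Matrix (Fin k) (Fin k) R)
    (hg : g.1 = 1 + N) (hN : N * N = 0) (n : ℤ) : (g ^ n).1 = 1 + (n : R) • N := by
  induction n using Int.induction_on with
  | zero => simp
  | succ n ih =>
    rw [zpow_add_one, U.val_mul, ih, hg, add_mul, one_mul, mul_add, mul_one, Matrix.smul_mul, hN]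
    push_cast
    rw [smul_zero, add_zero, add_smul, one_smul]
    abel
  | pred n ih =>
    have h1 : (g ^ (-(n : ℤ) - 1)).1 * (1 + N) = 1 + ((-(n : ℤ) : ℤ) : R) • N := by
      rw [← hg, ← U.val_mul, ← zpow_add_one, sub_add_cancel, ih]
    have h2 : (1 + N) * (1 - N) = 1 := by
      rw [add_mul, one_mul, mul_sub, mul_one, hN]
      abel
    calc (g ^ (-(n : ℤ) - 1)).1 = (g ^ (-(n : ℤ) - 1)).1 * (1 + N) * (1 - N) := by
          rw [mul_assoc, h2, mul_one]
      _ = _ := by
          rw [h1, add_mul, one_mul, mul_sub, mul_one, Matrix.smul_mul, hN]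
          push_cast
          rw [smul_zero, sub_zero, sub_smul, one_smul]
          abel

/-- a non-trivial element of a free group of length `< k` is detected in `U k R`.  Plan: write the reduced word in
syllables `y₁^{a₁} ⋯ y_t^{a_t}` (`yᵢ ≠ yᵢ₊₁`, `0 < |aᵢ| < k`, `t < k`), send `y` to `1 + N_y`,
`N_y = ∑_{i : yᵢ = y} E_{i-1,i}`; `N_y² = 0`, so `(1+N_y)^a = 1 + a N_y`, and the `(0,t)` entry of the product is
`∏ aᵢ ≠ 0`. -/
theorem detect_word {α R : Type} [CommRing R] [IsDomain R] {k : ℕ}
    (hR : ∀ n : ℕ, 0 < n → n ≤ k → (n : R) ≠ 0) (w : List (α × Bool)) (hw : FreeGroup.mk w ≠ 1)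
    (hl : w.length < k) : ∃ v : α → U k R, wv v w ≠ 1 := by
  classical
  obtain ⟨l, h1, h2, h3, h4⟩ := u2_syl w
  have hne : l ≠ [] := by
    rintro rfl
    apply hw
    have := h4 (FreeGroup α) FreeGroup.of
    rw [wv, FreeGroup.lift_of_eq_id] at this
    simpa using this
  have hpos : 0 < l.length := List.length_pos_iff.2 hne
  let N : α → Matrix (Fin k) (Fin k) R := fun s i j =>
    if j.val = i.val + 1 ∧ (l[i.val]?).map Prod.fst = some s then 1 else 0
  have hN : ∀ s, N s * N s = 0 := by
    intro s
    ext i j
    rw [Matrix.mul_apply, Matrix.zero_apply]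
    refine Finset.sum_eq_zero fun c _ => ?_
    simp only [N]
    split_ifs with ha hb
    · exfalso
      obtain ⟨ha1, ha2⟩ := ha
      obtain ⟨-, hb2⟩ := hb
      rw [ha1] at hb2
      obtain ⟨p, hp, hp'⟩ := Option.map_eq_some_iff.1 ha2
      obtain ⟨q, hq, hq'⟩ := Option.map_eq_some_iff.1 hb2
      obtain ⟨hi, rfl⟩ := List.getElem?_eq_some_iff.1 hp
      obtain ⟨hi', rfl⟩ := List.getElem?_eq_some_iff.1 hq
      exact List.isChain_iff_getElem.1 h1 i.val hi' (hp'.trans hq'.symm)
    all_goals simp
  let v : α → U k R := fun s => ⟨1 + N s, fun i j hij => by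
    have : ¬ (j.val = i.val + 1 ∧ (l[i.val]?).map Prod.fst = some s) := by
      rintro ⟨h, -⟩
      have := Fin.le_def.1 hij
      omega
    simp only [Matrix.add_apply, N, if_neg this, add_zero]⟩
  have hz : ∀ s (n : ℤ), (v s ^ n).1 = 1 + (n : R) • N s := fun s n => u2_zpow _ _ rfl (hN s) n
  let T : Fin k := ⟨l.length, by omega⟩
  have key : ∀ (l' p : List (α × ℤ)), l = p ++ l' → ∀ i : Fin k,
      (i.val < p.length → ((l'.map fun q => v q.1 ^ q.2).prod).1 i T = 0) ∧
      (i.val = p.length →
        ((l'.map fun q => v q.1 ^ q.2).prod).1 i T = (l'.map fun q => (q.2 : R)).prod) := by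
    intro l'
    induction l' with
    | nil =>
      intro p hp i
      rw [List.append_nil] at hp
      subst hp
      simp only [List.map_nil, List.prod_nil, U.val_one]
      constructor
      · intro h
        exact Matrix.one_apply_ne (fun e => by simp [e, T] at h)
      · intro h
        have : i = T := Fin.ext h
        rw [this, Matrix.one_apply_eq]
    | cons q l' ih =>
      intro p hp i
      have ih' := ih (p ++ [q]) (by rw [hp]; simp)
      simp only [List.length_append, List.length_singleton] at ih'
      have hlen : l.length = p.length + (l'.length + 1) := by rw [hp]; simp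
      rw [List.map_cons, List.prod_cons, U.val_mul, hz, add_mul, one_mul, Matrix.smul_mul,
        Matrix.add_apply, Matrix.smul_apply, Matrix.mul_apply]
      constructor
      · intro h
        rw [(ih' i).1 (by omega), Finset.sum_eq_zero, smul_zero, add_zero]
        intro c _
        simp only [N]
        split_ifs with hc
        · rw [(ih' c).1 (by omega), mul_zero]
        · rw [zero_mul]
      · intro h
        rw [(ih' i).1 (by omega), zero_add, Finset.sum_eq_single (⟨i.val + 1, by omega⟩ : Fin k)]
        · rw [(ih' _).2 (by simp [h]), List.map_cons, List.prod_cons]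
          have : (l[i.val]?).map Prod.fst = some q.1 := by
            rw [hp, h]
            simp
          simp only [N, this, and_self, if_true, one_mul, smul_eq_mul]
        · intro c _ hc
          have : ¬ (c.val = i.val + 1 ∧ (l[i.val]?).map Prod.fst = some q.1) :=
            fun h' => hc (Fin.ext h'.1)
          simp only [N, if_neg this, zero_mul]
        · intro h'
          exact absurd (Finset.mem_univ _) h'
  refine ⟨v, fun hv => ?_⟩
  have h5 := (key l [] rfl ⟨0, by omega⟩).2 rfl
  rw [← h4, hv, U.val_one, Matrix.one_apply_ne (fun e => by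
    have := congrArg Fin.val e
    simp only [T] at this
    omega)] at h5
  obtain ⟨q, hq, hq0⟩ := List.mem_map.1 (List.prod_eq_zero_iff.1 h5.symm)
  have h6 := h2 q hq
  apply hR q.2.natAbs (by omega) (by omega)
  rcases Int.natAbs_eq q.2 with e | e
  · rw [e] at hq0
    simpa using hq0
  · rw [e] at hq0
    simpa using hq0

/-- all entries have total degree at most `d`. -/
def U2Deg {σ R : Type} [CommRing R] {k : ℕ} (d : ℕ)
    (g : Matrix (Fin k) (Fin k) (MvPolynomial σ R)) : Prop :=
  ∀ i j, (g i j).totalDegree ≤ d

theorem u2_deg_one {σ R : Type} [CommRing R] {k : ℕ} (d : ℕ) :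
    U2Deg d (1 : Matrix (Fin k) (Fin k) (MvPolynomial σ R)) := by
  intro i j
  rw [Matrix.one_apply]
  split_ifs <;> simp

theorem u2_deg_mul {σ R : Type} [CommRing R] {k d e : ℕ}
    {g h : Matrix (Fin k) (Fin k) (MvPolynomial σ R)} (hg : U2Deg d g) (hh : U2Deg e h) :
    U2Deg (d + e) (g * h) := by
  intro i j
  rw [Matrix.mul_apply]
  refine (MvPolynomial.totalDegree_finsetSum _ _).trans (Finset.sup_le fun c _ => ?_)
  exact (MvPolynomial.totalDegree_mul _ _).trans (add_le_add (hg i c) (hh c j))

theorem u2_deg_sub {σ R : Type} [CommRing R] {k d : ℕ}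
    {g h : Matrix (Fin k) (Fin k) (MvPolynomial σ R)} (hg : U2Deg d g) (hh : U2Deg d h) :
    U2Deg d (g - h) := by
  intro i j
  rw [Matrix.sub_apply]
  exact (MvPolynomial.totalDegree_sub _ _).trans (max_le (hg i j) (hh i j))

theorem u2_deg_pow {σ R : Type} [CommRing R] {k : ℕ}
    {g : Matrix (Fin k) (Fin k) (MvPolynomial σ R)} (hg : U2Deg 1 g) (n : ℕ) :
    U2Deg n (g ^ n) := by
  induction n with
  | zero => simpa using u2_deg_one 0
  | succ n ih =>
    rw [pow_succ]
    exact u2_deg_mul ih hg

theorem u2_deg_inv {σ R : Type} [CommRing R] {k : ℕ} {g : U k (MvPolynomial σ R)}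
    (hg : U2Deg 1 g.1) : U2Deg k (g⁻¹).1 := by
  intro i j
  rw [U.val_inv, Matrix.sum_apply]
  refine (MvPolynomial.totalDegree_finsetSum _ _).trans (Finset.sup_le fun c hc => ?_)
  exact (u2_deg_pow (u2_deg_sub (u2_deg_one 1) hg) c i j).trans
    (Nat.lt_succ_iff.1 (Finset.mem_range.1 hc))

theorem u2_map_wv {α G H : Type} [Group G] [Group H] (f : G →* H) (v : α → G)
    (w : List (α × Bool)) : f (wv v w) = wv (fun s => f (v s)) w := by
  induction w with
  | nil => simp
  | cons a w ih =>
    rw [wv_cons, wv_cons, _root_.map_mul, ih]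
    obtain ⟨s, b⟩ := a
    cases b <;> simp [lv]

open Classical in
theorem u2_sz {σ R : Type} [Fintype σ] [DecidableEq σ] [CommRing R] [IsDomain R]
    (P : MvPolynomial σ R) (hP : P ≠ 0) (S : Finset R) :
    ((Fintype.piFinset fun _ : σ => S).filter fun m => MvPolynomial.eval m P = 0).card * S.card ≤
      P.totalDegree * S.card ^ Fintype.card σ := by
  rcases S.eq_empty_or_nonempty with rfl | hS
  · simp
  let e := Fintype.equivFin σ
  have hP' : MvPolynomial.rename e P ≠ 0 := by
    intro h
    apply hP
    exact MvPolynomial.rename_injective e e.injective (by rw [h, map_zero])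
  have h1 := MvPolynomial.schwartz_zippel_totalDegree hP' S
  have h2 : ((Fintype.piFinset fun _ : σ => S).filter fun m => MvPolynomial.eval m P = 0).card ≤
      ((Fintype.piFinset fun _ : Fin (Fintype.card σ) => S).filter
        fun m => MvPolynomial.eval m (MvPolynomial.rename e P) = 0).card := by
    refine Finset.card_le_card_of_injOn (fun m => m ∘ e.symm) ?_ ?_
    · intro m hm
      simp only [Finset.coe_filter, Fintype.mem_piFinset, Set.mem_ofPred_eq] at hm ⊢
      refine ⟨fun i => hm.1 _, ?_⟩
      rw [MvPolynomial.eval_rename]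
      have : (m ∘ e.symm) ∘ e = m := by
        funext x
        simp
      rw [this, hm.2]
    · intro m _ m' _ h
      funext x
      simpa using congrFun h (e x)
  have h3 := MvPolynomial.totalDegree_rename_le e P
  have hc : (0 : ℚ≥0) < S.card := by exact_mod_cast hS.card_pos
  rw [div_le_div_iff₀ (pow_pos hc _) hc] at h1
  have h4 : ((Fintype.piFinset fun _ : Fin (Fintype.card σ) => S).filter
        fun m => MvPolynomial.eval m (MvPolynomial.rename e P) = 0).card * S.card ≤
      (MvPolynomial.rename e P).totalDegree * S.card ^ Fintype.card σ := by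
    exact_mod_cast h1
  exact (Nat.mul_le_mul_right _ h2).trans (h4.trans (Nat.mul_le_mul_right _ h3))

open Classical in
/-- **Schwartz–Zippel for one letter.**  Over `R' = MvPolynomial (UI k) R` take the generic matrix
`uni X`; entries of `(u * uni X)⁻¹` and of `u * uni X` have total degree `≤ k`, entries of the word have total degree
`≤ length * k`; evaluation is `exists_map (eval m)`; some entry minus the entry of `1` is a non-zero polynomial
(evaluate at `ent (u⁻¹ * (v e)⁻¹)`); `MvPolynomial.schwartz_zippel_totalDegree` after `rename` along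
`Fintype.equivFin`. -/
theorem sz_letter {α R : Type} [CommRing R] [IsDomain R] {k : ℕ} (v : α → U k R) (e : α)
    (u : U k R) (S : Finset R) (w : List (α × Bool)) (hw : wv v w ≠ 1) :
    ((Fintype.piFinset fun _ : UI k => S).filter
        fun m => wv (Function.update v e (u * uni m)⁻¹) w = 1).card * S.card ≤
      w.length * k * S.card ^ Fintype.card (UI k) := by
  obtain ⟨ι, hι⟩ := exists_map (k := k) (MvPolynomial.C : R →+* MvPolynomial (UI k) R)
  have hι0 : ∀ g d, U2Deg d (ι g).1 := by
    intro g d i j
    rw [hι, Matrix.map_apply, MvPolynomial.totalDegree_C]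
    exact Nat.zero_le _
  let X : U k (MvPolynomial (UI k) R) := uni MvPolynomial.X
  have hX : U2Deg 1 X.1 := by
    intro i j
    simp only [X, uni]
    split_ifs
    · exact (MvPolynomial.totalDegree_X _).le
    · exact u2_deg_one 1 i j
  have huX : U2Deg 1 (ι u * X).1 := by
    simpa using u2_deg_mul (hι0 u 0) hX
  let v' : α → U k (MvPolynomial (UI k) R) := Function.update (fun s => ι (v s)) e (ι u * X)⁻¹
  have hlv : ∀ a, U2Deg k (lv v' a).1 := by
    rintro ⟨s, b⟩
    by_cases hs : s = e
    · subst hs
      cases b
      · simp only [lv, v', Function.update_self, cond_false, inv_inv]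
        intro i j
        exact (huX i j).trans i.pos
      · simp only [lv, v', Function.update_self, cond_true]
        exact u2_deg_inv huX
    · cases b
      · simp only [lv, v', Function.update_of_ne hs, cond_false, ← _root_.map_inv]
        exact hι0 _ _
      · simp only [lv, v', Function.update_of_ne hs, cond_true]
        exact hι0 _ _
  have hW : ∀ w : List (α × Bool), U2Deg (w.length * k) (wv v' w).1 := by
    intro w
    induction w with
    | nil => simpa using u2_deg_one 0
    | cons a w ih =>
      rw [wv_cons, U.val_mul, List.length_cons, Nat.succ_mul, add_comm]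
      exact u2_deg_mul (hlv a) ih
  have hev : ∀ m : UI k → R, (wv (Function.update v e (u * uni m)⁻¹) w).1 =
      (wv v' w).1.map (MvPolynomial.eval m) := by
    intro m
    obtain ⟨f, hf⟩ := exists_map (k := k) (MvPolynomial.eval m)
    have h1 : ∀ g, f (ι g) = g := by
      intro g
      apply Subtype.ext
      rw [hf, hι]
      ext i j
      simp
    have h2 : f X = uni m := by
      apply Subtype.ext
      rw [hf]
      ext i j
      simp only [X, uni, Matrix.map_apply]
      split_ifs
      · simp
      · rw [Matrix.one_apply, Matrix.one_apply]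
        split_ifs <;> simp
    rw [← hf, u2_map_wv]
    congr 2
    funext s
    by_cases hs : s = e
    · subst hs
      simp only [v', Function.update_self, _root_.map_inv, _root_.map_mul, h1, h2]
    · simp only [v', Function.update_of_ne hs, h1]
  obtain ⟨i, j, hij⟩ : ∃ i j, (wv v w).1 i j ≠ (1 : Matrix (Fin k) (Fin k) R) i j := by
    by_contra h
    push Not at h
    exact hw (Subtype.ext (Matrix.ext h))
  let P : MvPolynomial (UI k) R :=
    ((wv v' w).1 - (1 : Matrix (Fin k) (Fin k) (MvPolynomial (UI k) R))) i j
  have hP : ∀ m : UI k → R, MvPolynomial.eval m P =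
      (wv (Function.update v e (u * uni m)⁻¹) w).1 i j - (1 : Matrix (Fin k) (Fin k) R) i j := by
    intro m
    simp only [P, hev, Matrix.sub_apply, Matrix.map_apply, map_sub, Matrix.one_apply]
    split_ifs <;> simp
  have hP0 : P ≠ 0 := by
    intro h
    have := hP (ent (u⁻¹ * (v e)⁻¹))
    rw [h, map_zero, uni_ent, mul_inv_cancel_left, inv_inv, Function.update_eq_self] at this
    exact hij (sub_eq_zero.1 this.symm)
  have hd : P.totalDegree ≤ w.length * k := u2_deg_sub (hW w) (u2_deg_one _) i j
  refine le_trans (Nat.mul_le_mul_right _ (Finset.card_le_card ?_))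
    ((u2_sz P hP0 S).trans (Nat.mul_le_mul_right _ hd))
  intro m hm
  rw [Finset.mem_filter] at hm ⊢
  refine ⟨hm.1, ?_⟩
  rw [hP, hm.2, U.val_one, sub_self]

end Crest.Agent.R129
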