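import Crest.Agent.R129.EG
import Crest.Agent.R129.Uni2
import Crest.Agent.R129.FP

/-!
# R129 / Detect : short walks in graphs of large girth are detected in `U k R`
-/

set_option autoImplicit false
open FreeGroup

namespace Crest.Agent.R129
theorem Detect_wv_congr {E G : Type} [Group G] {v v' : E → G} {ω : List (E × Bool)}
    (h : ∀ a ∈ ω, v a.1 = v' a.1) : wv v ω = wv v' ω := by
  induction ω with
  | nil => simp
  | cons a ω ih =>
    rw [wv_cons, wv_cons, ih fun b hb => h b (List.mem_cons_of_mem _ hb), lv, lv,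
      h a List.mem_cons_self]

theorem Detect_wv_filter {E G : Type} [Group G] {v : E → G} {ω : List (E × Bool)}
    (p : E × Bool → Bool) (h : ∀ a ∈ ω, p a = false → v a.1 = 1) : wv v (ω.filter p) = wv v ω := by
  induction ω with
  | nil => simp
  | cons a ω ih =>
    have ih' := ih fun b hb => h b (List.mem_cons_of_mem _ hb)
    cases hp : p a
    · have h1 : lv v a = 1 := by
        rw [lv, h a List.mem_cons_self hp]
        cases a.2 <;> simp
      rw [List.filter_cons_of_neg (by simp [hp]), wv_cons, h1, one_mul, ih']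
    · rw [List.filter_cons_of_pos hp, wv_cons, wv_cons, ih']

theorem Detect_wv_one {E G : Type} [Group G] {v : E → G} {ω : List (E × Bool)}
    (h : ∀ a ∈ ω, v a.1 = 1) : wv v ω = 1 := by
  rw [← Detect_wv_filter (fun _ => false) fun a ha _ => h a ha]
  simp

theorem Detect_wv_of {E : Type} (ω : List (E × Bool)) : wv FreeGroup.of ω = FreeGroup.mk ω := by
  rw [wv, FreeGroup.lift_of_apply]

theorem Detect_filter_card {α : Type} (l : List α) (p : α → Bool) :
    (l.filter p).length = ((Finset.univ : Finset (Fin l.length)).filter fun i => p l[i.1]).card := by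
  rw [Finset.card_filter, Fin.sum_univ_fun_getElem l fun a => if p a then 1 else 0]
  induction l with
  | nil => simp
  | cons a l ih =>
    cases hp : p a
    · rw [List.filter_cons_of_neg (by simp [hp]), ih]; simp [hp]
    · rw [List.filter_cons_of_pos hp, List.length_cons, ih]; simp [hp, add_comm]

open Classical in
theorem Detect_filter_le {E : Type} (ω : List (E × Bool)) (K : Finset E) :
    (ω.filter fun a => @decide (a.1 ∈ K) (Classical.propDecidable _)).length ≤
      ∑ e ∈ K, (ω.filter fun a => a.1 = e).length := by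
  induction ω with
  | nil => simp
  | cons a ω ih =>
    have h1 : ∀ e, ((a :: ω).filter fun a => a.1 = e).length =
        (if a.1 = e then 1 else 0) + (ω.filter fun a => a.1 = e).length := by
      intro e
      by_cases h : a.1 = e
      · rw [List.filter_cons_of_pos (by simpa using h), if_pos h, List.length_cons, add_comm]
      · rw [List.filter_cons_of_neg (by simpa using h), if_neg h, zero_add]
    simp only [h1, Finset.sum_add_distrib, Finset.sum_ite_eq]
    by_cases h : a.1 ∈ K
    · rw [List.filter_cons_of_pos (by simpa using h), if_pos h, List.length_cons]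
      omega
    · rw [List.filter_cons_of_neg (by simpa using h), if_neg h, zero_add]
      exact ih

namespace EG
variable {V E : Type} (Gr : EG V E)

theorem Detect_track (d : E × Bool) {x y : V} {ω : List (E × Bool)} (hω : Gr.Walk x ω y) :
    ∃ (z : ℕ → V) (a : ℕ → E × Bool), (∀ i, Gr.Walk x (ω.take i) (z i)) ∧
      (∀ i j, i ≤ j → Gr.Walk (z i) ((ω.take j).drop i) (z j)) ∧
      (∀ i (hi : i < ω.length), a i = ω[i]) ∧
      (∀ i < ω.length, z i = Gr.hs (a i) ∧ z (i + 1) = Gr.ht (a i)) ∧
      (∀ i j, i ≤ j → j < ω.length → (ω.take (j + 1)).drop i = (ω.take j).drop i ++ [a j]) ∧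
      (∀ j, ∀ b ∈ ω.take j, ∃ i < j, i < ω.length ∧ a i = b) := by
  have h1 : ∀ i, ∃ z, Gr.Walk x (ω.take i) z := fun i => by
    rw [← List.take_append_drop i ω] at hω
    exact (LG.reads_append_iff.1 hω).imp fun _ h => h.1
  choose z hz using h1
  have h2 : ∀ i j, i ≤ j → Gr.Walk (z i) ((ω.take j).drop i) (z j) := by
    intro i j hij
    have h := hz j
    rw [← List.take_append_drop i (ω.take j), List.take_take, min_eq_left hij] at h
    obtain ⟨m, hm, hm'⟩ := LG.reads_append_iff.1 h
    rwa [hm.unique (hz i)] at hm'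
  have h3 : ∀ i (hi : i < ω.length), ω.getD i d = ω[i] := fun i hi => List.getD_eq_getElem _ _ hi
  have h4 : ∀ i j, i ≤ j → j < ω.length →
      (ω.take (j + 1)).drop i = (ω.take j).drop i ++ [ω.getD j d] := by
    intro i j hij hj
    rw [List.take_succ_eq_append_getElem hj, h3 j hj, List.drop_append_of_le_length]
    rw [List.length_take]; omega
  refine ⟨z, fun i => ω.getD i d, hz, h2, h3, fun i hi => ?_, h4, fun j b hb => ?_⟩
  · have h := h2 i (i + 1) (Nat.le_succ i)
    rw [h4 i i le_rfl hi, List.drop_eq_nil_of_le (by rw [List.length_take]; omega),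
      List.nil_append] at h
    exact LG.reads_singleton_iff.1 h
  · obtain ⟨i, hi, e⟩ := List.mem_take_iff_getElem.1 hb
    exact ⟨i, by omega, by omega, by rw [← e]; exact h3 i (by omega)⟩

theorem Detect_lv {G : Type} [Group G] (τ : V → G) (ρ : E → G) (a : E × Bool) :
    lv (fun e => τ (Gr.src e) * ρ e * (τ (Gr.tgt e))⁻¹) a =
      τ (Gr.hs a) * lv ρ a * (τ (Gr.ht a))⁻¹ := by
  rcases a with ⟨e, _ | _⟩
  · simp [lv, hs, ht, mul_assoc]
  · simp [lv, hs, ht]

theorem Detect_tele {G : Type} [Group G] (τ : V → G) (ρ : E → G) {x y : V} {ω : List (E × Bool)}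
    (hω : Gr.Walk x ω y) :
    wv (fun e => τ (Gr.src e) * ρ e * (τ (Gr.tgt e))⁻¹) ω = τ x * wv ρ ω * (τ y)⁻¹ := by
  induction ω generalizing x with
  | nil => rw [LG.reads_nil_iff.1 hω]; simp
  | cons a ω ih =>
    obtain ⟨m, ⟨h1, h2⟩, h3⟩ := LG.reads_cons_iff.1 hω
    rw [wv_cons, wv_cons, ih h3, Detect_lv, h1, h2]
    group

/-- every non-empty reduced closed walk at a vertex of `ω` is longer than `2h`. -/
def LocGirth (x : V) (ω : List (E × Bool)) (h : ℕ) : Prop :=
  ∀ p z σ, p <+: ω → Gr.Walk x p z → Gr.Walk z σ z → IsReduced σ → σ ≠ [] → 2 * h < σ.length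

theorem Detect_short {x z : V} {ω p σ : List (E × Bool)} {h : ℕ} (hg : Gr.LocGirth x ω h)
    (hp : p <+: ω) (hz : Gr.Walk x p z) (hσ : Gr.Walk z σ z) (hl : σ.length ≤ 2 * h) :
    FreeGroup.mk σ = 1 := by
  obtain ⟨r, h1, h2, h3, h4⟩ := LG.exists_reduced σ
  by_cases hr : r = []
  · rw [← h3, hr, FreeGroup.one_eq_mk]
  · have := hg p z r hp hz (LG.ReadsIn.red hσ h2) h1 hr
    omega

theorem Detect_ne {x : V} {ω : List (E × Bool)} {h : ℕ} (hr : IsReduced ω) (hg : Gr.LocGirth x ω h)
    {z : ℕ → V} (h1 : ∀ i, Gr.Walk x (ω.take i) (z i))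
    (h2 : ∀ i j, i ≤ j → Gr.Walk (z i) ((ω.take j).drop i) (z j)) {i j : ℕ} (hij : i < j)
    (hj : j ≤ ω.length) (hl : j ≤ i + 2 * h) : z i ≠ z j := by
  intro e
  have h3 := h2 i j hij.le
  rw [← e] at h3
  have h4 : ((ω.take j).drop i).length = j - i := by
    rw [List.length_drop, List.length_take, min_eq_left hj]
  have := hg _ _ _ (List.take_prefix i ω) (h1 i) h3
    (hr.infix ((List.drop_suffix _ _).isInfix.trans (List.take_prefix _ _).isInfix))
    (fun h => by rw [h] at h4; simp at h4; omega)
  omega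

open Classical in
/-- an edge occurs at most once in each segment of length `h` (the vertices of a segment of a reduced walk are
pairwise distinct by the girth, and an edge that occurs twice repeats a vertex or backtracks). -/
theorem count_le {x y : V} {ω : List (E × Bool)} {h j : ℕ} (hω : Gr.Walk x ω y) (hr : IsReduced ω)
    (hg : Gr.LocGirth x ω h) (h0 : 0 < h) (hl : ω.length ≤ j * h) (e : E) :
    (ω.filter fun a => a.1 = e).length ≤ j := by
  obtain ⟨z, a, h1, h2, h3, h4, -, -⟩ := Gr.Detect_track (e, true) hω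
  have key : ∀ i i', i < i' → i' < ω.length → (a i).1 = (a i').1 → i / h = i' / h → False := by
    intro i i' hi hi' he hd
    have hlt : i' < i + h := by
      have e1 := Nat.div_add_mod i h
      have e2 := Nat.div_add_mod i' h
      have := Nat.mod_lt i' h0
      rw [hd] at e1
      omega
    obtain ⟨e1, e2⟩ := h4 i (by omega)
    obtain ⟨e3, e4⟩ := h4 i' hi'
    by_cases hb : (a i).2 = (a i').2
    · refine Gr.Detect_ne hr hg h1 h2 hi hi'.le (by omega) ?_
      rw [e1, e3, Prod.ext he hb]
    · refine Gr.Detect_ne hr hg h1 h2 (show i < i' + 1 by omega) hi' (by omega) ?_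
      have : a i = linv (a i') := Prod.ext he (by
        revert hb
        simp only [linv]
        cases (a i).2 <;> cases (a i').2 <;> simp)
      rw [e1, e4, this, hs_linv]
  rw [Detect_filter_card, ← Finset.card_range j]
  refine Finset.card_le_card_of_injOn (fun i => i.1 / h) (fun i _ => ?_) fun i hi i' hi' hd => ?_
  · have := i.2
    rw [Finset.coe_range, Set.mem_Iio, Nat.div_lt_iff_lt_mul h0]
    omega
  · have e1 : (a i).1 = e := by rw [h3 i i.2]; simpa using hi
    have e2 : (a i').1 = e := by rw [h3 i' i'.2]; simpa using hi'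
    by_contra hne
    rcases lt_or_gt_of_ne hne with hlt | hlt
    · exact key i i' hlt i'.2 (e1.trans e2.symm) hd
    · exact key i' i hlt i.2 (e2.trans e1.symm) hd.symm

/-- **Spanning tree.**  Call the position `t` (`ω = p ++ a :: q`, `t = |p|`) *closing* if the edge `a.1` does not occur in
`p` and `ht a` is a vertex of the walk `p` (including `x`).  `K` is the set of edges of closing positions.
(1) `|K| ≤ j²`: the map sending a closing position to (its segment `t / h`, the segment of an earlier visit of
`ht a`) is injective: two closing positions `t₁ < t₂` with the same pair give a closed walk of length `≤ 2h`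
(from `t₁+1` to `t₂+1` along `ω`, back inside the earlier segment) that contains the new edge of `t₂` exactly once, so it is
not freely trivial and its reduced form contradicts the girth.
(2) By induction on prefixes `p` there are `τ z : FreeGroup E` for the visited vertices `z`, `τ x = 1`, with `τ (tgt e) = τ (src e) * of e` for visited non-closing `e`.
Let `Φ (of e) = τ (src e) * of e * (τ (tgt e))⁻¹`.  Then `Φ (mk ω) = mk ω ≠ 1` (telescoping) and `Φ` kills the non-closing edges of
`ω`, so `Φ (mk ω) = Φ (mk (ω.filter (· ∈ K)))`. -/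
theorem exists_closing {x : V} {ω : List (E × Bool)} {h j : ℕ} (hω : Gr.Walk x ω x)
    (hr : IsReduced ω) (hne : ω ≠ []) (hg : Gr.LocGirth x ω h) (h0 : 0 < h)
    (hl : ω.length ≤ j * h) :
    ∃ K : Finset E, K.card ≤ j ^ 2 ∧
      FreeGroup.mk (ω.filter fun a => @decide (a.1 ∈ K) (Classical.propDecidable _)) ≠ 1 := by
  classical
  obtain ⟨d, -⟩ := List.exists_mem_of_ne_nil ω hne
  obtain ⟨z, a, h1, h2, h3, h4, h5, h6⟩ := Gr.Detect_track d hω
  set C : Finset ℕ := (Finset.range ω.length).filter
    fun t => (∀ i < t, (a i).1 ≠ (a t).1) ∧ ∃ s ≤ t, z s = z (t + 1) with hC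
  have hCm : ∀ t, t ∈ C ↔ t < ω.length ∧ (∀ i < t, (a i).1 ≠ (a t).1) ∧ ∃ s ≤ t, z s = z (t + 1) :=
    fun t => by rw [hC, Finset.mem_filter, Finset.mem_range]
  have hs : ∀ t, ∃ s, t ∈ C → s ≤ t ∧ z s = z (t + 1) := fun t => by
    by_cases ht : t ∈ C
    · exact ((hCm t).1 ht).2.2.imp fun s hs _ => hs
    · exact ⟨0, fun h => absurd h ht⟩
  choose s hs using hs
  have near : ∀ i i', i / h = i' / h → i' < i + h := by
    intro i i' hd
    have e1 := Nat.div_add_mod i h
    have e2 := Nat.div_add_mod i' h
    have := Nat.mod_lt i' h0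
    rw [hd] at e1
    omega
  have key : ∀ t ∈ C, ∀ t' ∈ C, t < t' → t / h = t' / h → s t / h = s t' / h → False := by
    intro t ht t' ht' hlt hd hd'
    obtain ⟨b1, b2, -⟩ := (hCm t').1 ht'
    obtain ⟨c1, c2⟩ := hs t ht
    obtain ⟨c3, c4⟩ := hs t' ht'
    have n1 := near _ _ hd
    have n2 := near _ _ hd'
    have n3 := near _ _ hd'.symm
    -- segments before `t'` avoid the edge of `t'`
    have av : ∀ i m, m ≤ t' → ∀ b ∈ (ω.take m).drop i, b.1 ≠ (a t').1 := by
      intro i m hm b hb
      obtain ⟨l, hl1, -, rfl⟩ := h6 m b (List.mem_of_mem_drop hb)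
      exact b2 l (by omega)
    have len : ∀ i m, ((ω.take m).drop i).length ≤ m - i := by
      intro i m
      rw [List.length_drop, List.length_take]; omega
    obtain ⟨u, hu1, hu2, hu3⟩ : ∃ u, Gr.Walk (z (s t')) u (z (s t)) ∧ u.length < h ∧
        ∀ b ∈ u, b.1 ≠ (a t').1 := by
      rcases le_total (s t') (s t) with hle | hle
      · exact ⟨_, h2 _ _ hle, by have := len (s t') (s t); omega, av _ _ (by omega)⟩
      · refine ⟨_, (h2 _ _ hle).invRev, by
          have := len (s t) (s t')
          rw [invRev_length]; omega, fun b hb => ?_⟩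
        simp only [invRev, List.mem_reverse, List.mem_map] at hb
        obtain ⟨b', hb', rfl⟩ := hb
        exact av _ _ c3 b' hb'
    have w1 := h2 (t + 1) (t' + 1) (by omega)
    rw [← c4] at w1
    rw [c2] at hu1
    have w2 := Gr.Detect_short hg (List.take_prefix (t + 1) ω) (h1 (t + 1)) (w1.append hu1) (by
      have := len (t + 1) (t' + 1)
      rw [List.length_append]; omega)
    have w3 : wv (fun e => if e = (a t').1 then FreeGroup.of e else 1)
        ((ω.take (t' + 1)).drop (t + 1) ++ u) = 1 := by
      rw [wv, w2, _root_.map_one]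
    rw [h5 _ _ (by omega) b1, wv_append, wv_append,
      Detect_wv_one fun b hb => if_neg (av _ _ le_rfl b hb),
      Detect_wv_one fun b hb => if_neg (hu3 b hb), one_mul, mul_one, wv_cons, wv_nil, mul_one, lv,
      if_pos rfl] at w3
    revert w3
    cases (a t').2 <;> simp
  refine ⟨C.image fun t => (a t).1, Finset.card_image_le.trans ?_, ?_⟩
  · rw [sq, ← Finset.card_range j, ← Finset.card_product]
    refine Finset.card_le_card_of_injOn (fun t => (t / h, s t / h)) (fun t ht => ?_)
      fun t ht t' ht' hd => ?_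
    · have e1 := ((hCm t).1 ht).1
      have e2 := (hs t ht).1
      rw [Finset.mem_coe, Finset.mem_product, Finset.mem_range, Finset.mem_range,
        Nat.div_lt_iff_lt_mul h0, Nat.div_lt_iff_lt_mul h0]
      constructor <;> omega
    · obtain ⟨e1, e2⟩ := Prod.mk.inj hd
      by_contra hne
      rcases lt_or_gt_of_ne hne with hlt | hlt
      · exact key t ht t' ht' hlt e1 e2
      · exact key t' ht' t ht hlt e1.symm e2.symm
  · have tree : ∀ t ≤ ω.length, ∃ τ : V → FreeGroup E, ∀ i < t,
        (a i).1 ∉ C.image (fun t => (a t).1) →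
          τ (Gr.tgt (a i).1) = τ (Gr.src (a i).1) * FreeGroup.of (a i).1 := by
      intro t
      induction t with
      | zero => exact fun _ => ⟨fun _ => 1, fun i hi => absurd hi (Nat.not_lt_zero i)⟩
      | succ t ih =>
        intro ht
        obtain ⟨τ, hτ⟩ := ih (by omega)
        by_cases hold : ∃ i < t, (a i).1 = (a t).1
        · obtain ⟨i₀, hi₀, e⟩ := hold
          refine ⟨τ, fun i hi hK => ?_⟩
          rcases Nat.lt_succ_iff_lt_or_eq.1 hi with hi | rfl
          · exact hτ i hi hK
          · rw [← e] at hK ⊢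
            exact hτ i₀ hi₀ hK
        by_cases hvis : ∃ s ≤ t, z s = z (t + 1)
        · refine ⟨τ, fun i hi hK => ?_⟩
          rcases Nat.lt_succ_iff_lt_or_eq.1 hi with hi | rfl
          · exact hτ i hi hK
          · exact absurd (Finset.mem_image_of_mem _
              ((hCm i).2 ⟨ht, fun l hl e => hold ⟨l, hl, e⟩, hvis⟩)) hK
        push Not at hvis
        refine ⟨Function.update τ (z (t + 1)) (τ (z t) * lv FreeGroup.of (a t)),
          fun i hi hK => ?_⟩
        obtain ⟨e1, e2⟩ := h4 i (by omega)
        rcases Nat.lt_succ_iff_lt_or_eq.1 hi with hi | rfl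
        · have n1 := hvis i hi.le
          have n2 := hvis (i + 1) hi
          rw [e1] at n1
          rw [e2] at n2
          have n3 : Gr.src (a i).1 ≠ z (t + 1) ∧ Gr.tgt (a i).1 ≠ z (t + 1) := by
            revert n1 n2
            rcases a i with ⟨e, _ | _⟩
            · exact fun n1 n2 => ⟨n2, n1⟩
            · exact fun n1 n2 => ⟨n1, n2⟩
          rw [Function.update_of_ne n3.1, Function.update_of_ne n3.2]
          exact hτ i hi hK
        · have n1 := hvis i le_rfl
          rw [e1, e2] at n1 ⊢
          revert n1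
          rcases a i with ⟨e, _ | _⟩
          · intro n1
            have n2 : Gr.tgt e ≠ Gr.src e := n1
            simp [EG.hs, EG.ht, lv, Function.update_of_ne n2]
          · intro n1
            have n2 : Gr.src e ≠ Gr.tgt e := n1
            simp [EG.hs, EG.ht, lv, Function.update_of_ne n2]
    obtain ⟨τ, hτ⟩ := tree _ le_rfl
    intro h1'
    have e1 := Gr.Detect_tele τ FreeGroup.of hω
    rw [← Detect_wv_filter (fun a' => @decide (a'.1 ∈ C.image fun t => (a t).1)
      (Classical.propDecidable _)), wv, h1', _root_.map_one, Detect_wv_of] at e1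
    · have e2 : FreeGroup.mk ω = FreeGroup.mk [] := by
        rw [← FreeGroup.one_eq_mk]
        have : FreeGroup.mk ω = (τ x)⁻¹ * (τ x * FreeGroup.mk ω * (τ x)⁻¹) * τ x := by group
        rw [this, ← e1]; group
      exact hne (red_eq hr IsReduced.nil e2)
    · intro b hb hb'
      obtain ⟨i, hi, -, rfl⟩ := h6 ω.length b (by rwa [List.take_length])
      rw [hτ i hi (by simpa using hb')]
      group

/-- closed walk: `exists_closing`, `count_le`, `detect_word` (send the other edges to `1`).  Walk from `x` to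
`y ≠ x`: send `e` to `1 + c_e E₀₁`, `c_e = [src e = x] - [tgt e = x]`; the `(0,1)` entry of the value is `1`. -/
theorem detect {R : Type} [CommRing R] [IsDomain R] {k j : ℕ} (hk : j ^ 3 + 2 ≤ k)
    (hR : ∀ n : ℕ, 0 < n → n ≤ k → (n : R) ≠ 0) {x y : V} {ω : List (E × Bool)} {h : ℕ}
    (hω : Gr.Walk x ω y) (hr : IsReduced ω) (hne : ω ≠ []) (hg : Gr.LocGirth x ω h) (h0 : 0 < h)
    (hl : ω.length ≤ j * h) : ∃ v : E → U k R, wv v ω ≠ 1 := by
  classical
  by_cases hxy : x = y
  · subst hxy
    obtain ⟨K, hK, hK'⟩ := Gr.exists_closing hω hr hne hg h0 hl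
    obtain ⟨v, hv⟩ := detect_word hR _ hK' (by
      refine (Detect_filter_le ω K).trans_lt (((Finset.sum_le_card_nsmul _ _ j fun e _ =>
        Gr.count_le hω hr hg h0 hl e).trans ?_).trans_lt (show j ^ 3 < k by omega))
      rw [smul_eq_mul, pow_succ]
      exact Nat.mul_le_mul_right _ hK)
    refine ⟨fun e => if e ∈ K then v e else 1, ?_⟩
    rw [← Detect_wv_filter (fun a => @decide (a.1 ∈ K) (Classical.propDecidable _))
      fun a _ ha => if_neg (by simpa using ha),
      Detect_wv_congr (v' := v) fun a ha => if_pos (by simpa using (List.mem_filter.1 ha).2)]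
    exact hv
  · obtain ⟨v, hv⟩ := detect_word hR [((), true)] (fun h => by
      have := red_eq IsReduced.singleton IsReduced.nil (h.trans FreeGroup.one_eq_mk)
      simp at this) (by simp; omega)
    have h1 := Gr.Detect_tele (fun z => if z = x then wv v [((), true)] else 1) (fun _ => 1) hω
    rw [Detect_wv_one (v := fun _ => 1) fun _ _ => rfl, if_pos rfl, if_neg fun h => hxy h.symm,
      mul_one, inv_one, mul_one] at h1
    exact ⟨_, by rwa [h1]⟩

end EG

open Classical in
/-- probability that a detectable word vanishes: the value of the edge `e` at the sample `θ` is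
`val e θ`, and for every function `χ` of the value the expectation is an average (over some `u`) of uniform averages of
`χ ((u * uni m)⁻¹)` over a box of side `≥ μ`.  `FP.sepSZ` + `sz_letter` + `FP.Ex_subset`. -/
theorem prob_word {E Θ R : Type} [CommRing R] [IsDomain R] {k : ℕ} (P : FP E Θ)
    (val : E → Θ → U k R) (F : Finset E) (ω : List (E × Bool)) (hF : ∀ a ∈ ω, a.1 ∈ F)
    (hdet : ∃ v : E → U k R, wv v ω ≠ 1) (μ : ℕ) (hμ : 0 < μ)
    (hval : ∀ a ∈ ω, ∃ (S : Finset R), μ ≤ S.card ∧ ∀ (B : U k R → Prop) (δ : ℝ),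
      (∀ u : U k R, (((Fintype.piFinset fun _ : UI k => S).filter fun m => B (u * uni m)⁻¹).card : ℝ) ≤
        δ * (S.card : ℝ) ^ Fintype.card (UI k)) →
      ∑ θ ∈ (P.Ω a.1).filter fun θ => B (val a.1 θ), P.w a.1 θ ≤ δ) :
    P.Pr F {x | wv (fun e => val e (x e)) ω = 1} ≤ (ω.length : ℝ) ^ 2 * k / μ := by
  set F₀ : Finset E := (ω.map Prod.fst).toFinset with hF₀
  have hm : ∀ e, e ∈ F₀ ↔ ∃ a ∈ ω, a.1 = e := fun e => by
    rw [hF₀, List.mem_toFinset, List.mem_map]
  have hsub : F₀ ⊆ F := fun e he => by
    obtain ⟨a, ha, rfl⟩ := (hm e).1 he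
    exact hF a ha
  have hμ' : (0 : ℝ) < μ := by exact_mod_cast hμ
  have h1 := P.sepSZ F₀ val (fun v => wv v ω ≠ 1)
    (fun v v' h => by
      show (wv v ω ≠ 1) = (wv v' ω ≠ 1)
      rw [Detect_wv_congr fun a ha => h a.1 ((hm _).2 ⟨a, ha, rfl⟩)]) hdet
    (δ := (ω.length : ℝ) * k / μ) (by positivity) (fun e he v hv => by
      obtain ⟨a, ha, rfl⟩ := (hm e).1 he
      obtain ⟨S, hS, hB⟩ := hval a ha
      refine le_trans (le_of_eq ?_) (hB (fun g => wv (Function.update v a.1 g) ω = 1) _ fun u => ?_)
      · congr 1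
        ext θ
        simp
      · have h2 := sz_letter v a.1 u S ω hv
        have hS' : (μ : ℝ) ≤ S.card := by exact_mod_cast hS
        have h3 : ((((Fintype.piFinset fun _ : UI k => S).filter fun m =>
            wv (Function.update v a.1 (u * uni m)⁻¹) ω = 1).card : ℕ) : ℝ) * S.card ≤
            ω.length * k * (S.card : ℝ) ^ Fintype.card (UI k) := by exact_mod_cast h2
        rw [div_mul_eq_mul_div, le_div_iff₀ hμ']
        refine le_trans ?_ h3
        convert mul_le_mul_of_nonneg_left hS' (Nat.cast_nonneg _))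
  have h2 : P.Pr F {x | wv (fun e => val e (x e)) ω = 1} =
      P.Pr F₀ {x | wv (fun e => val e (x e)) ω = 1} := by
    refine P.Ex_subset hsub fun x y h => ?_
    have : wv (fun e => val e (x e)) ω = wv (fun e => val e (y e)) ω :=
      Detect_wv_congr fun a ha => by rw [h a.1 ((hm _).2 ⟨a, ha, rfl⟩)]
    simp only [Set.indicator, Set.mem_ofPred_eq, this, Pi.one_apply]
  have h3 : (F₀.card : ℝ) ≤ ω.length := by
    have := List.toFinset_card_le (ω.map Prod.fst)
    rw [List.length_map] at this
    exact_mod_cast this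
  simp only [ne_eq, not_not] at h1
  rw [h2]
  refine h1.trans ((mul_le_mul_of_nonneg_right h3 (by positivity)).trans (le_of_eq ?_))
  ring

end Crest.Agent.R129
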