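import Mathlib

/-!
# R129 / Graph : folded labelled graphs, pieces, the small cancellation hypothesis `SC`,
and the output `Str` of the structure theorem.

Letters are `S × Bool` as in `FreeGroup`; words are `List (S × Bool)`.  In a group `G` with
`π : S → G` the Cayley edge with letter `a` goes from `v` to `(lv π a)⁻¹ * v`, so the word `w` read
from `v` ends at `(wv π w)⁻¹ * v`.
-/

set_option autoImplicit false
open FreeGroup

namespace Crest.Agent.R129

/-- inverse letter -/
def linv {S : Type} (a : S × Bool) : S × Bool := (a.1, !a.2)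

@[simp] theorem linv_linv {S : Type} (a : S × Bool) : linv (linv a) = a := by
  simp [linv]

/-- value of a letter -/
def lv {S G : Type} [Group G] (π : S → G) (a : S × Bool) : G := cond a.2 (π a.1) (π a.1)⁻¹

/-- value of a word -/
noncomputable def wv {S G : Type} [Group G] (π : S → G) (w : List (S × Bool)) : G :=
  FreeGroup.lift π (FreeGroup.mk w)

section wv
variable {S G : Type} [Group G] (π : S → G)

theorem lv_linv (a : S × Bool) : lv π (linv a) = (lv π a)⁻¹ := by
  obtain ⟨s, b⟩ := a
  cases b <;> simp [lv, linv]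

@[simp] theorem wv_nil : wv π [] = 1 := by
  simp [wv]

theorem wv_cons (a : S × Bool) (w : List (S × Bool)) : wv π (a :: w) = lv π a * wv π w := by
  simp only [wv, lift_mk, List.map_cons, List.prod_cons, lv]

theorem wv_append (w w' : List (S × Bool)) : wv π (w ++ w') = wv π w * wv π w' := by
  rw [wv, wv, wv, ← _root_.map_mul, mul_mk]

theorem wv_invRev (w : List (S × Bool)) : wv π (invRev w) = (wv π w)⁻¹ := by
  rw [wv, wv, ← _root_.map_inv, inv_mk]

theorem wv_eq_prod (w : List (S × Bool)) : wv π w = (w.map (lv π)).prod := by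
  rfl

end wv

section words
variable {S : Type}

/-- reduced words with the same value in the free group are equal. -/
theorem red_eq {a b : List (S × Bool)} (ha : IsReduced a) (hb : IsReduced b)
    (h : FreeGroup.mk a = FreeGroup.mk b) : a = b := by
  obtain ⟨c, h1, h2⟩ := Red.exact.1 h
  exact (ha.red_iff_eq.1 h1).symm.trans (hb.red_iff_eq.1 h2)

/-- tripod lemma: the cancellation in the product of two reduced words. -/
theorem tripod {r s : List (S × Bool)} (hr : IsReduced r) (hs : IsReduced s) :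
    ∃ α β γ : List (S × Bool), r = α ++ β ∧ s = invRev β ++ γ ∧ IsReduced (α ++ γ) := by
  induction s generalizing r with
  | nil => exact ⟨r, [], [], by simp, by simp, by simpa using hr⟩
  | cons b s ih =>
    by_cases h : IsReduced (r ++ b :: s)
    · exact ⟨r, [], b :: s, by simp, by simp, h⟩
    rcases List.eq_nil_or_concat' r with rfl | ⟨r', a, rfl⟩
    · exact absurd hs h
    obtain ⟨α, β, γ, h1, h2, h3⟩ := ih (r := r') (hr.infix ⟨[], [a], by simp⟩)
      (hs.infix ⟨[b], [], by simp⟩)
    have hab : b = (a.1, !a.2) := by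
      by_contra hne
      refine h (List.IsChain.append hr hs ?_)
      intro x hx y hy e
      simp only [List.getLast?_concat, List.head?_cons, Option.mem_def, Option.some.injEq] at hx hy
      subst hx hy
      by_contra e'
      exact hne (Prod.ext e.symm (by
        revert e'
        cases a.2 <;> cases b.2 <;> simp))
    exact ⟨α, β ++ [a], γ, by rw [h1, List.append_assoc], by simp [h2, hab, invRev], h3⟩

theorem isReduced_invRev {r : List (S × Bool)} (hr : IsReduced r) : IsReduced (invRev r) := by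
  refine IsReduced.of_forall_not_step fun L h => hr.not_step (L₂ := invRev L) ?_
  simpa using h.invRev

end words

/-- a folded `S`-labelled graph on the vertex type `V`. -/
structure LG (S V : Type) where
  E : V → S × Bool → V → Prop
  symm : ∀ {x a y}, E x a y → E y (linv a) x
  func : ∀ {x a y y'}, E x a y → E x a y' → y = y'

namespace LG
variable {S V : Type} (Γ : LG S V)

/-- `w` is read from `x` to `z`, all vertices lying in `A`. -/
inductive ReadsIn (A : Set V) : V → List (S × Bool) → V → Prop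
  | nil {x : V} : x ∈ A → ReadsIn A x [] x
  | cons {x y z : V} {a : S × Bool} {w : List (S × Bool)} :
      x ∈ A → Γ.E x a y → ReadsIn A y w z → ReadsIn A x (a :: w) z

/-- `w` is read from `x` to `z`. -/
def Reads (x : V) (w : List (S × Bool)) (z : V) : Prop := Γ.ReadsIn Set.univ x w z

/-- the ball of radius `r`. -/
def Ball (y : V) (r : ℕ) : Set V := {x | ∃ w, Γ.Reads y w x ∧ w.length ≤ r}

/-- the connected component. -/
def Comp (y : V) : Set V := {x | ∃ w, Γ.Reads y w x}

/-- `z` is reached from `y` along a piece (a word that is also readable from an inequivalent point). -/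
def Pc (r : Setoid V) (y z : V) : Prop :=
  y = z ∨ ∃ y' z' w, ¬ r y y' ∧ Γ.Reads y w z ∧ Γ.Reads y' w z'

def Ch2 (r : Setoid V) (y z : V) : Prop := ∃ m, Γ.Pc r y m ∧ Γ.Pc r m z

def Ch3 (r : Setoid V) (y z : V) : Prop := ∃ m, Γ.Ch2 r y m ∧ Γ.Pc r m z

/-- every vertex has at most `dt` letters. -/
def DegLe [Fintype S] (dt : ℕ) : Prop :=
  ∀ (y : V) (s : Finset (S × Bool)), (∀ a ∈ s, ∃ z, Γ.E y a z) → s.card ≤ dt

variable {Γ}

theorem func' {x x' y : V} {a : S × Bool} (h : Γ.E x a y) (h' : Γ.E x' a y) : x = x' := by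
  exact Γ.func (Γ.symm h) (Γ.symm h')

theorem Reads.nil (x : V) : Γ.Reads x [] x := ReadsIn.nil trivial

theorem Reads.cons {x y z : V} {a : S × Bool} {w : List (S × Bool)} (h : Γ.E x a y)
    (h' : Γ.Reads y w z) : Γ.Reads x (a :: w) z := ReadsIn.cons trivial h h'

theorem readsIn_nil_iff {A : Set V} {x z : V} : Γ.ReadsIn A x [] z ↔ x = z ∧ x ∈ A := by
  constructor
  · intro h
    cases h with
    | nil h => exact ⟨rfl, h⟩
  · rintro ⟨rfl, h⟩
    exact .nil h

theorem readsIn_cons_iff {A : Set V} {x z : V} {a : S × Bool} {w : List (S × Bool)} :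
    Γ.ReadsIn A x (a :: w) z ↔ x ∈ A ∧ ∃ y, Γ.E x a y ∧ Γ.ReadsIn A y w z := by
  constructor
  · intro h
    cases h with
    | cons h1 h2 h3 => exact ⟨h1, _, h2, h3⟩
  · rintro ⟨h1, y, h2, h3⟩
    exact .cons h1 h2 h3

theorem reads_nil_iff {x z : V} : Γ.Reads x [] z ↔ x = z := by
  simp [Reads, readsIn_nil_iff]

theorem reads_cons_iff {x z : V} {a : S × Bool} {w : List (S × Bool)} :
    Γ.Reads x (a :: w) z ↔ ∃ y, Γ.E x a y ∧ Γ.Reads y w z := by
  simp [Reads, readsIn_cons_iff]

theorem reads_singleton_iff {x z : V} {a : S × Bool} : Γ.Reads x [a] z ↔ Γ.E x a z := by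
  simp [reads_cons_iff, reads_nil_iff]

theorem ReadsIn.left_mem {A : Set V} {x z : V} {w : List (S × Bool)} (h : Γ.ReadsIn A x w z) :
    x ∈ A := by
  cases h <;> assumption

theorem ReadsIn.right_mem {A : Set V} {x z : V} {w : List (S × Bool)} (h : Γ.ReadsIn A x w z) :
    z ∈ A := by
  induction h <;> assumption

theorem ReadsIn.mono {A B : Set V} (hAB : A ⊆ B) {x z : V} {w : List (S × Bool)}
    (h : Γ.ReadsIn A x w z) : Γ.ReadsIn B x w z := by
  induction h with
  | nil h => exact .nil (hAB h)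
  | cons h1 h2 _ ih => exact .cons (hAB h1) h2 ih

theorem ReadsIn.reads {A : Set V} {x z : V} {w : List (S × Bool)} (h : Γ.ReadsIn A x w z) :
    Γ.Reads x w z := h.mono (Set.subset_univ _)

theorem readsIn_append_iff {A : Set V} {x z : V} {w w' : List (S × Bool)} :
    Γ.ReadsIn A x (w ++ w') z ↔ ∃ y, Γ.ReadsIn A x w y ∧ Γ.ReadsIn A y w' z := by
  induction w generalizing x with
  | nil =>
    exact ⟨fun h => ⟨x, .nil h.left_mem, h⟩, fun ⟨y, h1, h2⟩ => (readsIn_nil_iff.1 h1).1 ▸ h2⟩
  | cons a w ih =>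
    simp only [List.cons_append, readsIn_cons_iff, ih]
    constructor
    · rintro ⟨h1, y, h2, u, h3, h4⟩
      exact ⟨u, ⟨h1, y, h2, h3⟩, h4⟩
    · rintro ⟨u, ⟨h1, y, h2, h3⟩, h4⟩
      exact ⟨h1, y, h2, u, h3, h4⟩

theorem reads_append_iff {x z : V} {w w' : List (S × Bool)} :
    Γ.Reads x (w ++ w') z ↔ ∃ y, Γ.Reads x w y ∧ Γ.Reads y w' z := readsIn_append_iff

theorem ReadsIn.append {A : Set V} {x y z : V} {w w' : List (S × Bool)} (h : Γ.ReadsIn A x w y)
    (h' : Γ.ReadsIn A y w' z) : Γ.ReadsIn A x (w ++ w') z := readsIn_append_iff.2 ⟨y, h, h'⟩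

theorem Reads.append {x y z : V} {w w' : List (S × Bool)} (h : Γ.Reads x w y)
    (h' : Γ.Reads y w' z) : Γ.Reads x (w ++ w') z := ReadsIn.append h h'

theorem ReadsIn.invRev {A : Set V} {x z : V} {w : List (S × Bool)} (h : Γ.ReadsIn A x w z) :
    Γ.ReadsIn A z (invRev w) x := by
  induction h with
  | nil h => exact .nil h
  | cons h1 h2 h3 ih =>
    rw [invRev_cons]
    exact ih.append (.cons h3.left_mem (Γ.symm h2) (.nil h1))

theorem Reads.invRev {x z : V} {w : List (S × Bool)} (h : Γ.Reads x w z) :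
    Γ.Reads z (invRev w) x := ReadsIn.invRev h

theorem Reads.unique {x z z' : V} {w : List (S × Bool)} (h : Γ.Reads x w z) (h' : Γ.Reads x w z') :
    z = z' := by
  induction w generalizing x with
  | nil => exact (reads_nil_iff.1 h).symm.trans (reads_nil_iff.1 h')
  | cons a w ih =>
    obtain ⟨y, h1, h2⟩ := reads_cons_iff.1 h
    obtain ⟨y', h1', h2'⟩ := reads_cons_iff.1 h'
    exact ih h2 (Γ.func h1 h1' ▸ h2')

theorem Reads.unique' {x x' z : V} {w : List (S × Bool)} (h : Γ.Reads x w z)
    (h' : Γ.Reads x' w z) : x = x' := by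
  exact h.invRev.unique h'.invRev

/-- a walk all of whose prefix end points lie in `A` is a walk in `A`. -/
theorem Reads.readsIn {A : Set V} {x z : V} {w : List (S × Bool)} (h : Γ.Reads x w z)
    (hA : ∀ p y, p <+: w → Γ.Reads x p y → y ∈ A) : Γ.ReadsIn A x w z := by
  induction w generalizing x with
  | nil => exact reads_nil_iff.1 h ▸ .nil (hA [] x List.nil_prefix (Reads.nil x))
  | cons a w ih =>
    obtain ⟨y, h1, h2⟩ := reads_cons_iff.1 h
    exact .cons (hA [] x List.nil_prefix (Reads.nil x)) h1 (ih h2 fun p u hp hu =>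
      hA (a :: p) u ((List.prefix_cons_inj a).2 hp) (Reads.cons h1 hu))

theorem ReadsIn.mem_of_prefix {A : Set V} {x y z : V} {p w : List (S × Bool)}
    (h : Γ.ReadsIn A x w z) (hp : p <+: w) (hy : Γ.Reads x p y) : y ∈ A := by
  obtain ⟨t, rfl⟩ := hp
  obtain ⟨u, h1, -⟩ := readsIn_append_iff.1 h
  exact h1.reads.unique hy ▸ h1.right_mem

/-- free reduction keeps walks (foldedness). -/
theorem ReadsIn.red {A : Set V} {x z : V} {w w' : List (S × Bool)} (h : Γ.ReadsIn A x w z)
    (hr : Red w w') : Γ.ReadsIn A x w' z := by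
  induction hr with
  | refl => exact h
  | tail _ hs ih =>
    obtain @⟨L₁, L₂, s, b⟩ := hs
    obtain ⟨u, h1, h2⟩ := readsIn_append_iff.1 ih
    obtain ⟨-, v, h3, h4⟩ := readsIn_cons_iff.1 h2
    obtain ⟨-, v', h5, h6⟩ := readsIn_cons_iff.1 h4
    exact h1.append (Γ.func h5 (Γ.symm h3) ▸ h6)

/-- every word has a reduced form that is read by every graph wherever the word is read. -/
theorem exists_reduced (w : List (S × Bool)) :
    ∃ r, IsReduced r ∧ Red w r ∧ FreeGroup.mk r = FreeGroup.mk w ∧ r.length ≤ w.length := by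
  classical
  exact ⟨reduce w, .of_reduce_eq reduce.idem, reduce.red, reduce.self, Red.length_le reduce.red⟩

/-- freely equal words read from the same vertex end at the same vertex. -/
theorem Reads.eq_of_mk_eq {x z z' : V} {w w' : List (S × Bool)} (h : Γ.Reads x w z)
    (h' : Γ.Reads x w' z') (he : FreeGroup.mk w = FreeGroup.mk w') : z = z' := by
  obtain ⟨c, h1, h2⟩ := Red.exact.1 he
  exact Reads.unique (ReadsIn.red h h1) (ReadsIn.red h' h2)

/-- balls are finite, of size at most `(dt+1)^r`. -/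
theorem DegLe.ball_card [Fintype S] {dt : ℕ} (h : Γ.DegLe dt) (y : V) (r : ℕ) :
    ∃ s : Finset V, (∀ x, x ∈ s ↔ x ∈ Γ.Ball y r) ∧ s.card ≤ (dt + 1) ^ r := by
  classical
  have nb : ∀ x : V, ∃ t : Finset V, (∀ z, z ∈ t ↔ z = x ∨ ∃ a, Γ.E x a z) ∧ t.card ≤ dt + 1 := by
    intro x
    let f : S × Bool → V := fun a => if h : ∃ z, Γ.E x a z then h.choose else x
    refine ⟨insert x ((Finset.univ.filter fun a => ∃ z, Γ.E x a z).image f), fun z => ?_,
      (Finset.card_insert_le _ _).trans (Nat.succ_le_succ (Finset.card_image_le.trans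
        (h x _ fun a ha => (Finset.mem_filter.1 ha).2)))⟩
    simp only [Finset.mem_insert, Finset.mem_image, Finset.mem_filter, Finset.mem_univ, true_and]
    refine or_congr Iff.rfl ⟨?_, ?_⟩
    · rintro ⟨a, ha, rfl⟩
      exact ⟨a, by simp only [f, dif_pos ha]; exact ha.choose_spec⟩
    · rintro ⟨a, ha⟩
      have ha' : ∃ z, Γ.E x a z := ⟨z, ha⟩
      exact ⟨a, ha', by simp only [f, dif_pos ha']; exact Γ.func ha'.choose_spec ha⟩
  choose t ht hc using nb
  induction r with
  | zero =>
    refine ⟨{y}, fun x => ?_, by simp⟩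
    simp [Ball, reads_nil_iff, eq_comm]
  | succ r ih =>
    obtain ⟨s, hs, hcs⟩ := ih
    refine ⟨s.biUnion t, fun x => ?_, ?_⟩
    · simp only [Finset.mem_biUnion, hs, ht]
      constructor
      · rintro ⟨u, ⟨w, h1, h2⟩, rfl | ⟨a, ha⟩⟩
        · exact ⟨w, h1, by omega⟩
        · exact ⟨w ++ [a], h1.append (reads_singleton_iff.2 ha), by simpa using h2⟩
      · rintro ⟨w, h1, h2⟩
        rcases List.eq_nil_or_concat' w with rfl | ⟨w', a, rfl⟩
        · exact ⟨x, ⟨[], h1, Nat.zero_le _⟩, Or.inl rfl⟩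
        · obtain ⟨u, h3, h4⟩ := reads_append_iff.1 h1
          exact ⟨u, ⟨w', h3, by simpa using h2⟩, Or.inr ⟨a, reads_singleton_iff.1 h4⟩⟩
    · rw [pow_succ]
      exact (Finset.card_biUnion_le_card_mul s t _ fun x _ => hc x).trans
        (Nat.mul_le_mul_right _ hcs)

end LG

end Crest.Agent.R129
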