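import Crest.Agent.R129.HilbG
import Crest.Agent.R129.Graph

/-!
# R129 / Op : the adjacency operator of a labelled graph, and operators given by sets of Cayley edges
-/

set_option autoImplicit false
open scoped InnerProductSpace ComplexConjugate

namespace Crest.Agent.R129

/-- weight of a letter. -/
noncomputable def cw {S : Type} (c : S → ℂ) (a : S × Bool) : ℂ := cond a.2 (c a.1) (conj (c a.1))

theorem cw_linv {S : Type} (c : S → ℂ) (a : S × Bool) : cw c (linv a) = conj (cw c a) := by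
  obtain ⟨s, b⟩ := a
  cases b <;> simp [cw, linv]

theorem norm_cw {S : Type} {c : S → ℂ} (hc : ∀ s, ‖c s‖ = 1) (a : S × Bool) : ‖cw c a‖ = 1 := by
  obtain ⟨s, b⟩ := a
  cases b <;> simp [cw, hc]

theorem op_sum_apply {ι ι' A : Type} [Fintype A] (T : A → L2 ι ℂ →L[ℂ] L2 ι' ℂ) (f : L2 ι ℂ)
    (y : ι') : (∑ a, T a) f y = ∑ a, T a f y := by
  rw [← ev_apply, ContinuousLinearMap.sum_apply, map_sum]
  rfl

/-- inversion of letters as a bijection -/
def op_linv {S : Type} : S × Bool ≃ S × Bool := ⟨linv, linv, linv_linv, linv_linv⟩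

namespace LG
variable {S V : Type} (Γ : LG S V)

open Classical in
/-- the source of the edge with letter `a` that ends at `y` (junk `y` if there is none). -/
noncomputable def back (a : S × Bool) (y : V) : V := if h : ∃ x, Γ.E x a y then h.choose else y

theorem back_eq {a : S × Bool} {x y : V} (h : Γ.E x a y) : Γ.back a y = x := by
  have h1 : ∃ x, Γ.E x a y := ⟨x, h⟩
  rw [back, dif_pos h1]
  exact func' h1.choose_spec h

open Classical in
/-- the weighted adjacency operator: `(B f) y = ∑_{x -a-> y} cw c a * f x`. -/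
noncomputable def Bop [Fintype S] (c : S → ℂ) : L2 V ℂ →L[ℂ] L2 V ℂ :=
  ∑ a : S × Bool, spull (Γ.back a) fun y => if ∃ x, Γ.E x a y then cw c a else 0

open Classical in
theorem Bop_apply [Fintype S] (c : S → ℂ) (f : L2 V ℂ) (y : V) :
    Γ.Bop c f y = ∑ a : S × Bool, if ∃ x, Γ.E x a y then cw c a * f (Γ.back a y) else 0 := by
  rw [Bop, op_sum_apply]
  refine Finset.sum_congr rfl fun a _ => ?_
  rw [spull_apply (C := ‖cw c a‖) (sBd_of_injOn (norm_nonneg _) (fun x => by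
    split_ifs <;> simp) fun x z hx hz h => ?_), ite_mul, zero_mul]
  obtain ⟨u, hu⟩ : ∃ u, Γ.E u a x := by
    by_contra h'
    exact hx (if_neg h')
  obtain ⟨v, hv⟩ : ∃ u, Γ.E u a z := by
    by_contra h'
    exact hz (if_neg h')
  rw [Γ.back_eq hu, Γ.back_eq hv] at h
  exact Γ.func hu (h ▸ hv)

open Classical in
theorem op_Bop_sgl [Fintype S] (c : S → ℂ) (i j : V) (v : ℂ) :
    Γ.Bop c (sgl i v) j = (∑ a : S × Bool, if Γ.E i a j then cw c a else 0) * v := by
  rw [Bop_apply, Finset.sum_mul]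
  refine Finset.sum_congr rfl fun a _ => ?_
  by_cases h : Γ.E i a j
  · rw [if_pos ⟨i, h⟩, if_pos h, Γ.back_eq h, sgl_self]
  · rw [if_neg h, zero_mul]
    split_ifs with h'
    · obtain ⟨x, hx⟩ := h'
      rw [Γ.back_eq hx, sgl_ne (fun e : x = i => h (e ▸ hx)), mul_zero]
    · rfl

theorem op_comp_edge {a : S × Bool} {x z y : V} (h : Γ.E x a z) :
    x ∈ Γ.Comp y ↔ z ∈ Γ.Comp y :=
  ⟨fun ⟨_, hw⟩ => ⟨_, hw.append (reads_singleton_iff.2 h)⟩,
    fun ⟨_, hw⟩ => ⟨_, hw.append (reads_singleton_iff.2 (Γ.symm h))⟩⟩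

theorem op_comp_eq {x y : V} : x ∈ Γ.Comp y ↔ Γ.Comp x = Γ.Comp y := by
  refine ⟨fun ⟨w, hw⟩ => ?_, fun h => h ▸ ⟨[], Reads.nil x⟩⟩
  ext z
  exact ⟨fun ⟨_, h⟩ => ⟨_, hw.append h⟩, fun ⟨_, h⟩ => ⟨_, hw.invRev.append h⟩⟩

/-- the adjoint of the summand of `a` is the summand of `linv a` (`adjoint_eq_of_entries`). -/
theorem Bop_selfAdjoint [Fintype S] (c : S → ℂ) : IsSelfAdjoint (Γ.Bop c) := by
  classical
  rw [ContinuousLinearMap.isSelfAdjoint_iff']
  refine adjoint_eq_of_entries _ _ fun i j v w => ?_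
  have e : conj (∑ a : S × Bool, if Γ.E j a i then cw c a else 0) =
      ∑ a : S × Bool, if Γ.E i a j then cw c a else 0 := by
    rw [map_sum]
    refine Fintype.sum_equiv op_linv _ _ fun a => ?_
    have h1 : Γ.E i (op_linv a) j ↔ Γ.E j a i :=
      ⟨fun h => by simpa [op_linv] using Γ.symm h, Γ.symm⟩
    simp only [h1]
    split_ifs
    · exact (cw_linv c a).symm
    · exact map_zero _
  rw [op_Bop_sgl, op_Bop_sgl, RCLike.inner_apply, RCLike.inner_apply, map_mul, e]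
  ring

/-- Schur test: `|B f y|² ≤ dt ∑_a |f (back a y)|²`, and every `x` is `back a y` for at most `dt` pairs. -/
theorem norm_Bop_le [Fintype S] {c : S → ℂ} (hc : ∀ s, ‖c s‖ = 1) {dt : ℕ} (hd : Γ.DegLe dt) :
    ‖Γ.Bop c‖ ≤ dt := by
  classical
  refine ContinuousLinearMap.opNorm_le_bound _ (Nat.cast_nonneg _) fun f => ?_
  refine (pow_le_pow_iff_left₀ (norm_nonneg _) (by positivity) two_ne_zero).1 ?_
  refine hasSum_le_of_sum_le (L2_hasSum_norm (Γ.Bop c f)) fun s => ?_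
  have h1 : ∀ y, ‖Γ.Bop c f y‖ ^ 2 ≤
      dt * ∑ a : S × Bool, if ∃ x, Γ.E x a y then ‖f (Γ.back a y)‖ ^ 2 else 0 := fun y => by
    rw [Bop_apply, ← Finset.sum_filter, ← Finset.sum_filter]
    have a1 : (Finset.univ.filter fun a : S × Bool => ∃ x, Γ.E x a y).card ≤ dt := by
      rw [← Finset.card_map op_linv.toEmbedding]
      refine hd y _ fun a ha => ?_
      obtain ⟨b, hb, rfl⟩ := Finset.mem_map.1 ha
      obtain ⟨x, hx⟩ := (Finset.mem_filter.1 hb).2
      exact ⟨x, Γ.symm hx⟩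
    refine (pow_le_pow_left₀ (norm_nonneg _) (norm_sum_le _ _) 2).trans
      (sq_sum_le_card_mul_sum_sq.trans (mul_le_mul (by exact_mod_cast a1) (le_of_eq ?_)
        (Finset.sum_nonneg fun _ _ => sq_nonneg _) (Nat.cast_nonneg _)))
    refine Finset.sum_congr rfl fun a _ => ?_
    rw [norm_mul, norm_cw hc, one_mul]
  set t : Finset V := (Finset.univ ×ˢ s).image fun p : (S × Bool) × V => Γ.back p.1 p.2 with ht
  have h2 : ∀ a : S × Bool, (∑ y ∈ s, if ∃ x, Γ.E x a y then ‖f (Γ.back a y)‖ ^ 2 else 0) ≤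
      ∑ x ∈ t, if ∃ y, Γ.E x a y then ‖f x‖ ^ 2 else 0 := fun a => by
    rw [← Finset.sum_filter, ← Finset.sum_filter,
      ← Finset.sum_image (f := fun x => ‖f x‖ ^ 2) (g := Γ.back a)]
    · refine Finset.sum_le_sum_of_subset_of_nonneg (fun x hx => ?_) fun _ _ _ => sq_nonneg _
      obtain ⟨y, hy, rfl⟩ := Finset.mem_image.1 hx
      obtain ⟨hy1, u, hu⟩ := Finset.mem_filter.1 hy
      refine Finset.mem_filter.2 ⟨Finset.mem_image.2 ⟨(a, y), by simpa using hy1, rfl⟩, y, ?_⟩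
      rw [Γ.back_eq hu]
      exact hu
    · intro y hy z hz h
      obtain ⟨-, u, hu⟩ := Finset.mem_filter.1 (Finset.mem_coe.1 hy)
      obtain ⟨-, v, hv⟩ := Finset.mem_filter.1 (Finset.mem_coe.1 hz)
      rw [Γ.back_eq hu, Γ.back_eq hv] at h
      exact Γ.func hu (h ▸ hv)
  have h3 : ∀ x, (∑ a : S × Bool, if ∃ y, Γ.E x a y then ‖f x‖ ^ 2 else 0) ≤ dt * ‖f x‖ ^ 2 :=
    fun x => by
      rw [← Finset.sum_filter, Finset.sum_const, nsmul_eq_mul]
      refine mul_le_mul_of_nonneg_right ?_ (sq_nonneg _)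
      exact_mod_cast hd x _ fun a ha => (Finset.mem_filter.1 ha).2
  refine (Finset.sum_le_sum fun y _ => h1 y).trans ?_
  rw [← Finset.mul_sum, Finset.sum_comm, mul_pow, sq (dt : ℝ), mul_assoc]
  refine mul_le_mul_of_nonneg_left ((Finset.sum_le_sum fun a _ => h2 a).trans ?_)
    (Nat.cast_nonneg _)
  rw [Finset.sum_comm]
  refine (Finset.sum_le_sum fun x _ => h3 x).trans ?_
  rw [← Finset.mul_sum]
  exact mul_le_mul_of_nonneg_left (L2_sum_le f t) (Nat.cast_nonneg _)

/-- `B` preserves supports in components. -/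
theorem Bop_proj_comp [Fintype S] (c : S → ℂ) (y : V) :
    Γ.Bop c * proj (Γ.Comp y) = proj (Γ.Comp y) * Γ.Bop c := by
  ext1 f
  apply lp.ext
  funext x
  show Γ.Bop c (proj (Γ.Comp y) f) x = proj (Γ.Comp y) (Γ.Bop c f) x
  by_cases hx : x ∈ Γ.Comp y
  · rw [proj_apply_mem _ hx, Bop_apply, Bop_apply]
    refine Finset.sum_congr rfl fun a _ => ?_
    split_ifs with h
    · obtain ⟨u, hu⟩ := h
      rw [Γ.back_eq hu, proj_apply_mem _ ((Γ.op_comp_edge hu).2 hx)]
    · rfl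
  · rw [proj_apply_not_mem _ hx, Bop_apply]
    refine Finset.sum_eq_zero fun a _ => ?_
    split_ifs with h
    · obtain ⟨u, hu⟩ := h
      rw [Γ.back_eq hu, proj_apply_not_mem _ fun h' => hx ((Γ.op_comp_edge hu).1 h'), mul_zero]
    · rfl

/-- a negative vector can be found inside one component.  Plan: otherwise
`0 < fm (ζ + γ - B) (proj (Comp y) f)` whenever the vector is non-zero, `≥ 0` always; sum the terms
`Re ⟪f x, ((ζ+γ-B) f) x⟫` over the fibres of the map `x ↦ Comp x` (`HasSum.sigma`, `Equiv.sigmaFiberEquiv`). -/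
theorem exists_neg_comp [Fintype S] (c : S → ℂ) {ζ γ : ℝ} {f : L2 V ℂ} (hf : f ≠ 0)
    (h : fm ((ζ : ℂ) • (1 : L2 V ℂ →L[ℂ] L2 V ℂ) - Γ.Bop c) f ≤ -γ * ‖f‖ ^ 2) :
    ∃ (y : V) (g : L2 V ℂ), g ≠ 0 ∧ (∀ x, x ∉ Γ.Comp y → g x = 0) ∧
      fm ((ζ : ℂ) • (1 : L2 V ℂ →L[ℂ] L2 V ℂ) - Γ.Bop c) g ≤ -γ * ‖g‖ ^ 2 := by
  by_contra hcon
  push Not at hcon
  set T := (ζ : ℂ) • (1 : L2 V ℂ →L[ℂ] L2 V ℂ) - Γ.Bop c with hT
  have hs : ∀ g : L2 V ℂ, HasSum (fun x => (⟪g x, T g x⟫_ℂ).re + γ * ‖g x‖ ^ 2)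
      (fm T g + γ * ‖g‖ ^ 2) := fun g =>
    (Complex.hasSum_re (L2_hasSum_inner g (T g))).add ((L2_hasSum_norm g).mul_left γ)
  have hcomm : ∀ y, T (proj (Γ.Comp y) f) = proj (Γ.Comp y) (T f) := fun y => by
    have : T * proj (Γ.Comp y) = proj (Γ.Comp y) * T := by
      rw [hT, sub_mul, mul_sub, Bop_proj_comp, smul_mul_assoc, mul_smul_comm, one_mul, mul_one]
    exact congrArg (fun A : L2 V ℂ →L[ℂ] L2 V ℂ => A f) this
  have hfib : ∀ y, ∑' x : Γ.Comp ⁻¹' {Γ.Comp y}, ((⟪f x, T f x⟫_ℂ).re + γ * ‖f x‖ ^ 2) =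
      fm T (proj (Γ.Comp y) f) + γ * ‖proj (Γ.Comp y) f‖ ^ 2 := fun y => by
    rw [tsum_subtype (Γ.Comp ⁻¹' {Γ.Comp y}) fun x => (⟪f x, T f x⟫_ℂ).re + γ * ‖f x‖ ^ 2,
      ← (hs _).tsum_eq, hcomm]
    refine tsum_congr fun x => ?_
    by_cases hx : x ∈ Γ.Comp y
    · rw [Set.indicator_of_mem (show x ∈ Γ.Comp ⁻¹' {Γ.Comp y} from Γ.op_comp_eq.1 hx),
        proj_apply_mem _ hx, proj_apply_mem _ hx]
    · rw [Set.indicator_of_notMem (show x ∉ Γ.Comp ⁻¹' {Γ.Comp y} from
        fun h' => hx (Γ.op_comp_eq.2 h')), proj_apply_not_mem _ hx]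
      simp
  have hpos : ∀ y, proj (Γ.Comp y) f ≠ 0 →
      0 < fm T (proj (Γ.Comp y) f) + γ * ‖proj (Γ.Comp y) f‖ ^ 2 := fun y hy => by
    have := hcon y _ hy fun x hx => proj_apply_not_mem _ hx
    linarith
  obtain ⟨x₀, hx₀⟩ : ∃ x, f x ≠ 0 := by
    by_contra h'
    push Not at h'
    exact hf (lp.ext (funext h'))
  have h1 := le_hasSum ((hs f).tsum_fiberwise Γ.Comp) (Γ.Comp x₀) fun D _ => by
    by_cases hD : ∃ y, Γ.Comp y = D
    · obtain ⟨y, rfl⟩ := hD
      rw [hfib]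
      by_cases hy : proj (Γ.Comp y) f = 0
      · simp [hy, fm]
      · exact (hpos y hy).le
    · exact tsum_nonneg fun x => absurd ⟨x.1, x.2⟩ hD
  rw [hfib] at h1
  have h2 := hpos x₀ fun h' => hx₀ (by
    rw [← proj_apply_mem f (show x₀ ∈ Γ.Comp x₀ from ⟨[], Reads.nil x₀⟩), h']
    rfl)
  linarith

end LG

section eop
variable {S G : Type} [Fintype S] [Group G] (π : S → G) (c : S → ℂ)

open Classical in
/-- the operator of the set `R` of Cayley edges (`R v a`: the edge from `v` to `(lv π a)⁻¹ * v`). -/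
noncomputable def eop (R : G → S × Bool → Prop) : L2 G ℂ →L[ℂ] L2 G ℂ :=
  ∑ a : S × Bool, spull (fun w => lv π a * w) fun w => if R (lv π a * w) a then cw c a else 0

open Classical in
theorem eop_apply (R : G → S × Bool → Prop) (f : L2 G ℂ) (w : G) :
    eop π c R f w = ∑ a : S × Bool, if R (lv π a * w) a then cw c a * f (lv π a * w) else 0 := by
  rw [eop, op_sum_apply]
  refine Finset.sum_congr rfl fun a _ => ?_
  rw [spull_apply (C := ‖cw c a‖) (sBd_of_injOn (norm_nonneg _) (fun x => by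
    split_ifs <;> simp) fun x z _ _ h => mul_left_cancel h), ite_mul, zero_mul]

open Classical in
theorem op_eop_sgl (R : G → S × Bool → Prop) (i j : G) (v : ℂ) :
    eop π c R (sgl i v) j =
      (∑ a : S × Bool, if lv π a * j = i ∧ R i a then cw c a else 0) * v := by
  rw [eop_apply, Finset.sum_mul]
  refine Finset.sum_congr rfl fun a _ => ?_
  by_cases h : lv π a * j = i
  · rw [h, sgl_self]
    simp
  · rw [sgl_ne h]
    simp [h]

open Classical in
theorem op_hasSum_eop (hc : ∀ s, ‖c s‖ = 1) (R : G → S × Bool → Prop)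
    (h : ∀ w a a', R (lv π a * w) a → R (lv π a' * w) a' → a = a') (f : L2 G ℂ) :
    HasSum (fun v => ((Finset.univ.filter fun a => R v a).card : ℝ) * ‖f v‖ ^ 2)
      (‖eop π c R f‖ ^ 2) := by
  have h1 : ∀ a : S × Bool, Summable fun v => if R v a then ‖f v‖ ^ 2 else 0 := fun a =>
    Summable.of_nonneg_of_le (fun v => by split_ifs <;> positivity)
      (fun v => by split_ifs <;> simp) (L2_hasSum_norm f).summable
  have h2 := hasSum_sum (s := Finset.univ) fun a _ => (h1 a).hasSum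
  have h3 := hasSum_sum (s := Finset.univ) fun a _ =>
    (Equiv.mulLeft (lv π a)).hasSum_iff.2 (h1 a).hasSum
  have h4 : ∀ w, ‖eop π c R f w‖ ^ 2 =
      ∑ a : S × Bool, if R (lv π a * w) a then ‖f (lv π a * w)‖ ^ 2 else 0 := fun w => by
    rw [eop_apply]
    by_cases hw : ∃ a, R (lv π a * w) a
    · obtain ⟨a, ha⟩ := hw
      rw [Finset.sum_eq_single_of_mem a (Finset.mem_univ a) fun b _ hb =>
          if_neg fun h' => hb (h w b a h' ha),
        Finset.sum_eq_single_of_mem a (Finset.mem_univ a) fun b _ hb =>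
          if_neg fun h' => hb (h w b a h' ha), if_pos ha, if_pos ha, norm_mul, norm_cw hc, one_mul]
    · push Not at hw
      simp [hw]
  have h5 := L2_hasSum_norm (eop π c R f)
  simp only [h4] at h5
  rw [h5.unique h3]
  convert h2 using 2 with v
  rw [← Finset.sum_filter, Finset.sum_const, nsmul_eq_mul]

theorem adjoint_eop (R : G → S × Bool → Prop) :
    ContinuousLinearMap.adjoint (eop π c R) = eop π c fun v a => R ((lv π a)⁻¹ * v) (linv a) := by
  classical
  refine adjoint_eq_of_entries _ _ fun i j v w => ?_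
  have e : conj (∑ a : S × Bool,
      if lv π a * i = j ∧ R ((lv π a)⁻¹ * j) (linv a) then cw c a else 0) =
      ∑ a : S × Bool, if lv π a * j = i ∧ R i a then cw c a else 0 := by
    rw [map_sum]
    refine Fintype.sum_equiv op_linv _ _ fun a => ?_
    have h1 : (lv π (op_linv a) * j = i ∧ R i (op_linv a)) ↔
        (lv π a * i = j ∧ R ((lv π a)⁻¹ * j) (linv a)) := by
      show (lv π (linv a) * j = i ∧ R i (linv a)) ↔ _
      rw [lv_linv]
      constructor
      · rintro ⟨rfl, h⟩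
        exact ⟨mul_inv_cancel_left _ _, h⟩
      · rintro ⟨rfl, h⟩
        rw [inv_mul_cancel_left] at h
        exact ⟨inv_mul_cancel_left _ _, h⟩
    simp only [h1]
    split_ifs
    · exact (cw_linv c a).symm
    · exact map_zero _
  rw [op_eop_sgl, op_eop_sgl, RCLike.inner_apply, RCLike.inner_apply, map_mul, e]
  ring

theorem eop_or (R R' : G → S × Bool → Prop) (h : ∀ v a, R v a → ¬ R' v a) :
    eop π c (fun v a => R v a ∨ R' v a) = eop π c R + eop π c R' := by
  ext1 f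
  apply lp.ext
  funext w
  rw [ContinuousLinearMap.add_apply, lp.coeFn_add, Pi.add_apply, eop_apply, eop_apply, eop_apply,
    ← Finset.sum_add_distrib]
  refine Finset.sum_congr rfl fun a _ => ?_
  by_cases h1 : R (lv π a * w) a
  · rw [if_pos (Or.inl h1), if_pos h1, if_neg (h _ _ h1), add_zero]
  · by_cases h2 : R' (lv π a * w) a
    · rw [if_pos (Or.inr h2), if_neg h1, if_pos h2, zero_add]
    · rw [if_neg (not_or.2 ⟨h1, h2⟩), if_neg h1, if_neg h2, zero_add]

/-- the operator `T = ∑_a cw c a • λ((lv π a)⁻¹)`. -/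
noncomputable def Top : L2 G ℂ →L[ℂ] L2 G ℂ := ∑ a : S × Bool, cw c a • lam (lv π a)⁻¹

theorem Top_eq : Top π c = eop π c fun _ _ => True := by
  ext1 f
  apply lp.ext
  funext w
  rw [Top, op_sum_apply, eop_apply]
  refine Finset.sum_congr rfl fun a _ => ?_
  rw [if_pos trivial, ContinuousLinearMap.smul_apply, lp.coeFn_smul, Pi.smul_apply, lam_apply,
    inv_inv, smul_eq_mul]

theorem Top_selfAdjoint : IsSelfAdjoint (Top π c) := by
  rw [ContinuousLinearMap.isSelfAdjoint_iff', Top_eq, adjoint_eop]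

theorem norm_Top_dl (hc : ∀ s, ‖c s‖ = 1) (hinj : Function.Injective (lv π)) :
    ‖Top π c (dl 1)‖ ^ 2 = 2 * Fintype.card S := by
  classical
  have e : Top π c (dl 1) = eop π c (fun v _ => v = 1) (dl 1) := by
    apply lp.ext
    funext w
    rw [Top_eq, eop_apply, eop_apply]
    refine Finset.sum_congr rfl fun a _ => ?_
    rw [if_pos trivial]
    split_ifs with h
    · rfl
    · rw [HilbG_dl_ne h, mul_zero]
  have h1 := op_hasSum_eop π c hc (fun v _ => v = 1)
    (fun w a a' h h' => hinj (mul_right_cancel (h.trans h'.symm))) (dl 1)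
  rw [e, h1.unique (hasSum_single 1 fun v hv => by rw [HilbG_dl_ne hv]; simp), HilbG_dl_self]
  simp [mul_comm]

open Classical in
/-- if every vertex has at most one incoming edge of `R`, then `‖eop R f‖² = ∑_v κ_v |f v|²`, where `κ_v` is the
number of outgoing edges. -/
theorem hasSum_eop (hc : ∀ s, ‖c s‖ = 1) (R : G → S × Bool → Prop)
    (h : ∀ w a a', R (lv π a * w) a → R (lv π a' * w) a' → a = a') (f : L2 G ℂ) :
    HasSum (fun v => ((Finset.univ.filter fun a => R v a).card : ℝ) * ‖f v‖ ^ 2)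
      (‖eop π c R f‖ ^ 2) := by
  exact op_hasSum_eop π c hc R h f

end eop

end Crest.Agent.R129
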