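import Crest.Agent.R129.SC
import Crest.Agent.R129.Op

/-!
# R129 / EG : edge graphs, labellings, voltage covers

A walk is a word over the alphabet of edges read in `Gr.toLG`.  The cover has vertices `V × Q`; the half edge
`h` goes from `(hs h, g)` to `(ht h, (lv v h)⁻¹ * g)`.
-/

set_option autoImplicit false
open scoped InnerProductSpace ComplexConjugate
open FreeGroup

namespace Crest.Agent.R129

/-- a directed multigraph. -/
structure EG (V E : Type) where
  src : E → V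
  tgt : E → V

/-- the label word of a walk. -/
def lw {E L : Type} (lab : E → L) (ω : List (E × Bool)) : List (L × Bool) :=
  ω.map fun h => (lab h.1, h.2)

namespace EG
variable {V E : Type} (Gr : EG V E)

def hs (h : E × Bool) : V := cond h.2 (Gr.src h.1) (Gr.tgt h.1)
def ht (h : E × Bool) : V := cond h.2 (Gr.tgt h.1) (Gr.src h.1)

theorem hs_linv (h : E × Bool) : Gr.hs (linv h) = Gr.ht h := by
  rcases h with ⟨e, _ | _⟩ <;> rfl

theorem ht_linv (h : E × Bool) : Gr.ht (linv h) = Gr.hs h := by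
  rcases h with ⟨e, _ | _⟩ <;> rfl

/-- the graph labelled by its own edges. -/
def toLG : LG E V where
  E x h y := x = Gr.hs h ∧ y = Gr.ht h
  symm h := ⟨by rw [hs_linv]; exact h.2, by rw [ht_linv]; exact h.1⟩
  func h h' := h.2.trans h'.2.symm

/-- `ω` is a walk from `x` to `y`. -/
abbrev Walk (x : V) (ω : List (E × Bool)) (y : V) : Prop := Gr.toLG.Reads x ω y

/-- folded labelling. -/
def Fold {L : Type} (lab : E → L) : Prop :=
  (∀ e e', lab e = lab e' → Gr.src e = Gr.src e' → e = e') ∧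
    ∀ e e', lab e = lab e' → Gr.tgt e = Gr.tgt e' → e = e'

/-- at most `dt` half edges start at each vertex. -/
def HDeg (dt : ℕ) : Prop := ∀ (x : V) (s : Finset (E × Bool)), (∀ h ∈ s, Gr.hs h = x) → s.card ≤ dt

theorem Fold.half {L : Type} {lab : E → L} (hf : Gr.Fold lab) {h h' : E × Bool}
    (hl : lab h.1 = lab h'.1) (hb : h.2 = h'.2) (hx : Gr.hs h = Gr.hs h') : h = h' := by
  obtain ⟨e, b⟩ := h
  obtain ⟨e', b'⟩ := h'
  simp only at hl hb
  subst hb
  cases b
  · exact Prod.ext (hf.2 e e' hl hx) rfl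
  · exact Prod.ext (hf.1 e e' hl hx) rfl

/-- the voltage cover. -/
def cover {L Q : Type} [Group Q] (lab : E → L) (hf : Gr.Fold lab) (v : E → Q) : LG L (V × Q) where
  E p a p' := ∃ h : E × Bool, (lab h.1, h.2) = a ∧ p.1 = Gr.hs h ∧ p'.1 = Gr.ht h ∧
    p'.2 = (lv v h)⁻¹ * p.2
  symm := by
    rintro p _ p' ⟨h, rfl, h₁, h₂, h₃⟩
    exact ⟨linv h, rfl, by rw [hs_linv]; exact h₂, by rw [ht_linv]; exact h₁,
      by rw [lv_linv, h₃]; group⟩
  func := by
    rintro p _ p' p'' ⟨h, rfl, h₁, h₂, h₃⟩ ⟨h', e, h₁', h₂', h₃'⟩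
    have : h' = h := Fold.half Gr hf (Prod.mk.inj e).1 (Prod.mk.inj e).2 (h₁'.symm.trans h₁)
    subst this
    exact Prod.ext (h₂.trans h₂'.symm) (h₃.trans h₃'.symm)

/-- slowly varying scale with short pieces and proportional girth. -/
structure Scale {L : Type} (lab : E → L) where
  dep : V → ℕ
  big : ∀ x, 200 ≤ dep x
  lip : ∀ {x ω y}, Gr.Walk x ω y → 400 * dep x ≤ 400 * dep y + ω.length + 400
  piece : ∀ {x ω y x' ω' y'}, Gr.Walk x ω y → Gr.Walk x' ω' y' → x ≠ x' → lw lab ω = lw lab ω' →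
    IsReduced ω → ω.length ≤ 5 * dep x
  girth : ∀ {x ω}, Gr.Walk x ω x → IsReduced ω → ω ≠ [] → dep x ≤ 4 * ω.length

/-- short reduced walks have non-trivial voltage. -/
def VoltOK {Q : Type} [Group Q] (dep : V → ℕ) (v : E → Q) : Prop :=
  ∀ x ω y, Gr.Walk x ω y → IsReduced ω → ω ≠ [] → ω.length ≤ 40 * dep x → wv v ω ≠ 1

variable {Gr} {L Q : Type} [Group Q] {lab : E → L} (hf : Gr.Fold lab) (v : E → Q)

theorem eg_walk_cons {x z : V} {h : E × Bool} {ω : List (E × Bool)} :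
    Gr.Walk x (h :: ω) z ↔ x = Gr.hs h ∧ Gr.Walk (Gr.ht h) ω z := by
  rw [Walk, LG.reads_cons_iff]
  constructor
  · rintro ⟨y, ⟨h1, h2⟩, h3⟩
    exact ⟨h1, h2 ▸ h3⟩
  · rintro ⟨h1, h2⟩
    exact ⟨_, ⟨h1, rfl⟩, h2⟩

theorem eg_lw_length (ω : List (E × Bool)) : (lw lab ω).length = ω.length := List.length_map _

theorem eg_lw_append (ω ω' : List (E × Bool)) : lw lab (ω ++ ω') = lw lab ω ++ lw lab ω' :=
  List.map_append

theorem cover_reads_iff {p p' : V × Q} {w : List (L × Bool)} :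
    (Gr.cover lab hf v).Reads p w p' ↔
      ∃ ω, Gr.Walk p.1 ω p'.1 ∧ lw lab ω = w ∧ p'.2 = (wv v ω)⁻¹ * p.2 := by
  induction w generalizing p with
  | nil =>
    rw [LG.reads_nil_iff]
    constructor
    · rintro rfl
      exact ⟨[], LG.Reads.nil _, rfl, by simp⟩
    · rintro ⟨ω, h1, h2, h3⟩
      obtain rfl : ω = [] := List.map_eq_nil_iff.1 h2
      exact Prod.ext (LG.reads_nil_iff.1 h1) (by simpa using h3.symm)
  | cons a w ih =>
    rw [LG.reads_cons_iff]
    constructor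
    · rintro ⟨q, ⟨h, rfl, h1, h2, h3⟩, h4⟩
      obtain ⟨ω, h5, rfl, h6⟩ := ih.1 h4
      refine ⟨h :: ω, eg_walk_cons.2 ⟨h1, h2 ▸ h5⟩, rfl, ?_⟩
      rw [h6, h3, wv_cons, mul_inv_rev, mul_assoc]
    · rintro ⟨ω, h1, h2, h3⟩
      cases ω with
      | nil => exact absurd h2 (by simp [lw])
      | cons h ω =>
        obtain ⟨h4, h5⟩ := eg_walk_cons.1 h1
        obtain ⟨h6, h7⟩ := List.cons.inj h2
        refine ⟨(Gr.ht h, (lv v h)⁻¹ * p.2), ⟨h, h6, h4, rfl, rfl⟩, ih.2 ⟨ω, h5, h7, ?_⟩⟩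
        rw [h3, wv_cons, mul_inv_rev, mul_assoc]

include hf in
theorem isReduced_lw_iff {x y : V} {ω : List (E × Bool)} (h : Gr.Walk x ω y) :
    IsReduced (lw lab ω) ↔ IsReduced ω := by
  induction ω generalizing x with
  | nil => exact ⟨fun _ => IsReduced.nil, fun _ => IsReduced.nil⟩
  | cons a ω ih =>
    cases ω with
    | nil => exact ⟨fun _ => IsReduced.singleton, fun _ => IsReduced.singleton⟩
    | cons b ω =>
      obtain ⟨-, h1⟩ := eg_walk_cons.1 h
      obtain ⟨h2, -⟩ := eg_walk_cons.1 h1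
      have ih' := ih h1
      show IsReduced ((lab a.1, a.2) :: (lab b.1, b.2) :: lw lab ω) ↔ _
      rw [isReduced_cons_cons, isReduced_cons_cons]
      refine and_congr ⟨fun H e => H (congrArg lab e), fun H e => ?_⟩ ih'
      by_contra hne
      have e' : linv a = b := Fold.half Gr hf e (by
        revert hne
        simp only [linv]
        cases a.2 <;> cases b.2 <;> simp) (by rw [hs_linv]; exact h2)
      exact hne (H (congrArg Prod.fst e' : (linv a).1 = b.1))

include hf in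
theorem walk_eq_of_lw_eq {x y y' : V} {ω ω' : List (E × Bool)} (h : Gr.Walk x ω y)
    (h' : Gr.Walk x ω' y') (he : lw lab ω = lw lab ω') : ω = ω' := by
  induction ω generalizing x ω' with
  | nil => exact (List.map_eq_nil_iff.1 he.symm).symm
  | cons a ω ih =>
    cases ω' with
    | nil => exact List.map_eq_nil_iff.1 he
    | cons b ω' =>
      obtain ⟨h1, h2⟩ := eg_walk_cons.1 h
      obtain ⟨h3, h4⟩ := eg_walk_cons.1 h'
      obtain ⟨h5, h6⟩ := List.cons.inj he
      obtain rfl : a = b :=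
        Fold.half Gr hf (Prod.mk.inj h5).1 (Prod.mk.inj h5).2 (h1.symm.trans h3)
      rw [ih h2 h4 h6]

theorem cover_degLe [Fintype L] {dt : ℕ} (hd : Gr.HDeg dt) : (Gr.cover lab hf v).DegLe dt := by
  classical
  intro y s hs
  have hex : ∀ a ∈ s, ∃ h : E × Bool, (lab h.1, h.2) = a ∧ Gr.hs h = y.1 := fun a ha => by
    obtain ⟨z, h, h1, h2, -⟩ := hs a ha
    exact ⟨h, h1, h2.symm⟩
  choose φ h1 h2 using hex
  have := hd y.1 (s.attach.image fun a => φ a.1 a.2) (fun h hh => by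
    obtain ⟨a, -, rfl⟩ := Finset.mem_image.1 hh
    exact h2 _ _)
  rwa [Finset.card_image_of_injective _ (fun a b e => Subtype.ext (by
    rw [← h1 a.1 a.2, ← h1 b.1 b.2]
    exact congrArg (fun h : E × Bool => (lab h.1, h.2)) e)), Finset.card_attach] at this

/-- a refinement of a folded labelling is folded, with the same scale. -/
theorem Fold.refine {L' : Type} {lab' : E → L'} (φ : L' → L) (h : ∀ e, φ (lab' e) = lab e)
    (hf : Gr.Fold lab) : Gr.Fold lab' := by
  exact ⟨fun e e' h1 h2 => hf.1 e e' (by rw [← h, ← h, h1]) h2,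
    fun e e' h1 h2 => hf.2 e e' (by rw [← h, ← h, h1]) h2⟩

theorem Scale.exists_refine {L' : Type} {lab' : E → L'} (φ : L' → L) (h : ∀ e, φ (lab' e) = lab e)
    (sl : Gr.Scale lab) : ∃ sl' : Gr.Scale lab', sl'.dep = sl.dep := by
  have key : ∀ ω : List (E × Bool), lw lab ω = (lw lab' ω).map fun a => (φ a.1, a.2) := by
    intro ω
    simp only [lw, List.map_map]
    exact List.map_congr_left fun a _ => by simp [h]
  exact ⟨⟨sl.dep, sl.big, sl.lip, fun h1 h2 h3 h4 h5 =>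
    sl.piece h1 h2 h3 (by rw [key, key, h4]) h5, sl.girth⟩, rfl⟩

theorem eg_piece (sl : Gr.Scale lab) {p q : V × Q}
    (h : (Gr.cover lab hf v).Pc (Setoid.ker Prod.fst) p q) :
    ∃ w, (Gr.cover lab hf v).Reads p w q ∧ w.length ≤ 5 * sl.dep p.1 ∧
      400 * sl.dep q.1 ≤ 400 * sl.dep p.1 + w.length + 400 := by
  rcases h with rfl | ⟨p', q', w, h1, h2, h3⟩
  · exact ⟨[], LG.Reads.nil _, Nat.zero_le _, by omega⟩
  · obtain ⟨r, hr, hred, -, -⟩ := LG.exists_reduced w
    have h4 : (Gr.cover lab hf v).Reads p r q := LG.ReadsIn.red h2 hred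
    have h5 : (Gr.cover lab hf v).Reads p' r q' := LG.ReadsIn.red h3 hred
    obtain ⟨ω, a1, a2, -⟩ := (cover_reads_iff hf v).1 h4
    obtain ⟨ω', b1, b2, -⟩ := (cover_reads_iff hf v).1 h5
    have c1 := sl.piece a1 b1 h1 (a2.trans b2.symm) ((isReduced_lw_iff hf a1).1 (a2 ▸ hr))
    have c2 := sl.lip (LG.Reads.invRev a1)
    rw [invRev_length] at c2
    have c3 : r.length = ω.length := by rw [← a2, eg_lw_length]
    exact ⟨r, h4, c3 ▸ c1, c3 ▸ c2⟩

theorem eg_walk_pow {x : V} {ω : List (E × Bool)} (h : Gr.Walk x ω x) (n : ℕ) :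
    Gr.Walk x (List.replicate n ω).flatten x ∧
      lw lab (List.replicate n ω).flatten = (List.replicate n (lw lab ω)).flatten ∧
      wv v (List.replicate n ω).flatten = wv v ω ^ n := by
  induction n with
  | zero => exact ⟨LG.Reads.nil _, rfl, by simp⟩
  | succ n ih =>
    simp only [List.replicate_succ, List.flatten_cons]
    exact ⟨LG.Reads.append h ih.1, by rw [eg_lw_append, ih.2.1],
      by rw [wv_append, ih.2.2, pow_succ']⟩

/-- The cover satisfies small cancellation with `rad = 18 dep`.  `chain`: three pieces have reduced lengths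
`≤ 5p`, `≤ 5.09p`, `≤ 5.16p` (`piece`, `lip`, `big`); `tree`: `VoltOK`. -/
theorem exists_SC (sl : Gr.Scale lab) (hv : Gr.VoltOK sl.dep v) :
    ∃ sc : SC (Gr.cover lab hf v), (∀ p p', sc.eqv p p' ↔ p.1 = p'.1) ∧
      (∀ p, sc.rad p = 18 * sl.dep p.1) ∧ ((∀ g : Q, IsOfFinOrder g → g = 1) → sc.TF) := by
  refine ⟨⟨Setoid.ker Prod.fst, ?_, ?_, fun p => 18 * sl.dep p.1, ?_, ?_⟩,
    fun p p' => Iff.rfl, fun p => rfl, ?_⟩
  · rintro y y' z a hy ⟨h, h1, h2, h3, -⟩
    exact ⟨(Gr.ht h, (lv v h)⁻¹ * y'.2), ⟨h, h1, (Eq.symm hy).trans h2, rfl, rfl⟩, h3⟩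
  · intro y y' w hy h
    obtain ⟨ω, h1, h2, h3⟩ := (cover_reads_iff hf v).1 h
    have e : y.1 = y'.1 := hy
    refine (cover_reads_iff hf v).2 ⟨ω, e ▸ h1, h2, ?_⟩
    rw [right_eq_mul.1 h3, one_mul]
  · rintro y z ⟨m₂, ⟨m₁, h1, h2⟩, h3⟩
    obtain ⟨w₁, a1, a2, a3⟩ := eg_piece hf v sl h1
    obtain ⟨w₂, b1, b2, b3⟩ := eg_piece hf v sl h2
    obtain ⟨w₃, c1, c2, -⟩ := eg_piece hf v sl h3
    refine ⟨w₁ ++ w₂ ++ w₃, (a1.append b1).append c1, ?_⟩
    have := sl.big y.1
    simp only [List.length_append]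
    omega
  · intro y w h hr hl
    obtain ⟨ω, h1, h2, h3⟩ := (cover_reads_iff hf v).1 h
    have := sl.big y.1
    have e : w.length = ω.length := by rw [← h2, eg_lw_length]
    by_contra hne
    refine hv _ _ _ h1 ((isReduced_lw_iff hf h1).1 (h2 ▸ hr)) (fun e' => hne ?_) (by omega) ?_
    · rw [← h2, e']
      rfl
    · exact inv_eq_one.1 (right_eq_mul.1 h3)
  · intro hQ y x w n hn h hy hw
    obtain ⟨ω, h1, h2, h3⟩ := (cover_reads_iff hf v).1 h
    have e : y.1 = x.1 := hy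
    rw [← e] at h1
    obtain ⟨a1, a2, a3⟩ := eg_walk_pow (lab := lab) v h1 n
    have a4 : (Gr.cover lab hf v).Reads y (List.replicate n w).flatten
        (y.1, (wv v ω ^ n)⁻¹ * y.2) :=
      (cover_reads_iff hf v).2 ⟨_, a1, by rw [a2, h2], by rw [a3]⟩
    have a5 : y.2 = (wv v ω ^ n)⁻¹ * y.2 := congrArg Prod.snd (hw.unique a4)
    have a6 : wv v ω = 1 :=
      hQ _ (isOfFinOrder_iff_pow_eq_one.2 ⟨n, hn, inv_eq_one.1 (right_eq_mul.1 a5)⟩)
    refine Prod.ext e.symm ?_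
    rw [h3, a6, inv_one, one_mul]

/-- a small ball meets every sheet `V × {g}` at most once. -/
theorem sheet_unique (sl : Gr.Scale lab) (hv : Gr.VoltOK sl.dep v) {o : V × Q} {x x' : V} {g : Q}
    (h : (x, g) ∈ (Gr.cover lab hf v).Ball o (18 * sl.dep o.1))
    (h' : (x', g) ∈ (Gr.cover lab hf v).Ball o (18 * sl.dep o.1)) : x = x' := by
  obtain ⟨w, h1, h2⟩ := h
  obtain ⟨w', h1', h2'⟩ := h'
  obtain ⟨ω, a1, a2, a3⟩ := (cover_reads_iff hf v).1 h1
  obtain ⟨ω', b1, b2, b3⟩ := (cover_reads_iff hf v).1 h1'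
  have e : wv v ω = wv v ω' := inv_injective (mul_right_cancel (a3.symm.trans b3))
  obtain ⟨r, hr, hred, hmk, hlen⟩ := LG.exists_reduced (invRev ω ++ ω')
  have c1 : Gr.Walk x r x' := LG.ReadsIn.red ((LG.Reads.invRev a1).append b1) hred
  have c2 : wv v r = 1 := by
    have : wv v r = wv v (invRev ω ++ ω') := by rw [wv, wv, hmk]
    rw [this, wv_append, wv_invRev, e, inv_mul_cancel]
  have c3 := sl.lip a1
  have c4 := sl.big x
  rw [List.length_append, invRev_length] at hlen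
  rw [← a2, eg_lw_length] at h2
  rw [← b2, eg_lw_length] at h2'
  by_contra hne
  refine hv _ _ _ c1 hr (fun e' => hne ?_) (by simp only at c3; omega) c2
  rw [e'] at c1
  exact LG.reads_nil_iff.1 c1

/-- girth along a short walk. -/
theorem Scale.local_girth (sl : Gr.Scale lab) {x z : V} {p σ : List (E × Bool)} (hp : Gr.Walk x p z)
    (hl : p.length ≤ 40 * sl.dep x) (hσ : Gr.Walk z σ z) (hr : IsReduced σ) (hne : σ ≠ []) :
    2 * (sl.dep x / 11) < σ.length := by
  have h1 := sl.lip hp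
  have h2 := sl.girth hσ hr hne
  have h3 := sl.big x
  omega

theorem Scale.len_le (sl : Gr.Scale lab) (x : V) :
    0 < sl.dep x / 11 ∧ 40 * sl.dep x ≤ 500 * (sl.dep x / 11) := by
  have h3 := sl.big x
  omega

/-- the walks of length `≤ n` from `x`. -/
theorem HDeg.walks {dt : ℕ} (hd : Gr.HDeg dt) (x : V) (n : ℕ) :
    ∃ T : Finset (List (E × Bool)), T.card ≤ (dt + 1) ^ n ∧
      ∀ ω y, Gr.Walk x ω y → ω.length ≤ n → ω ∈ T := by
  classical
  have nb : ∀ x : V, ∃ s : Finset (E × Bool), (∀ h, h ∈ s ↔ Gr.hs h = x) ∧ s.card ≤ dt := by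
    intro x
    have hfin : {h | Gr.hs h = x}.Finite := by
      by_contra hinf
      obtain ⟨s, h1, h2⟩ := Set.Infinite.exists_subset_card_eq hinf (dt + 1)
      have := hd x s fun h hh => h1 hh
      omega
    exact ⟨hfin.toFinset, fun h => by simp, hd x _ fun h hh => by simpa using hh⟩
  choose s hs hc using nb
  induction n generalizing x with
  | zero =>
    refine ⟨{[]}, by simp, fun ω y _ h => ?_⟩
    rw [Finset.mem_singleton]
    exact List.length_eq_zero_iff.1 (Nat.le_zero.1 h)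
  | succ n ih =>
    choose T hT1 hT2 using ih
    refine ⟨insert [] ((s x).biUnion fun h => (T (Gr.ht h)).image (List.cons h)), ?_, ?_⟩
    · refine (Finset.card_insert_le _ _).trans ?_
      have a1 := Finset.card_biUnion_le_card_mul (s x)
        (fun h => (T (Gr.ht h)).image (List.cons h)) ((dt + 1) ^ n)
        fun h _ => Finset.card_image_le.trans (hT1 _)
      have a2 := Nat.mul_le_mul_right ((dt + 1) ^ n) (hc x)
      have a3 : 1 ≤ (dt + 1) ^ n := Nat.one_le_pow _ _ (Nat.succ_pos _)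
      have a4 : (dt + 1) ^ (n + 1) = dt * (dt + 1) ^ n + (dt + 1) ^ n := by ring
      omega
    · intro ω y hω hl
      cases ω with
      | nil => exact Finset.mem_insert_self _ _
      | cons h ω =>
        obtain ⟨h1, h2⟩ := eg_walk_cons.1 hω
        refine Finset.mem_insert_of_mem (Finset.mem_biUnion.2 ⟨h, (hs x h).2 h1.symm, ?_⟩)
        exact Finset.mem_image_of_mem _ (hT2 _ ω y h2 (by simpa using hl))

/-- the adjacency operator of the cover, on `ℓ²(V; ℓ²(Q))`. -/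
noncomputable def Bn [Fintype L] (c : L → ℂ) : L2 V (L2 Q ℂ) →L[ℂ] L2 V (L2 Q ℂ) :=
  ((curry V Q).toContinuousLinearEquiv : L2 (V × Q) ℂ →L[ℂ] L2 V (L2 Q ℂ)).comp
    (((Gr.cover lab hf v).Bop c).comp
      ((curry V Q).symm.toContinuousLinearEquiv : L2 V (L2 Q ℂ) →L[ℂ] L2 (V × Q) ℂ))

theorem Bn_curry [Fintype L] (c : L → ℂ) (f : L2 (V × Q) ℂ) :
    Bn hf v c (curry V Q f) = curry V Q ((Gr.cover lab hf v).Bop c f) := by
  show curry V Q ((Gr.cover lab hf v).Bop c ((curry V Q).symm (curry V Q f))) = _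
  rw [LinearIsometryEquiv.symm_apply_apply]

theorem Bn_selfAdjoint [Fintype L] (c : L → ℂ) : IsSelfAdjoint (Bn hf v c) := by
  have h := ((Gr.cover lab hf v).Bop_selfAdjoint c).isSymmetric
  refine ContinuousLinearMap.isSelfAdjoint_iff_isSymmetric.2 fun f g => ?_
  obtain ⟨f, rfl⟩ := (curry V Q).surjective f
  obtain ⟨g, rfl⟩ := (curry V Q).surjective g
  show ⟪Bn hf v c (curry V Q f), curry V Q g⟫_ℂ = ⟪curry V Q f, Bn hf v c (curry V Q g)⟫_ℂ
  rw [Bn_curry, Bn_curry, LinearIsometryEquiv.inner_map_map, LinearIsometryEquiv.inner_map_map]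
  exact h f g

theorem norm_Bn_le [Fintype L] {c : L → ℂ} (hc : ∀ l, ‖c l‖ = 1) {dt : ℕ} (hd : Gr.HDeg dt) :
    ‖Bn hf v c‖ ≤ dt := by
  refine ContinuousLinearMap.opNorm_le_bound _ (Nat.cast_nonneg _) fun f => ?_
  obtain ⟨f, rfl⟩ := (curry V Q).surjective f
  rw [Bn_curry, LinearIsometryEquiv.norm_map, LinearIsometryEquiv.norm_map]
  exact ((Gr.cover lab hf v).Bop c).le_of_opNorm_le
    ((Gr.cover lab hf v).norm_Bop_le hc (cover_degLe hf v hd)) f

open Classical in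
theorem eg_Bn_apply [Fintype L] (c : L → ℂ) (f : L2 V (L2 Q ℂ)) (y : V) (H : Finset (E × Bool))
    (hH : ∀ h, Gr.ht h = y → h ∉ H → f (Gr.hs h) = 0) :
    Bn hf v c f y = ∑ h ∈ H.filter (fun h => Gr.ht h = y),
      cw c (lab h.1, h.2) • lam (lv v h)⁻¹ (f (Gr.hs h)) := by
  obtain ⟨φ, rfl⟩ := (curry V Q).surjective f
  apply lp.ext
  funext g
  rw [Bn_curry, curry_apply, LG.Bop_apply, ← ev_apply g, map_sum,
    ← Finset.sum_fiberwise (κ := L × Bool) _ (fun h : E × Bool => (lab h.1, h.2))]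
  refine Finset.sum_congr rfl fun a _ => ?_
  have tm : ∀ h : E × Bool, ev g (cw c (lab h.1, h.2) • lam (lv v h)⁻¹ (curry V Q φ (Gr.hs h))) =
      cw c (lab h.1, h.2) * φ (Gr.hs h, lv v h * g) := fun h => by
    rw [map_smul, ev_apply, lam_apply, inv_inv, curry_apply, smul_eq_mul]
  split_ifs with hx
  · obtain ⟨x, hx⟩ := hx
    rw [LG.back_eq _ hx]
    obtain ⟨h, h1, h2, h3, h4⟩ := hx
    have e : x = (Gr.hs h, lv v h * g) := Prod.ext h2 (by
      have : g = (lv v h)⁻¹ * x.2 := h4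
      rw [this, mul_inv_cancel_left])
    rw [Finset.sum_eq_single h, tm, h1, e]
    · intro b hb hne
      obtain ⟨hb1, hb2⟩ := Finset.mem_filter.1 hb
      have hb3 := (Finset.mem_filter.1 hb1).2
      have e1 := Prod.mk.inj (hb2.trans h1.symm)
      have e2 : linv b = linv h := Fold.half Gr hf e1.1 (by simp only [linv, e1.2])
        (by rw [hs_linv, hs_linv, hb3]; exact h3)
      exact absurd (by rw [← linv_linv b, e2, linv_linv]) hne
    · intro hn
      rw [hH h h3.symm fun hh =>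
        hn (Finset.mem_filter.2 ⟨Finset.mem_filter.2 ⟨hh, h3.symm⟩, h1⟩), map_zero, smul_zero,
        map_zero]
  · refine (Finset.sum_eq_zero fun b hb => absurd ?_ hx).symm
    obtain ⟨hb1, hb2⟩ := Finset.mem_filter.1 hb
    exact ⟨(Gr.hs b, lv v b * g), b, hb2, rfl, (Finset.mem_filter.1 hb1).2.symm,
      (inv_mul_cancel_left _ _).symm⟩

/-- `(Bn f) y = ∑_{ht h = y} cw c (lab h) • lam (lv v h)⁻¹ (f (hs h))`; for finitely supported `f` the form is a
finite sum over edges. -/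
theorem fm_Bn [Fintype L] (c : L → ℂ) (f : L2 V (L2 Q ℂ)) (s : Finset V)
    (hs : ∀ x, x ∉ s → f x = 0) (F : Finset E) (hF : ∀ e, Gr.src e ∈ s → Gr.tgt e ∈ s → e ∈ F) :
    fm (Bn hf v c) f =
      ∑ e ∈ F, 2 * (⟪f (Gr.tgt e), c (lab e) • lam (v e)⁻¹ (f (Gr.src e))⟫_ℂ).re := by
  classical
  obtain ⟨tm, htm⟩ : ∃ tm : E × Bool → ℂ, ∀ h, tm h =
      ⟪f (Gr.ht h), cw c (lab h.1, h.2) • lam (lv v h)⁻¹ (f (Gr.hs h))⟫_ℂ := ⟨_, fun _ => rfl⟩
  have h1 : ∀ y ∈ s, ⟪f y, Bn hf v c f y⟫_ℂ =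
      ∑ h ∈ (F ×ˢ (Finset.univ : Finset Bool)).filter (fun h => Gr.ht h = y), tm h := by
    intro y hy
    rw [eg_Bn_apply hf v c f y (F ×ˢ (Finset.univ : Finset Bool)), inner_sum]
    · refine Finset.sum_congr (by congr) fun h hh => ?_
      rw [htm, (Finset.mem_filter.1 hh).2]
    · rintro ⟨e, b⟩ h2 h3
      refine hs _ fun h4 => h3 (Finset.mem_product.2 ⟨?_, Finset.mem_univ _⟩)
      rw [← h2] at hy
      cases b
      · exact hF e hy h4
      · exact hF e h4 hy
  have h2 : ∑ y ∈ s, ∑ h ∈ (F ×ˢ (Finset.univ : Finset Bool)).filter (fun h => Gr.ht h = y), tm h =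
      ∑ h ∈ F ×ˢ (Finset.univ : Finset Bool), tm h := by
    have a1 := Finset.sum_fiberwise_eq_sum_filter (F ×ˢ (Finset.univ : Finset Bool)) s Gr.ht tm
    refine Eq.trans (by convert a1) (Finset.sum_filter_of_ne ?_)
    intro h _ hne
    by_contra hn
    exact hne (by rw [htm, hs _ hn, inner_zero_left])
  rw [fm, L2_inner_eq f _ s hs, Finset.sum_congr rfl h1, h2, Finset.sum_product, Complex.re_sum]
  refine Finset.sum_congr rfl fun e _ => ?_
  rw [Fintype.sum_bool, Complex.add_re, two_mul, htm, htm]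
  congr 1
  show (⟪f (Gr.src e), conj (c (lab e)) • lam (v e)⁻¹⁻¹ (f (Gr.tgt e))⟫_ℂ).re = _
  rw [← star_lam, ContinuousLinearMap.star_eq_adjoint, inner_smul_right,
    ContinuousLinearMap.adjoint_inner_right, ← inner_smul_left, ← inner_conj_symm,
    Complex.conj_re]

end EG

end Crest.Agent.R129
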