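import Crest.Agent.R129.Mean
import Crest.Agent.R129.Comb
import Crest.Agent.R129.FP

/-!
# R129 / Expand : random last permutations give edge expansion after deleting few points
-/

set_option autoImplicit false

namespace Crest.Agent.R129

variable {F : Type} [Field F] [Fintype F]

open Classical in
/-- small sets of `Lv P C` outside `D` span few edges. -/
def ExpOK (π : F → Loc F) (Λ : Finset F) (P : ℕ) (C : Finset F) (D : Finset (ℕ → F)) : Prop :=
  ∀ S ⊆ Lv P C \ D, 2 * S.card ≤ (Lv P C).card →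
    10 * ∑ l ∈ Λ, (S.filter fun z => Gm (π l) l z ∈ S).card ≤ 9 * Λ.card * S.card

open Classical in
/-- replace the permutations at position `P` by permutations of `C`. -/
noncomputable def setPos (π : F → Loc F) (P : ℕ) (C : Finset F)
    (x : F × (ℕ → F) → Equiv.Perm {c // c ∈ C}) : F → Loc F :=
  fun l j ν => if j = P then Equiv.Perm.ofSubtype (x (l, ν)) else π l j ν

open Classical in
/-- the uniform distribution on permutations of `C`. -/
noncomputable def permFP (C : Finset F) : FP (F × (ℕ → F)) (Equiv.Perm {c // c ∈ C}) where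
  Ω _ := Finset.univ
  w _ _ := 1 / Fintype.card (Equiv.Perm {c // c ∈ C})
  nonneg _ _ := by positivity
  sum_one _ := by
    rw [Finset.sum_const, Finset.card_univ, nsmul_eq_mul, mul_one_div, div_self]
    exact Nat.cast_ne_zero.2 Fintype.card_ne_zero
  x0 _ := 1
  x0_mem _ := Finset.mem_univ _

omit [Fintype F] in
theorem Expand_update {P : ℕ} {w : ℕ → F} (hw : ∀ j, P < j → w j = 0) :
    w = Function.update (trunc P w) P (w P) := by
  funext j
  rcases lt_trichotomy j P with h | rfl | h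
  · rw [Function.update_of_ne h.ne, trunc, if_pos h]
  · rw [Function.update_self]
  · rw [Function.update_of_ne h.ne', trunc, if_neg h.not_gt, hw j h]

omit [Fintype F] in
open Classical in
theorem Expand_Tr (π : F → Loc F) (h0 : ∀ l, Fix0 (π l)) (P : ℕ) (C : Finset F)
    (x : F × (ℕ → F) → Equiv.Perm {c // c ∈ C}) (l : F) {w : ℕ → F} (hw : ∀ j, P < j → w j = 0) :
    Tr (setPos π P C x l) w = Function.update (trunc P (Tr (π l) (trunc P w))) P
      (Equiv.Perm.ofSubtype (x (l, trunc P w)) (w P)) := by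
  funext j
  rcases lt_trichotomy j P with h | rfl | h
  · have e : trunc j (trunc P w) = trunc j w := by
      funext i
      simp only [trunc]
      split_ifs with h1 h2
      · rfl
      · exact absurd (h1.trans h) h2
      · rfl
    rw [Function.update_of_ne h.ne, trunc, if_pos h, Tr, Tr, e, setPos, if_neg h.ne]
    simp only [trunc, if_pos h]
  · rw [Function.update_self, Tr, setPos, if_pos rfl]
  · rw [Function.update_of_ne h.ne', trunc, if_neg h.not_gt, Tr, setPos, if_neg h.ne', hw j h,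
      h0 l]

open Classical in
theorem Expand_count (π : F → Loc F) (h0 : ∀ l, Fix0 (π l)) (P : ℕ) (C : Finset F)
    (S : Finset (ℕ → F)) (hS : S ⊆ Lv P C) (x : F × (ℕ → F) → Equiv.Perm {c // c ∈ C}) (l : F) :
    (S.filter fun z => Gm (setPos π P C x l) l z ∈ S).card ≤
      ∑ ν ∈ Pre F P, (((Ufib P C S l ν).subtype (· ∈ C)).filter fun u =>
        x (l, ν) u ∈ (Vfib P C S l (trunc P (Tr (π l) ν))).subtype (· ∈ C)).card := by
  rw [Finset.card_eq_sum_card_fiberwise (f := fun z => trunc P (Sh l z)) (t := Pre F P)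
    (fun z _ => Finset.mem_coe.2 (mem_Lv.2 ⟨by simp [trunc], fun j hj => if_neg hj.not_gt⟩))]
  refine Finset.sum_le_sum fun ν _ => ?_
  rw [← Finset.card_map (Function.Embedding.subtype (· ∈ C))]
  have key : ∀ z ∈ (S.filter fun z => Gm (setPos π P C x l) l z ∈ S).filter
      fun z => trunc P (Sh l z) = ν, z ∈ S ∧ Sh l z P ∈ C ∧ (∀ j, P < j → Sh l z j = 0) ∧
        Sh l z = Function.update ν P (Sh l z P) := fun z hz => by
    obtain ⟨hz1, rfl⟩ := Finset.mem_filter.1 hz
    have hz2 := (Finset.mem_filter.1 hz1).1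
    have hz3 := mem_Lv.1 ((Sh_mem_Lv l).2 (hS hz2))
    exact ⟨hz2, hz3.1, hz3.2, Expand_update hz3.2⟩
  refine Finset.card_le_card_of_injOn (fun z => Sh l z P) (fun z hz => ?_) fun z hz z' hz' e => ?_
  · obtain ⟨h1, h2, h3, h4⟩ := key z hz
    obtain ⟨hz1, rfl⟩ := Finset.mem_filter.1 (Finset.mem_coe.1 hz)
    have h5 := (Finset.mem_filter.1 hz1).2
    rw [Gm, Expand_Tr π h0 P C x l h3, Equiv.Perm.ofSubtype_apply_of_mem _ h2] at h5
    refine Finset.mem_coe.2 (Finset.mem_map.2 ⟨⟨Sh l z P, h2⟩, Finset.mem_filter.2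
      ⟨Finset.mem_subtype.2 (Finset.mem_filter.2 ⟨h2, z, h1, h4⟩), Finset.mem_subtype.2
        (Finset.mem_filter.2 ⟨Subtype.property _, h5⟩)⟩, rfl⟩)
  · refine Sh_injective l ?_
    rw [(key z hz).2.2.2, (key z' hz').2.2.2]
    exact congrArg _ e

omit [Field F] [Fintype F] in
open Classical in
theorem Expand_card_subtype {U C : Finset F} (h : U ⊆ C) : (U.subtype (· ∈ C)).card = U.card := by
  rw [Finset.card_subtype, Finset.filter_true_of_mem h]

open Classical in
/-- For fixed `S`: the number of inner edges is `∑_{(l,ν)} #{c ∈ Ufib l ν | x (l,ν) c ∈ Vfib l ν'}`; `Ex_prod`,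
`sum_two_pow_perm`, `mean_bound` (`≤ 0.55 |Λ| |S|`) and Markov for `2^{e(S)}`; `0.9 log 2 - 0.55 ≥ 1/20`. -/
theorem prob_dense (π : F → Loc F) (h0 : ∀ l, Fix0 (π l)) (P : ℕ) (C : Finset F) (hC0 : (0 : F) ∉ C)
    (hC : 3200 ≤ C.card) (Λ : Finset F) (hΛ : Fintype.card F ≤ 2 * Λ.card) (S : Finset (ℕ → F))
    (hS : S ⊆ Lv P C) (hS2 : 2 * S.card ≤ (Lv P C).card) :
    (permFP C).Pr (Λ ×ˢ Pre F P)
      {x | 9 * Λ.card * S.card <
        10 * ∑ l ∈ Λ, (S.filter fun z => Gm (setPos π P C x l) l z ∈ S).card} ≤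
      Real.exp (-(Λ.card * S.card / 20)) := by
  have hC' : (3200 : ℝ) ≤ C.card := by exact_mod_cast hC
  have hΛ' : (Fintype.card F : ℝ) ≤ 2 * Λ.card := by exact_mod_cast hΛ
  have hS' : 2 * (S.card : ℝ) ≤ (Lv P C).card := by exact_mod_cast hS2
  have hL0 : (0 : ℝ) ≤ Λ.card := Nat.cast_nonneg _
  have hS0 : (0 : ℝ) ≤ S.card := Nat.cast_nonneg _
  set φ : F × (ℕ → F) → Equiv.Perm {c // c ∈ C} → ℝ := fun e σ =>
    2 ^ (((Ufib P C S e.1 e.2).subtype (· ∈ C)).filter fun u =>
      σ u ∈ (Vfib P C S e.1 (trunc P (Tr (π e.1) e.2))).subtype (· ∈ C)).card with hφ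
  have h1 := (permFP C).markov (Λ ×ˢ Pre F P) (Φ := fun x => ∏ e ∈ Λ ×ˢ Pre F P, φ e (x e))
    (fun x => Finset.prod_nonneg fun e _ => by simp only [hφ]; positivity)
    (Real.exp_pos (3 / 5 * (Λ.card * S.card)))
  refine le_trans ((permFP C).Pr_mono _ fun x _ hx => ?_) (h1.trans ?_)
  · simp only [Set.mem_ofPred_eq] at hx ⊢
    simp only [hφ]
    rw [Finset.prod_pow_eq_pow_sum, Finset.sum_product]
    have h2 := Finset.sum_le_sum fun l (_ : l ∈ Λ) => Expand_count π h0 P C S hS x l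
    refine le_trans ?_ (pow_le_pow_right₀ one_le_two h2)
    set n := ∑ l ∈ Λ, (S.filter fun z => Gm (setPos π P C x l) l z ∈ S).card
    have h3 : 9 * (Λ.card : ℝ) * S.card < 10 * n := by exact_mod_cast hx
    have h4 : (2 : ℝ) ^ n = Real.exp (n * Real.log 2) := by
      rw [Real.exp_nat_mul, Real.exp_log two_pos]
    rw [h4, Real.exp_le_exp]
    have h5 := Real.log_two_gt_d9
    have h6 : (0 : ℝ) ≤ n := Nat.cast_nonneg _
    nlinarith
  · rw [FP.Ex_prod, div_le_iff₀ (Real.exp_pos _), ← Real.exp_add]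
    have h2 : ∀ e ∈ Λ ×ˢ Pre F P, ∑ θ ∈ (permFP C).Ω e, (permFP C).w e θ * φ e θ ≤
        Real.exp (((Ufib P C S e.1 e.2).card *
          (Vfib P C S e.1 (trunc P (Tr (π e.1) e.2))).card : ℝ) / C.card) := fun e _ => by
      have h3 := sum_two_pow_perm ((Ufib P C S e.1 e.2).subtype (· ∈ C))
        ((Vfib P C S e.1 (trunc P (Tr (π e.1) e.2))).subtype (· ∈ C))
      rw [Expand_card_subtype (U := Ufib P C S e.1 e.2) (Finset.filter_subset _ _),
        Expand_card_subtype (U := Vfib P C S e.1 _) (Finset.filter_subset _ _),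
        Fintype.card_coe] at h3
      simp only [permFP, hφ]
      rw [← Finset.mul_sum, one_div, inv_mul_le_iff₀ (by exact_mod_cast Fintype.card_pos)]
      convert h3
      rfl
    refine (Finset.prod_le_prod (fun e _ => Finset.sum_nonneg fun θ _ =>
      mul_nonneg ((permFP C).nonneg _ _) (by simp only [hφ]; positivity)) h2).trans ?_
    rw [← Real.exp_sum, Real.exp_le_exp, Finset.sum_product]
    refine (mean_bound π h0 P C (Finset.card_pos.1 (by omega)) Λ S hS).trans ?_
    have h3 : Λ.card * (S.card : ℝ) ^ 2 / (Lv P C).card ≤ Λ.card * S.card / 2 :=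
      div_le_of_le_mul₀ (Nat.cast_nonneg _) (by positivity)
        (by nlinarith [mul_le_mul_of_nonneg_left hS' (mul_nonneg hL0 hS0)])
    have h4 : √(Λ.card * Fintype.card F / C.card : ℝ) ≤ Λ.card / 40 := by
      refine Real.sqrt_le_iff.2 ⟨by positivity, div_le_of_le_mul₀ (by linarith) (by positivity) ?_⟩
      nlinarith [mul_le_mul_of_nonneg_left hΛ' hL0,
        mul_le_mul_of_nonneg_left hC' (mul_nonneg hL0 hL0)]
    nlinarith [mul_le_mul_of_nonneg_right h4 hS0]

end Crest.Agent.R129
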