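import Crest.Agent.R129.Expand

/-!
# R129 / Expand2 : random last permutations give edge expansion after deleting few points
-/

set_option autoImplicit false

namespace Crest.Agent.R129

variable {F : Type} [Field F] [Fintype F]

/-- possible moves, whatever the last permutations are. -/
def ex2_r0 (π : F → Loc F) (P : ℕ) (C : Finset F) (z z' : ℕ → F) : Prop :=
  z ∈ Lv P C ∧ ∃ l c, z' = Sh' l (Function.update (trunc P (Tr (π l) (Sh l z))) P c)

omit [Fintype F] in
theorem ex2_trunc_inj (π : Loc F) {P : ℕ} {w w' : ℕ → F}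
    (h : ∀ j < P, Tr π w j = Tr π w' j) : ∀ j < P, w j = w' j := by
  intro j
  induction j using Nat.strong_induction_on with
  | _ j ih =>
    intro hj
    have h1 : trunc j w = trunc j w' := by
      funext i
      unfold trunc
      split_ifs with hi
      · exact ih i hi (hi.trans hj)
      · rfl
    have h2 := h j hj
    unfold Tr at h2
    rw [h1] at h2
    exact (π j _).injective h2

theorem ex2_deg (π : F → Loc F) (P : ℕ) (C : Finset F) (a : ℕ → F) (s : Finset (ℕ → F))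
    (hs : ∀ b ∈ s, ex2_r0 π P C a b ∨ ex2_r0 π P C b a) : s.card ≤ 2 * Fintype.card F ^ 2 := by
  classical
  have h1 : (s.filter fun b => ex2_r0 π P C a b).card ≤ Fintype.card F ^ 2 := by
    refine le_trans (Finset.card_le_card (t := Finset.univ.image fun p : F × F =>
      Sh' p.1 (Function.update (trunc P (Tr (π p.1) (Sh p.1 a))) P p.2)) fun b hb => ?_)
      (Finset.card_image_le.trans (by simp [sq]))
    obtain ⟨-, l, c, h⟩ := (Finset.mem_filter.1 hb).2
    exact Finset.mem_image.2 ⟨(l, c), Finset.mem_univ _, h.symm⟩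
  have h2 : (s.filter fun b => ¬ ex2_r0 π P C a b).card ≤ Fintype.card F ^ 2 := by
    have h3 : ∀ b : ℕ → F, ∃ l : F, ex2_r0 π P C b a →
        ∃ c, a = Sh' l (Function.update (trunc P (Tr (π l) (Sh l b))) P c) := by
      intro b
      by_cases h : ex2_r0 π P C b a
      · obtain ⟨-, l, c, h⟩ := h
        exact ⟨l, fun _ => ⟨c, h⟩⟩
      · exact ⟨0, fun h' => absurd h' h⟩
    choose g hg using h3
    refine le_trans (Finset.card_le_card_of_injOn (t := (Finset.univ : Finset (F × F)))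
      (fun b => (g b, Sh (g b) b P)) (fun _ _ => Finset.mem_coe.2 (Finset.mem_univ _)) ?_)
      (by simp [sq])
    intro b hb b' hb' hbb
    have hb1 := Finset.mem_filter.1 (Finset.mem_coe.1 hb)
    have hb1' := Finset.mem_filter.1 (Finset.mem_coe.1 hb')
    have hr := (hs b hb1.1).resolve_left hb1.2
    have hr' := (hs b' hb1'.1).resolve_left hb1'.2
    obtain ⟨c, hc⟩ := hg b hr
    obtain ⟨c', hc'⟩ := hg b' hr'
    simp only [Prod.mk.injEq] at hbb
    obtain ⟨e1, e2⟩ := hbb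
    rw [← e1] at hc' e2
    have h4 := Sh'_injective _ (hc.symm.trans hc')
    have h5 := ex2_trunc_inj (π (g b)) (P := P) (w := Sh (g b) b) (w' := Sh (g b) b') (by
      intro j hj
      have := congrFun h4 j
      rw [Function.update_of_ne hj.ne, Function.update_of_ne hj.ne] at this
      simpa only [trunc, if_pos hj] using this)
    apply Sh_injective (g b)
    funext j
    rcases lt_trichotomy j P with h | h | h
    · exact h5 j h
    · rw [h]; exact e2
    · rw [(mem_Lv.1 ((Sh_mem_Lv (g b)).2 hr.1)).2 j h, (mem_Lv.1 ((Sh_mem_Lv (g b)).2 hr'.1)).2 j h]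
  have := Finset.card_filter_add_card_filter_not (s := s) (fun b => ex2_r0 π P C a b)
  omega

theorem ex2_move (π : F → Loc F) (h0 : ∀ l, Fix0 (π l)) (P : ℕ) (C : Finset F)
    (x : F × (ℕ → F) → Equiv.Perm {c // c ∈ C}) (l : F) {z : ℕ → F} (hz : z ∈ Lv P C) :
    ex2_r0 π P C z (Gm (setPos π P C x l) l z) := by
  refine ⟨hz, l, Tr (setPos π P C x l) (Sh l z) P, ?_⟩
  unfold Gm
  congr 1
  funext j
  rcases lt_trichotomy j P with h | h | h
  · rw [Function.update_of_ne h.ne]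
    simp only [trunc, if_pos h, Tr, setPos, if_neg h.ne]
  · rw [h, Function.update_self]
  · rw [Function.update_of_ne h.ne']
    have h1 := (mem_Lv.1 ((Sh_mem_Lv l).2 hz)).2 j h
    simp only [trunc, if_neg h.not_gt, Tr, setPos, if_neg h.ne', h1]
    exact h0 l j _

theorem ex2_num {q : ℝ} (hq : 10000 ≤ q) : 8 * q ^ 8 ≤ Real.exp (q / 40) := by
  refine le_trans ?_ (Real.pow_div_factorial_le_exp (q / 40) (by positivity) 24)
  have h1 : (10000 : ℝ) ^ 16 ≤ q ^ 16 := pow_le_pow_left₀ (by norm_num) hq 16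
  have h2 : (q / 40) ^ 24 / (Nat.factorial 24 : ℕ) =
      q ^ 8 * (q ^ 16 / (40 ^ 24 * (Nat.factorial 24 : ℕ))) := by
    field_simp
  rw [h2, mul_comm]
  refine mul_le_mul_of_nonneg_left ?_ (by positivity)
  rw [le_div_iff₀ (by positivity)]
  refine le_trans ?_ h1
  norm_num [Nat.factorial]

theorem ex2_geom {ρ : ℝ} (h0 : 0 ≤ ρ) (h1 : ρ ≤ 1 / 2) (n : ℕ) :
    ∑ m ∈ Finset.range n, ρ ^ (m + 1) ≤ 2 * ρ := by
  induction n with
  | zero => simp; positivity
  | succ n ih =>
    rw [Finset.sum_range_succ']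
    have : ∑ m ∈ Finset.range n, ρ ^ (m + 1 + 1) = ρ * ∑ m ∈ Finset.range n, ρ ^ (m + 1) := by
      rw [Finset.mul_sum]
      exact Finset.sum_congr rfl fun m _ => by ring
    rw [this]
    have h2 := mul_le_mul_of_nonneg_left ih h0
    have h3 : ρ * (2 * ρ) ≤ ρ * 1 := mul_le_mul_of_nonneg_left (by linarith) h0
    rw [zero_add, pow_one]
    linarith

open Classical in
/-- Let `r` be the symmetrisation of "`z' = Sh' l (update (trunc P (Tr (π l) (Sh l z))) P c)` for some `l`, `c`, `z ∈ Lv P C`" (degree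
`≤ 2q²`).  `D x` = points of dense `r`-connected sets `S ⊆ Lv` with `2|S| ≤ |Lv|`.  Expected size
`≤ |Lv| ∑_{m ≥ 1} (4 q⁴ e^{-q/40})^m ≤ |Lv|/q⁴` (`card_connected`, `prob_dense`); `exists_le_Ex`;
`exists_dense_component`. -/
theorem exists_expand (hq : 10000 ≤ Fintype.card F) (π : F → Loc F) (h0 : ∀ l, Fix0 (π l)) (P : ℕ)
    (C : Finset F) (hC0 : (0 : F) ∉ C) (hC : 3200 ≤ C.card) (Λ : Finset F)
    (hΛ : Fintype.card F ≤ 2 * Λ.card) :
    ∃ (x : F × (ℕ → F) → Equiv.Perm {c // c ∈ C}) (D : Finset (ℕ → F)),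
      D.card * Fintype.card F ^ 4 ≤ (Lv P C).card ∧ ExpOK (setPos π P C x) Λ P C D := by
  set q := Fintype.card F with hqdef
  have hqR : (10000 : ℝ) ≤ q := by exact_mod_cast hq
  set r : (ℕ → F) → (ℕ → F) → Prop := fun a b => ex2_r0 π P C a b ∨ ex2_r0 π P C b a with hr
  have hrs : ∀ a b, r a b → r b a := fun a b h => h.symm
  set Dn : (F × (ℕ → F) → Equiv.Perm {c // c ∈ C}) → Finset (ℕ → F) → Prop := fun x S =>
    9 * Λ.card * S.card <
      10 * ∑ l ∈ Λ, (S.filter fun z => Gm (setPos π P C x l) l z ∈ S).card with hDn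
  set 𝒮 : (ℕ → F) → Finset (Finset (ℕ → F)) := fun y =>
    (Lv P C).powerset.filter fun S => ConnIn r S y ∧ 2 * S.card ≤ (Lv P C).card with h𝒮
  set D : (F × (ℕ → F) → Equiv.Perm {c // c ∈ C}) → Finset (ℕ → F) := fun x =>
    (Lv P C).filter fun y => ∃ S ∈ 𝒮 y, Dn x S with hD
  set ρ : ℝ := 4 * (q : ℝ) ^ 4 * Real.exp (-(q / 40)) with hρ
  have hρ0 : 0 ≤ ρ := by positivity
  have hρ1 : 2 * ρ * (q : ℝ) ^ 4 ≤ 1 := by
    have h1 := ex2_num hqR
    have h2 : 2 * ρ * (q : ℝ) ^ 4 = 8 * (q : ℝ) ^ 8 / Real.exp (q / 40) := by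
      rw [hρ, Real.exp_neg]
      field_simp
      norm_num
    rw [h2, div_le_one (Real.exp_pos _)]
    exact h1
  have hq4 : (1 : ℝ) ≤ (q : ℝ) ^ 4 := one_le_pow₀ (by linarith)
  have hρ2 : ρ ≤ 1 / 2 := by nlinarith
  have hy : ∀ y ∈ Lv P C, ∑ S ∈ 𝒮 y, (permFP C).Pr (Λ ×ˢ Pre F P) {x | Dn x S} ≤ 2 * ρ := by
    intro y _
    have hmap : ∀ S ∈ 𝒮 y, S.card - 1 ∈ Finset.range (Lv P C).card := by
      intro S hS
      obtain ⟨h1, h2, h3⟩ := Finset.mem_filter.1 hS
      have := Finset.card_pos.2 ⟨y, h2.1⟩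
      rw [Finset.mem_range]
      omega
    rw [← Finset.sum_fiberwise_of_maps_to hmap]
    refine le_trans (Finset.sum_le_sum fun m _ => ?_) (ex2_geom hρ0 hρ2 (Lv P C).card)
    have hcard : ∀ S ∈ (𝒮 y).filter fun S => S.card - 1 = m, S.card = m + 1 ∧ ConnIn r S y := by
      intro S hS
      obtain ⟨hS1, h4⟩ := Finset.mem_filter.1 hS
      obtain ⟨h1, h2, h3⟩ := Finset.mem_filter.1 hS1
      have := Finset.card_pos.2 ⟨y, h2.1⟩
      exact ⟨by omega, h2⟩
    have h1 := card_connected r hrs (Δ := 2 * q ^ 2)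
      (by have : 0 < q := by omega
          exact Nat.succ_le_of_lt (by positivity))
      (fun a s hs => ex2_deg π P C a s hs) y (m + 1) _ hcard
    have h2 : ∀ S ∈ (𝒮 y).filter fun S => S.card - 1 = m,
        (permFP C).Pr (Λ ×ˢ Pre F P) {x | Dn x S} ≤ Real.exp (-(q / 40)) ^ (m + 1) := by
      intro S hS
      obtain ⟨hS1, h4⟩ := Finset.mem_filter.1 hS
      obtain ⟨h5, -, h3⟩ := Finset.mem_filter.1 hS1
      refine (prob_dense π h0 P C hC0 hC Λ hΛ S (Finset.mem_powerset.1 h5) h3).trans ?_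
      rw [← Real.exp_nat_mul, Real.exp_le_exp, (hcard S hS).1]
      have h6 : (q : ℝ) ≤ 2 * Λ.card := by exact_mod_cast hΛ
      have h7 : (0 : ℝ) ≤ ((m + 1 : ℕ) : ℝ) := Nat.cast_nonneg _
      nlinarith
    refine (Finset.sum_le_card_nsmul _ _ _ h2).trans ?_
    rw [nsmul_eq_mul, hρ, mul_pow]
    refine mul_le_mul_of_nonneg_right ?_ (by positivity)
    calc _ ≤ (((2 * q ^ 2) ^ (2 * (m + 1)) : ℕ) : ℝ) := by exact_mod_cast h1
      _ = _ := by push_cast; rw [pow_mul]; congr 1; ring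
  have hE : (permFP C).Ex (Λ ×ˢ Pre F P) (fun x => ((D x).card : ℝ)) ≤ (Lv P C).card * (2 * ρ) := by
    refine le_trans ((permFP C).Ex_mono _ (Ψ := fun x => ∑ y ∈ Lv P C, ∑ S ∈ 𝒮 y,
      Set.indicator {x | Dn x S} 1 x) fun x _ => ?_) ?_
    · rw [hD]
      simp only
      rw [Finset.card_filter, Nat.cast_sum]
      refine Finset.sum_le_sum fun y _ => ?_
      have h1 : ∀ S ∈ 𝒮 y, (0 : ℝ) ≤ Set.indicator {x | Dn x S} 1 x := fun S _ =>
        Set.indicator_nonneg (fun _ _ => zero_le_one) x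
      split_ifs with h
      · obtain ⟨S, hS, hx⟩ := h
        have := Finset.single_le_sum h1 hS
        rw [Set.indicator_of_mem (show x ∈ {x | Dn x S} from hx)] at this
        simpa using this
      · simpa using Finset.sum_nonneg h1
    · rw [FP.Ex_sum]
      refine (Finset.sum_le_card_nsmul _ _ (2 * ρ) fun y hy' => ?_).trans (by rw [nsmul_eq_mul])
      rw [FP.Ex_sum]
      exact hy y hy'
  obtain ⟨x, -, hx⟩ := (permFP C).exists_le_Ex (Λ ×ˢ Pre F P) (fun x => ((D x).card : ℝ))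
  refine ⟨x, D x, ?_, ?_⟩
  · have h1 : ((D x).card : ℝ) * (q : ℝ) ^ 4 ≤ (Lv P C).card := by
      refine (mul_le_mul_of_nonneg_right (hx.trans hE) (by positivity)).trans ?_
      rw [mul_assoc]
      exact mul_le_of_le_one_right (Nat.cast_nonneg _) hρ1
    exact_mod_cast h1
  · intro S hS hS2
    by_contra hcon
    rw [not_le] at hcon
    have hS1 : ∀ z ∈ S, z ∈ Lv P C ∧ z ∉ D x := fun z hz => Finset.mem_sdiff.1 (hS hz)
    obtain ⟨S', hsub, hconn, hd⟩ := exists_dense_component r hrs Λ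
      (fun l z => Gm (setPos π P C x l) l z) 10 (9 * Λ.card) S
      (fun l _ z hz => Or.inl (ex2_move π h0 P C x l (hS1 z hz).1)) (by convert hcon)
    rcases S'.eq_empty_or_nonempty with h | ⟨y, hy'⟩
    · subst h
      simp at hd
    · refine (hS1 y (hsub hy')).2 (Finset.mem_filter.2 ⟨(hS1 y (hsub hy')).1, S',
        Finset.mem_filter.2 ⟨Finset.mem_powerset.2 fun z hz => (hS1 z (hsub hz)).1, hconn y hy',
          le_trans (Nat.mul_le_mul_left 2 (Finset.card_le_card hsub)) hS2⟩, ?_⟩)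
      rw [hDn]
      convert hd

/-- **Main data.**  Position by position (`exists_seq_dep` with `α = F → (ℕ → F) → Perm F`; use the identity at later
positions and for non-`Fix0` earlier values put the hypothesis into `Good`), for every class `exists_expand`, glue with
`exists_glue_perm`, transfer with `Gm_congr`. -/
theorem exists_main {ι : Type} (hq : 10000 ≤ Fintype.card F) (C : ι → Finset F)
    (hd : ∀ i j c, c ∈ C i → c ∈ C j → i = j) (hC0 : ∀ i, (0 : F) ∉ C i) (hC : ∀ i, 3200 ≤ (C i).card)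
    (Λ : Finset F) (hΛ : Fintype.card F ≤ 2 * Λ.card) :
    ∃ π : F → Loc F, (∀ l, Fix0 (π l)) ∧ (∀ l j ν i, ∀ c ∈ C i, π l j ν c ∈ C i) ∧
      ∀ P i, ∃ D : Finset (ℕ → F), D.card * Fintype.card F ^ 4 ≤ (Lv P (C i)).card ∧
        ExpOK π Λ P (C i) D := by
  classical
  let pf : ℕ → (ℕ → F → (ℕ → F) → Equiv.Perm F) → F → Loc F := fun n f l j ν =>
    if j < n then f j l ν else 1
  let Good : ℕ → (ℕ → F → (ℕ → F) → Equiv.Perm F) → (F → (ℕ → F) → Equiv.Perm F) → Prop :=
    fun n f a => (∀ l ν, a l ν 0 = 0) ∧ (∀ l ν i, ∀ c ∈ C i, a l ν c ∈ C i) ∧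
      ((∀ l, Fix0 (pf n f l)) → ∀ i, ∃ (x : F × (ℕ → F) → Equiv.Perm {c // c ∈ C i})
        (D : Finset (ℕ → F)), D.card * Fintype.card F ^ 4 ≤ (Lv n (C i)).card ∧
          ExpOK (setPos (pf n f) n (C i) x) Λ n (C i) D ∧
          ∀ l ν, ∀ c ∈ C i, a l ν c = Equiv.Perm.ofSubtype (x (l, ν)) c)
  obtain ⟨f, hf⟩ := exists_seq_dep Good (by
      intro n f f' a hff h
      have : pf n f = pf n f' := by
        funext l j ν
        simp only [pf]
        split_ifs with hj
        · rw [hff j hj]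
        · rfl
      simp only [Good] at h ⊢
      rwa [← this]) (by
      intro n f
      by_cases h0 : ∀ l, Fix0 (pf n f l)
      · choose x D hD hE using fun i => exists_expand hq (pf n f) h0 n (C i) (hC0 i) (hC i) Λ hΛ
        have hmem : ∀ l ν i, ∀ c ∈ C i, Equiv.Perm.ofSubtype (x i (l, ν)) c ∈ C i := by
          intro l ν i c hc
          rw [Equiv.Perm.ofSubtype_apply_of_mem _ hc]
          exact Subtype.property _
        choose a ha1 ha2 using fun l ν => exists_glue_perm C hd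
          (fun i => Equiv.Perm.ofSubtype (x i (l, ν))) (hmem l ν)
        refine ⟨a, fun l ν => ha2 l ν 0 hC0, fun l ν i c hc => ?_,
          fun _ i => ⟨x i, D i, hD i, hE i, fun l ν c hc => ha1 l ν i c hc⟩⟩
        rw [ha1 l ν i c hc]
        exact hmem l ν i c hc
      · exact ⟨fun _ _ => 1, fun _ _ => rfl, fun _ _ _ _ hc => hc, fun h => absurd h h0⟩)
  have hfix : ∀ l, Fix0 (fun j ν => f j l ν) := fun l j ν => (hf j).1 l ν
  refine ⟨fun l j ν => f j l ν, hfix, fun l j ν i c hc => (hf j).2.1 l ν i c hc, fun P i => ?_⟩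
  have h0 : ∀ l, Fix0 (pf P f l) := by
    intro l j ν
    simp only [pf]
    split_ifs
    · exact hfix l j ν
    · rfl
  obtain ⟨x, D, hD, hE, hx⟩ := (hf P).2.2 h0 i
  refine ⟨D, hD, fun S hS hS2 => le_trans (le_of_eq ?_) (hE S hS hS2)⟩
  congr 1
  refine Finset.sum_congr rfl fun l _ => ?_
  congr 1
  refine Finset.filter_congr fun z hz => ?_
  rw [Gm_congr (hfix l) (π' := setPos (pf P f) P (C i) x l) (P := P) (C := C i) ?_ ?_ ?_ l
    (Finset.mem_sdiff.1 (hS hz)).1]
  · intro j ν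
    simp only [setPos]
    split_ifs
    · exact Equiv.Perm.ofSubtype_apply_of_not_mem _ (hC0 i)
    · exact h0 l j ν
  · intro j hj
    funext ν
    simp only [setPos, pf, if_neg hj.ne, if_pos hj]
  · intro ν c hc
    simp only [setPos, if_true]
    convert hx l ν c hc

end Crest.Agent.R129
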