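import Crest.Agent.R129.FnDef

/-!
# R129 / Fn1 : the giant component of a finite cover
-/

set_option autoImplicit false
open scoped ComplexConjugate
open FreeGroup

namespace Crest.Agent.R129

/-- Take a closed set `C` of minimal size among those with `3 |C| > |M|`; then `3 |C| > 2 |M|`; for `x ∈ C` the set
`C \ [x]` is closed and smaller, so the class `[x]` has `3 |[x]| > |M|`, hence `3 |[x]| > 2 |M|`. -/
theorem exists_big_class {α : Type} (M : Finset α) (hM : M.Nonempty) (r : Setoid α)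
    (h : ∀ C ⊆ M, (∀ a ∈ C, ∀ b ∈ M, r a b → b ∈ C) →
      3 * C.card ≤ M.card ∨ 2 * M.card < 3 * C.card) :
    ∃ a ∈ M, ∃ C ⊆ M, (∀ b ∈ C, r a b) ∧ (∀ b ∈ M, r a b → b ∈ C) ∧ 2 * M.card < 3 * C.card := by
  classical
  obtain ⟨S, hS⟩ : ∃ S : Finset (Finset α), ∀ C, C ∈ S ↔
      C ⊆ M ∧ (∀ a ∈ C, ∀ b ∈ M, r a b → b ∈ C) ∧ M.card < 3 * C.card :=
    ⟨M.powerset.filter fun C => (∀ a ∈ C, ∀ b ∈ M, r a b → b ∈ C) ∧ M.card < 3 * C.card,
      fun C => by simp only [Finset.mem_filter, Finset.mem_powerset]⟩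
  have hne : S.Nonempty := by
    refine ⟨M, (hS M).2 ⟨subset_rfl, fun _ _ b hb _ => hb, ?_⟩⟩
    have := hM.card_pos
    omega
  obtain ⟨C, hC, hmin⟩ := Finset.exists_min_image _ Finset.card hne
  obtain ⟨hCM, hCcl, hCbig⟩ := (hS C).1 hC
  have hC2 : 2 * M.card < 3 * C.card := (h C hCM hCcl).resolve_left (by omega)
  obtain ⟨x, hx⟩ : C.Nonempty := Finset.card_pos.1 (by omega)
  obtain ⟨D, hD⟩ : ∃ D : Finset α, D = M.filter fun b => r x b := ⟨_, rfl⟩
  have hmem : ∀ b, b ∈ D ↔ b ∈ M ∧ r x b := fun b => by rw [hD, Finset.mem_filter]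
  have hDM : D ⊆ M := fun b hb => ((hmem b).1 hb).1
  have hDC : D ⊆ C := fun b hb => hCcl x hx b ((hmem b).1 hb).1 ((hmem b).1 hb).2
  have hxD : x ∈ D := (hmem x).2 ⟨hCM hx, r.refl' x⟩
  have hDcl : ∀ a ∈ D, ∀ b ∈ M, r a b → b ∈ D := fun a ha b hb hab =>
    (hmem b).2 ⟨hb, r.trans' ((hmem a).1 ha).2 hab⟩
  have hcard : (C \ D).card + D.card = C.card := Finset.card_sdiff_add_card_eq_card hDC
  have hDpos : 0 < D.card := Finset.card_pos.2 ⟨x, hxD⟩
  have hsmall : 3 * (C \ D).card ≤ M.card := by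
    by_contra hlt
    have := hmin (C \ D) ((hS _).2
      ⟨Finset.sdiff_subset.trans hCM, fun a ha b hb hab => ?_, by omega⟩)
    · omega
    · rw [Finset.mem_sdiff] at ha ⊢
      exact ⟨hCcl a ha.1 b hb hab, fun hbD => ha.2 (hDcl b hbD a (hCM ha.1) (r.symm' hab))⟩
  exact ⟨x, hCM hx, D, hDM, fun b hb => ((hmem b).1 hb).2, fun b hb hxb => (hmem b).2 ⟨hb, hxb⟩,
    (h D hDM hDcl).resolve_left (by omega)⟩

section
variable {V E Q : Type} [Group Q] [Fintype Q] (Gr : EG V E)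

open Classical in
/-- test with `f = 1_C - θ`, `θ = |C|/m`, `m = |X| |Q|`: the form is `2 ((1-θ)² E₁ + θ² E₂)` where `E₁ ≤ s |C|` edges lie in
`C`, `E₂ ≤ s (m - |C|)` lie outside, `E₁ + E₂ = |F| |Q| ≥ (1-ε) s m`; so `c θ (1-θ) ≤ ε < 2c/9`. -/
theorem closed_dichotomy (X : Finset V) (F : Finset E) (hF : ∀ e ∈ F, Gr.src e ∈ X ∧ Gr.tgt e ∈ X)
    {s : ℕ} (hs0 : 0 < s) (ht : ∀ x, (F.filter fun e => Gr.tgt e = x).card ≤ s) {c ε : ℝ} (hc : 0 < c)
    (hε0 : 0 ≤ ε) (hε : 9 * ε < 2 * c) (hE : (1 - ε) * s * X.card ≤ F.card) {v : E → Q}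
    (hU : UpOK Gr X F Finset.univ v ((1 - c) * (2 * s))) (C : Finset (V × Q))
    (hC : C ⊆ X ×ˢ Finset.univ)
    (hcl : ∀ e ∈ F, ∀ g, (Gr.src e, v e * g) ∈ C ↔ (Gr.tgt e, g) ∈ C) :
    3 * C.card ≤ (X ×ˢ (Finset.univ : Finset Q)).card ∨
      2 * (X ×ˢ (Finset.univ : Finset Q)).card < 3 * C.card := by
  obtain ⟨m, hm⟩ : ∃ m : ℕ, m = (X ×ˢ (Finset.univ : Finset Q)).card := ⟨_, rfl⟩
  have hm' : (m : ℝ) = X.card * Fintype.card Q := by
    rw [hm, Finset.card_product, Finset.card_univ, Nat.cast_mul]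
  have hCm : C.card ≤ m := hm ▸ Finset.card_le_card hC
  rw [← hm]
  rcases Nat.eq_zero_or_pos m with h0 | hpos
  · left; omega
  have hmpos : (0 : ℝ) < m := by exact_mod_cast hpos
  obtain ⟨θ, hθ⟩ : ∃ θ : ℝ, θ = C.card / m := ⟨_, rfl⟩
  have hθm : θ * m = C.card := by rw [hθ]; field_simp
  have hθ0 : 0 ≤ θ := by rw [hθ]; positivity
  have hθ1 : θ ≤ 1 := by rw [hθ, div_le_one hmpos]; exact_mod_cast hCm
  obtain ⟨φ, hφ⟩ : ∃ φ : V → Q → ℝ, φ = fun x g => (if (x, g) ∈ C then 1 else 0) - θ := ⟨_, rfl⟩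
  have hind : ∑ x ∈ X, ∑ g : Q, (if (x, g) ∈ C then (1 : ℝ) else 0) = C.card := by
    rw [← Finset.sum_product' (f := fun x g => if (x, g) ∈ C then (1 : ℝ) else 0), Finset.sum_boole]
    congr 2
    ext p
    rw [Finset.mem_filter]
    exact ⟨fun hp => hp.2, fun hp => ⟨hC hp, hp⟩⟩
  have hconst : ∀ a : ℝ, ∑ _x ∈ X, ∑ _g : Q, a = a * m := by
    intro a
    simp only [Finset.sum_const, Finset.card_univ, nsmul_eq_mul, hm']
    ring
  have hmean : ∑ x ∈ X, ∑ g : Q, φ x g = 0 := by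
    simp only [hφ, Finset.sum_sub_distrib]
    rw [hind, hconst, hθm, sub_self]
  have hsq : ∀ x g, φ x g ^ 2 = (1 - 2 * θ) * (if (x, g) ∈ C then 1 else 0) + θ ^ 2 := by
    intro x g
    simp only [hφ]
    split_ifs <;> ring
  have hsq1 : ∀ x g, φ x g ^ 2 ≤ 1 := by
    intro x g
    simp only [hφ]
    split_ifs <;> nlinarith
  have hN : ∑ x ∈ X, ∑ g : Q, φ x g ^ 2 = m * (θ * (1 - θ)) := by
    simp only [hsq, Finset.sum_add_distrib, ← Finset.mul_sum]
    rw [hind, hconst, ← hθm]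
    ring
  have hup := hU (fun x g => (φ x g : ℂ)) (by exact_mod_cast hmean)
  have hFm : FmC Gr F Finset.univ v (fun x g => (φ x g : ℂ)) =
      2 * ∑ e ∈ F, ∑ g : Q, φ (Gr.tgt e) g ^ 2 := by
    rw [FmC, Finset.mul_sum]
    refine Finset.sum_congr rfl fun e he => ?_
    rw [Finset.mul_sum]
    refine Finset.sum_congr rfl fun g _ => ?_
    have : φ (Gr.src e) (v e * g) = φ (Gr.tgt e) g := by
      simp only [hφ, hcl e he g]
    rw [this, Complex.conj_ofReal, ← Complex.ofReal_mul, Complex.ofReal_re, sq]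
  simp only [Complex.norm_real, Real.norm_eq_abs, sq_abs] at hup
  rw [hFm, hN] at hup
  have hfib : ∀ Φ : V → ℝ, ∑ e ∈ F, Φ (Gr.tgt e) =
      ∑ x ∈ X, ((F.filter fun e => Gr.tgt e = x).card : ℝ) * Φ x := by
    intro Φ
    rw [← Finset.sum_fiberwise_of_maps_to (g := Gr.tgt) (t := X) fun e he => (hF e he).2]
    refine Finset.sum_congr rfl fun x _ => ?_
    rw [Finset.sum_congr rfl (g := fun _ => Φ x) fun e he => by rw [(Finset.mem_filter.1 he).2],
      Finset.sum_const, nsmul_eq_mul]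
  have hFc : (F.card : ℝ) = ∑ x ∈ X, ((F.filter fun e => Gr.tgt e = x).card : ℝ) := by
    have := hfib fun _ => 1
    simpa using this
  have hlow : s * (m * (θ * (1 - θ))) - Fintype.card Q * (s * X.card - F.card) ≤
      ∑ e ∈ F, ∑ g : Q, φ (Gr.tgt e) g ^ 2 := by
    rw [hfib fun x => ∑ g : Q, φ x g ^ 2, ← hN, hFc, Finset.mul_sum,
      show (s : ℝ) * X.card = ∑ _x ∈ X, (s : ℝ) by rw [Finset.sum_const, nsmul_eq_mul, mul_comm],
      ← Finset.sum_sub_distrib, Finset.mul_sum, ← Finset.sum_sub_distrib]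
    refine Finset.sum_le_sum fun x _ => ?_
    have h1 : ((F.filter fun e => Gr.tgt e = x).card : ℝ) ≤ s := by exact_mod_cast ht x
    have h2 : ∑ g : Q, φ x g ^ 2 ≤ Fintype.card Q := by
      refine (Finset.sum_le_sum fun g _ => hsq1 x g).trans ?_
      simp
    nlinarith [mul_nonneg (sub_nonneg.2 h1) (sub_nonneg.2 h2)]
  have hs' : (0 : ℝ) < s := by exact_mod_cast hs0
  have hq : (0 : ℝ) ≤ Fintype.card Q := Nat.cast_nonneg _
  have hdef : (Fintype.card Q : ℝ) * (s * X.card - F.card) ≤ ε * (s * m) := by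
    rw [hm']
    calc (Fintype.card Q : ℝ) * (s * X.card - F.card) ≤ Fintype.card Q * (ε * s * X.card) :=
          mul_le_mul_of_nonneg_left (by linarith) hq
      _ = _ := by ring
  have hkey : c * (θ * (1 - θ)) ≤ ε := by
    have : (s * m) * (c * (θ * (1 - θ))) ≤ (s * m) * ε := by nlinarith
    exact le_of_mul_le_mul_left this (by positivity)
  have hlt : θ * (1 - θ) < 2 / 9 := by
    have : c * (θ * (1 - θ)) < c * (2 / 9) := by linarith
    exact lt_of_mul_lt_mul_left this hc.le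
  by_contra hcon
  push Not at hcon
  have h1 : (m : ℝ) < 3 * C.card := by exact_mod_cast hcon.1
  have h2 : 3 * (C.card : ℝ) ≤ 2 * m := by exact_mod_cast hcon.2
  rw [← hθm] at h1 h2
  have h3 : 1 < 3 * θ := by
    have : m * 1 < m * (3 * θ) := by linarith
    exact lt_of_mul_lt_mul_left this hmpos.le
  have h4 : 3 * θ ≤ 2 := by
    have : m * (3 * θ) ≤ m * 2 := by linarith
    exact le_of_mul_le_mul_left this hmpos
  nlinarith

omit [Fintype Q] in
open Classical in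
/-- extend functions by zero. -/
theorem UpOK.restrict {X Y : Finset V} (hY : Y ⊆ X) {F : Finset E}
    (hcl : ∀ e ∈ F, Gr.src e ∈ Y ↔ Gr.tgt e ∈ Y) {T : Finset Q} {v : E → Q} {κ : ℝ}
    (hU : UpOK Gr X F T v κ) : UpOK Gr Y (F.filter fun e => Gr.src e ∈ Y) T v κ := by
  intro f hf
  have hsum : ∀ {A : Type} [AddCommMonoid A] (Φ : V → A),
      ∑ x ∈ X, (if x ∈ Y then Φ x else 0) = ∑ x ∈ Y, Φ x := by
    intro A _ Φ
    rw [← Finset.sum_filter, Finset.filter_mem_eq_inter, Finset.inter_eq_right.2 hY]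
  have h := hU (fun x g => if x ∈ Y then f x g else 0) (by
    refine Eq.trans ?_ ((hsum _).trans hf)
    refine Finset.sum_congr rfl fun x _ => ?_
    split_ifs <;> simp)
  have e1 : FmC Gr F T v (fun x g => if x ∈ Y then f x g else 0) =
      FmC Gr (F.filter fun e => Gr.src e ∈ Y) T v f := by
    rw [FmC, FmC, Finset.sum_filter]
    refine Finset.sum_congr rfl fun e he => ?_
    by_cases hs : Gr.src e ∈ Y
    · simp only [if_pos hs, if_pos ((hcl e he).1 hs)]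
    · simp [if_neg hs]
  have e2 : ∑ x ∈ X, ∑ g ∈ T, ‖(if x ∈ Y then f x g else 0)‖ ^ 2 =
      ∑ x ∈ Y, ∑ g ∈ T, ‖f x g‖ ^ 2 := by
    rw [← hsum]
    refine Finset.sum_congr rfl fun x _ => ?_
    split_ifs <;> simp
  rwa [e1, e2] at h

omit [Group Q] [Fintype Q] in
open Classical in
/-- at most `s (|X| - |Y|)` edges start outside `Y`. -/
theorem card_restrict {X Y : Finset V} (hY : Y ⊆ X) (hXY : X.card ≤ 2 * Y.card) {F : Finset E}
    (hF : ∀ e ∈ F, Gr.src e ∈ X) {s : ℕ} (hs : ∀ x, (F.filter fun e => Gr.src e = x).card ≤ s)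
    {ε : ℝ} (hε0 : 0 ≤ ε) (hE : (1 - ε) * s * X.card ≤ F.card) :
    (1 - 2 * ε) * (2 * s) * Y.card ≤ 2 * (F.filter fun e => Gr.src e ∈ Y).card := by
  have h1 := Finset.card_filter_add_card_filter_not (s := F) fun e => Gr.src e ∈ Y
  have h2 : (F.filter fun e => ¬ Gr.src e ∈ Y).card ≤ s * (X \ Y).card := by
    refine Finset.card_le_mul_card_image_of_maps_to (f := Gr.src) (fun e he => ?_) s fun x _ => ?_
    · rw [Finset.mem_filter] at he
      exact Finset.mem_sdiff.2 ⟨hF e he.1, he.2⟩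
    · exact (Finset.card_le_card (Finset.filter_subset_filter _ (Finset.filter_subset _ _))).trans
        (hs x)
  have h3 := Finset.card_sdiff_add_card_eq_card hY
  have h1' : ((F.filter fun e => Gr.src e ∈ Y).card : ℝ) +
      (F.filter fun e => ¬ Gr.src e ∈ Y).card = F.card := by exact_mod_cast h1
  have h2' : ((F.filter fun e => ¬ Gr.src e ∈ Y).card : ℝ) ≤ s * (X \ Y).card := by
    exact_mod_cast h2
  have h3' : ((X \ Y).card : ℝ) + Y.card = X.card := by exact_mod_cast h3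
  have h4 : (X.card : ℝ) ≤ 2 * Y.card := by exact_mod_cast hXY
  have h5 : ε * s * X.card ≤ ε * s * (2 * Y.card) :=
    mul_le_mul_of_nonneg_left h4 (by positivity)
  rw [← h3'] at hE h5
  nlinarith

end

end Crest.Agent.R129
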