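import Crest.Agent.R129.Fn1

/-!
# R129 / Fn1b : the giant component
-/

set_option autoImplicit false
open scoped ComplexConjugate
open FreeGroup

namespace Crest.Agent.R129

section
variable {V E Q : Type} [Group Q] [Fintype Q] (Gr : EG V E)

omit [Fintype Q] in
/-- the connectivity relation of the cover -/
def fn1bRel (F : Finset E) (v : E → Q) : Setoid (V × Q) where
  r p p' := ∃ ω, Gr.Walk p.1 ω p'.1 ∧ (∀ a ∈ ω, a.1 ∈ F) ∧ p'.2 = (wv v ω)⁻¹ * p.2
  iseqv :=
    { refl := fun p => ⟨[], LG.Reads.nil _, by simp, by simp⟩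
      symm := by
        rintro p p' ⟨ω, h1, h2, h3⟩
        refine ⟨invRev ω, h1.invRev, fun a ha => ?_, by rw [wv_invRev, h3]; group⟩
        simp only [FreeGroup.invRev, List.mem_reverse, List.mem_map] at ha
        obtain ⟨b, hb, rfl⟩ := ha
        exact h2 b hb
      trans := by
        rintro p p' p'' ⟨ω, h1, h2, h3⟩ ⟨ω', h1', h2', h3'⟩
        refine ⟨ω ++ ω', h1.append h1', fun a ha => ?_, by rw [wv_append, h3', h3]; group⟩
        rcases List.mem_append.1 ha with ha | ha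
        exacts [h2 a ha, h2' a ha] }

omit [Fintype Q] in
theorem fn1b_edge {F : Finset E} (v : E → Q) {e : E} (he : e ∈ F) (g : Q) :
    fn1bRel Gr F v (Gr.src e, v e * g) (Gr.tgt e, g) := by
  refine ⟨[(e, true)], EG.eg_walk_cons.2 ⟨rfl, LG.Reads.nil _⟩, by simpa using he, ?_⟩
  rw [wv_cons, wv_nil]
  simp [lv]

omit [Fintype Q] in
theorem fn1b_mul {F : Finset E} {v : E → Q} {x x' : V} {g g' : Q}
    (h : fn1bRel Gr F v (x, g) (x', g')) (q : Q) : fn1bRel Gr F v (x, g * q) (x', g' * q) := by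
  obtain ⟨ω, h1, h2, h3⟩ := h
  refine ⟨ω, h1, h2, ?_⟩
  simp only at h3 ⊢
  rw [h3, mul_assoc]

omit [Group Q] [Fintype Q] in
theorem fn1b_walk {F : Finset E} {Y : Finset V} (hcl : ∀ e ∈ F, Gr.src e ∈ Y ↔ Gr.tgt e ∈ Y)
    {ω : List (E × Bool)} {y x : V} (hy : y ∈ Y) (h : Gr.Walk y ω x) (hF : ∀ a ∈ ω, a.1 ∈ F) :
    ∀ a ∈ ω, Gr.src a.1 ∈ Y := by
  induction ω generalizing y with
  | nil => simp
  | cons b ω ih =>
    obtain ⟨h1, h2⟩ := EG.eg_walk_cons.1 h
    have hb := hcl b.1 (hF b List.mem_cons_self)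
    have hs : Gr.src b.1 ∈ Y ∧ Gr.ht b ∈ Y := by
      subst h1
      rcases b with ⟨e, _ | _⟩
      · exact ⟨hb.2 hy, hb.2 hy⟩
      · exact ⟨hy, hb.1 hy⟩
    intro a ha
    rcases List.mem_cons.1 ha with rfl | ha
    · exact hs.1
    · exact ih hs.2 h2 (fun a ha => hF a (List.mem_cons_of_mem _ ha)) a ha

open Classical in
/-- `exists_big_class` for the relation `(x,g) ~ (x',g')` iff there is a walk `ω` from `x` to `x'` with edges in `F` and
`g' = (wv v ω)⁻¹ * g`.  The big class is invariant under right multiplication by `Q` (two big classes meet), so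
it is `Y × Q`. -/
theorem exists_giant (X : Finset V) (hX : X.Nonempty) (F : Finset E)
    (hF : ∀ e ∈ F, Gr.src e ∈ X ∧ Gr.tgt e ∈ X) {s : ℕ} (hs0 : 0 < s)
    (ht : ∀ x, (F.filter fun e => Gr.tgt e = x).card ≤ s) {c ε : ℝ} (hc : 0 < c)
    (hε0 : 0 ≤ ε) (hε : 9 * ε < 2 * c) (hE : (1 - ε) * s * X.card ≤ F.card) {v : E → Q}
    (hU : UpOK Gr X F Finset.univ v ((1 - c) * (2 * s))) :
    ∃ Y ⊆ X, X.card ≤ 2 * Y.card ∧ (∀ e ∈ F, Gr.src e ∈ Y ↔ Gr.tgt e ∈ Y) ∧
      ∃ y ∈ Y, ∀ x ∈ Y, ∀ g, ∃ ω, Gr.Walk y ω x ∧ (∀ a ∈ ω, a.1 ∈ F ∧ Gr.src a.1 ∈ Y) ∧ wv v ω = g := by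
  set M : Finset (V × Q) := X ×ˢ Finset.univ with hM
  have hMne : M.Nonempty := hX.product Finset.univ_nonempty
  have hmem : ∀ {x : V} (g : Q), x ∈ X → (x, g) ∈ M := fun g hx =>
    Finset.mem_product.2 ⟨hx, Finset.mem_univ _⟩
  obtain ⟨⟨y, g₀⟩, ha, C, hCM, hC1, hC2, hbig⟩ := exists_big_class M hMne (fn1bRel Gr F v)
    fun C hC hcl => closed_dichotomy Gr X F hF hs0 ht hc hε0 hε hE hU C hC fun e he g =>
      ⟨fun h => hcl _ h _ (hmem _ (hF e he).2) (fn1b_edge Gr v he g),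
        fun h => hcl _ h _ (hmem _ (hF e he).1) ((fn1bRel Gr F v).symm (fn1b_edge Gr v he g))⟩
  have hq : ∀ q : Q, fn1bRel Gr F v (y, g₀) (y, g₀ * q) := by
    intro q
    have hinj : Function.Injective fun p : V × Q => (p.1, p.2 * q) := by
      intro p p' h
      obtain ⟨h1, h2⟩ := Prod.mk.inj h
      exact Prod.ext h1 (mul_right_cancel h2)
    have hsub : C.image (fun p : V × Q => (p.1, p.2 * q)) ⊆ M := by
      intro p hp
      obtain ⟨b, hb, rfl⟩ := Finset.mem_image.1 hp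
      exact hmem _ (Finset.mem_product.1 (hCM hb)).1
    have hnd : ¬ Disjoint C (C.image fun p : V × Q => (p.1, p.2 * q)) := by
      intro hd
      have h1 := Finset.card_le_card (Finset.union_subset hCM hsub)
      rw [Finset.card_union_of_disjoint hd, Finset.card_image_of_injective _ hinj] at h1
      omega
    obtain ⟨b, hb, hb'⟩ := Finset.not_disjoint_iff.1 hnd
    obtain ⟨b', hb'C, rfl⟩ := Finset.mem_image.1 hb'
    exact (fn1bRel Gr F v).trans (hC1 _ hb)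
      ((fn1bRel Gr F v).symm (fn1b_mul Gr (x' := b'.1) (g' := b'.2) (hC1 _ hb'C) q))
  have hall : ∀ x ∈ C.image Prod.fst, ∀ g, fn1bRel Gr F v (y, g₀) (x, g) := by
    intro x hx g
    obtain ⟨b, hb, rfl⟩ := Finset.mem_image.1 hx
    have := fn1b_mul Gr (x' := b.1) (g' := b.2) (hC1 _ hb) (b.2⁻¹ * g)
    rw [mul_inv_cancel_left] at this
    exact (fn1bRel Gr F v).trans (hq _) this
  have hYX : C.image Prod.fst ⊆ X := by
    intro x hx
    obtain ⟨b, hb, rfl⟩ := Finset.mem_image.1 hx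
    exact (Finset.mem_product.1 (hCM hb)).1
  have hcl : ∀ e ∈ F, Gr.src e ∈ C.image Prod.fst ↔ Gr.tgt e ∈ C.image Prod.fst := by
    intro e he
    constructor
    · intro h
      exact Finset.mem_image.2 ⟨(Gr.tgt e, 1), hC2 _ (hmem _ (hF e he).2)
        ((fn1bRel Gr F v).trans (hall _ h _) (fn1b_edge Gr v he 1)), rfl⟩
    · intro h
      exact Finset.mem_image.2 ⟨(Gr.src e, v e * 1), hC2 _ (hmem _ (hF e he).1)
        ((fn1bRel Gr F v).trans (hall _ h _) ((fn1bRel Gr F v).symm (fn1b_edge Gr v he 1))), rfl⟩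
  have hy : y ∈ C.image Prod.fst :=
    Finset.mem_image.2 ⟨(y, g₀), hC2 _ ha ((fn1bRel Gr F v).refl _), rfl⟩
  refine ⟨C.image Prod.fst, hYX, ?_, hcl, y, hy, fun x hx g => ?_⟩
  · have h1 : C ⊆ C.image Prod.fst ×ˢ (Finset.univ : Finset Q) := fun b hb =>
      Finset.mem_product.2 ⟨Finset.mem_image_of_mem _ hb, Finset.mem_univ _⟩
    have h2 := Finset.card_le_card h1
    rw [Finset.card_product] at h2
    rw [hM, Finset.card_product] at hbig
    have h3 : 2 * X.card * (Finset.univ : Finset Q).card <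
        3 * (C.image Prod.fst).card * (Finset.univ : Finset Q).card := by
      rw [mul_assoc, mul_assoc]; omega
    have := Nat.lt_of_mul_lt_mul_right h3
    omega
  · obtain ⟨ω, h1, h2, h3⟩ := hall x hx (g⁻¹ * g₀)
    refine ⟨ω, h1, fun a ha => ⟨h2 a ha, fn1b_walk Gr hcl hy h1 h2 a ha⟩, ?_⟩
    exact (inv_injective (mul_right_cancel h3)).symm

end

end Crest.Agent.R129
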