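import Crest.Agent.R129.EG
import Crest.Agent.R129.Abs

/-!
# R129 / LG3 : one level, one block
-/

set_option autoImplicit false
open scoped InnerProductSpace ComplexConjugate

namespace Crest.Agent.R129

section
variable {V E H : Type} [NormedAddCommGroup H] [InnerProductSpace ℂ H]

/-- mean over a finite set. -/
noncomputable def mean (X : Finset V) (a : V → H) : H := ((X.card : ℂ))⁻¹ • ∑ x ∈ X, a x

/-- variance (not normalised). -/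
noncomputable def Var (X : Finset V) (a : V → H) : ℝ :=
  ∑ x ∈ X, ‖a x‖ ^ 2 - ‖∑ x ∈ X, a x‖ ^ 2 / X.card

theorem LG3_norm_sub_sq (x y : H) :
    ‖x - y‖ ^ 2 = ‖x‖ ^ 2 - 2 * (⟪x, y⟫_ℂ).re + ‖y‖ ^ 2 := by
  rw [@norm_sub_sq ℂ]; rfl

theorem LG3_re_self (x : H) : (⟪x, x⟫_ℂ).re = ‖x‖ ^ 2 := by
  rw [← @inner_self_eq_norm_sq ℂ]; rfl

theorem LG3_re_symm (x y : H) : (⟪x, y⟫_ℂ).re = (⟪y, x⟫_ℂ).re := by
  rw [← inner_conj_symm, Complex.conj_re]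

theorem LG3_abs_re (x y : H) : |(⟪x, y⟫_ℂ).re| ≤ ‖x‖ * ‖y‖ :=
  (Complex.abs_re_le_norm _).trans (norm_inner_le_norm x y)

theorem LG3_young (x y : H) {l : ℝ} (hl : 0 < l) :
    |2 * (⟪x, y⟫_ℂ).re| ≤ 2 * l * ‖x‖ ^ 2 + 1 / (2 * l) * ‖y‖ ^ 2 := by
  rw [abs_mul, abs_two]
  have h1 := LG3_abs_re x y
  have h2 : 2 * l * ‖x‖ ^ 2 + 1 / (2 * l) * ‖y‖ ^ 2 - 2 * (‖x‖ * ‖y‖) =
      1 / (2 * l) * (2 * l * ‖x‖ - ‖y‖) ^ 2 := by
    field_simp; ring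
  have h3 : 0 ≤ 1 / (2 * l) * (2 * l * ‖x‖ - ‖y‖) ^ 2 := by positivity
  linarith

theorem LG3_pair [DecidableEq V] (X : Finset V) (F : Finset E) (p q : E → V) (hp : ∀ e ∈ F, p e ∈ X)
    (hq : ∀ e ∈ F, q e ∈ X) (B : V → V → ℝ) :
    ∑ x ∈ X, ∑ y ∈ X, (∑ e ∈ F, if p e = x ∧ q e = y then (1 : ℝ) else 0) * B x y =
      ∑ e ∈ F, B (p e) (q e) := by
  simp_rw [Finset.sum_mul]
  have : ∀ x ∈ X, ∑ y ∈ X, ∑ e ∈ F, (if p e = x ∧ q e = y then (1 : ℝ) else 0) * B x y =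
      ∑ e ∈ F, ∑ y ∈ X, (if p e = x ∧ q e = y then (1 : ℝ) else 0) * B x y :=
    fun x _ => Finset.sum_comm
  rw [Finset.sum_congr rfl this, Finset.sum_comm]
  refine Finset.sum_congr rfl fun e he => ?_
  rw [Finset.sum_eq_single (p e)]
  · rw [Finset.sum_eq_single (q e)]
    · simp
    · intro y _ hy
      rw [if_neg (fun h => hy h.2.symm), zero_mul]
    · intro h; exact absurd (hq e he) h
  · intro x _ hx
    refine Finset.sum_eq_zero fun y _ => ?_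
    rw [if_neg (fun h => hx h.1.symm), zero_mul]
  · intro h; exact absurd (hp e he) h

theorem Var_eq (X : Finset V) (a : V → H) : Var X a = ∑ x ∈ X, ‖a x - mean X a‖ ^ 2 := by
  unfold Var mean
  rcases Nat.eq_zero_or_pos X.card with h0 | hpos
  · rw [Finset.card_eq_zero] at h0
    subst h0
    simp
  · have hn : (X.card : ℝ) ≠ 0 := by exact_mod_cast hpos.ne'
    set S := ∑ x ∈ X, a x with hS
    have h1 : ∀ x, ‖a x - ((X.card : ℂ))⁻¹ • S‖ ^ 2 =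
        ‖a x‖ ^ 2 - 2 * ((X.card : ℝ)⁻¹ * (⟪a x, S⟫_ℂ).re) + ‖S‖ ^ 2 / (X.card : ℝ) ^ 2 := by
      intro x
      rw [LG3_norm_sub_sq, inner_smul_right, norm_smul]
      have e1 : ((X.card : ℂ))⁻¹ = (((X.card : ℝ)⁻¹ : ℝ) : ℂ) := by push_cast; rfl
      rw [e1, Complex.re_ofReal_mul, Complex.norm_real, Real.norm_eq_abs, mul_pow, sq_abs]
      field_simp
    have h2 : ∑ x ∈ X, (⟪a x, S⟫_ℂ).re = ‖S‖ ^ 2 := by
      rw [← Complex.re_sum, ← sum_inner, ← hS, LG3_re_self]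
    simp_rw [h1]
    rw [Finset.sum_add_distrib, Finset.sum_sub_distrib, ← Finset.mul_sum, ← Finset.mul_sum, h2,
      Finset.sum_const, nsmul_eq_mul]
    field_simp
    ring

theorem Var_nonneg (X : Finset V) (a : V → H) : 0 ≤ Var X a := by
  rw [Var_eq]
  exact Finset.sum_nonneg fun x _ => sq_nonneg _

theorem card_mul_mean_le (X : Finset V) (a : V → H) :
    X.card * ‖mean X a‖ ^ 2 ≤ ∑ x ∈ X, ‖a x‖ ^ 2 := by
  have h := Var_nonneg X a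
  unfold Var at h
  have e : (X.card : ℝ) * ‖mean X a‖ ^ 2 = ‖∑ x ∈ X, a x‖ ^ 2 / X.card := by
    unfold mean
    rcases Nat.eq_zero_or_pos X.card with h0 | hpos
    · simp [h0]
    · have hn : (X.card : ℝ) ≠ 0 := by exact_mod_cast hpos.ne'
      rw [norm_smul, norm_inv, Complex.norm_natCast]
      field_simp
  linarith

open Classical in
/-- sums over edges of a function of one end point. -/
theorem sum_end_le (X : Finset V) (F : Finset E) (p : E → V) (hF : ∀ e ∈ F, p e ∈ X) {D : ℕ}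
    (hD : ∀ x, (F.filter fun e => p e = x).card ≤ D) (φ : V → ℝ) (hφ : ∀ x, 0 ≤ φ x) :
    ∑ e ∈ F, φ (p e) ≤ D * ∑ x ∈ X, φ x := by
  rw [← Finset.sum_fiberwise_of_maps_to hF, Finset.mul_sum]
  refine Finset.sum_le_sum fun x _ => ?_
  have : ∑ e ∈ F with p e = x, φ (p e) = ∑ e ∈ F with p e = x, φ x :=
    Finset.sum_congr rfl fun e he => by rw [(Finset.mem_filter.1 he).2]
  rw [this, Finset.sum_const, nsmul_eq_mul]
  exact mul_le_mul_of_nonneg_right (by exact_mod_cast hD x) (hφ x)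

variable (Gr : EG V E)

/-- vector valued expansion: `psd_vector` with the kernel
`M x y = (d - c d + ε₀ d) δ_{xy} + c d / |X| - #{e | src e = x, tgt e = y} - #{e | src e = y, tgt e = x}`. -/
theorem expand_vec [CompleteSpace H] (X : Finset V) (F : Finset E)
    (hF : ∀ e ∈ F, Gr.src e ∈ X ∧ Gr.tgt e ∈ X) {c ε₀ d : ℝ}
    (hexp : ∀ f : V → ℝ, c * d * (∑ x ∈ X, f x ^ 2 - (∑ x ∈ X, f x) ^ 2 / X.card) -
      ε₀ * d * ∑ x ∈ X, f x ^ 2 ≤ d * ∑ x ∈ X, f x ^ 2 - 2 * ∑ e ∈ F, f (Gr.src e) * f (Gr.tgt e))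
    (a : V → H) :
    c * d * Var X a - ε₀ * d * ∑ x ∈ X, ‖a x‖ ^ 2 ≤
      d * ∑ x ∈ X, ‖a x‖ ^ 2 - ∑ e ∈ F, 2 * (⟪a (Gr.tgt e), a (Gr.src e)⟫_ℂ).re := by
  classical
  let M : V → V → ℝ := fun x y => (if x = y then d - c * d + ε₀ * d else 0) + c * d / X.card -
    (∑ e ∈ F, if Gr.src e = x ∧ Gr.tgt e = y then (1 : ℝ) else 0) -
    (∑ e ∈ F, if Gr.tgt e = x ∧ Gr.src e = y then (1 : ℝ) else 0)
  have hM : ∀ B : V → V → ℝ, ∑ x ∈ X, ∑ y ∈ X, M x y * B x y =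
      (d - c * d + ε₀ * d) * ∑ x ∈ X, B x x + c * d / X.card * ∑ x ∈ X, ∑ y ∈ X, B x y -
        ∑ e ∈ F, B (Gr.src e) (Gr.tgt e) - ∑ e ∈ F, B (Gr.tgt e) (Gr.src e) := by
    intro B
    rw [← LG3_pair X F Gr.src Gr.tgt (fun e he => (hF e he).1) (fun e he => (hF e he).2) B,
      ← LG3_pair X F Gr.tgt Gr.src (fun e he => (hF e he).2) (fun e he => (hF e he).1) B]
    simp only [M, sub_mul, add_mul, Finset.sum_sub_distrib, Finset.sum_add_distrib, Finset.mul_sum]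
    congr 3
    rw [← Finset.sum_sub_distrib, ← Finset.sum_add_distrib]
    refine Finset.sum_congr rfl fun x hx => ?_
    rw [Finset.sum_eq_single x]
    · simp; ring
    · intro y _ hy
      rw [if_neg (Ne.symm hy), zero_mul]
    · intro h; exact absurd hx h
  have hs : ∀ x y, M x y = M y x := by
    intro x y
    simp only [M]
    have e1 : (if x = y then d - c * d + ε₀ * d else 0) = (if y = x then d - c * d + ε₀ * d else 0) := by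
      simp only [eq_comm]
    have e2 : (∑ e ∈ F, if Gr.src e = x ∧ Gr.tgt e = y then (1 : ℝ) else 0) =
        (∑ e ∈ F, if Gr.tgt e = y ∧ Gr.src e = x then (1 : ℝ) else 0) := by
      simp only [and_comm]
    have e3 : (∑ e ∈ F, if Gr.tgt e = x ∧ Gr.src e = y then (1 : ℝ) else 0) =
        (∑ e ∈ F, if Gr.src e = y ∧ Gr.tgt e = x then (1 : ℝ) else 0) := by
      simp only [and_comm]
    rw [e1, e2, e3]; ring
  have hp := psd_vector X M hs (fun φ => by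
    rw [hM fun x y => φ x * φ y]
    have h := hexp φ
    have e1 : ∑ x ∈ X, ∑ y ∈ X, φ x * φ y = (∑ x ∈ X, φ x) ^ 2 := by
      rw [sq, Finset.sum_mul_sum]
    have e2 : ∑ x ∈ X, φ x * φ x = ∑ x ∈ X, φ x ^ 2 := by simp only [sq]
    have e3 : ∑ e ∈ F, φ (Gr.tgt e) * φ (Gr.src e) = ∑ e ∈ F, φ (Gr.src e) * φ (Gr.tgt e) := by
      simp only [mul_comm]
    rw [e1, e2, e3]
    have e4 : c * d / X.card * (∑ x ∈ X, φ x) ^ 2 = c * d * ((∑ x ∈ X, φ x) ^ 2 / X.card) := by ring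
    rw [e4]
    linarith) a
  rw [hM fun x y => (⟪a x, a y⟫_ℂ).re] at hp
  have e1 : ∑ x ∈ X, ∑ y ∈ X, (⟪a x, a y⟫_ℂ).re = ‖∑ x ∈ X, a x‖ ^ 2 := by
    rw [← LG3_re_self, sum_inner, Complex.re_sum]
    refine Finset.sum_congr rfl fun x _ => ?_
    rw [inner_sum, Complex.re_sum]
  have e2 : ∑ x ∈ X, (⟪a x, a x⟫_ℂ).re = ∑ x ∈ X, ‖a x‖ ^ 2 := by simp only [LG3_re_self]
  have e3 : ∑ e ∈ F, (⟪a (Gr.src e), a (Gr.tgt e)⟫_ℂ).re =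
      ∑ e ∈ F, (⟪a (Gr.tgt e), a (Gr.src e)⟫_ℂ).re :=
    Finset.sum_congr rfl fun e _ => LG3_re_symm _ _
  rw [e1, e2, e3] at hp
  unfold Var
  rw [← Finset.mul_sum]
  have e4 : c * d / X.card * ‖∑ x ∈ X, a x‖ ^ 2 = c * d * (‖∑ x ∈ X, a x‖ ^ 2 / X.card) := by ring
  rw [e4] at hp
  linarith

open Classical in
/-- **One level, upper bound.**  With `def x = 2s - deg x ≥ 0` and `a = R ∘ f`:
`2s ∑‖f‖² - ∑_e 2 Re⟪f y, U f x⟫ = ∑_x def x ‖f x‖² + ∑_e ‖f y - U f x‖²` and the same for `a` with `U = 1`;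
`‖a y - a x‖² ≤ 2 ρ² ‖f y - U f x‖² + 2 ε² ‖f x‖²`; `expand_vec`. -/
theorem main_up {𝔼 : Type} [NormedAddCommGroup 𝔼] [InnerProductSpace ℂ 𝔼] [CompleteSpace H]
    (X : Finset V) (F : Finset E) (hF : ∀ e ∈ F, Gr.src e ∈ X ∧ Gr.tgt e ∈ X) {s : ℕ}
    (hs : ∀ x, (F.filter fun e => Gr.src e = x).card ≤ s)
    (ht : ∀ x, (F.filter fun e => Gr.tgt e = x).card ≤ s) {c ε₀ : ℝ} (hε₀ : 0 ≤ ε₀)
    (hexp : ∀ f : V → ℝ, c * (2 * s) * (∑ x ∈ X, f x ^ 2 - (∑ x ∈ X, f x) ^ 2 / X.card) -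
      ε₀ * (2 * s) * ∑ x ∈ X, f x ^ 2 ≤
        2 * s * ∑ x ∈ X, f x ^ 2 - 2 * ∑ e ∈ F, f (Gr.src e) * f (Gr.tgt e))
    (U : E → 𝔼 →L[ℂ] 𝔼) (hU : ∀ e v, ‖U e v‖ = ‖v‖) (R : 𝔼 →L[ℂ] H) {ρ ε : ℝ}
    (hR : ∀ v, ‖R v‖ ≤ ρ * ‖v‖) (hRU : ∀ e ∈ F, ∀ v, ‖R (U e v) - R v‖ ≤ ε * ‖v‖) (f : V → 𝔼) :
    c * (2 * s) * Var X (fun x => R (f x)) - (ε₀ * ρ ^ 2 + ε ^ 2) * (2 * s) * ∑ x ∈ X, ‖f x‖ ^ 2 ≤
      2 * ρ ^ 2 * (2 * s * ∑ x ∈ X, ‖f x‖ ^ 2 -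
        ∑ e ∈ F, 2 * (⟪f (Gr.tgt e), U e (f (Gr.src e))⟫_ℂ).re) := by
  have hx := expand_vec Gr X F hF hexp (fun x => R (f x))
  have hR2 : ∀ v, ‖R v‖ ^ 2 ≤ ρ ^ 2 * ‖v‖ ^ 2 := fun v => by
    rw [← mul_pow]; exact pow_le_pow_left₀ (norm_nonneg _) (hR v) 2
  have hA : ∑ x ∈ X, ‖R (f x)‖ ^ 2 ≤ ρ ^ 2 * ∑ x ∈ X, ‖f x‖ ^ 2 := by
    rw [Finset.mul_sum]; exact Finset.sum_le_sum fun x _ => hR2 _
  have h1 := sum_end_le X F Gr.src (fun e he => (hF e he).1) hs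
    (fun x => ρ ^ 2 * ‖f x‖ ^ 2 - ‖R (f x)‖ ^ 2) (fun x => sub_nonneg.2 (hR2 _))
  have h2 := sum_end_le X F Gr.tgt (fun e he => (hF e he).2) ht
    (fun x => ρ ^ 2 * ‖f x‖ ^ 2 - ‖R (f x)‖ ^ 2) (fun x => sub_nonneg.2 (hR2 _))
  have h3 := sum_end_le X F Gr.src (fun e he => (hF e he).1) hs
    (fun x => ‖f x‖ ^ 2) (fun x => sq_nonneg _)
  have h4 := sum_end_le X F Gr.tgt (fun e he => (hF e he).2) ht
    (fun x => ‖f x‖ ^ 2) (fun x => sq_nonneg _)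
  simp only [Finset.sum_sub_distrib, ← Finset.mul_sum] at h1 h2
  have h5 : ∑ e ∈ F, 2 * (⟪f (Gr.tgt e), U e (f (Gr.src e))⟫_ℂ).re =
      ∑ e ∈ F, ‖f (Gr.tgt e)‖ ^ 2 + ∑ e ∈ F, ‖f (Gr.src e)‖ ^ 2 -
        ∑ e ∈ F, ‖f (Gr.tgt e) - U e (f (Gr.src e))‖ ^ 2 := by
    rw [← Finset.sum_add_distrib, ← Finset.sum_sub_distrib]
    refine Finset.sum_congr rfl fun e _ => ?_
    rw [LG3_norm_sub_sq, hU]; ring
  have h6 : ∑ e ∈ F, 2 * (⟪R (f (Gr.tgt e)), R (f (Gr.src e))⟫_ℂ).re =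
      ∑ e ∈ F, ‖R (f (Gr.tgt e))‖ ^ 2 + ∑ e ∈ F, ‖R (f (Gr.src e))‖ ^ 2 -
        ∑ e ∈ F, ‖R (f (Gr.tgt e)) - R (f (Gr.src e))‖ ^ 2 := by
    rw [← Finset.sum_add_distrib, ← Finset.sum_sub_distrib]
    refine Finset.sum_congr rfl fun e _ => ?_
    rw [LG3_norm_sub_sq]; ring
  have h7 : ∑ e ∈ F, ‖R (f (Gr.tgt e)) - R (f (Gr.src e))‖ ^ 2 ≤
      2 * ρ ^ 2 * ∑ e ∈ F, ‖f (Gr.tgt e) - U e (f (Gr.src e))‖ ^ 2 +
        2 * ε ^ 2 * ∑ e ∈ F, ‖f (Gr.src e)‖ ^ 2 := by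
    rw [Finset.mul_sum, Finset.mul_sum, ← Finset.sum_add_distrib]
    refine Finset.sum_le_sum fun e he => ?_
    have e1 : R (f (Gr.tgt e)) - R (f (Gr.src e)) =
        R (f (Gr.tgt e) - U e (f (Gr.src e))) + (R (U e (f (Gr.src e))) - R (f (Gr.src e))) := by
      rw [map_sub]; abel
    have b1 := hR2 (f (Gr.tgt e) - U e (f (Gr.src e)))
    have b2 : ‖R (U e (f (Gr.src e))) - R (f (Gr.src e))‖ ^ 2 ≤ ε ^ 2 * ‖f (Gr.src e)‖ ^ 2 := by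
      rw [← mul_pow]; exact pow_le_pow_left₀ (norm_nonneg _) (hRU e he _) 2
    have b3 := norm_add_le (R (f (Gr.tgt e) - U e (f (Gr.src e))))
      (R (U e (f (Gr.src e))) - R (f (Gr.src e)))
    rw [e1]
    have b4 := pow_le_pow_left₀ (norm_nonneg _) b3 2
    nlinarith [sq_nonneg (‖R (f (Gr.tgt e) - U e (f (Gr.src e)))‖ -
      ‖R (U e (f (Gr.src e))) - R (f (Gr.src e))‖)]
  rw [h6] at hx
  rw [h5]
  have hs0 : (0 : ℝ) ≤ s := Nat.cast_nonneg s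
  have k1 : ε₀ * (2 * s) * ∑ x ∈ X, ‖R (f x)‖ ^ 2 ≤ ε₀ * (2 * s) * (ρ ^ 2 * ∑ x ∈ X, ‖f x‖ ^ 2) :=
    mul_le_mul_of_nonneg_left hA (by positivity)
  have k2 : 2 * ε ^ 2 * ∑ e ∈ F, ‖f (Gr.src e)‖ ^ 2 ≤ 2 * ε ^ 2 * (s * ∑ x ∈ X, ‖f x‖ ^ 2) :=
    mul_le_mul_of_nonneg_left h3 (by positivity)
  have k3 : ρ ^ 2 * ∑ e ∈ F, ‖f (Gr.src e)‖ ^ 2 ≤ ρ ^ 2 * (s * ∑ x ∈ X, ‖f x‖ ^ 2) :=
    mul_le_mul_of_nonneg_left h3 (by positivity)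
  have k4 : ρ ^ 2 * ∑ e ∈ F, ‖f (Gr.tgt e)‖ ^ 2 ≤ ρ ^ 2 * (s * ∑ x ∈ X, ‖f x‖ ^ 2) :=
    mul_le_mul_of_nonneg_left h4 (by positivity)
  linarith

open Classical in
/-- **One block.**  `⟪a y, a x⟫ - ⟪m', m⟫ = ⟪a y - m', a x⟫ + ⟪m', a x - m⟫`, `2|⟪p,r⟫| ≤ 2 l ‖p‖² + ‖r‖²/(2 l)`,
`sum_end_le`, `Var_eq`, `card_mul_mean_le`. -/
theorem link_cross (X X' : Finset V) (F : Finset E) (hF : ∀ e ∈ F, Gr.src e ∈ X ∧ Gr.tgt e ∈ X')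
    {D : ℕ} (hs : ∀ x, (F.filter fun e => Gr.src e = x).card ≤ D)
    (ht : ∀ x, (F.filter fun e => Gr.tgt e = x).card ≤ D) (a : V → H) {l : ℝ} (hl : 0 < l) :
    |∑ e ∈ F, 2 * (⟪a (Gr.tgt e), a (Gr.src e)⟫_ℂ).re -
        2 * F.card * (⟪mean X' a, mean X a⟫_ℂ).re| ≤
      2 * D * l * (Var X a + Var X' a) +
        D / (2 * l) * (∑ x ∈ X, ‖a x‖ ^ 2 + ∑ x ∈ X', ‖a x‖ ^ 2) := by
  have e0 : ∑ e ∈ F, 2 * (⟪a (Gr.tgt e), a (Gr.src e)⟫_ℂ).re -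
        2 * F.card * (⟪mean X' a, mean X a⟫_ℂ).re =
      ∑ e ∈ F, (2 * (⟪a (Gr.tgt e) - mean X' a, a (Gr.src e)⟫_ℂ).re +
        2 * (⟪mean X' a, a (Gr.src e) - mean X a⟫_ℂ).re) := by
    have : 2 * (F.card : ℝ) * (⟪mean X' a, mean X a⟫_ℂ).re =
        ∑ _e ∈ F, 2 * (⟪mean X' a, mean X a⟫_ℂ).re := by
      rw [Finset.sum_const, nsmul_eq_mul]; ring
    rw [this, ← Finset.sum_sub_distrib]
    refine Finset.sum_congr rfl fun e _ => ?_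
    rw [inner_sub_left, inner_sub_right, Complex.sub_re, Complex.sub_re]; ring
  rw [e0]
  have b0 : |∑ e ∈ F, (2 * (⟪a (Gr.tgt e) - mean X' a, a (Gr.src e)⟫_ℂ).re +
        2 * (⟪mean X' a, a (Gr.src e) - mean X a⟫_ℂ).re)| ≤
      ∑ e ∈ F, ((2 * l * ‖a (Gr.tgt e) - mean X' a‖ ^ 2 + 1 / (2 * l) * ‖a (Gr.src e)‖ ^ 2) +
        (2 * l * ‖a (Gr.src e) - mean X a‖ ^ 2 + 1 / (2 * l) * ‖mean X' a‖ ^ 2)) := by
    refine (Finset.abs_sum_le_sum_abs _ _).trans (Finset.sum_le_sum fun e _ => ?_)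
    refine (abs_add_le _ _).trans (add_le_add (LG3_young _ _ hl) ?_)
    rw [LG3_re_symm]
    exact LG3_young _ _ hl
  refine b0.trans ?_
  simp only [Finset.sum_add_distrib, ← Finset.mul_sum]
  have h1 := sum_end_le X' F Gr.tgt (fun e he => (hF e he).2) ht
    (fun x => ‖a x - mean X' a‖ ^ 2) (fun x => sq_nonneg _)
  have h2 := sum_end_le X F Gr.src (fun e he => (hF e he).1) hs
    (fun x => ‖a x‖ ^ 2) (fun x => sq_nonneg _)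
  have h3 := sum_end_le X F Gr.src (fun e he => (hF e he).1) hs
    (fun x => ‖a x - mean X a‖ ^ 2) (fun x => sq_nonneg _)
  have h4 := sum_end_le X' F Gr.tgt (fun e he => (hF e he).2) ht
    (fun _ => ‖mean X' a‖ ^ 2) (fun x => sq_nonneg _)
  have h5 := card_mul_mean_le X' a
  rw [← Var_eq] at h1 h3
  have h6 : ∑ _x ∈ X', ‖mean X' a‖ ^ 2 ≤ ∑ x ∈ X', ‖a x‖ ^ 2 := by
    rw [Finset.sum_const, nsmul_eq_mul]; exact h5
  have h7 : ∑ _e ∈ F, ‖mean X' a‖ ^ 2 ≤ D * ∑ x ∈ X', ‖a x‖ ^ 2 :=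
    h4.trans (mul_le_mul_of_nonneg_left h6 (Nat.cast_nonneg D))
  have k1 := mul_le_mul_of_nonneg_left h1 (show 0 ≤ 2 * l by positivity)
  have k2 := mul_le_mul_of_nonneg_left h2 (show 0 ≤ 1 / (2 * l) by positivity)
  have k3 := mul_le_mul_of_nonneg_left h3 (show 0 ≤ 2 * l by positivity)
  have k4 := mul_le_mul_of_nonneg_left h7 (show 0 ≤ 1 / (2 * l) by positivity)
  have e5 : (D : ℝ) / (2 * l) = 1 / (2 * l) * D := by ring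
  rw [e5]
  linarith

open Classical in
/-- a small edge operator. -/
theorem abs_edge_le (X X' : Finset V) (F : Finset E) (hF : ∀ e ∈ F, Gr.src e ∈ X ∧ Gr.tgt e ∈ X')
    {D : ℕ} (hs : ∀ x, (F.filter fun e => Gr.src e = x).card ≤ D)
    (ht : ∀ x, (F.filter fun e => Gr.tgt e = x).card ≤ D) (T : E → H →L[ℂ] H) {δ : ℝ} (hδ : 0 ≤ δ)
    (hT : ∀ e ∈ F, ‖T e‖ ≤ δ) (a : V → H) :
    |∑ e ∈ F, 2 * (⟪a (Gr.tgt e), T e (a (Gr.src e))⟫_ℂ).re| ≤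
      δ * D * (∑ x ∈ X, ‖a x‖ ^ 2 + ∑ x ∈ X', ‖a x‖ ^ 2) := by
  have b0 : |∑ e ∈ F, 2 * (⟪a (Gr.tgt e), T e (a (Gr.src e))⟫_ℂ).re| ≤
      ∑ e ∈ F, (δ * ‖a (Gr.src e)‖ ^ 2 + δ * ‖a (Gr.tgt e)‖ ^ 2) := by
    refine (Finset.abs_sum_le_sum_abs _ _).trans (Finset.sum_le_sum fun e he => ?_)
    have h1 := LG3_abs_re (a (Gr.tgt e)) (T e (a (Gr.src e)))
    have h2 : ‖T e (a (Gr.src e))‖ ≤ δ * ‖a (Gr.src e)‖ :=
      ((T e).le_opNorm _).trans (mul_le_mul_of_nonneg_right (hT e he) (norm_nonneg _))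
    have h3 := mul_le_mul_of_nonneg_left h2 (norm_nonneg (a (Gr.tgt e)))
    rw [abs_mul, abs_two]
    nlinarith [mul_nonneg hδ (sq_nonneg (‖a (Gr.src e)‖ - ‖a (Gr.tgt e)‖))]
  refine b0.trans ?_
  simp only [Finset.sum_add_distrib, ← Finset.mul_sum]
  have h1 := sum_end_le X' F Gr.tgt (fun e he => (hF e he).2) ht
    (fun x => ‖a x‖ ^ 2) (fun x => sq_nonneg _)
  have h2 := sum_end_le X F Gr.src (fun e he => (hF e he).1) hs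
    (fun x => ‖a x‖ ^ 2) (fun x => sq_nonneg _)
  have k1 := mul_le_mul_of_nonneg_left h1 hδ
  have k2 := mul_le_mul_of_nonneg_left h2 hδ
  linarith

end

end Crest.Agent.R129
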