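import Crest.Agent.R129.EG
import Crest.Agent.R129.FP

/-!
# R129 / Moment : the norm of the centred random part (trace method)
-/

set_option autoImplicit false
open scoped InnerProductSpace ComplexConjugate
open FreeGroup

namespace Crest.Agent.R129

/-- the operator with the single block `A` from the fibre over `x` to the fibre over `y`. -/
noncomputable def blk {V 𝔼 : Type} [NormedAddCommGroup 𝔼] [InnerProductSpace ℂ 𝔼] (x y : V)
    (A : 𝔼 →L[ℂ] 𝔼) : L2 V 𝔼 →L[ℂ] L2 V 𝔼 := (sgl y).comp (A.comp (ev x))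

theorem Moment_blk_apply {V 𝔼 : Type} [NormedAddCommGroup 𝔼] [InnerProductSpace ℂ 𝔼] (x y : V)
    (A : 𝔼 →L[ℂ] 𝔼) (f : L2 V 𝔼) : blk x y A f = sgl y (A (f x)) := rfl

theorem Moment_star_blk {V 𝔼 : Type} [NormedAddCommGroup 𝔼] [InnerProductSpace ℂ 𝔼]
    [CompleteSpace 𝔼] (x y : V) (A : 𝔼 →L[ℂ] 𝔼) : star (blk x y A) = blk y x (star A) := by
  rw [ContinuousLinearMap.star_eq_adjoint, ContinuousLinearMap.star_eq_adjoint]
  symm
  rw [ContinuousLinearMap.eq_adjoint_iff]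
  intro u v
  rw [Moment_blk_apply, Moment_blk_apply, inner_sgl_left, inner_sgl_right,
    ContinuousLinearMap.adjoint_inner_left]

/-- matrix entry -/
noncomputable def Moment_ent {V 𝔼 : Type} [NormedAddCommGroup 𝔼] [InnerProductSpace ℂ 𝔼] (y z : V) :
    (L2 V 𝔼 →L[ℂ] L2 V 𝔼) →ₗ[ℂ] (𝔼 →L[ℂ] 𝔼) where
  toFun T := (ev z).comp (T.comp (sgl y))
  map_add' _ _ := by ext; simp
  map_smul' _ _ := by ext; simp

theorem Moment_ent_apply {V 𝔼 : Type} [NormedAddCommGroup 𝔼] [InnerProductSpace ℂ 𝔼] (y z : V)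
    (T : L2 V 𝔼 →L[ℂ] L2 V 𝔼) (v : 𝔼) : Moment_ent y z T v = T (sgl y v) z := rfl

theorem Moment_ent_mem {V 𝔼 : Type} [NormedAddCommGroup 𝔼] [InnerProductSpace ℂ 𝔼] (y z a b : V)
    (A : 𝔼 →L[ℂ] 𝔼) (T : L2 V 𝔼 →L[ℂ] L2 V 𝔼) {S : Submodule ℂ (𝔼 →L[ℂ] 𝔼)}
    (h : A * Moment_ent y a T ∈ S) : Moment_ent y z (blk a b A * T) ∈ S := by
  by_cases hz : z = b
  · subst hz
    convert h using 1
    ext1 v
    exact sgl_self z _
  · convert S.zero_mem using 1
    ext1 v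
    exact sgl_ne hz _

theorem Moment_norm_le {V 𝔼 : Type} [NormedAddCommGroup 𝔼] [InnerProductSpace ℂ 𝔼] (X : Finset V)
    (T : L2 V 𝔼 →L[ℂ] L2 V 𝔼) (h1 : ∀ f z, z ∉ X → T f z = 0)
    (h2 : ∀ f, T f = T (proj (X : Set V) f)) : ‖T‖ ≤ ∑ p ∈ X ×ˢ X, ‖Moment_ent p.1 p.2 T‖ := by
  refine ContinuousLinearMap.opNorm_le_bound _ (Finset.sum_nonneg fun _ _ => norm_nonneg _)
    fun f => ?_
  rw [h2, L2_eq_sum (proj (X : Set V) f) X fun i hi => proj_apply_not_mem f hi, map_sum,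
    Finset.sum_product, Finset.sum_mul]
  refine (norm_sum_le _ _).trans (Finset.sum_le_sum fun y hy => ?_)
  rw [L2_eq_sum (T _) X (h1 _), Finset.sum_mul]
  refine (norm_sum_le _ _).trans (Finset.sum_le_sum fun z _ => ?_)
  rw [norm_sgl, ← Moment_ent_apply, proj_apply_mem f (Finset.mem_coe.2 hy)]
  exact ((Moment_ent y z T).le_opNorm _).trans
    (mul_le_mul_of_nonneg_left (lp.norm_apply_le_norm two_ne_zero f y) (norm_nonneg _))

/-- span of the translations by words of length `n` in the letters `A` -/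
noncomputable def Moment_S {Q : Type} [Group Q] (A : Q → Prop) (n : ℕ) : Submodule ℂ (L2 Q ℂ →L[ℂ] L2 Q ℂ) :=
  Submodule.span ℂ (lam '' {g | ∃ l : List Q, l.length = n ∧ (∀ a ∈ l, A a) ∧ l.prod = g})

theorem Moment_S_mul {Q : Type} [Group Q] {A : Q → Prop} {n : ℕ} {B C : L2 Q ℂ →L[ℂ] L2 Q ℂ}
    (hB : B ∈ Submodule.span ℂ (lam '' {g | A g})) (hC : C ∈ Moment_S A n) :
    B * C ∈ Moment_S A (n + 1) := by
  have := Submodule.mul_mem_mul hB hC
  rw [Moment_S, Submodule.span_mul_span] at this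
  refine Submodule.span_mono ?_ this
  rintro _ ⟨_, ⟨a, ha, rfl⟩, _, ⟨_, ⟨l, hl, hA, rfl⟩, rfl⟩, rfl⟩
  refine ⟨a * l.prod, ⟨a :: l, by simp [hl], ?_, List.prod_cons⟩, lam_mul _ _⟩
  intro b hb
  rcases List.mem_cons.1 hb with rfl | hb
  · exact ha
  · exact hA b hb

/-- `‖Z‖^n = ‖Z^n‖` for self-adjoint `Z` (log-convexity `‖Z^m‖² ≤ ‖Z^(m-1)‖ ‖Z^(m+1)‖`, or
`IsSelfAdjoint.norm_pow_two_pow` with `2^j ≥ n`: `‖Z‖^(2^j) = ‖Z^(2^j)‖ ≤ ‖Z^n‖ ‖Z‖^(2^j - n)`). -/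
theorem norm_pow_selfAdjoint {H : Type} [NormedAddCommGroup H] [InnerProductSpace ℂ H] [CompleteSpace H]
    {Z : H →L[ℂ] H} (hZ : IsSelfAdjoint Z) {n : ℕ} (hn : 0 < n) : ‖Z‖ ^ n ≤ ‖Z ^ n‖ := by
  rcases (norm_nonneg Z).eq_or_lt with h | h
  · rw [← h, zero_pow hn.ne']
    exact norm_nonneg _
  have h1 : n < 2 ^ n := Nat.lt_two_pow_self
  obtain ⟨m, hm⟩ := Nat.exists_eq_add_of_lt h1
  have h2 : ‖Z ^ 2 ^ n‖ = ‖Z‖ ^ 2 ^ n := by
    have := congrArg NNReal.toReal (hZ.nnnorm_pow_two_pow n)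
    simpa using this
  rw [hm, add_assoc, pow_add, pow_add ‖Z‖] at h2
  refine le_of_mul_le_mul_right (h2.symm.le.trans ((_root_.norm_mul_le _ _).trans ?_)) (pow_pos h (m + 1))
  exact mul_le_mul_of_nonneg_left (norm_pow_le' Z m.succ_pos) (norm_nonneg _)

section
variable {V E Θ Q : Type} [Group Q] (Gr : EG V E) (P : FP E Θ) (ph : E → Θ → ℂ) (vol : E → Θ → Q)

/-- mean of the edge operator. -/
noncomputable def emean (e : E) : L2 Q ℂ →L[ℂ] L2 Q ℂ :=
  ∑ θ ∈ P.Ω e, (P.w e θ : ℂ) • (ph e θ • lam (vol e θ))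

/-- centred edge operator. -/
noncomputable def zeta (e : E) (θ : Θ) : L2 Q ℂ →L[ℂ] L2 Q ℂ :=
  ph e θ • lam (vol e θ) - emean P ph vol e

/-- the centred random operator of the edge set `F`. -/
noncomputable def Zop (F : Finset E) (x : E → Θ) : L2 V (L2 Q ℂ) →L[ℂ] L2 V (L2 Q ℂ) :=
  ∑ e ∈ F, (blk (Gr.src e) (Gr.tgt e) (zeta P ph vol e (x e)) +
    blk (Gr.tgt e) (Gr.src e) (star (zeta P ph vol e (x e))))

theorem Moment_Zop_apply (F : Finset E) (x : E → Θ) (f : L2 V (L2 Q ℂ)) :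
    Zop Gr P ph vol F x f = ∑ e ∈ F, (sgl (Gr.tgt e) (zeta P ph vol e (x e) (f (Gr.src e))) +
      sgl (Gr.src e) (star (zeta P ph vol e (x e)) (f (Gr.tgt e)))) := by
  rw [Zop, ContinuousLinearMap.sum_apply]
  rfl

theorem Moment_zeta_mem {A : Q → Prop} {e : E} {θ : Θ} (hθ : θ ∈ P.Ω e)
    (hA : ∀ θ ∈ P.Ω e, A (vol e θ) ∧ A (vol e θ)⁻¹) :
    zeta P ph vol e θ ∈ Submodule.span ℂ (lam '' {g | A g}) ∧
      star (zeta P ph vol e θ) ∈ Submodule.span ℂ (lam '' {g | A g}) := by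
  constructor
  · refine sub_mem (Submodule.smul_mem _ _ (Submodule.subset_span ⟨_, (hA θ hθ).1, rfl⟩))
      (Submodule.sum_mem _ fun θ' h' => Submodule.smul_mem _ _ (Submodule.smul_mem _ _
        (Submodule.subset_span ⟨_, (hA θ' h').1, rfl⟩)))
  · simp only [zeta, emean, star_sub, star_sum, star_smul, star_lam]
    refine sub_mem (Submodule.smul_mem _ _ (Submodule.subset_span ⟨_, (hA θ hθ).2, rfl⟩))
      (Submodule.sum_mem _ fun θ' h' => Submodule.smul_mem _ _ (Submodule.smul_mem _ _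
        (Submodule.subset_span ⟨_, (hA θ' h').2, rfl⟩)))

theorem Zop_depOn (F : Finset E) : DepOn F (Zop Gr P ph vol F) := by
  intro x y h
  exact Finset.sum_congr rfl fun e he => by rw [h e he]

theorem Zop_selfAdjoint (F : Finset E) (x : E → Θ) : IsSelfAdjoint (Zop Gr P ph vol F x) := by
  rw [IsSelfAdjoint, Zop, star_sum]
  refine Finset.sum_congr rfl fun e _ => ?_
  rw [star_add, Moment_star_blk, Moment_star_blk, star_star, add_comm]

theorem fm_Zop (F : Finset E) (x : E → Θ) (f : L2 V (L2 Q ℂ)) :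
    fm (Zop Gr P ph vol F x) f =
      ∑ e ∈ F, 2 * (⟪f (Gr.tgt e), zeta P ph vol e (x e) (f (Gr.src e))⟫_ℂ).re := by
  rw [fm, Moment_Zop_apply, inner_sum, Complex.re_sum]
  refine Finset.sum_congr rfl fun e _ => ?_
  rw [inner_add_right, inner_sgl_right, inner_sgl_right, ContinuousLinearMap.star_eq_adjoint,
    ContinuousLinearMap.adjoint_inner_right, ← inner_conj_symm (zeta P ph vol e (x e) _),
    Complex.add_re, Complex.conj_re, two_mul]

/-- locality: replace `f` by `proj X f`. -/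
theorem abs_fm_Zop_le (F : Finset E) (X : Finset V) (hX : ∀ e ∈ F, Gr.src e ∈ X ∧ Gr.tgt e ∈ X)
    (x : E → Θ) (f : L2 V (L2 Q ℂ)) :
    |fm (Zop Gr P ph vol F x) f| ≤ ‖Zop Gr P ph vol F x‖ * ∑ y ∈ X, ‖f y‖ ^ 2 := by
  have h1 : fm (Zop Gr P ph vol F x) f = fm (Zop Gr P ph vol F x) (proj (X : Set V) f) := by
    rw [fm_Zop, fm_Zop]
    refine Finset.sum_congr rfl fun e he => ?_
    rw [proj_apply_mem f (Finset.mem_coe.2 (hX e he).1),
      proj_apply_mem f (Finset.mem_coe.2 (hX e he).2)]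
  have h2 : ‖proj (X : Set V) f‖ ^ 2 = ∑ y ∈ X, ‖f y‖ ^ 2 := by
    rw [L2_norm_sq_eq _ X fun i hi => proj_apply_not_mem f hi]
    exact Finset.sum_congr rfl fun y hy => by rw [proj_apply_mem f (Finset.mem_coe.2 hy)]
  rw [h1, ← h2, fm]
  refine (Complex.abs_re_le_norm _).trans ((norm_inner_le_norm _ _).trans ?_)
  refine (mul_le_mul_of_nonneg_left ((Zop Gr P ph vol F x).le_opNorm _) (norm_nonneg _)).trans
    (le_of_eq ?_)
  ring

/-- deterministic part: `Z^L = ∑_{y,z ∈ X} blk y z (entry)`, the entries lie in the span of `lam '' W`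
(induction: span of the products of `L` letters), `norm_sq_le_of_mem_span`, Cauchy–Schwarz. -/
theorem norm_pow_le_trace (F : Finset E) (X : Finset V) (hX : ∀ e ∈ F, Gr.src e ∈ X ∧ Gr.tgt e ∈ X)
    {L : ℕ} (hL : 0 < L) (W : Finset Q)
    (hW : ∀ l : List Q, l.length = L →
      (∀ g ∈ l, ∃ e ∈ F, ∃ θ ∈ P.Ω e, g = vol e θ ∨ g = (vol e θ)⁻¹) → l.prod ∈ W)
    (x : E → Θ) (hx : P.Adm x) :
    ‖Zop Gr P ph vol F x‖ ^ (2 * L) ≤ (X.card : ℝ) ^ 2 * W.card *
      ∑ y ∈ X, fm (Zop Gr P ph vol F x ^ (2 * L)) (sgl y (dl 1)) := by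
  set Z := Zop Gr P ph vol F x with hZ
  have sa : IsSelfAdjoint Z := Zop_selfAdjoint Gr P ph vol F x
  set A : Q → Prop := fun g => ∃ e ∈ F, ∃ θ ∈ P.Ω e, g = vol e θ ∨ g = (vol e θ)⁻¹ with hA
  have hent : ∀ n y z, Moment_ent y z (Z ^ n) ∈ Moment_S A n := by
    intro n y
    induction n with
    | zero =>
      intro z
      by_cases h : z = y
      · subst h
        refine Submodule.subset_span ⟨1, ⟨[], rfl, by simp, rfl⟩, ?_⟩
        rw [lam_one]
        ext1 v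
        exact (sgl_self z v).symm
      · convert (Moment_S A 0).zero_mem using 1
        ext1 v
        exact sgl_ne h v
    | succ n ih =>
      intro z
      rw [pow_succ', hZ, Zop, Finset.sum_mul, map_sum]
      refine Submodule.sum_mem _ fun e he => ?_
      obtain ⟨m1, m2⟩ := Moment_zeta_mem P ph vol (A := A) (hx e)
        fun θ hθ => ⟨⟨e, he, θ, hθ, Or.inl rfl⟩, ⟨e, he, θ, hθ, Or.inr rfl⟩⟩
      rw [add_mul, map_add]
      exact add_mem (Moment_ent_mem _ _ _ _ _ _ (Moment_S_mul m1 (ih _)))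
        (Moment_ent_mem _ _ _ _ _ _ (Moment_S_mul m2 (ih _)))
  have hle : Moment_S A L ≤ Submodule.span ℂ (lam '' (W : Set Q)) :=
    Submodule.span_mono (Set.image_mono (by
      rintro _ ⟨l, hl, hA, rfl⟩
      exact hW l hl hA))
  obtain ⟨m, rfl⟩ := Nat.exists_eq_add_of_lt hL
  rw [zero_add] at *
  have h1 : ∀ f z, z ∉ X → (Z ^ (m + 1)) f z = 0 := by
    intro f z hz
    rw [pow_succ', ContinuousLinearMap.mul_apply, hZ, Moment_Zop_apply, ← ev_apply, map_sum]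
    refine Finset.sum_eq_zero fun e he => ?_
    rw [map_add, ev_apply, ev_apply, sgl_ne (fun h : z = Gr.tgt e => hz (h ▸ (hX e he).2)),
      sgl_ne (fun h : z = Gr.src e => hz (h ▸ (hX e he).1)), add_zero]
  have h2 : ∀ f, (Z ^ (m + 1)) f = (Z ^ (m + 1)) (proj (X : Set V) f) := by
    intro f
    rw [pow_succ, ContinuousLinearMap.mul_apply, ContinuousLinearMap.mul_apply]
    congr 1
    rw [hZ, Moment_Zop_apply, Moment_Zop_apply]
    refine Finset.sum_congr rfl fun e he => ?_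
    rw [proj_apply_mem f (Finset.mem_coe.2 (hX e he).1),
      proj_apply_mem f (Finset.mem_coe.2 (hX e he).2)]
  set T := Z ^ (m + 1) with hT
  have h3 : ∀ g, fm (Z ^ (2 * (m + 1))) g = ‖T g‖ ^ 2 := by
    intro g
    have : T = ContinuousLinearMap.adjoint T := (sa.pow (m + 1)).symm
    rw [fm, two_mul, pow_add, ← hT, ContinuousLinearMap.mul_apply]
    nth_rewrite 1 [this]
    rw [ContinuousLinearMap.adjoint_inner_right]
    exact inner_self_eq_norm_sq (𝕜 := ℂ) _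
  calc ‖Z‖ ^ (2 * (m + 1)) = (‖Z‖ ^ (m + 1)) ^ 2 := by ring
    _ ≤ (∑ p ∈ X ×ˢ X, ‖Moment_ent p.1 p.2 T‖) ^ 2 :=
        pow_le_pow_left₀ (by positivity)
          ((norm_pow_selfAdjoint sa hL).trans (Moment_norm_le X T h1 h2)) 2
    _ ≤ (X ×ˢ X).card * ∑ p ∈ X ×ˢ X, ‖Moment_ent p.1 p.2 T‖ ^ 2 := sq_sum_le_card_mul_sum_sq
    _ ≤ _ := by
        rw [Finset.card_product, mul_assoc, sq (X.card : ℝ), Nat.cast_mul, Finset.sum_product,
          Finset.mul_sum X _ (W.card : ℝ)]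
        refine mul_le_mul_of_nonneg_left (Finset.sum_le_sum fun y _ => ?_)
          (mul_nonneg (Nat.cast_nonneg _) (Nat.cast_nonneg _))
        rw [h3]
        refine le_trans (Finset.sum_le_sum fun z _ =>
          norm_sq_le_of_mem_span W _ (hle (hent _ y z))) ?_
        rw [← Finset.mul_sum]
        exact mul_le_mul_of_nonneg_left (L2_sum_le (T (sgl y (dl 1))) X) (Nat.cast_nonneg _)

end

end Crest.Agent.R129
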