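import Crest.Agent.R129.Count
import Crest.Agent.R129.Moment

/-!
# R129 / Moment2 : the norm of the centred random part (trace method)
-/

set_option autoImplicit false
open scoped InnerProductSpace ComplexConjugate
open FreeGroup

namespace Crest.Agent.R129

section
variable {V E Θ Q : Type} [Group Q] (Gr : EG V E) (P : FP E Θ) (ph : E → Θ → ℂ) (vol : E → Θ → Q)

/-- lists of length `n` with letters in `H`. -/
noncomputable def Moment2_lists {α : Type} (H : Finset α) : ℕ → Finset (List α)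
  | 0 => {[]}
  | n + 1 => (H ×ˢ Moment2_lists H n).map
      ⟨fun p => p.1 :: p.2, fun _ _ h => Prod.ext (List.cons.inj h).1 (List.cons.inj h).2⟩

theorem Moment2_mem_lists {α : Type} (H : Finset α) (n : ℕ) (ω : List α)
    (h : ω ∈ Moment2_lists H n) : ω.length = n ∧ ∀ a ∈ ω, a ∈ H := by
  induction n generalizing ω with
  | zero =>
    obtain rfl : ω = [] := by simpa [Moment2_lists] using h
    simp
  | succ n ih =>
    obtain ⟨p, hp, rfl⟩ := Finset.mem_map.1 h
    obtain ⟨h1, h2⟩ := Finset.mem_product.1 hp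
    obtain ⟨h3, h4⟩ := ih _ h2
    refine ⟨by simp [h3], fun a ha => ?_⟩
    rcases List.mem_cons.1 ha with rfl | ha
    · exact h1
    · exact h4 a ha

/-- product of the operators of a word, the first letter acting first. -/
def Moment2_tm {α R : Type} [Monoid R] (φ : α → R) : List α → R
  | [] => 1
  | a :: ω => Moment2_tm φ ω * φ a

theorem Moment2_tm_append {α R : Type} [Monoid R] (φ : α → R) (p q : List α) :
    Moment2_tm φ (p ++ q) = Moment2_tm φ q * Moment2_tm φ p := by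
  induction p with
  | nil => simp [Moment2_tm]
  | cons a p ih => simp [Moment2_tm, ih, mul_assoc]

theorem Moment2_tm_congr {α R : Type} [Monoid R] {φ ψ : α → R} (p : List α)
    (h : ∀ a ∈ p, φ a = ψ a) : Moment2_tm φ p = Moment2_tm ψ p := by
  induction p with
  | nil => rfl
  | cons a p ih =>
    simp only [Moment2_tm]
    rw [ih fun b hb => h b (List.mem_cons_of_mem _ hb), h a List.mem_cons_self]

theorem Moment2_sum_pow {α R : Type} [Semiring R] (φ : α → R) (H : Finset α) (n : ℕ) :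
    (∑ a ∈ H, φ a) ^ n = ∑ ω ∈ Moment2_lists H n, Moment2_tm φ ω := by
  induction n with
  | zero => simp [Moment2_lists, Moment2_tm]
  | succ n ih =>
    rw [pow_succ, ih, Moment2_lists, Finset.sum_map, Finset.sum_product_right, Finset.sum_mul]
    refine Finset.sum_congr rfl fun ω _ => ?_
    rw [Finset.mul_sum]
    rfl

theorem Moment2_norm_tm {α R : Type} [NormedRing R] (h1 : ‖(1 : R)‖ ≤ 1) (φ : α → R) {c : ℝ}
    (hc : 0 ≤ c) (h : ∀ a, ‖φ a‖ ≤ c) (ω : List α) : ‖Moment2_tm φ ω‖ ≤ c ^ ω.length := by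
  induction ω with
  | nil => simpa [Moment2_tm] using h1
  | cons a ω ih =>
    rw [Moment2_tm, List.length_cons, pow_succ]
    exact (_root_.norm_mul_le _ _).trans (mul_le_mul ih (h a) (norm_nonneg _) (by positivity))

theorem Moment2_norm_blk {V 𝔼 : Type} [NormedAddCommGroup 𝔼] [InnerProductSpace ℂ 𝔼] (x y : V)
    (A : 𝔼 →L[ℂ] 𝔼) : ‖blk x y A‖ ≤ ‖A‖ := by
  refine ContinuousLinearMap.opNorm_le_bound _ (norm_nonneg _) fun f => ?_
  simp only [blk, ContinuousLinearMap.comp_apply, ev_apply, norm_sgl]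
  exact (A.le_opNorm _).trans (mul_le_mul_of_nonneg_left
    (lp.norm_apply_le_norm (by norm_num) f x) (norm_nonneg _))

theorem Moment2_fm_sum {H ι : Type} [NormedAddCommGroup H] [InnerProductSpace ℂ H] (s : Finset ι)
    (T : ι → H →L[ℂ] H) (f : H) : fm (∑ i ∈ s, T i) f = ∑ i ∈ s, fm (T i) f := by
  simp only [fm, sum_apply, inner_sum, Complex.re_sum]

theorem Moment2_fm_smul {H : Type} [NormedAddCommGroup H] [InnerProductSpace ℂ H] (c : ℝ)
    (T : H →L[ℂ] H) (f : H) : fm ((c : ℂ) • T) f = c * fm T f := by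
  simp only [fm, smul_apply, inner_smul_right, Complex.re_ofReal_mul]

theorem Moment2_fm_le {H : Type} [NormedAddCommGroup H] [InnerProductSpace ℂ H]
    (T : H →L[ℂ] H) (f : H) (hf : ‖f‖ = 1) : fm T f ≤ ‖T‖ := by
  refine (Complex.re_le_norm _).trans ((norm_inner_le_norm _ _).trans ?_)
  have := T.le_opNorm f
  rw [hf] at this ⊢
  linarith

/-- the centred operator of a half edge. -/
noncomputable def Moment2_hop (h : E × Bool) (θ : Θ) : L2 V (L2 Q ℂ) →L[ℂ] L2 V (L2 Q ℂ) :=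
  blk (Gr.hs h) (Gr.ht h) (cond h.2 (zeta P ph vol h.1 θ) (star (zeta P ph vol h.1 θ)))

theorem Moment2_Zop_eq (F : Finset E) (x : E → Θ) :
    Zop Gr P ph vol F x = ∑ h ∈ F ×ˢ (Finset.univ : Finset Bool), Moment2_hop Gr P ph vol h (x h.1) := by
  rw [Zop, Finset.sum_product]
  refine Finset.sum_congr rfl fun e _ => ?_
  rw [Fintype.sum_bool]
  rfl

theorem Moment2_norm_zeta (hph : ∀ e θ, ‖ph e θ‖ ≤ 1) (e : E) (θ : Θ) :
    ‖zeta P ph vol e θ‖ ≤ 2 := by
  have h1 : ∀ θ, ‖ph e θ • lam (vol e θ)‖ ≤ 1 := fun θ => by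
    rw [norm_smul]
    exact mul_le_one₀ (hph e θ) (norm_nonneg _) (norm_lam_le _)
  have h2 : ‖emean P ph vol e‖ ≤ 1 := by
    rw [← P.sum_one e]
    refine norm_sum_le_of_le _ fun θ _ => ?_
    rw [norm_smul, Complex.norm_real, Real.norm_of_nonneg (P.nonneg e θ)]
    exact mul_le_of_le_one_right (P.nonneg e θ) (h1 θ)
  refine (norm_sub_le _ _).trans ?_
  linarith [h1 θ]

theorem Moment2_norm_hop (hph : ∀ e θ, ‖ph e θ‖ ≤ 1) (h : E × Bool) (θ : Θ) :
    ‖Moment2_hop Gr P ph vol h θ‖ ≤ 2 := by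
  refine (Moment2_norm_blk _ _ _).trans ?_
  obtain ⟨e, _ | _⟩ := h
  · simpa using Moment2_norm_zeta P ph vol hph e θ
  · simpa using Moment2_norm_zeta P ph vol hph e θ

theorem Moment2_mean_zeta (e : E) : ∑ θ ∈ P.Ω e, (P.w e θ : ℂ) • zeta P ph vol e θ = 0 := by
  simp only [zeta, smul_sub, Finset.sum_sub_distrib]
  rw [← Finset.sum_smul, ← Complex.ofReal_sum, P.sum_one, Complex.ofReal_one, one_smul]
  exact sub_self _

theorem Moment2_mean_hop (h : E × Bool) :
    ∑ θ ∈ P.Ω h.1, (P.w h.1 θ : ℂ) • Moment2_hop Gr P ph vol h θ = 0 := by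
  have h0 : ∑ θ ∈ P.Ω h.1, (P.w h.1 θ : ℂ) •
      cond h.2 (zeta P ph vol h.1 θ) (star (zeta P ph vol h.1 θ)) = 0 := by
    obtain ⟨e, _ | _⟩ := h
    · have := congrArg star (Moment2_mean_zeta P ph vol e)
      simpa [star_sum, star_smul] using this
    · simpa using Moment2_mean_zeta P ph vol e
  have h1 : ∑ θ ∈ P.Ω h.1, (P.w h.1 θ : ℂ) • Moment2_hop Gr P ph vol h θ =
      blk (Gr.hs h) (Gr.ht h) (∑ θ ∈ P.Ω h.1, (P.w h.1 θ : ℂ) •
        cond h.2 (zeta P ph vol h.1 θ) (star (zeta P ph vol h.1 θ))) := by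
    ext1 f
    simp only [Moment2_hop, blk, sum_apply, smul_apply,
      ContinuousLinearMap.comp_apply, map_sum, map_smul]
  rw [h1, h0]
  simp [blk]

theorem Moment2_walk (x : E → Θ) (ω : List (E × Bool)) (y : V) (v : L2 Q ℂ)
    (h : Moment2_tm (fun h => Moment2_hop Gr P ph vol h (x h.1)) ω (sgl y v) ≠ 0) :
    ∃ z, Gr.Walk y ω z := by
  induction ω generalizing y v with
  | nil => exact ⟨y, LG.Reads.nil y⟩
  | cons a ω ih =>
    simp only [Moment2_tm, mul_apply_eq_comp] at h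
    by_cases hy : Gr.hs a = y
    · obtain ⟨z, hz⟩ := ih (Gr.ht a) _ h
      exact ⟨z, LG.Reads.cons (Γ := Gr.toLG) (y := Gr.ht a) ⟨hy.symm, rfl⟩ hz⟩
    · refine absurd ?_ h
      have : Moment2_hop Gr P ph vol a (x a.1) (sgl y v) = 0 := by
        simp only [Moment2_hop, blk, ContinuousLinearMap.comp_apply, ev_apply]
        rw [sgl_ne hy, map_zero, map_zero]
      rw [this, map_zero]

theorem Moment2_once {F : Finset E} (p q : List (E × Bool)) (a : E × Bool) (ha : a.1 ∈ F)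
    (hp : ∀ b ∈ p, b.1 ≠ a.1) (hq : ∀ b ∈ q, b.1 ≠ a.1) (f : L2 V (L2 Q ℂ)) :
    P.Ex F (fun x => fm (Moment2_tm (fun h => Moment2_hop Gr P ph vol h (x h.1)) (p ++ a :: q)) f)
      = 0 := by
  classical
  rw [P.Ex_resample F ha, ← P.Ex_const F 0]
  refine P.Ex_congr F fun x _ => ?_
  have h1 : ∀ (l : List (E × Bool)), (∀ b ∈ l, b.1 ≠ a.1) → ∀ θ,
      Moment2_tm (fun h => Moment2_hop Gr P ph vol h (Function.update x a.1 θ h.1)) l =
        Moment2_tm (fun h => Moment2_hop Gr P ph vol h (x h.1)) l := fun l hl θ =>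
    Moment2_tm_congr l fun b hb => by rw [Function.update_of_ne (hl b hb)]
  have h2 : ∀ θ, Moment2_tm (fun h => Moment2_hop Gr P ph vol h (Function.update x a.1 θ h.1))
      (p ++ a :: q) = Moment2_tm (fun h => Moment2_hop Gr P ph vol h (x h.1)) q *
        Moment2_hop Gr P ph vol a θ * Moment2_tm (fun h => Moment2_hop Gr P ph vol h (x h.1)) p := by
    intro θ
    rw [Moment2_tm_append, Moment2_tm, h1 p hp, h1 q hq, Function.update_self]
  refine Eq.trans (Finset.sum_congr rfl (g := fun θ => fm ((P.w a.1 θ : ℂ) •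
    (Moment2_tm (fun h => Moment2_hop Gr P ph vol h (x h.1)) q *
        Moment2_hop Gr P ph vol a θ * Moment2_tm (fun h => Moment2_hop Gr P ph vol h (x h.1)) p)) f)
    fun θ _ => ?_) ?_
  · rw [Moment2_fm_smul]
    congr 2
    convert h2 θ
  · rw [← Moment2_fm_sum]
    have h3 : ∀ (c : ℂ) (A B C : L2 V (L2 Q ℂ) →L[ℂ] L2 V (L2 Q ℂ)),
        c • (A * B * C) = A * (c • B) * C := fun c A B C => by
      rw [mul_smul_comm, smul_mul_assoc]
    simp only [h3]
    rw [← Finset.sum_mul, ← Finset.mul_sum, Moment2_mean_hop]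
    simp [fm]

/-- Expand `Z^(2L)` as a sum over lists of half edges; a term vanishes unless the list is a walk from `y`; its
expectation vanishes if some edge occurs exactly once (`Ex_resample`, `∑ w θ • zeta θ = 0`, also for `star`); each
term is at most `2^(2L)`; `count_walks`. -/
theorem Ex_trace_le (hph : ∀ e θ, ‖ph e θ‖ ≤ 1) {F : Finset E} {d g A L : ℕ} (hd : Gr.DegIn F d)
    (hd1 : 1 ≤ d) (hg : Gr.GirthIn F g) (hg0 : 0 < g) (hL : 2 * L ≤ A * g) (y : V) :
    P.Ex F (fun x => fm (Zop Gr P ph vol F x ^ (2 * L)) (sgl y (dl 1))) ≤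
      (8 * (2 * (A : ℝ) + 4) ^ 2) ^ (2 * L) * d ^ L := by
  classical
  set H := F ×ˢ (Finset.univ : Finset Bool) with hH
  set Φ : List (E × Bool) → (E → Θ) → ℝ := fun ω x =>
    fm (Moment2_tm (fun h => Moment2_hop Gr P ph vol h (x h.1)) ω) (sgl y (dl 1)) with hΦ
  have h1 : P.Ex F (fun x => fm (Zop Gr P ph vol F x ^ (2 * L)) (sgl y (dl 1))) =
      ∑ ω ∈ Moment2_lists H (2 * L), P.Ex F (Φ ω) := by
    rw [← P.Ex_sum]
    refine P.Ex_congr F fun x _ => ?_
    rw [Moment2_Zop_eq, Moment2_sum_pow, Moment2_fm_sum]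
  let good : List (E × Bool) → Prop := fun ω => (∃ z, Gr.Walk y ω z) ∧
    ∀ a ∈ ω, 2 ≤ (ω.filter fun b => b.1 = a.1).length
  have hf : ‖(sgl y (dl (1 : Q)) : L2 V (L2 Q ℂ))‖ = 1 := by
    rw [norm_sgl, dl, norm_sgl, NormOneClass.norm_one]
  have h2 : ∀ ω ∈ Moment2_lists H (2 * L), P.Ex F (Φ ω) ≤ if good ω then (2 : ℝ) ^ (2 * L) else 0 := by
    intro ω hω
    obtain ⟨hlen, hmem⟩ := Moment2_mem_lists _ _ _ hω
    split_ifs with hg
    · rw [← P.Ex_const F (2 ^ (2 * L))]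
      refine P.Ex_mono F fun x _ => (Moment2_fm_le _ _ hf).trans ?_
      rw [← hlen]
      exact Moment2_norm_tm ContinuousLinearMap.norm_id_le _ zero_le_two
        (fun h => Moment2_norm_hop Gr P ph vol hph h _) ω
    · rcases not_and_or.1 hg with hg | hg
      · rw [← P.Ex_const F 0]
        refine P.Ex_mono F fun x _ => le_of_eq ?_
        have : Moment2_tm (fun h => Moment2_hop Gr P ph vol h (x h.1)) ω (sgl y (dl 1)) = 0 := by
          by_contra h
          exact hg (Moment2_walk Gr P ph vol x ω y _ h)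
        simp only [hΦ, fm, this, inner_zero_right, Complex.zero_re]
      · push Not at hg
        obtain ⟨a, ha, hlt⟩ := hg
        obtain ⟨p, q, rfl⟩ := List.append_of_mem ha
        simp only [List.filter_append, List.filter_cons, decide_true, if_true, List.length_append,
          List.length_cons] at hlt
        have hp : (p.filter fun b => b.1 = a.1) = [] := List.length_eq_zero_iff.1 (by omega)
        have hq : (q.filter fun b => b.1 = a.1) = [] := List.length_eq_zero_iff.1 (by omega)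
        rw [List.filter_eq_nil_iff] at hp hq
        exact le_of_eq (Moment2_once Gr P ph vol p q a (Finset.mem_product.1 (hmem a ha)).1
          (fun b hb => by simpa using hp b hb) (fun b hb => by simpa using hq b hb) _)
  have h3 := Gr.count_walks hd hd1 hg hg0 hL y ((Moment2_lists H (2 * L)).filter good) (by
    intro ω hω
    obtain ⟨h1, h2, h3⟩ := Finset.mem_filter.1 hω
    obtain ⟨hlen, hmem⟩ := Moment2_mem_lists _ _ _ h1
    refine ⟨hlen, h2, fun a ha => (Finset.mem_product.1 (hmem a ha)).1, fun a ha => ?_⟩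
    convert h3 a ha)
  have h4 : (((Moment2_lists H (2 * L)).filter good).card : ℝ) ≤
      (4 * (2 * (A : ℝ) + 4) ^ 2) ^ (2 * L) * d ^ L := by exact_mod_cast h3
  rw [h1]
  refine (Finset.sum_le_sum h2).trans ?_
  rw [← Finset.sum_filter, Finset.sum_const, nsmul_eq_mul]
  refine (mul_le_mul_of_nonneg_right h4 (by positivity)).trans (le_of_eq ?_)
  rw [show (8 * (2 * (A : ℝ) + 4) ^ 2) = 2 * (4 * (2 * (A : ℝ) + 4) ^ 2) by ring, mul_pow 2]
  ring

/-- **Moment bound.** -/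
theorem prob_Zop (hph : ∀ e θ, ‖ph e θ‖ ≤ 1) {F : Finset E} (X : Finset V)
    (hX : ∀ e ∈ F, Gr.src e ∈ X ∧ Gr.tgt e ∈ X) {d g A L : ℕ} (hd : Gr.DegIn F d)
    (hd1 : 1 ≤ d) (hg : Gr.GirthIn F g) (hg0 : 0 < g) (hL0 : 0 < L) (hL : 2 * L ≤ A * g)
    (W : Finset Q)
    (hW : ∀ l : List Q, l.length = L →
      (∀ g ∈ l, ∃ e ∈ F, ∃ θ ∈ P.Ω e, g = vol e θ ∨ g = (vol e θ)⁻¹) → l.prod ∈ W)
    {η : ℝ} (hη0 : 0 < η) (hη : (16 * (2 * (A : ℝ) + 4) ^ 2) ^ 2 * d ≤ η ^ 2) :
    P.Pr F {x | η ≤ ‖Zop Gr P ph vol F x‖} ≤ (X.card : ℝ) ^ 3 * W.card / 4 ^ L := by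
  set K : ℝ := 8 * (2 * (A : ℝ) + 4) ^ 2 with hK
  have hK0 : 0 < K := by positivity
  have hd0 : (0 : ℝ) < d := by exact_mod_cast hd1
  have h1 : P.Pr F {x | η ≤ ‖Zop Gr P ph vol F x‖} ≤
      P.Pr F {x | η ^ (2 * L) ≤ ‖Zop Gr P ph vol F x‖ ^ (2 * L)} :=
    P.Pr_mono F fun x _ hx => pow_le_pow_left₀ hη0.le hx _
  have h2 := P.markov F (Φ := fun x => ‖Zop Gr P ph vol F x‖ ^ (2 * L)) (fun x => by positivity)
    (pow_pos hη0 (2 * L))
  have h3 : P.Ex F (fun x => ‖Zop Gr P ph vol F x‖ ^ (2 * L)) ≤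
      (X.card : ℝ) ^ 3 * W.card * (K ^ (2 * L) * d ^ L) := by
    refine (P.Ex_mono F fun x hx =>
      norm_pow_le_trace Gr P ph vol F X hX hL0 W hW x hx).trans ?_
    rw [P.Ex_const_mul, P.Ex_sum]
    have h4 : ∑ y ∈ X, P.Ex F (fun x => fm (Zop Gr P ph vol F x ^ (2 * L)) (sgl y (dl 1))) ≤
        X.card * (K ^ (2 * L) * d ^ L) := by
      rw [← nsmul_eq_mul]
      exact Finset.sum_le_card_nsmul _ _ _ fun y _ =>
        Ex_trace_le Gr P ph vol hph hd hd1 hg hg0 hL y
    refine (mul_le_mul_of_nonneg_left h4 (by positivity)).trans (le_of_eq ?_)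
    ring
  have h5 : 4 ^ L * (K ^ (2 * L) * d ^ L) ≤ η ^ (2 * L) := by
    rw [pow_mul, pow_mul, ← mul_pow, ← mul_pow]
    refine pow_le_pow_left₀ (by positivity) (le_trans (le_of_eq ?_) hη) _
    rw [hK]; ring
  refine h1.trans (h2.trans ?_)
  rw [div_le_div_iff₀ (pow_pos hη0 _) (by positivity)]
  calc _ ≤ (X.card : ℝ) ^ 3 * W.card * (K ^ (2 * L) * d ^ L) * 4 ^ L :=
        mul_le_mul_of_nonneg_right h3 (by positivity)
    _ = (X.card : ℝ) ^ 3 * W.card * (4 ^ L * (K ^ (2 * L) * d ^ L)) := by ring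
    _ ≤ _ := mul_le_mul_of_nonneg_left h5 (by positivity)

end

end Crest.Agent.R129
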