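import Crest.Agent.R129.Detect
import Crest.Agent.R129.Moment2

/-!
# R129 / PV : union bound over short walks; product distributions; phases
-/

set_option autoImplicit false
open scoped InnerProductSpace ComplexConjugate
open FreeGroup

namespace Crest.Agent.R129

open Classical in
/-- the value of the edge `e` is a mixture of uniform distributions on boxes of side `≥ μ` (the hypothesis of
`prob_word`). -/
def UBox {E Θ R : Type} [CommRing R] {k : ℕ} (P : FP E Θ) (val : E → Θ → U k R) (e : E) (μ : ℕ) : Prop :=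
  ∃ (S : Finset R), μ ≤ S.card ∧ ∀ (B : U k R → Prop) (δ : ℝ),
    (∀ u : U k R, (((Fintype.piFinset fun _ : UI k => S).filter fun m => B (u * uni m)⁻¹).card : ℝ) ≤
      δ * (S.card : ℝ) ^ Fintype.card (UI k)) →
    ∑ θ ∈ (P.Ω e).filter fun θ => B (val e θ), P.w e θ ≤ δ

/-- some short reduced walk from `X` has trivial value. -/
def BadV {V E Θ G : Type} [Group G] (Gr : EG V E) (X : Finset V) (p : ℕ) (val : E → Θ → G) :
    Set (E → Θ) :=
  {x | ∃ y ∈ X, ∃ ω z, Gr.Walk y ω z ∧ IsReduced ω ∧ ω ≠ [] ∧ ω.length ≤ 40 * p ∧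
    wv (fun e => val e (x e)) ω = 1}

theorem PV_wv_hom {E G H : Type} [Group G] [Group H] (φ : G →* H) (v : E → G)
    (ω : List (E × Bool)) : wv (fun e => φ (v e)) ω = φ (wv v ω) := by
  induction ω with
  | nil => simp
  | cons a ω ih =>
    rw [wv_cons, wv_cons, ih, _root_.map_mul]
    congr 1
    rcases a with ⟨e, _ | _⟩ <;> simp [lv]

theorem PV_main {V E L Θ R G : Type} [Group G] [CommRing R] [IsDomain R] {k : ℕ} {Gr : EG V E}
    {lab : E → L} (sl : Gr.Scale lab) (hk : 500 ^ 3 + 2 ≤ k)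
    (hR : ∀ n : ℕ, 0 < n → n ≤ k → (n : R) ≠ 0) (P : FP E Θ) (val : E → Θ → G) (φ : G →* U k R)
    {dt : ℕ} (hd : Gr.HDeg dt) (X : Finset V) {p : ℕ} (hp : ∀ x ∈ X, sl.dep x = p) {μ : ℕ}
    (hμ : 0 < μ) (hval : ∀ x ∈ X, ∀ ω y, Gr.Walk x ω y → ω.length ≤ 40 * p →
      ∀ a ∈ ω, UBox P (fun e θ => φ (val e θ)) a.1 μ) :
    ∃ F : Finset E, DepOn F (fun x => x ∈ BadV Gr X p val) ∧
      P.Pr F (BadV Gr X p val) ≤
        X.card * ((dt : ℝ) + 1) ^ (40 * p) * ((40 * p : ℕ) : ℝ) ^ 2 * k / μ := by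
  classical
  choose T hT1 hT2 using fun x => hd.walks x (40 * p)
  set W : Finset (List (E × Bool)) := (X.biUnion T).filter fun ω =>
    ∃ y ∈ X, ∃ z, Gr.Walk y ω z ∧ IsReduced ω ∧ ω ≠ [] ∧ ω.length ≤ 40 * p with hW
  have hWm : ∀ ω, ω ∈ W ↔ ∃ y ∈ X, ∃ z, Gr.Walk y ω z ∧ IsReduced ω ∧ ω ≠ [] ∧
      ω.length ≤ 40 * p := by
    intro ω
    rw [hW, Finset.mem_filter]
    refine ⟨fun h => h.2, fun h => ⟨?_, h⟩⟩
    obtain ⟨y, hy, z, h1, -, -, h2⟩ := h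
    exact Finset.mem_biUnion.2 ⟨y, hy, hT2 y ω z h1 h2⟩
  set F : Finset E := W.biUnion fun ω => (ω.map Prod.fst).toFinset with hF
  have hFm : ∀ ω ∈ W, ∀ a ∈ ω, a.1 ∈ F := fun ω hω a ha =>
    Finset.mem_biUnion.2 ⟨ω, hω, List.mem_toFinset.2 (List.mem_map_of_mem ha)⟩
  have hB : ∀ x, x ∈ BadV Gr X p val ↔ ∃ ω ∈ W, wv (fun e => val e (x e)) ω = 1 := by
    intro x
    constructor
    · rintro ⟨y, hy, ω, z, h1, h2, h3, h4, h5⟩
      exact ⟨ω, (hWm ω).2 ⟨y, hy, z, h1, h2, h3, h4⟩, h5⟩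
    · rintro ⟨ω, hω, h5⟩
      obtain ⟨y, hy, z, h1, h2, h3, h4⟩ := (hWm ω).1 hω
      exact ⟨y, hy, ω, z, h1, h2, h3, h4, h5⟩
  refine ⟨F, fun x y h => ?_, ?_⟩
  · refine propext ((hB x).trans (Iff.trans (exists_congr fun ω => and_congr_right fun hω => ?_)
      (hB y).symm))
    rw [Detect_wv_congr (v' := fun e => val e (y e)) fun a ha => by rw [h a.1 (hFm ω hω a ha)]]
  have h1 : P.Pr F (BadV Gr X p val) ≤
      P.Pr F (⋃ ω ∈ W, {x | wv (fun e => φ (val e (x e))) ω = 1}) := by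
    refine P.Pr_mono F fun x _ hx => ?_
    obtain ⟨ω, hω, h5⟩ := (hB x).1 hx
    refine Set.mem_biUnion (Finset.mem_coe.2 hω) ?_
    show wv (fun e => φ (val e (x e))) ω = 1
    rw [PV_wv_hom, h5, _root_.map_one]
  have h2 : ∀ ω ∈ W, P.Pr F {x | wv (fun e => φ (val e (x e))) ω = 1} ≤
      ((40 * p : ℕ) : ℝ) ^ 2 * k / μ := by
    intro ω hω
    obtain ⟨y, hy, z, a1, a2, a3, a4⟩ := (hWm ω).1 hω
    have hl := sl.len_le y
    have hdet := Gr.detect (R := R) hk hR a1 a2 a3 (h := sl.dep y / 11)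
      (fun q z' σ hq hw hσ hr hne => sl.local_girth hw
        (by rw [hp y hy]; exact hq.length_le.trans a4) hσ hr hne) hl.1
      (le_trans (by rw [hp y hy]; exact a4) hl.2)
    refine (prob_word P (fun e θ => φ (val e θ)) F ω (hFm ω hω) hdet μ hμ
      (hval y hy ω z a1 a4)).trans ?_
    have a5 : (ω.length : ℝ) ≤ ((40 * p : ℕ) : ℝ) := by exact_mod_cast a4
    gcongr
  have h3 : (W.card : ℝ) ≤ X.card * ((dt : ℝ) + 1) ^ (40 * p) := by
    have : W.card ≤ X.card * (dt + 1) ^ (40 * p) :=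
      (Finset.card_filter_le _ _).trans (Finset.card_biUnion_le_card_mul _ _ _ fun x _ => hT1 x)
    exact_mod_cast this
  refine h1.trans ((P.Pr_biUnion_le F W _).trans ((Finset.sum_le_card_nsmul _ _ _ h2).trans ?_))
  rw [nsmul_eq_mul, mul_assoc (_ * _), mul_div_assoc (_ * _) (_ * _)]
  exact mul_le_mul_of_nonneg_right h3 (by positivity)

/-- `F` = the edges of the walks of length `≤ 40 p` from `X` (`HDeg.walks`); `Pr_biUnion_le`, `EG.detect` with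
`h = p / 11`, `j = 500` (`Scale.local_girth`, `Scale.len_le`), `prob_word`; `Detect_wv_congr` for `DepOn`. -/
theorem prob_volt {V E L Θ R : Type} [CommRing R] [IsDomain R] {k : ℕ} {Gr : EG V E} {lab : E → L}
    (sl : Gr.Scale lab) (hk : 500 ^ 3 + 2 ≤ k) (hR : ∀ n : ℕ, 0 < n → n ≤ k → (n : R) ≠ 0)
    (P : FP E Θ) (val : E → Θ → U k R) {dt : ℕ} (hd : Gr.HDeg dt) (X : Finset V) {p : ℕ}
    (hp : ∀ x ∈ X, sl.dep x = p) {μ : ℕ} (hμ : 0 < μ)
    (hval : ∀ x ∈ X, ∀ ω y, Gr.Walk x ω y → ω.length ≤ 40 * p → ∀ a ∈ ω, UBox P val a.1 μ) :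
    ∃ F : Finset E, DepOn F (fun x => x ∈ BadV Gr X p val) ∧
      P.Pr F (BadV Gr X p val) ≤
        X.card * ((dt : ℝ) + 1) ^ (40 * p) * ((40 * p : ℕ) : ℝ) ^ 2 * k / μ :=
  PV_main sl hk hR P val (MonoidHom.id _) hd X hp hμ hval

/-- the same with values in a group that maps to `U k R`. -/
theorem prob_volt_hom {V E L Θ R G : Type} [Group G] [CommRing R] [IsDomain R] {k : ℕ} {Gr : EG V E}
    {lab : E → L} (sl : Gr.Scale lab) (hk : 500 ^ 3 + 2 ≤ k)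
    (hR : ∀ n : ℕ, 0 < n → n ≤ k → (n : R) ≠ 0) (P : FP E Θ) (val : E → Θ → G) (φ : G →* U k R)
    {dt : ℕ} (hd : Gr.HDeg dt) (X : Finset V) {p : ℕ} (hp : ∀ x ∈ X, sl.dep x = p) {μ : ℕ}
    (hμ : 0 < μ) (hval : ∀ x ∈ X, ∀ ω y, Gr.Walk x ω y → ω.length ≤ 40 * p →
      ∀ a ∈ ω, UBox P (fun e θ => φ (val e θ)) a.1 μ) :
    ∃ F : Finset E, DepOn F (fun x => x ∈ BadV Gr X p val) ∧
      P.Pr F (BadV Gr X p val) ≤
        X.card * ((dt : ℝ) + 1) ^ (40 * p) * ((40 * p : ℕ) : ℝ) ^ 2 * k / μ :=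
  PV_main sl hk hR P val φ hd X hp hμ hval

end Crest.Agent.R129
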