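import Crest.Agent.R129.FnDef
import Crest.Agent.R129.PV
import Crest.Agent.R129.LG3

/-!
# R129 / Fn2 : uniform voltages in a finite group
-/

set_option autoImplicit false
open scoped InnerProductSpace ComplexConjugate

namespace Crest.Agent.R129

/-- independent uniform variables. -/
noncomputable def FP.unif (E G : Type) [Fintype G] [Group G] : FP E G where
  Ω _ := Finset.univ
  w _ _ := (Fintype.card G : ℝ)⁻¹
  nonneg _ _ := by positivity
  sum_one _ := by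
    have : (Fintype.card G : ℝ) ≠ 0 := by exact_mod_cast Fintype.card_ne_zero
    simp [this]
  x0 _ := 1
  x0_mem _ := Finset.mem_univ _

/-- `uni` is a bijection (`ent_uni`, `uni_ent`); take `S = univ`, `u = 1`. -/
theorem uBox_unif {E R : Type} [CommRing R] [Fintype R] {k : ℕ} [Fintype (U k R)] (e : E) :
    UBox (FP.unif E (U k R)) (fun _ θ => θ⁻¹) e (Fintype.card R) := by
  classical
  refine ⟨Finset.univ, le_rfl, fun B δ h => ?_⟩
  have h1 := h 1
  let φ : (UI k → R) ≃ U k R := ⟨uni, ent, ent_uni, uni_ent⟩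
  have h2 : (Fintype.card (U k R) : ℝ) = (Fintype.card R : ℝ) ^ Fintype.card (UI k) := by
    rw [← Fintype.card_congr φ, Fintype.card_fun, Nat.cast_pow]
  have h3 : (0 : ℝ) < Fintype.card (U k R) := by exact_mod_cast Fintype.card_pos
  simp only [FP.unif]
  rw [Finset.sum_const, nsmul_eq_mul, ← div_eq_mul_inv, div_le_iff₀ h3, h2]
  rw [Finset.card_univ] at h1
  refine le_trans (le_of_eq ?_) h1
  congr 1
  refine (Finset.card_equiv φ fun m => ?_).symm
  simp [φ]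

theorem emean_unif_apply {E G : Type} [Fintype G] [Group G] (e : E) (φ : L2 G ℂ) (g : G) :
    emean (FP.unif E G) (fun _ _ => 1) (fun _ θ => θ) e φ g = (Fintype.card G : ℂ)⁻¹ * ∑ h, φ h := by
  rw [emean, ContinuousLinearMap.sum_apply, lp.coeFn_sum, Finset.sum_apply,
    ← Equiv.sum_comp ((Equiv.inv G).trans (Equiv.mulRight g)), Finset.mul_sum]
  refine Finset.sum_congr rfl fun θ _ => ?_
  simp [FP.unif, lam_apply]

/-- Build the vector `w : L2 V (L2 G ℂ)` with `w x g = if x ∈ X then f x g else 0` (`L2_of_finite`).  The form is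
`fm Z w` (`fm_Zop`, `abs_fm_Zop_le`) plus the mean part `∑_e 2 Re ⟪φ (tgt e), φ (src e)⟫` with
`φ x = |G|^(-1/2) ∑_g f x g` (`emean_unif_apply`); `expand_vec` in `H = ℂ`, `∑ φ = 0`, `|φ x|² ≤ ∑_g |f x g|²`. -/
theorem upOK_of_Zop {V E G : Type} [Fintype G] [Group G] (Gr : EG V E) (X : Finset V) (F : Finset E)
    (hF : ∀ e ∈ F, Gr.src e ∈ X ∧ Gr.tgt e ∈ X) {c ε₀ d η : ℝ} (hd : 0 ≤ (1 - c + ε₀) * d)
    (hexp : ∀ f : V → ℝ, c * d * (∑ x ∈ X, f x ^ 2 - (∑ x ∈ X, f x) ^ 2 / X.card) -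
      ε₀ * d * ∑ x ∈ X, f x ^ 2 ≤ d * ∑ x ∈ X, f x ^ 2 - 2 * ∑ e ∈ F, f (Gr.src e) * f (Gr.tgt e))
    (x : E → G) (hZ : ‖Zop Gr (FP.unif E G) (fun _ _ => 1) (fun _ θ => θ) F x‖ ≤ η) :
    UpOK Gr X F Finset.univ (fun e => (x e)⁻¹) ((1 - c + ε₀) * d + η) := by
  classical
  intro f hf
  choose r hr using fun y => L2_of_finite (f y) Finset.univ fun g hg => absurd (Finset.mem_univ g) hg
  obtain ⟨w, hw⟩ := L2_of_finite (fun y => if y ∈ X then r y else 0) X fun y hy => if_neg hy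
  have hw' : ∀ y ∈ X, ∀ g, w y g = f y g := fun y hy g => by rw [hw, if_pos hy, hr]
  have hN : (0 : ℝ) < Fintype.card G := by exact_mod_cast Fintype.card_pos
  have h1 : ∑ y ∈ X, ‖w y‖ ^ 2 = ∑ y ∈ X, ∑ g, ‖f y g‖ ^ 2 := Finset.sum_congr rfl fun y hy => by
    rw [L2_norm_sq_eq _ Finset.univ fun g hg => absurd (Finset.mem_univ g) hg]
    simp only [hw' y hy]
  have h2 := (le_abs_self _).trans
    (abs_fm_Zop_le Gr (FP.unif E G) (fun _ _ => 1) (fun _ θ => θ) F X hF x w)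
  have h3 : FmC Gr F Finset.univ (fun e => (x e)⁻¹) f =
      fm (Zop Gr (FP.unif E G) (fun _ _ => 1) (fun _ θ => θ) F x) w + (Fintype.card G : ℝ)⁻¹ *
        ∑ e ∈ F, 2 * (⟪∑ g, f (Gr.tgt e) g, ∑ g, f (Gr.src e) g⟫_ℂ).re := by
    rw [FmC, fm_Zop, Finset.mul_sum, ← Finset.sum_add_distrib]
    refine Finset.sum_congr rfl fun e he => ?_
    rw [zeta, one_smul, sub_apply, inner_sub_right,
      L2_inner_eq _ _ Finset.univ fun g hg => absurd (Finset.mem_univ g) hg,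
      L2_inner_eq _ _ Finset.univ fun g hg => absurd (Finset.mem_univ g) hg]
    simp only [emean_unif_apply, lam_apply, hw' _ (hF e he).1, hw' _ (hF e he).2,
      RCLike.inner_apply, map_sum]
    rw [← Finset.mul_sum, ← Finset.mul_sum, ← Complex.re_sum, Complex.sub_re, mul_assoc,
      show ((Fintype.card G : ℂ))⁻¹ = (((Fintype.card G : ℝ)⁻¹ : ℝ) : ℂ) by push_cast; rfl,
      Complex.re_ofReal_mul]
    simp only [mul_comm (conj _)]
    ring
  have h4 := expand_vec Gr X F hF hexp fun y => ∑ g, f y g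
  rw [Var, hf, norm_zero, zero_pow two_ne_zero, zero_div, sub_zero] at h4
  have h5 : ∑ y ∈ X, ‖∑ g, f y g‖ ^ 2 ≤ Fintype.card G * ∑ y ∈ X, ∑ g, ‖f y g‖ ^ 2 := by
    rw [Finset.mul_sum]
    exact Finset.sum_le_sum fun y _ =>
      (pow_le_pow_left₀ (norm_nonneg _) (norm_sum_le _ _) 2).trans sq_sum_le_card_mul_sum_sq
  have h6 : 0 ≤ ∑ y ∈ X, ∑ g, ‖f y g‖ ^ 2 := by positivity
  have h7 := mul_le_mul_of_nonneg_left h5 hd
  have h8 : (Fintype.card G : ℝ)⁻¹ *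
      ∑ e ∈ F, 2 * (⟪∑ g, f (Gr.tgt e) g, ∑ g, f (Gr.src e) g⟫_ℂ).re ≤
      (1 - c + ε₀) * d * ∑ y ∈ X, ∑ g, ‖f y g‖ ^ 2 := by
    rw [inv_mul_le_iff₀ hN]
    linarith
  rw [h1] at h2
  rw [h3]
  linarith [mul_le_mul_of_nonneg_right hZ h6]

end Crest.Agent.R129
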