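import Crest.Agent.R129.BaseDef
import Crest.Agent.R129.Forest

/-!
# R129 / Fn3 : parameters for S0173 and the numerical inequalities
-/

set_option autoImplicit false

namespace Crest.Agent.R129

structure Prm3 (k t q : ℕ) : Prop where
  prime : q.Prime
  t_ge : 1000 ≤ t
  q_gt : t ^ 12 < q
  q_le : q ≤ 2 * t ^ 12
  k_ge : 500 ^ 3 + 2 ≤ k
  k_le : k ≤ t
  big : q ^ (101 * k ^ 2 + 7) ≤ 4 ^ t

/-- Bertrand (`Nat.exists_prime_lt_and_le_two_mul`); exponential beats polynomial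
(`tendsto_pow_const_div_const_pow_of_one_lt`).  Keep `k` abstract. -/
theorem exists_prm3 {k : ℕ} (hk : 500 ^ 3 + 2 ≤ k) : ∃ t q, Prm3 k t q := by
  have h1 := (tendsto_pow_const_div_const_pow_of_one_lt (12 * (101 * k ^ 2 + 7))
    (show (1 : ℝ) < 4 by norm_num)).const_mul (2 ^ (101 * k ^ 2 + 7))
  rw [mul_zero] at h1
  obtain ⟨t, ⟨h2, h3⟩, h4⟩ := (((h1.eventually (gt_mem_nhds one_pos)).and
    (Filter.eventually_ge_atTop 1000)).and (Filter.eventually_ge_atTop k)).exists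
  obtain ⟨q, hq, h5, h6⟩ := Nat.exists_prime_lt_and_le_two_mul (t ^ 12) (by positivity)
  refine ⟨t, q, hq, h3, h5, h6, hk, h4, (Nat.pow_le_pow_left h6 _).trans ?_⟩
  rw [← mul_div_assoc, div_lt_one (by positivity)] at h2
  rw [mul_pow, ← pow_mul]
  exact_mod_cast h2.le

/-- a rapidly growing subsequence. -/
theorem exists_fast (a : ℕ → ℕ) (h : ∀ p, 200 ≤ p → p < a p) :
    ∃ p : ℕ → ℕ, StrictMono p ∧ 200 ≤ p 0 ∧
      ∀ n, 2 * (n + 1) * ∏ i ∈ Finset.range (n + 1), a (p i) < a (p (n + 1)) := by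
  let s : ℕ → ℕ × ℕ := fun n => Nat.rec (200, a 200)
    (fun n x => (x.1 + 2 * (n + 1) * x.2 + 1, x.2 * a (x.1 + 2 * (n + 1) * x.2 + 1))) n
  have h1 : ∀ n, (s (n + 1)).1 = (s n).1 + 2 * (n + 1) * (s n).2 + 1 := fun _ => rfl
  have h2 : ∀ n, (s n).2 = ∏ i ∈ Finset.range (n + 1), a (s i).1 := by
    intro n
    induction n with
    | zero => simp [s]
    | succ n ih => rw [Finset.prod_range_succ, ← ih]
  have h3 : StrictMono fun n => (s n).1 := strictMono_nat_of_lt_succ fun n => by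
    rw [h1]; omega
  refine ⟨fun n => (s n).1, h3, le_rfl, fun n => ?_⟩
  have h4 : 200 ≤ (s (n + 1)).1 := h3.monotone (Nat.zero_le (n + 1))
  have h5 := h _ h4
  rw [← h2]
  have := h1 n
  show _ < a (s (n + 1)).1
  omega

theorem depOf_level {p : ℕ} (hp : 200 ≤ p) : depOf 400 ((400 * (p - 200) : ℕ) : ℤ) = p := by
  rw [depOf, mlev, if_pos (Int.natCast_nonneg _), Int.toNat_natCast]
  omega

namespace Prm3
variable {k t q : ℕ} (hp : Prm3 k t q)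
include hp

theorem q_ge : 10 ^ 36 ≤ q := by
  have h1 := Nat.pow_le_pow_left hp.t_ge 12
  have h2 := hp.q_gt
  norm_num at h1 ⊢
  omega

theorem s_ge {s : ℕ} (h1 : q ≤ s + 3 * t ^ 9 + 1) : 99 * q ≤ 100 * s := by
  have h2 := Nat.pow_le_pow_left hp.t_ge 3
  have h3 : 1 ≤ t ^ 9 := Nat.one_le_pow _ _ (by have := hp.t_ge; omega)
  have h4 : t ^ 9 * 1000 ^ 3 ≤ t ^ 12 := by
    rw [show t ^ 12 = t ^ 9 * t ^ 3 by ring]
    exact Nat.mul_le_mul_left _ h2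
  have h5 := hp.q_gt
  norm_num at h4
  omega

theorem Fn3_q : 100000 ≤ q := le_trans (by norm_num) hp.q_ge

theorem Fn3_pow (m : ℕ) : (2 * q + 1) ^ m ≤ q ^ (2 * m) := by
  have hq := hp.Fn3_q
  rw [pow_mul]
  exact Nat.pow_le_pow_left (by nlinarith) m

theorem Fn3_inv : 1 / (q : ℝ) ^ 3 ≤ 1 / 100000 := by
  have hq := hp.Fn3_q
  refine one_div_le_one_div_of_le (by norm_num) ?_
  exact_mod_cast hq.trans (Nat.le_self_pow (by norm_num) q)

theorem num_V {p x l : ℕ} (h : 200 ≤ p) (hx : x ≤ q ^ (p + 1)) (hl : q ^ (100 * p) < l) :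
    (x : ℝ) * (((2 * q : ℕ) : ℝ) + 1) ^ (40 * p) * ((40 * p : ℕ) : ℝ) ^ 2 * k / l ≤ 1 / 4 := by
  have hq := hp.Fn3_q
  have h1 : 40 * p ≤ q ^ p := by
    obtain ⟨r, rfl⟩ : ∃ r, p = r + 1 := ⟨p - 1, by omega⟩
    have : r + 1 ≤ q ^ r := Nat.lt_pow_self (by omega)
    rw [pow_succ, mul_comm]
    exact Nat.mul_le_mul this (by omega)
  have h2 : k ≤ q := hp.k_le.trans ((Nat.le_self_pow (by norm_num) t).trans hp.q_gt.le)
  have h3 : 4 * (x * (2 * q + 1) ^ (40 * p) * (40 * p) ^ 2 * k) ≤ l := by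
    calc 4 * (x * (2 * q + 1) ^ (40 * p) * (40 * p) ^ 2 * k)
        ≤ q * (q ^ (p + 1) * q ^ (2 * (40 * p)) * (q ^ p) ^ 2 * q) := by
          have := hp.Fn3_pow (40 * p)
          gcongr
          omega
      _ = q ^ (83 * p + 3) := by ring
      _ ≤ q ^ (100 * p) := Nat.pow_le_pow_right (by omega) (by omega)
      _ ≤ l := hl.le
  have hl0 : (0 : ℝ) < l := by exact_mod_cast lt_of_le_of_lt (Nat.zero_le _) hl
  rw [div_le_div_iff₀ hl0 (by norm_num), one_mul, mul_comm]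
  exact_mod_cast h3

theorem num_Z {p x l u : ℕ} (h : 200 ≤ p) (hx : x ≤ q ^ (p + 1)) (hl : l ≤ 2 * q ^ (100 * p))
    (hu : u ≤ k ^ 2) : (x : ℝ) ^ 3 * ((l ^ u : ℕ) : ℝ) / 4 ^ (t * p) ≤ 1 / 4 := by
  have hq := hp.Fn3_q
  have h1 : l ^ u ≤ (q * q ^ (100 * p)) ^ k ^ 2 :=
    (Nat.pow_le_pow_left (hl.trans (Nat.mul_le_mul_right _ (by omega))) u).trans
      (Nat.pow_le_pow_right (by positivity) hu)
  have h3 : 4 * (x ^ 3 * l ^ u) ≤ 4 ^ (t * p) := by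
    calc 4 * (x ^ 3 * l ^ u) ≤ q * ((q ^ (p + 1)) ^ 3 * (q * q ^ (100 * p)) ^ k ^ 2) := by
          gcongr
          omega
      _ = q ^ (3 * p + 4 + (100 * p + 1) * k ^ 2) := by
          rw [← pow_succ', ← pow_mul, ← pow_mul, ← pow_add, ← pow_succ']
          congr 1
          ring
      _ ≤ q ^ ((101 * k ^ 2 + 7) * p) := Nat.pow_le_pow_right (by omega) (by
          have : k ^ 2 ≤ k ^ 2 * p := Nat.le_mul_of_pos_right _ (by omega)
          nlinarith)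
      _ ≤ 4 ^ (t * p) := by
          rw [pow_mul, pow_mul]
          exact Nat.pow_le_pow_left hp.big p
  rw [div_le_div_iff₀ (by positivity) (by norm_num), one_mul, mul_comm]
  exact_mod_cast h3

theorem num_eta : (16 * (2 * ((10 * t : ℕ) : ℝ) + 4) ^ 2) ^ 2 * ((2 * q : ℕ) : ℝ) ≤
    ((q : ℝ) / 10000) ^ 2 := by
  have ht : (1000 : ℝ) ≤ t := by exact_mod_cast hp.t_ge
  have hq : (t : ℝ) ^ 12 ≤ q := by exact_mod_cast hp.q_gt.le
  have h0 : (0 : ℝ) ≤ q := Nat.cast_nonneg q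
  have h1 : (16 * (2 * (10 * (t : ℝ)) + 4) ^ 2) ^ 2 ≤ (16 * (21 * (t : ℝ)) ^ 2) ^ 2 := by
    gcongr
    linarith
  have h2 : (1000 : ℝ) ^ 8 * (t : ℝ) ^ 4 ≤ q := by
    refine le_trans ?_ hq
    rw [show (t : ℝ) ^ 12 = (t : ℝ) ^ 8 * (t : ℝ) ^ 4 by ring]
    gcongr
  have h3 : (16 * (2 * (10 * (t : ℝ)) + 4) ^ 2) ^ 2 * 2 ≤ q / 10000 ^ 2 := by
    have : 0 ≤ (t : ℝ) ^ 4 := by positivity
    have e : (16 * (21 * (t : ℝ)) ^ 2) ^ 2 = 49787136 * (t : ℝ) ^ 4 := by ring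
    rw [e] at h1
    norm_num at h2 ⊢
    linarith
  have h4 := mul_le_mul_of_nonneg_right h3 h0
  push_cast
  calc _ = (16 * (2 * (10 * (t : ℝ)) + 4) ^ 2) ^ 2 * 2 * q := by ring
    _ ≤ _ := h4
    _ = _ := by ring

theorem num_up {s : ℕ} (h1 : q ≤ s + 3 * t ^ 9 + 1) :
    (1 - 1 / 800 + 1 / (q : ℝ) ^ 3) * (2 * s) + (q : ℝ) / 10000 ≤ (1 - 1 / 3200) * (2 * s) := by
  have h2 : (99 : ℝ) * q ≤ 100 * s := by exact_mod_cast hp.s_ge h1
  have h0 : (0 : ℝ) ≤ s := Nat.cast_nonneg s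
  have h3 := mul_le_mul_of_nonneg_right hp.Fn3_inv h0
  linarith

theorem num_low {s p M : ℕ} (h1 : q ≤ s + 3 * t ^ 9 + 1) (h : 200 ≤ p) (hM : q ^ (100 * p) ≤ M) :
    ((2 * s - (s : ℝ) / 3200) + (s : ℝ) / 6400) * M +
        2 * ((2 * q : ℕ) : ℝ) * (((2 * q : ℕ) : ℝ) + 1) ^ (18 * p) ≤
      (1 - 2 * (1 / (q : ℝ) ^ 3)) * (2 * s) * M := by
  have hq := hp.Fn3_q
  have hs : 1 ≤ s := by have := hp.s_ge h1; omega
  have h2 : 51200 * q * (2 * q + 1) ^ (18 * p) ≤ s * M := by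
    calc 51200 * q * (2 * q + 1) ^ (18 * p) ≤ q * q * q ^ (2 * (18 * p)) := by
          have := hp.Fn3_pow (18 * p)
          gcongr
          omega
      _ = q ^ (36 * p + 2) := by ring
      _ ≤ q ^ (100 * p) := Nat.pow_le_pow_right (by omega) (by omega)
      _ ≤ M := hM
      _ ≤ s * M := Nat.le_mul_of_pos_left _ hs
  have h3 : (51200 : ℝ) * q * (2 * q + 1) ^ (18 * p) ≤ s * M := by exact_mod_cast h2
  have h4 := mul_le_mul_of_nonneg_right hp.Fn3_inv (show (0 : ℝ) ≤ s * M by positivity)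
  have h5 : (0 : ℝ) ≤ s * M := by positivity
  push_cast
  linarith

theorem num_half {p M : ℕ} (h : 200 ≤ p) (hM : q ^ (100 * p) ≤ M) :
    2 * (((2 * q : ℕ) : ℝ) + 1) ^ (18 * p) ≤ M := by
  have hq := hp.Fn3_q
  have h2 : 2 * (2 * q + 1) ^ (18 * p) ≤ M := by
    calc 2 * (2 * q + 1) ^ (18 * p) ≤ q * q ^ (2 * (18 * p)) := by
          have := hp.Fn3_pow (18 * p)
          gcongr
          omega
      _ = q ^ (36 * p + 1) := by ring
      _ ≤ q ^ (100 * p) := Nat.pow_le_pow_right (by omega) (by omega)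
      _ ≤ M := hM
  exact_mod_cast h2

/-- each term is at most `q^(-30 p n) ≤ (1/q) (1/2)^(n+1)`. -/
theorem num_small (p x M : ℕ → ℕ) (hm : StrictMono p) (h0 : 200 ≤ p 0)
    (hx : ∀ n, x n ≤ q ^ (p n + 1)) (hM : ∀ n, q ^ (100 * p n) ≤ M n) (G : Finset ℕ) :
    ∑ n ∈ G, (x n : ℝ) * √((((2 * q : ℕ) : ℝ) + 1) ^ (18 * p n) / M n) ≤ 1 / q := by
  have hq := hp.Fn3_q
  have hq0 : (0 : ℝ) < q := by exact_mod_cast lt_of_lt_of_le (by norm_num) hq
  have h1 : ∀ n, (x n : ℝ) * √((((2 * q : ℕ) : ℝ) + 1) ^ (18 * p n) / M n) ≤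
      1 / q / 2 * (1 / 2) ^ n := by
    intro n
    have a0 : 200 + n ≤ p n := (Nat.add_le_add_right h0 n).trans (by
      simpa [add_comm] using hm.add_le_nat n 0)
    have a1 : (((2 * q : ℕ) : ℝ) + 1) ^ (18 * p n) ≤ (q : ℝ) ^ (2 * (18 * p n)) := by
      exact_mod_cast hp.Fn3_pow (18 * p n)
    have a2 : (q : ℝ) ^ (100 * p n) ≤ M n := by exact_mod_cast hM n
    have a3 : √((((2 * q : ℕ) : ℝ) + 1) ^ (18 * p n) / M n) ≤ 1 / (q : ℝ) ^ (32 * p n) := by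
      refine Real.sqrt_le_iff.2 ⟨by positivity, (div_le_div₀ (by positivity) a1 (by positivity)
        a2).trans (le_of_eq ?_)⟩
      field_simp
      ring
    have a4 : (x n : ℝ) ≤ (q : ℝ) ^ (p n + 1) := by exact_mod_cast hx n
    have a5 : q ^ (p n + 1) * (q * 2 * 2 ^ n) ≤ q ^ (32 * p n) := by
      calc q ^ (p n + 1) * (q * 2 * 2 ^ n) ≤ q ^ (p n + 1) * (q * q * q ^ n) := by
            gcongr <;> omega
        _ = q ^ (p n + 3 + n) := by ring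
        _ ≤ _ := Nat.pow_le_pow_right (by omega) (by omega)
    refine (mul_le_mul a4 a3 (Real.sqrt_nonneg _) (by positivity)).trans ?_
    rw [one_div_pow, div_div, div_mul_div_comm, one_mul, mul_one_div,
      div_le_div_iff₀ (by positivity) (by positivity), one_mul]
    exact_mod_cast a5
  refine (Finset.sum_le_sum fun n _ => h1 n).trans ?_
  rw [← Finset.mul_sum]
  have h2 := sum_le_hasSum G (fun n _ => by positivity) hasSum_geometric_two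
  refine (mul_le_mul_of_nonneg_left h2 (by positivity)).trans (le_of_eq ?_)
  ring

theorem num_main {s A : ℕ} (h1 : q ≤ s + 3 * t ^ 9 + 1) (h2 : s ≤ q) (hA : A ≤ q ^ 2) :
    0 < (s : ℝ) / 6400 ∧ (s : ℝ) / 6400 ≤ 2 * s - (s : ℝ) / 3200 ∧
      2 * (A : ℝ) ≤ 9 / 16 * (2 * s - (s : ℝ) / 3200) ^ 2 ∧
      64 * Forest.err ((2 * q : ℕ) : ℝ) (2 * s - (s : ℝ) / 3200) ≤ (s : ℝ) / 6400 ∧
      1 / (q : ℝ) ≤ 1 / 16 ∧
      64 * (((2 * q : ℕ) : ℝ) + ((2 * q : ℕ) : ℝ) ^ 2 / ((s : ℝ) / 6400) + (s : ℝ) / 6400) *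
        (1 / (q : ℝ)) ^ 2 ≤ (s : ℝ) / 6400 := by
  have h3 : (99 : ℝ) * q ≤ 100 * s := by exact_mod_cast hp.s_ge h1
  have h4 : (s : ℝ) ≤ q := by exact_mod_cast h2
  have h5 : (10 : ℝ) ^ 36 ≤ q := by exact_mod_cast hp.q_ge
  have h6 : (A : ℝ) ≤ (q : ℝ) ^ 2 := by exact_mod_cast hA
  rw [show (10 : ℝ) ^ 36 = 1000000000000000000000000000000000000 by norm_num] at h5
  have hq0 : (0 : ℝ) < q := by linarith
  have hs0 : (0 : ℝ) < s := by linarith
  push_cast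
  refine ⟨by positivity, by linarith, ?_, ?_, one_div_le_one_div_of_le (by norm_num) (by linarith),
    ?_⟩
  · have a1 : 19 / 10 * (q : ℝ) ≤ 2 * s - (s : ℝ) / 3200 := by linarith
    have a2 := pow_le_pow_left₀ (by positivity) a1 2
    nlinarith
  · have a1 : (2 * (q : ℝ) + 1) / (2 * s - (s : ℝ) / 3200) ≤ 3 := by
      rw [div_le_iff₀ (by linarith)]
      linarith
    have a2 : √(2 * (q : ℝ)) ≤ q / 10000000000 := by
      refine Real.sqrt_le_iff.2 ⟨by positivity, ?_⟩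
      nlinarith
    rw [Forest.err]
    linarith
  · have a1 : (2 * (q : ℝ)) ^ 2 / ((s : ℝ) / 6400) ≤ 26000 * q := by
      rw [div_le_iff₀ (by positivity)]
      nlinarith
    have a2 : 64 * (2 * (q : ℝ) + (2 * (q : ℝ)) ^ 2 / ((s : ℝ) / 6400) + (s : ℝ) / 6400) ≤
        (q : ℝ) ^ 2 := by nlinarith
    rw [one_div_pow, mul_one_div]
    exact ((div_le_one (by positivity)).2 a2).trans (by linarith)

end Prm3

end Crest.Agent.R129
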