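import Crest.Agent.R129.BaseDef
import Crest.Agent.R129.Abs

/-!
# R129 / LG2 : functions that are constant on levels; sums over blocks
-/

set_option autoImplicit false
open scoped InnerProductSpace ComplexConjugate
open ContinuousLinearMap

namespace Crest.Agent.R129

section avs
variable {V 𝔼 : Type} [NormedAddCommGroup 𝔼] [InnerProductSpace ℂ 𝔼] [CompleteSpace 𝔼]

/-- the isometry onto the functions that are constant on the levels. -/
noncomputable def avs (𝔼 : Type) [NormedAddCommGroup 𝔼] [InnerProductSpace ℂ 𝔼] (lev : V → ℤ)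
    (X : ℤ → Finset V) : L2 ℤ 𝔼 →L[ℂ] L2 V 𝔼 :=
  pull lev fun x => (((√((X (lev x)).card : ℝ))⁻¹ : ℝ) : ℂ) • ContinuousLinearMap.id ℂ 𝔼

variable {lev : V → ℤ} {X : ℤ → Finset V} (hX : ∀ n x, x ∈ X n ↔ lev x = n)
include hX

omit [CompleteSpace 𝔼] in
/-- `PullBd lev _ 1`. -/
theorem avs_apply (y : L2 ℤ 𝔼) (x : V) :
    avs 𝔼 lev X y x = (((√((X (lev x)).card : ℝ))⁻¹ : ℝ) : ℂ) • y (lev x) := by
  refine pull_apply (C := 1) ⟨zero_le_one, fun i s hs => ?_⟩ y x
  have h1 : s ⊆ X i := fun x hx => (hX i x).2 (hs x hx)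
  have h2 : ∀ x ∈ s, ‖(((√((X (lev x)).card : ℝ))⁻¹ : ℝ) : ℂ) • ContinuousLinearMap.id ℂ 𝔼‖ ^ 2 ≤
      ((X i).card : ℝ)⁻¹ := fun x hx => by
    rw [hs x hx, ← Real.sq_sqrt (Nat.cast_nonneg (X i).card), ← inv_pow, Real.sqrt_sq (by positivity)]
    refine pow_le_pow_left₀ (norm_nonneg _) ?_ 2
    rw [norm_smul, Complex.norm_real, Real.norm_of_nonneg (by positivity)]
    exact mul_le_of_le_one_right (by positivity) ContinuousLinearMap.norm_id_le
  refine (Finset.sum_le_card_nsmul _ _ _ h2).trans ?_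
  rw [nsmul_eq_mul, one_pow, ← div_eq_mul_inv]
  exact div_le_one_of_le₀ (by exact_mod_cast Finset.card_le_card h1) (by positivity)

/-- test against `sgl n v` (`adjoint_inner_right`, `L2_inner_eq` with `s = X n`). -/
theorem adjoint_avs_apply (f : L2 V 𝔼) (n : ℤ) :
    adjoint (avs 𝔼 lev X) f n = (((√((X n).card : ℝ))⁻¹ : ℝ) : ℂ) • ∑ x ∈ X n, f x := by
  refine ext_inner_left ℂ fun v => ?_
  rw [← inner_sgl_left, adjoint_inner_right, L2_inner_eq _ _ (X n), inner_smul_right, inner_sum,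
    Finset.mul_sum]
  · refine Finset.sum_congr rfl fun x hx => ?_
    rw [avs_apply hX, (hX n x).1 hx, sgl_self, inner_smul_left, Complex.conj_ofReal]
  · intro x hx
    rw [avs_apply hX, sgl_ne fun h => hx ((hX n x).2 h), smul_zero]

theorem adjoint_avs_avs (hne : ∀ n, (X n).Nonempty) (y : L2 ℤ 𝔼) :
    adjoint (avs 𝔼 lev X) (avs 𝔼 lev X y) = y := by
  refine lp.ext (funext fun n => ?_)
  have h0 : (0 : ℝ) < (X n).card := by exact_mod_cast (hne n).card_pos
  rw [adjoint_avs_apply hX, Finset.sum_congr rfl fun x hx => by rw [avs_apply hX, (hX n x).1 hx],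
    Finset.sum_const, ← Nat.cast_smul_eq_nsmul ℂ, smul_smul, smul_smul]
  have h1 : (√((X n).card : ℝ))⁻¹ * (X n).card * (√((X n).card : ℝ))⁻¹ = 1 := by
    have h2 := Real.sqrt_pos.2 h0
    have h3 := Real.mul_self_sqrt h0.le
    field_simp
    linarith
  have h4 := congrArg (fun r : ℝ => (r : ℂ)) h1
  simp only [Complex.ofReal_mul, Complex.ofReal_natCast, Complex.ofReal_one] at h4
  rw [h4, one_smul]

theorem norm_avs (hne : ∀ n, (X n).Nonempty) (y : L2 ℤ 𝔼) : ‖avs 𝔼 lev X y‖ = ‖y‖ := by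
  rw [norm_eq_sqrt_re_inner (𝕜 := ℂ), ← adjoint_inner_right, adjoint_avs_avs hX hne,
    ← norm_eq_sqrt_re_inner]

omit [CompleteSpace 𝔼] in
theorem norm_sq_levels (I : Finset ℤ) (f : L2 V 𝔼) (hf : ∀ x, lev x ∉ I → f x = 0) :
    ‖f‖ ^ 2 = ∑ n ∈ I, ∑ x ∈ X n, ‖f x‖ ^ 2 := by
  classical
  rw [L2_norm_sq_eq f (I.biUnion X), Finset.sum_biUnion]
  · intro n _ m _ hnm
    exact Finset.disjoint_left.2 fun x h1 h2 => hnm (((hX n x).1 h1).symm.trans ((hX m x).1 h2))
  · intro x hx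
    exact hf x fun h => hx (Finset.mem_biUnion.2 ⟨_, h, (hX _ x).2 rfl⟩)

end avs

/-- a symmetric banded kernel supported in `I × I` is summed block by block. -/
theorem band_sum (I : Finset ℤ) (T : ℤ → ℤ → ℝ) (hs : ∀ n n', T n n' = T n' n)
    (hb : ∀ n n', 2 ≤ (n - n').natAbs → T n n' = 0) (hI : ∀ n n', n ∉ I → T n n' = 0) :
    ∑ b ∈ I ×ˢ (Finset.univ : Finset Bool), (if b.2 then 2 else 1) * T (bt b) (bs b) =
      ∑ n ∈ I, ∑ n' ∈ I, T n' n := by
  have h1 : ∀ n ∈ I, ∑ n' ∈ I, T n' n = T n n + T (n + 1) n + T (n - 1) n := fun n _ => by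
    rw [← tsum_eq_sum (L := .unconditional _) fun n' hn' => hI n' n hn',
      tsum_eq_sum (s := {n, n + 1, n - 1}) fun n' hn' => hb n' n (by
        simp only [Finset.mem_insert, Finset.mem_singleton] at hn'; omega),
      Finset.sum_insert (by simp only [Finset.mem_insert, Finset.mem_singleton]; omega),
      Finset.sum_pair (by omega), add_assoc]
  have h2 : ∑ n ∈ I, T (n - 1) n = ∑ n ∈ I, T (n + 1) n := by
    rw [← tsum_eq_sum (L := .unconditional _) fun n hn => (hs _ _).trans (hI n (n - 1) hn),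
      ← tsum_eq_sum (L := .unconditional _) fun n hn => (hs _ _).trans (hI n (n + 1) hn),
      ← (Equiv.addRight (1 : ℤ)).tsum_eq]
    refine tsum_congr fun n => ?_
    simp only [Equiv.coe_addRight, add_sub_cancel_right]
    exact hs _ _
  rw [Finset.sum_congr rfl h1, Finset.sum_add_distrib, h2, ← Finset.sum_add_distrib,
    Finset.sum_product]
  refine Finset.sum_congr rfl fun n _ => ?_
  rw [Fintype.sum_bool]
  by_cases h : n < -1
  · simp only [bs, bt, h, not_le.2 h, if_true, and_true, and_false, if_false, Bool.false_eq_true,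
      hs n (n + 1)]
    ring
  · simp only [bs, bt, h, not_lt.1 h, if_true, and_true, and_false, if_false, Bool.false_eq_true]
    ring

/-- every level occurs at most four times as an end of a block. -/
theorem band_mult (I : Finset ℤ) (S : ℤ → ℝ) (h0 : ∀ n, 0 ≤ S n) (hI : ∀ n, n ∉ I → S n = 0) :
    ∑ b ∈ I ×ˢ (Finset.univ : Finset Bool), (S (bs b) + S (bt b)) ≤ 4 * ∑ n ∈ I, S n := by
  classical
  have h1 : ∑ n ∈ I, S (n + 1) ≤ ∑ n ∈ I, S n := by
    have h2 : HasSum S (∑ n ∈ I, S n) := hasSum_sum_of_ne_finset_zero hI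
    exact sum_le_hasSum I (fun n _ => h0 _) ((Equiv.addRight (1 : ℤ)).hasSum_iff.2 h2)
  have h3 : ∀ n ∈ I, ∑ c : Bool, (S (bs (n, c)) + S (bt (n, c))) = 3 * S n + S (n + 1) := by
    intro n _
    rw [Fintype.sum_bool]
    by_cases h : n < -1
    · simp only [bs, bt, h, not_le.2 h, if_true, and_true, and_false, if_false, Bool.false_eq_true]
      ring
    · simp only [bs, bt, h, not_lt.1 h, if_true, and_true, and_false, if_false, Bool.false_eq_true]
      ring
  rw [Finset.sum_product, Finset.sum_congr rfl h3, Finset.sum_add_distrib, ← Finset.mul_sum]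
  linarith

theorem fst_mem_of_bs_bt {I : Finset ℤ} {b : ℤ × Bool} (h : bs b ∈ I) (h' : bt b ∈ I) : b.1 ∈ I := by
  by_cases h1 : b.2 = true ∧ b.1 < -1
  · rwa [bt, if_neg (fun h2 => absurd h1.2 (not_lt.2 h2.2))] at h'
  · rwa [bs, if_neg h1] at h

theorem bs_bt_near (b : ℤ × Bool) : (bt b - bs b).natAbs ≤ 1 ∧ (b.1 - bs b).natAbs ≤ 1 := by
  unfold bs bt
  split_ifs <;> omega

theorem depOf_near (K : ℕ) {n n' : ℤ} (h : (n' - n).natAbs ≤ 1) : depOf K n' ≤ depOf K n + 1 := by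
  have h1 : mlev n' ≤ mlev n + 1 := by
    unfold mlev
    split_ifs <;> omega
  unfold depOf
  rcases Nat.eq_zero_or_pos K with rfl | hK
  · simp
  · have h2 : mlev n' / K ≤ (mlev n + K) / K := Nat.div_le_div_right (by omega)
    rw [Nat.add_div_right _ hK] at h2
    omega

theorem depOf_bounds {K : ℕ} (hK : 0 < K) (n : ℤ) :
    200 ≤ depOf K n ∧ K * depOf K n ≤ 200 * K + n.natAbs ∧ n.natAbs + 199 * K ≤ K * depOf K n := by
  have h1 : mlev n ≤ n.natAbs ∧ n.natAbs ≤ mlev n + 1 := by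
    unfold mlev
    split_ifs <;> omega
  have h2 := Nat.div_add_mod (mlev n) K
  have h3 := Nat.mod_lt (mlev n) hK
  unfold depOf
  rw [mul_add]
  exact ⟨Nat.le_add_right _ _, by omega, by omega⟩

/-- `∑_{n ∈ ℤ} (3/4)^|n| = 7`. -/
theorem sum_geom_int (T : Finset ℤ) : ∑ n ∈ T, (3 / 4 : ℝ) ^ n.natAbs ≤ 8 := by
  have h1 : HasSum (fun n : ℕ => (3 / 4 : ℝ) ^ n) (1 - 3 / 4)⁻¹ :=
    hasSum_geometric_of_lt_one (by norm_num) (by norm_num)
  have h2 : HasSum (fun n : ℤ => (3 / 4 : ℝ) ^ n.natAbs) ((1 - 3 / 4)⁻¹ + (1 - 3 / 4)⁻¹ * (3 / 4)) := by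
    refine HasSum.of_nat_of_neg_add_one (by simpa using h1) ?_
    refine (h1.mul_right (3 / 4)).congr_fun ?_
    intro n
    rw [← pow_succ]
    congr 1
  refine (sum_le_hasSum T (fun n _ => by positivity) h2).trans (by norm_num)

end Crest.Agent.R129
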