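import Crest.Agent.R129.LG1
import Crest.Agent.R129.LG2
import Crest.Agent.R129.LG3

/-!
# R129 / LG4 : good voltage assignments; the form of the cover, level by level and block by block
-/

set_option autoImplicit false
open scoped InnerProductSpace ComplexConjugate
open ContinuousLinearMap

namespace Crest.Agent.R129

namespace Base
variable {t q N : ℕ} (B : Base t q N)

/-- the amplitude of the mean operator on the edges of a block. -/
noncomputable def tau (h : ℝ) (b : ℤ × Bool) : ℝ :=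
  (if b.2 then h else h / 2) * (√((B.X (bs b)).card : ℝ) * √((B.X (bt b)).card : ℝ)) / (B.Eb b).card

/-- squared norm on a level. -/
noncomputable def Sq {𝔼 : Type} [NormedAddCommGroup 𝔼] (n : ℤ) (f : B.V → 𝔼) : ℝ :=
  ∑ x ∈ B.X n, ‖f x‖ ^ 2

theorem X_nonempty (hq : 0 < q) (n : ℤ) : (B.X n).Nonempty := by
  have h1 := B.cardX_ge n
  have h2 : 0 < q ^ 200 := pow_pos hq _
  exact Finset.card_pos.1 (by omega)

theorem Eb_nonempty (hq : 0 < q) (ht : 0 < t) (b : ℤ × Bool) : (B.Eb b).Nonempty := by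
  have h1 := B.Eb_ge b
  have h2 : 0 < t ^ 18 * ((B.X (bs b)).card * (B.X (bt b)).card) :=
    Nat.mul_pos (pow_pos ht _) (Nat.mul_pos (B.X_nonempty hq _).card_pos (B.X_nonempty hq _).card_pos)
  refine Finset.card_pos.1 (Nat.pos_of_ne_zero fun h => ?_)
  rw [h] at h1
  simp only [ne_eq, OfNat.ofNat_ne_zero, not_false_eq_true, zero_pow, mul_zero] at h1
  omega

theorem tau_nonneg {h : ℝ} (h0 : 0 ≤ h) (b : ℤ × Bool) : 0 ≤ B.tau h b := by
  unfold tau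
  split_ifs <;> positivity

/-- `Eb_ge`. -/
theorem tau_le (hq : 0 < q) (ht : 0 < t) {h : ℝ} (h0 : 0 ≤ h) (b : ℤ × Bool) :
    B.tau h b * (t : ℝ) ^ 7 ≤ 3 * h := by
  have hc : (0 : ℝ) < (B.Eb b).card := by exact_mod_cast (B.Eb_nonempty hq ht b).card_pos
  have ht' : (0 : ℝ) < t := by exact_mod_cast ht
  have h1 : (t : ℝ) ^ 18 * (((B.X (bs b)).card : ℝ) * (B.X (bt b)).card) ≤
      9 * (t : ℝ) ^ 4 * ((B.Eb b).card : ℝ) ^ 2 := by exact_mod_cast B.Eb_ge b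
  have h2 : √((B.X (bs b)).card : ℝ) * √((B.X (bt b)).card : ℝ) * (t : ℝ) ^ 7 ≤
      3 * (B.Eb b).card := by
    refine le_of_sq_le_sq ?_ (by positivity)
    refine le_of_mul_le_mul_left ?_ (pow_pos ht' 4)
    rw [mul_pow, mul_pow, Real.sq_sqrt (Nat.cast_nonneg _), Real.sq_sqrt (Nat.cast_nonneg _)]
    linarith
  have h3 : (if b.2 then h else h / 2) ≤ h := by split_ifs <;> linarith
  unfold tau
  rw [div_mul_eq_mul_div, div_le_iff₀ hc, mul_assoc]
  calc _ ≤ h * (3 * (B.Eb b).card) := mul_le_mul h3 h2 (by positivity) h0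
    _ = _ := by ring

theorem Em_mem {n : ℤ} {e : B.E} (he : e ∈ B.Em n) : B.Gr.src e ∈ B.X n ∧ B.Gr.tgt e ∈ B.X n := by
  obtain ⟨h1, h2⟩ := (B.mem_Em n e).1 he
  exact ⟨(B.mem_X _ _).2 h2, (B.mem_X _ _).2 ((B.main_lev e h1).trans h2)⟩

theorem Eb_mem {b : ℤ × Bool} {e : B.E} (he : e ∈ B.Eb b) :
    B.Gr.src e ∈ B.X (bs b) ∧ B.Gr.tgt e ∈ B.X (bt b) := by
  obtain ⟨h1, h2⟩ := B.link_lev e b ((B.mem_Eb b e).1 he)
  exact ⟨(B.mem_X _ _).2 h1, (B.mem_X _ _).2 h2⟩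

theorem Em_le (n : ℤ) : (B.Em n).card ≤ B.s * (B.X n).card := by
  classical
  exact Finset.card_le_mul_card_image_of_maps_to (f := B.Gr.src) (fun e he => (B.Em_mem he).1) _
    fun x _ => by convert B.main_src n x

/-- the level changes by at most one along an edge. -/
theorem walk_lev {x y : B.V} {ω : List (B.E × Bool)} (h : B.Gr.Walk x ω y) :
    ∀ a ∈ ω, (B.lev (B.Gr.src a.1) - B.lev x).natAbs ≤ ω.length := by
  have step : ∀ e, (B.lev (B.Gr.tgt e) - B.lev (B.Gr.src e)).natAbs ≤ 1 := fun e => by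
    rcases hk : B.kind e with _ | b
    · rw [B.main_lev e hk]
      simp
    · rw [(B.link_lev e b hk).1, (B.link_lev e b hk).2]
      exact (bs_bt_near b).1
  induction ω generalizing x with
  | nil => simp
  | cons a ω ih =>
    obtain ⟨rfl, h'⟩ := EG.eg_walk_cons.1 h
    have h1 := step a.1
    intro a' ha'
    rw [List.length_cons]
    rcases List.mem_cons.1 ha' with rfl | ha'
    · obtain ⟨e, _ | _⟩ := a' <;> simp only [EG.hs, cond] at h1 ⊢ <;> omega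
    · have h2 := ih h' a' ha'
      obtain ⟨e, _ | _⟩ := a <;> simp only [EG.hs, EG.ht, cond] at h1 h2 ⊢ <;> omega

end Base

/-- weight of a refined label. -/
noncomputable def phc {L : Type} (p : L × Fin 4) : ℂ := Complex.I ^ (p.2 : ℕ)

theorem norm_phc {L : Type} (p : L × Fin 4) : ‖phc p‖ = 1 := by
  simp [phc]

/-- a good choice of phases and voltages. -/
structure Good {t q N k K ν : ℕ} (B : Base t q N) (Gh : Ghost k K ν) (h ε η : ℝ) where
  ph : B.E → Fin 4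
  vol : B.E → Gh.Q
  ph_main : ∀ e, B.kind e = none → ph e = 0
  main_inv : ∀ n, ∀ e ∈ B.Em n, ∀ l, ‖Gh.P l n * (lam (vol e) - 1)‖ ≤ ε
  link : ∀ b (f : L2 B.V (L2 Gh.Q ℂ)),
    |∑ e ∈ B.Eb b, 2 * (⟪f (B.Gr.tgt e), (Complex.I ^ (ph e : ℕ) • lam (vol e) -
        (B.tau h b : ℂ) • Gh.Pi (bt b) (bs b)) (f (B.Gr.src e))⟫_ℂ).re| ≤
      η * (B.Sq (bs b) f + B.Sq (bt b) f)
  volt : B.Gr.VoltOK B.sl.dep fun e => (vol e)⁻¹

section
variable {t q N k K ν : ℕ} (B : Base t q N) (Gh : Ghost k K ν)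

/-- the ghost component of a vector. -/
noncomputable def gcomp (f : B.V → L2 Gh.Q ℂ) : B.V → L2 ℤ (L2 Gh.Q ℂ) :=
  fun x => Gh.PP (sgl (B.lev x) (f x))

/-- the averaging operator. -/
noncomputable def av : L2 B.V (L2 Gh.Q ℂ) →L[ℂ] L2 ℤ (L2 Gh.Q ℂ) :=
  adjoint (avs (L2 Gh.Q ℂ) B.lev B.X)

/-- `mean (X n) (gcomp f) = |X n|^(-1/2) • PP (sgl n (av f n))`; `av f = ∑_{n ∈ I} sgl n (av f n)`; `band_sum` with
`T n' n = Re ⟪PP (sgl n' (av f n')), PP (sgl n (av f n))⟫`, `inner_PP_sgl`, `Pi_far`. -/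
theorem const_sum (hq : 0 < q) (ht : 0 < t) (h : ℝ) (I : Finset ℤ) (f : L2 B.V (L2 Gh.Q ℂ))
    (hf : ∀ x, B.lev x ∉ I → f x = 0) :
    ∑ b ∈ I ×ˢ (Finset.univ : Finset Bool), B.tau h b * (2 * (B.Eb b).card *
      (⟪mean (B.X (bt b)) (gcomp B Gh f), mean (B.X (bs b)) (gcomp B Gh f)⟫_ℂ).re) =
      h * ‖Gh.PP (av B Gh f)‖ ^ 2 := by
  have hav : ∀ n, av B Gh f n = (((√((B.X n).card : ℝ))⁻¹ : ℝ) : ℂ) • ∑ x ∈ B.X n, f x :=
    fun n => adjoint_avs_apply B.mem_X f n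
  have hs : ∀ n, 0 < √((B.X n).card : ℝ) := fun n =>
    Real.sqrt_pos.2 (by exact_mod_cast (B.X_nonempty hq n).card_pos)
  have hm : ∀ n, mean (B.X n) (gcomp B Gh f) =
      (((√((B.X n).card : ℝ))⁻¹ : ℝ) : ℂ) • Gh.PP (sgl n (av B Gh f n)) := by
    intro n
    rw [hav, map_smul, map_smul, smul_smul, ← Complex.ofReal_mul, ← mul_inv,
      Real.mul_self_sqrt (Nat.cast_nonneg _), map_sum, map_sum, mean]
    push_cast
    congr 1
    exact Finset.sum_congr rfl fun x hx => by rw [gcomp, (B.mem_X n x).1 hx]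
  have h0 : ∀ n, n ∉ I → av B Gh f n = 0 := fun n hn => by
    rw [hav, Finset.sum_eq_zero fun x hx => hf x (by rwa [(B.mem_X n x).1 hx]), smul_zero]
  have key := band_sum I
    (fun n n' => (⟪Gh.PP (sgl n (av B Gh f n)), Gh.PP (sgl n' (av B Gh f n'))⟫_ℂ).re)
    (fun n n' => inner_re_symm (𝕜 := ℂ) _ _)
    (fun n n' hn => by rw [Gh.inner_PP_sgl, Gh.Pi_far hn]; simp)
    (fun n n' hn => by rw [h0 n hn]; simp)
  have e : ‖Gh.PP (av B Gh f)‖ ^ 2 = ∑ n ∈ I, ∑ n' ∈ I,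
      (⟪Gh.PP (sgl n' (av B Gh f n')), Gh.PP (sgl n (av B Gh f n))⟫_ℂ).re := by
    have e1 : Gh.PP (av B Gh f) = ∑ n ∈ I, Gh.PP (sgl n (av B Gh f n)) := by
      rw [← map_sum, ← L2_eq_sum _ I h0]
    rw [← Abs_re_self, e1, inner_sum, Complex.re_sum]
    exact Finset.sum_congr rfl fun n _ => by rw [sum_inner, Complex.re_sum]
  rw [e, ← key, Finset.mul_sum]
  refine Finset.sum_congr rfl fun b _ => ?_
  have hc : ((B.Eb b).card : ℝ) ≠ 0 := by exact_mod_cast (B.Eb_nonempty hq ht b).card_pos.ne'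
  have h1 := (hs (bs b)).ne'
  have h2 := (hs (bt b)).ne'
  rw [hm, hm, inner_smul_left, inner_smul_right, Complex.conj_ofReal, Complex.re_ofReal_mul,
    Complex.re_ofReal_mul, Base.tau]
  split_ifs <;> field_simp

end

namespace Good
variable {t q N k K ν : ℕ} {B : Base t q N} {Gh : Ghost k K ν} {h ε η : ℝ} (g : Good B Gh h ε η)

/-- refined labels. -/
def lab (e : B.E) : B.L × Fin 4 := (B.lab e, g.ph e)

theorem fold : B.Gr.Fold g.lab := EG.Fold.refine Prod.fst (fun _ => rfl) B.fold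

/-- the operator of the cover. -/
noncomputable def Bo : L2 B.V (L2 Gh.Q ℂ) →L[ℂ] L2 B.V (L2 Gh.Q ℂ) :=
  EG.Bn g.fold (fun e => (g.vol e)⁻¹) phc

/-- form of the main edges of a level. -/
noncomputable def Mf (n : ℤ) (f : B.V → L2 Gh.Q ℂ) : ℝ :=
  ∑ e ∈ B.Em n, 2 * (⟪f (B.Gr.tgt e), lam (g.vol e) (f (B.Gr.src e))⟫_ℂ).re

/-- form of the link edges of a block. -/
noncomputable def Lf (b : ℤ × Bool) (f : B.V → L2 Gh.Q ℂ) : ℝ :=
  ∑ e ∈ B.Eb b, 2 * (⟪f (B.Gr.tgt e), Complex.I ^ (g.ph e : ℕ) • lam (g.vol e) (f (B.Gr.src e))⟫_ℂ).re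

/-- `EG.fm_Bn` with `s = I.biUnion X`, `F` the disjoint union of the `Em n` and the `Eb b`
(`fst_mem_of_bs_bt`). -/
theorem fm_eq (I : Finset ℤ) (f : L2 B.V (L2 Gh.Q ℂ)) (hf : ∀ x, B.lev x ∉ I → f x = 0) :
    fm g.Bo f = ∑ n ∈ I, g.Mf n f + ∑ b ∈ I ×ˢ (Finset.univ : Finset Bool), g.Lf b f := by
  classical
  rw [Bo, EG.fm_Bn g.fold _ phc f (I.biUnion B.X)
    (fun x hx => hf x fun h => hx (Finset.mem_biUnion.2 ⟨_, h, (B.mem_X _ _).2 rfl⟩))
    (I.biUnion B.Em ∪ (I ×ˢ (Finset.univ : Finset Bool)).biUnion B.Eb) (fun e h1 h2 => by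
      obtain ⟨n, hn, h1⟩ := Finset.mem_biUnion.1 h1
      obtain ⟨n', hn', h2⟩ := Finset.mem_biUnion.1 h2
      rw [B.mem_X] at h1 h2
      rcases hk : B.kind e with _ | b
      · exact Finset.mem_union_left _ (Finset.mem_biUnion.2 ⟨n, hn, (B.mem_Em _ _).2 ⟨hk, h1⟩⟩)
      · obtain ⟨h3, h4⟩ := B.link_lev e b hk
        exact Finset.mem_union_right _ (Finset.mem_biUnion.2 ⟨b, Finset.mem_product.2
          ⟨fst_mem_of_bs_bt (by rwa [← h3, h1]) (by rwa [← h4, h2]), Finset.mem_univ _⟩,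
          (B.mem_Eb _ _).2 hk⟩)),
    Finset.sum_union (Finset.disjoint_left.2 fun e h1 h2 => by
      obtain ⟨n, -, h1⟩ := Finset.mem_biUnion.1 h1
      obtain ⟨b, -, h2⟩ := Finset.mem_biUnion.1 h2
      have := ((B.mem_Em _ _).1 h1).1.symm.trans ((B.mem_Eb _ _).1 h2)
      simp at this),
    Finset.sum_biUnion fun n _ n' _ hn => Finset.disjoint_left.2 fun e h1 h2 =>
      hn (((B.mem_Em _ _).1 h1).2.symm.trans ((B.mem_Em _ _).1 h2).2),
    Finset.sum_biUnion fun b _ b' _ hb => Finset.disjoint_left.2 fun e h1 h2 =>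
      hb (Option.some.inj (((B.mem_Eb _ _).1 h1).symm.trans ((B.mem_Eb _ _).1 h2)))]
  congr 1
  · refine Finset.sum_congr rfl fun n _ => Finset.sum_congr rfl fun e he => ?_
    simp [phc, lab, g.ph_main e ((B.mem_Em _ _).1 he).1]
  · refine Finset.sum_congr rfl fun b _ => Finset.sum_congr rfl fun e _ => ?_
    simp only [phc, lab, inv_inv]

/-- `link`, `inner_PP_sgl`. -/
theorem Lf_approx (b : ℤ × Bool) (f : L2 B.V (L2 Gh.Q ℂ)) :
    |g.Lf b f - B.tau h b * ∑ e ∈ B.Eb b,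
        2 * (⟪gcomp B Gh f (B.Gr.tgt e), gcomp B Gh f (B.Gr.src e)⟫_ℂ).re| ≤
      η * (B.Sq (bs b) f + B.Sq (bt b) f) := by
  refine le_of_eq_of_le ?_ (g.link b f)
  rw [Lf, Finset.mul_sum, ← Finset.sum_sub_distrib]
  congr 1
  refine Finset.sum_congr rfl fun e he => ?_
  obtain ⟨h1, h2⟩ := B.link_lev e b ((B.mem_Eb b e).1 he)
  rw [gcomp, gcomp, Gh.inner_PP_sgl, h1, h2, sub_apply, smul_apply, smul_apply, inner_sub_right,
    Complex.sub_re, inner_smul_right _ _ (B.tau h b : ℂ), Complex.re_ofReal_mul]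
  ring

end Good

end Crest.Agent.R129
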