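import Crest.Agent.R129.Fn1b
import Crest.Agent.R129.Fn2
import Crest.Agent.R129.Fn3
import Crest.Agent.R129.LG4

/-!
# R129 / Fn4 : a finite connected cover for every level
-/

set_option autoImplicit false
open FreeGroup

namespace Crest.Agent.R129

theorem fn4_card (k l : ℕ) [Fact l.Prime] [Fintype (U k (ZMod l))] :
    Fintype.card (U k (ZMod l)) = l ^ Fintype.card (UI k) := by
  rw [← Nat.card_eq_fintype_card, U.card, Nat.card_zmod]

theorem fn4_girth {t q K : ℕ} (B : Base t q K) (n : ℤ) : B.Gr.GirthIn (B.Em n) (depOf K n / 4) := by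
  intro x σ hw hr hne hF
  have h1 := B.sl.girth hw hr hne
  obtain ⟨h, ω, rfl⟩ := List.exists_cons_of_ne_nil hne
  have h2 := (EG.eg_walk_cons.1 hw).1
  obtain ⟨h3, h4⟩ := B.Em_mem (hF h List.mem_cons_self)
  rw [B.mem_X] at h3 h4
  rw [B.dep_eq, h2] at h1
  obtain ⟨e, _ | _⟩ := h
  · rw [show B.Gr.hs (e, false) = B.Gr.tgt e from rfl, h4] at h1
    omega
  · rw [show B.Gr.hs (e, true) = B.Gr.src e from rfl, h3] at h1
    omega

/-- `FP.unif`, `FP.exists_avoid` with `J = Bool`, `δ = 1/4`: `prob_volt` (`uBox_unif`, `μ = l`, `Prm3.num_V`) and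
`prob_Zop` with `F = Em n`, `X = X n`, `d = 2q` (`hdeg`), `g = p/4` (`Scale.girth`), `A = 10 t`, `L = t p`,
`W = univ` (`U.card`, `card (UI k) ≤ k²`), `η = q/10000`; then `upOK_of_Zop`, `Prm3.num_up`. -/
theorem exists_volt173 {k t q K : ℕ} (hp : Prm3 k t q) (B : Base t q K) (n : ℤ) (l : ℕ) [Fact l.Prime]
    [Fintype (U k (ZMod l))] (h1 : q ^ (100 * depOf K n) < l) (h2 : l ≤ 2 * q ^ (100 * depOf K n)) :
    ∃ v : B.E → U k (ZMod l),
      (∀ x ∈ B.X n, ∀ ω y, B.Gr.Walk x ω y → IsReduced ω → ω ≠ [] → ω.length ≤ 40 * depOf K n →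
        wv v ω ≠ 1) ∧
      UpOK B.Gr (B.X n) (B.Em n) Finset.univ v ((1 - 1 / 3200) * (2 * B.s)) := by
  classical
  have h200 : 200 ≤ depOf K n := Nat.le_add_right _ _
  have hq1 : 1 ≤ q := hp.prime.one_le
  have ht := hp.t_ge
  have hkl : k < l := by
    have a1 : t ≤ t ^ 12 := Nat.le_self_pow (by norm_num) t
    have a2 : q ≤ q ^ (100 * depOf K n) := Nat.le_self_pow (by omega) q
    have a3 := hp.k_le
    have a4 := hp.q_gt
    omega
  have hl0 : 0 < l := by omega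
  obtain ⟨FV, hFV1, hFV2⟩ := prob_volt (R := ZMod l) B.sl hp.k_ge
    (fun m hm hmk h => Nat.not_dvd_of_pos_of_lt hm (hmk.trans_lt hkl)
      ((ZMod.natCast_eq_zero_iff m l).1 h))
    (FP.unif B.E (U k (ZMod l))) (fun _ θ => θ⁻¹) B.hdeg (B.X n) (p := depOf K n)
    (fun x hx => by rw [B.dep_eq, (B.mem_X n x).1 hx]) hl0
    (fun x _ ω y _ _ a _ => by
      have := uBox_unif (R := ZMod l) (k := k) a.1
      rwa [ZMod.card] at this)
  have hV := hFV2.trans (hp.num_V h200 (B.cardX_le n) h1)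
  have hZ : (FP.unif B.E (U k (ZMod l))).Pr (B.Em n)
      {x | (q : ℝ) / 10000 ≤
        ‖Zop B.Gr (FP.unif B.E (U k (ZMod l))) (fun _ _ => 1) (fun _ θ => θ) (B.Em n) x‖} ≤ 1 / 4 := by
    refine (prob_Zop B.Gr (FP.unif B.E (U k (ZMod l))) (fun _ _ => 1) (fun _ θ => θ)
      (fun _ _ => by simp) (B.X n) (fun e he => B.Em_mem he) (d := 2 * q) (A := 10 * t)
      (L := t * depOf K n) (fun x s hs => B.hdeg x s fun h hh => (hs h hh).2) (by omega)
      (fn4_girth B n) (by omega) (by positivity) ?_ Finset.univ (fun _ _ _ => Finset.mem_univ _)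
      (by positivity) hp.num_eta).trans ?_
    · have a1 : depOf K n ≤ 5 * (depOf K n / 4) := by omega
      calc _ = 2 * t * depOf K n := by ring
        _ ≤ 2 * t * (5 * (depOf K n / 4)) := Nat.mul_le_mul_left _ a1
        _ = _ := by ring
    · rw [Finset.card_univ, fn4_card]
      refine hp.num_Z h200 (B.cardX_le n) h2 ?_
      refine (Fintype.card_subtype_le _).trans (le_of_eq ?_)
      simp [sq]
  obtain ⟨x, -, hav⟩ := (FP.unif B.E (U k (ZMod l))).exists_avoid (J := Bool)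
    (fun j => cond j FV (B.Em n))
    (fun j => cond j (BadV B.Gr (B.X n) (depOf K n) fun _ θ => θ⁻¹)
      {x | (q : ℝ) / 10000 ≤
        ‖Zop B.Gr (FP.unif B.E (U k (ZMod l))) (fun _ _ => 1) (fun _ θ => θ) (B.Em n) x‖})
    (by
      rintro (_ | _)
      · intro y z hyz
        simp only [cond_false, Set.mem_setOf_eq]
        rw [Zop_depOn B.Gr (FP.unif B.E (U k (ZMod l))) (fun _ _ => 1) (fun _ θ => θ) (B.Em n) y z hyz]
      · exact hFV1)
    (fun _ => 1 / 4)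
    (by
      rintro (_ | _)
      · exact hZ
      · exact hV)
    (fun T => by
      have a1 : (T.card : ℝ) ≤ 2 := by exact_mod_cast Finset.card_le_univ T
      rw [Finset.sum_const, nsmul_eq_mul]
      linarith)
  refine ⟨fun e => (x e)⁻¹, fun y hy ω z hw hr hne hlen hv => hav true ⟨y, hy, ω, z, hw, hr, hne, hlen, hv⟩,
    fun f hf => ?_⟩
  have hq3 : (0 : ℝ) ≤ 1 / (q : ℝ) ^ 3 := by positivity
  have hU := upOK_of_Zop B.Gr (B.X n) (B.Em n) (fun e he => B.Em_mem he) (c := 1 / 800)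
    (ε₀ := 1 / (q : ℝ) ^ 3) (d := 2 * B.s) (η := (q : ℝ) / 10000)
    (mul_nonneg (by linarith) (by positivity)) (B.expand n) x (not_le.1 (hav false)).le
  exact (hU f hf).trans (mul_le_mul_of_nonneg_right (hp.num_up B.s_ge)
    (Finset.sum_nonneg fun _ _ => Finset.sum_nonneg fun _ _ => by positivity))

/-- Bertrand, `exists_volt173`, `exists_giant` (`c = 1/3200`, `ε = 1/q³`), `UpOK.restrict`, `card_restrict`,
`U.card`. -/
theorem exists_lev {k t q K : ℕ} (hp : Prm3 k t q) (B : Base t q K) (n : ℤ) :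
    ∃ lv : Lev B.Gr (depOf K n) ((1 - 1 / 3200) * (2 * B.s)) ((1 - 2 * (1 / (q : ℝ) ^ 3)) * (2 * B.s)),
      lv.Y ⊆ B.X n ∧ q ^ (100 * depOf K n) ≤ Fintype.card lv.U := by
  classical
  have hq0 : 0 < q := hp.prime.pos
  obtain ⟨l, hl, h1, h2⟩ := Nat.exists_prime_lt_and_le_two_mul (q ^ (100 * depOf K n)) (by positivity)
  haveI : Fact l.Prime := ⟨hl⟩
  letI : Fintype (U k (ZMod l)) := Fintype.ofFinite _
  obtain ⟨v, hv1, hv2⟩ := exists_volt173 hp B n l h1 h2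
  have hs0 : 0 < B.s := by
    have := hp.s_ge B.s_ge
    omega
  have hq3 : (0 : ℝ) ≤ 1 / (q : ℝ) ^ 3 := by positivity
  have hε : 9 * (1 / (q : ℝ) ^ 3) < 2 * (1 / 3200) := by
    have a1 : (100 : ℝ) ≤ q := by
      have : 100 ≤ q := le_trans (by norm_num) hp.q_ge
      exact_mod_cast this
    have a2 : (100 : ℝ) ^ 3 ≤ (q : ℝ) ^ 3 := by gcongr
    have a3 : 1 / (q : ℝ) ^ 3 ≤ 1 / 100 ^ 3 := by gcongr
    linarith
  obtain ⟨Y, hY, hXY, hcl, y, hy, hconn⟩ := exists_giant B.Gr (B.X n) (B.X_nonempty hq0 n) (B.Em n)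
    (fun e he => B.Em_mem he) hs0 (fun x => by convert B.main_tgt n x) (by norm_num) hq3 hε
    (B.Em_ge n) hv2
  refine ⟨⟨U k (ZMod l), v, Y, (B.Em n).filter fun e => B.Gr.src e ∈ Y, fun e he => ?_, y, hy,
    fun x hx g => ?_, fun x hx => hv1 x (hY hx), ?_, ?_⟩, hY, ?_⟩
  · obtain ⟨a1, a2⟩ := Finset.mem_filter.1 he
    exact ⟨a2, (hcl e a1).1 a2⟩
  · obtain ⟨ω, a1, a2, a3⟩ := hconn x hx g
    exact ⟨ω, a1, fun a ha => Finset.mem_filter.2 (a2 a ha), a3⟩
  · convert UpOK.restrict B.Gr hY hcl hv2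
  · convert card_restrict B.Gr hY hXY (fun e he => (B.Em_mem he).1)
      (fun x => by convert B.main_src n x) hq3 (B.Em_ge n)
  · show q ^ (100 * depOf K n) ≤ Fintype.card (U k (ZMod l))
    rw [fn4_card]
    have hk := hp.k_ge
    have : Nonempty (UI k) := ⟨⟨(⟨0, by omega⟩, ⟨1, by omega⟩), Fin.mk_lt_mk.2 Nat.zero_lt_one⟩⟩
    exact h1.le.trans (Nat.le_self_pow Fintype.card_ne_zero l)

end Crest.Agent.R129
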