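import Crest.Agent.R129.FnDef

/-!
# R129 / Fn5 : subgraphs; the union of the finite pieces
-/

set_option autoImplicit false
open FreeGroup

namespace Crest.Agent.R129

namespace EG
variable {V E : Type} (Gr : EG V E)

/-- the subgraph on the vertices in `A` and the edges in `D`. -/
def sub (A : Set V) (D : Set E) (h : ∀ e ∈ D, Gr.src e ∈ A ∧ Gr.tgt e ∈ A) : EG A D where
  src e := ⟨Gr.src e.1, (h e.1 e.2).1⟩
  tgt e := ⟨Gr.tgt e.1, (h e.1 e.2).2⟩

variable {Gr} {A : Set V} {D : Set E} (h : ∀ e ∈ D, Gr.src e ∈ A ∧ Gr.tgt e ∈ A)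

theorem sub_hs (a : D × Bool) : ((Gr.sub A D h).hs a).1 = Gr.hs (a.1.1, a.2) := by
  rcases a with ⟨e, _ | _⟩ <;> rfl

theorem sub_ht (a : D × Bool) : ((Gr.sub A D h).ht a).1 = Gr.ht (a.1.1, a.2) := by
  rcases a with ⟨e, _ | _⟩ <;> rfl

theorem sub_walk {x y : A} {ω : List (D × Bool)} :
    (Gr.sub A D h).Walk x ω y ↔ Gr.Walk x.1 (ω.map fun a => (a.1.1, a.2)) y.1 := by
  induction ω generalizing x with
  | nil => exact LG.reads_nil_iff.trans (Subtype.ext_iff.trans LG.reads_nil_iff.symm)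
  | cons a ω ih =>
    rw [List.map_cons, eg_walk_cons, eg_walk_cons, ih, sub_ht, Subtype.ext_iff, sub_hs]

theorem exists_sub_word {ω : List (E × Bool)} (hω : ∀ a ∈ ω, a.1 ∈ D) :
    ∃ ω' : List (D × Bool), (ω'.map fun a => (a.1.1, a.2)) = ω := by
  induction ω with
  | nil => exact ⟨[], rfl⟩
  | cons a ω ih =>
    obtain ⟨ω', h⟩ := ih fun b hb => hω b (List.mem_cons_of_mem _ hb)
    exact ⟨(⟨a.1, hω a List.mem_cons_self⟩, a.2) :: ω', by rw [List.map_cons, h]⟩

theorem isReduced_sub {ω : List (D × Bool)} (hω : IsReduced ω) :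
    IsReduced (ω.map fun a => ((a.1.1 : E), a.2)) := by
  induction ω with
  | nil => exact IsReduced.nil
  | cons a ω ih =>
    cases ω with
    | nil => exact IsReduced.singleton
    | cons b ω =>
      rw [isReduced_cons_cons] at hω
      have h2 := ih hω.2
      rw [List.map_cons] at h2
      rw [List.map_cons, List.map_cons, isReduced_cons_cons]
      exact ⟨fun e => hω.1 (Subtype.ext e), h2⟩

theorem wv_sub {G : Type} [Group G] (v : E → G) (ω : List (D × Bool)) :
    wv (fun e : D => v e.1) ω = wv v (ω.map fun a => (a.1.1, a.2)) := by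
  induction ω with
  | nil => rfl
  | cons a ω ih => rw [List.map_cons, wv_cons, wv_cons, ih]; rfl

theorem Fold.sub {L : Type} {lab : E → L} (hf : Gr.Fold lab) :
    (Gr.sub A D h).Fold fun e => lab e.1 := by
  exact ⟨fun e e' h1 h2 => Subtype.ext (hf.1 _ _ h1 (congrArg Subtype.val h2)),
    fun e e' h1 h2 => Subtype.ext (hf.2 _ _ h1 (congrArg Subtype.val h2))⟩

theorem HDeg.sub {dt : ℕ} (hd : Gr.HDeg dt) : (Gr.sub A D h).HDeg dt := by
  classical
  intro x s hs
  have h1 := hd x.1 (s.image fun a => (a.1.1, a.2)) fun b hb => by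
    obtain ⟨a, ha, rfl⟩ := Finset.mem_image.1 hb
    rw [← sub_hs h, hs a ha]
  rwa [Finset.card_image_of_injective _ fun a b e =>
    Prod.ext (Subtype.ext (Prod.mk.inj e).1) (Prod.mk.inj e).2] at h1

theorem Scale.exists_sub {L : Type} {lab : E → L} (sl : Gr.Scale lab) :
    ∃ sl' : (Gr.sub A D h).Scale fun e => lab e.1, ∀ x, sl'.dep x = sl.dep x.1 := by
  have key : ∀ ω : List (D × Bool),
      lw lab (ω.map fun a => (a.1.1, a.2)) = lw (fun e : D => lab e.1) ω := fun ω => by
    simp only [lw, List.map_map]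
    rfl
  refine ⟨⟨fun x => sl.dep x.1, fun x => sl.big _, fun h1 => ?_, fun h1 h2 h3 h4 h5 => ?_,
    fun h1 h2 h3 => ?_⟩, fun _ => rfl⟩
  · simpa using sl.lip ((sub_walk h).1 h1)
  · simpa using sl.piece ((sub_walk h).1 h1) ((sub_walk h).1 h2) (fun e => h3 (Subtype.ext e))
      (by rw [key, key, h4]) (isReduced_sub h5)
  · simpa using sl.girth ((sub_walk h).1 h1) (isReduced_sub h2) (by simpa using h3)

end EG

end Crest.Agent.R129
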