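import Crest.Agent.R129.Fn5

/-!
# R129 / Fn5b : the union of the finite pieces
-/

set_option autoImplicit false
open FreeGroup

namespace Crest.Agent.R129

theorem Fn5b_wv_map {E G H : Type} [Group G] [Group H] (φ : G →* H) (v : E → G) (w : E → H)
    (ω : List (E × Bool)) (h : ∀ a ∈ ω, w a.1 = φ (v a.1)) : wv w ω = φ (wv v ω) := by
  induction ω with
  | nil => simp
  | cons a ω ih =>
    rw [wv_cons, wv_cons, _root_.map_mul, ih fun b hb => h b (List.mem_cons_of_mem _ hb)]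
    congr 1
    have h1 := h a List.mem_cons_self
    obtain ⟨e, b⟩ := a
    cases b
    · simp only [lv, cond_false, _root_.map_inv]
      exact congrArg _ h1
    · exact h1

/-- a walk all of whose edges preserve `idx` stays in one class. -/
theorem Fn5b_walk_idx {V E : Type} {Gr : EG V E} (idx : V → ℕ)
    (hi : ∀ e, idx (Gr.tgt e) = idx (Gr.src e)) {x y : V} {ω : List (E × Bool)}
    (h : Gr.Walk x ω y) : ∀ a ∈ ω, idx (Gr.src a.1) = idx x := by
  induction ω generalizing x with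
  | nil => intro a ha; cases ha
  | cons b ω ih =>
    obtain ⟨h1, h2⟩ := EG.eg_walk_cons.1 h
    have e1 : idx (Gr.src b.1) = idx x := by
      rw [h1]
      obtain ⟨e, c⟩ := b
      cases c
      · exact (hi e).symm
      · rfl
    have e2 : idx (Gr.ht b) = idx (Gr.src b.1) := by
      obtain ⟨e, c⟩ := b
      cases c
      · rfl
      · exact hi e
    intro a ha
    rcases List.mem_cons.1 ha with rfl | ha
    · exact e1
    · rw [ih h2 a ha, e2, e1]

theorem Fn5b_sum_subtype {α M : Type} [AddCommMonoid M] {A : Set α} [DecidablePred (· ∈ A)]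
    (s : Finset α) (hs : ∀ x ∈ s, x ∈ A) (f : A → M) (f₀ : α → M) (h : ∀ x : A, x.1 ∈ s → f x = f₀ x.1) :
    ∑ x ∈ s.subtype (· ∈ A), f x = ∑ x ∈ s, f₀ x := by
  rw [← Finset.sum_subtype_of_mem f₀ hs]
  exact Finset.sum_congr rfl fun x hx => h x (Finset.mem_subtype.1 hx)

theorem Fn5b_card_subtype {α : Type} {A : Set α} [DecidablePred (· ∈ A)]
    (s : Finset α) (hs : ∀ x ∈ s, x ∈ A) : (s.subtype (· ∈ A)).card = s.card := by
  rw [Finset.card_subtype, Finset.filter_true_of_mem hs]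

/-- `A = ⋃ Y n`, `D = ⋃ F n` (disjoint unions because `p` is injective), `Q = ∀ n, U n`,
`v e = fun n => if e ∈ F n then (lv n).v e else 1`, which is `Pi.mulSingle n ((lv n).v e)` for `e ∈ F n`;
`T n = univ.map (mulSingle n)`, `X n = (Y n).subtype _`.  A walk in the subgraph from a point of `Y n` has all its edges in
`F n`; its voltage is `mulSingle n` of the voltage in `U n`. -/
theorem exists_finData {V E L : Type} {Gr : EG V E} {lab : E → L} (hf : Gr.Fold lab) (sl : Gr.Scale lab)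
    {dt : ℕ} (hd : Gr.HDeg dt) (p : ℕ → ℕ) (hp : Function.Injective p) {ζ γ α μ : ℝ}
    (hζγ : 0 ≤ ζ + γ) (lv : ∀ n, Lev Gr (p n) (ζ - 2 * γ) μ)
    (hdep : ∀ n, ∀ x ∈ (lv n).Y, sl.dep x = p n)
    (hlow : ∀ n, (ζ + γ) * Fintype.card (lv n).U + 2 * dt * ((dt : ℝ) + 1) ^ (18 * p n) ≤
      μ * Fintype.card (lv n).U)
    (hhalf : ∀ n, 2 * ((dt : ℝ) + 1) ^ (18 * p n) ≤ Fintype.card (lv n).U)
    (hsmall : ∀ G : Finset ℕ, ∑ n ∈ G,
      (lv n).Y.card * √(((dt : ℝ) + 1) ^ (18 * p n) / Fintype.card (lv n).U) ≤ α) :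
    ∃ (V' E' Q : Type) (_ : Group Q) (Gr' : EG V' E') (lab' : E' → L), Gr'.Fold lab' ∧ Gr'.HDeg dt ∧
      ∃ D : FinData Gr' lab' Q dt ζ γ α, ∀ n, (D.T n).card = Fintype.card (lv n).U := by
  classical
  let A : Set V := {x | ∃ n, x ∈ (lv n).Y}
  let D : Set E := {e | ∃ n, e ∈ (lv n).F}
  have hAD : ∀ e ∈ D, Gr.src e ∈ A ∧ Gr.tgt e ∈ A := by
    rintro e ⟨n, hn⟩
    exact ⟨⟨n, ((lv n).mem_F e hn).1⟩, ⟨n, ((lv n).mem_F e hn).2⟩⟩
  have huniq : ∀ {x n m}, x ∈ (lv n).Y → x ∈ (lv m).Y → n = m := fun {x n m} h1 h2 =>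
    hp ((hdep n x h1).symm.trans (hdep m x h2))
  have hex : ∀ x : A, ∃ n, x.1 ∈ (lv n).Y := fun x => x.2
  choose idx hidx using hex
  have hidx' : ∀ (x : A) n, x.1 ∈ (lv n).Y ↔ idx x = n := fun x n =>
    ⟨fun h => huniq (hidx x) h, fun h => h ▸ hidx x⟩
  have hF : ∀ (e : D) n, e.1 ∈ (lv n).F ↔ idx ((Gr.sub A D hAD).src e) = n := by
    intro e n
    refine ⟨fun h => (hidx' _ n).1 ((lv n).mem_F _ h).1, fun h => ?_⟩
    obtain ⟨m, hm⟩ := e.2
    have h1 : idx ((Gr.sub A D hAD).src e) = m := (hidx' _ m).1 ((lv m).mem_F _ hm).1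
    rw [← h, h1]
    exact hm
  have htgt : ∀ e : D, idx ((Gr.sub A D hAD).tgt e) = idx ((Gr.sub A D hAD).src e) := fun e =>
    (hidx' _ _).1 ((lv _).mem_F _ ((hF e _).2 rfl)).2
  let Q : Type := ∀ n, (lv n).U
  let φ : ∀ n, (lv n).U →* Q := fun n => MonoidHom.mulSingle (fun n => (lv n).U) n
  have hφ : ∀ n, Function.Injective (φ n) := fun n => Pi.mulSingle_injective (M := fun n => (lv n).U) n
  let v0 : E → Q := fun e n => if e ∈ (lv n).F then (lv n).v e else 1
  have hv0 : ∀ n, ∀ e ∈ (lv n).F, v0 e = φ n ((lv n).v e) := by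
    intro n e he
    funext m
    by_cases hm : m = n
    · subst hm
      show (if e ∈ (lv m).F then (lv m).v e else 1) = Pi.mulSingle (M := fun n => (lv n).U) m ((lv m).v e) m
      rw [if_pos he, Pi.mulSingle_eq_same]
    · show (if e ∈ (lv m).F then (lv m).v e else 1) = Pi.mulSingle (M := fun n => (lv n).U) n ((lv n).v e) m
      rw [if_neg fun h => hm (huniq ((lv m).mem_F _ h).1 ((lv n).mem_F _ he).1),
        Pi.mulSingle_eq_of_ne hm]
  let T : ℕ → Finset Q := fun n => Finset.univ.map ⟨φ n, hφ n⟩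
  have hT : ∀ n g, g ∈ T n ↔ ∃ u, φ n u = g := fun n g => by
    simp only [T, Finset.mem_map, Finset.mem_univ, true_and, Function.Embedding.coeFn_mk]
  have hTc : ∀ n, (T n).card = Fintype.card (lv n).U := fun n => by
    simp only [T, Finset.card_map, Finset.card_univ]
  have hTs : ∀ {M : Type} [AddCommMonoid M] n (f : Q → M), ∑ g ∈ T n, f g = ∑ u, f (φ n u) :=
    fun n f => Finset.sum_map _ _ _
  have hYA : ∀ n, ∀ x ∈ (lv n).Y, x ∈ A := fun n x hx => ⟨n, hx⟩
  have hFD : ∀ n, ∀ e ∈ (lv n).F, e ∈ D := fun n x hx => ⟨n, hx⟩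
  obtain ⟨sl', hsl'⟩ := EG.Scale.exists_sub hAD sl
  have hXc : ∀ n, ((lv n).Y.subtype (· ∈ A)).card = (lv n).Y.card := fun n =>
    Fn5b_card_subtype _ (hYA n)
  have hFc : ∀ n, ((lv n).F.subtype (· ∈ D)).card = (lv n).F.card := fun n =>
    Fn5b_card_subtype _ (hFD n)
  refine ⟨A, D, Q, inferInstance, Gr.sub A D hAD, fun e => lab e.1, EG.Fold.sub hAD hf,
    EG.HDeg.sub hAD hd,
    { sl := sl'
      v := fun e => v0 e.1
      volt := ?_
      idx := idx
      X := fun n => (lv n).Y.subtype (· ∈ A)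
      mem_X := fun n x => Finset.mem_subtype.trans (hidx' x n)
      F := fun n => (lv n).F.subtype (· ∈ D)
      mem_F := fun n e => Finset.mem_subtype.trans (hF e n)
      idx_tgt := htgt
      T := T
      one_mem := fun n => (hT n _).2 ⟨1, _root_.map_one _⟩
      mul_mem := ?_
      inv_mem := ?_
      v_mem := fun e => (hT _ _).2 ⟨_, (hv0 _ e.1 ((hF e _).2 rfl)).symm⟩
      y := fun n => ⟨(lv n).y0, hYA n _ (lv n).y0_mem⟩
      y_mem := fun n => Finset.mem_subtype.2 (lv n).y0_mem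
      conn := ?_
      p := p
      dep_eq := fun x => (hsl' x).trans (hdep _ _ (hidx x))
      upper := ?_
      lower := ?_
      half := fun n => by rw [hTc]; exact hhalf n
      small := fun G => by simp only [hTc, hXc]; exact hsmall G }, hTc⟩
  · intro x ω y hw hr hne hl
    have h1 := Fn5b_walk_idx idx htgt hw
    rw [EG.wv_sub, Fn5b_wv_map (φ (idx x)) (lv (idx x)).v v0]
    · intro h2
      refine (lv (idx x)).volt x.1 (hidx x) _ y.1 ((EG.sub_walk hAD).1 hw) (EG.isReduced_sub hr)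
        (fun h3 => hne (List.map_eq_nil_iff.1 h3)) ?_ (hφ _ (h2.trans (_root_.map_one _).symm))
      rw [List.length_map, ← hdep _ _ (hidx x), ← hsl' x]
      exact hl
    · intro a ha
      obtain ⟨b, hb, rfl⟩ := List.mem_map.1 ha
      exact hv0 _ _ ((hF b.1 _).2 (h1 b hb))
  · intro n g hg g' hg'
    obtain ⟨u, rfl⟩ := (hT n g).1 hg
    obtain ⟨u', rfl⟩ := (hT n g').1 hg'
    exact (hT n _).2 ⟨u * u', _root_.map_mul _ _ _⟩
  · intro n g hg
    obtain ⟨u, rfl⟩ := (hT n g).1 hg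
    exact (hT n _).2 ⟨u⁻¹, _root_.map_inv _ _⟩
  · intro n x hx g hg
    obtain ⟨u, rfl⟩ := (hT n g).1 hg
    obtain ⟨ω, h1, h2, h3⟩ := (lv n).conn x.1 (Finset.mem_subtype.1 hx) u
    obtain ⟨ω', rfl⟩ := EG.exists_sub_word (D := D) fun a ha => hFD n _ (h2 a ha)
    refine ⟨ω', (EG.sub_walk hAD).2 h1, ?_⟩
    rw [EG.wv_sub, Fn5b_wv_map (φ n) (lv n).v v0 _ fun a ha => hv0 n _ (h2 a ha), h3]
  · intro n f hf0
    let f0 : V → (lv n).U → ℂ := fun x u => if hx : x ∈ A then f ⟨x, hx⟩ (φ n u) else 0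
    have hf0' : ∀ (x : A) u, f0 x.1 u = f x (φ n u) := fun x u => dif_pos x.2
    have h1 := (lv n).upper f0 (by
      rw [← hf0]
      refine (Fn5b_sum_subtype _ (hYA n) _ _ fun x _ => ?_).symm
      rw [hTs]
      exact Finset.sum_congr rfl fun u _ => (hf0' x u).symm)
    have h2 : ∑ x ∈ (lv n).Y.subtype (· ∈ A), ∑ g ∈ T n, ‖f x g‖ ^ 2 =
        ∑ x ∈ (lv n).Y, ∑ u, ‖f0 x u‖ ^ 2 := by
      refine Fn5b_sum_subtype _ (hYA n) _ _ fun x _ => ?_
      rw [hTs]
      exact Finset.sum_congr rfl fun u _ => by rw [hf0']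
    have h3 : FmC (Gr.sub A D hAD) ((lv n).F.subtype (· ∈ D)) (T n) (fun e => v0 e.1) f =
        FmC Gr (lv n).F Finset.univ (lv n).v f0 := by
      refine Fn5b_sum_subtype _ (hFD n) _ _ fun e he => ?_
      rw [hTs]
      refine Finset.sum_congr rfl fun u _ => ?_
      beta_reduce
      rw [hv0 n _ he, ← _root_.map_mul, ← hf0', ← hf0']
      rfl
    rw [h2, h3]
    exact h1
  · intro n
    rw [hTc, hXc, hFc]
    have a1 := hlow n
    have a2 := (lv n).edges
    have a3 : (1 : ℝ) ≤ (lv n).Y.card := by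
      exact_mod_cast Finset.card_pos.2 ⟨_, (lv n).y0_mem⟩
    have a4 : (0 : ℝ) ≤ Fintype.card (lv n).U := Nat.cast_nonneg _
    have a5 : (0 : ℝ) ≤ 2 * dt * ((dt : ℝ) + 1) ^ (18 * p n) :=
      mul_nonneg (mul_nonneg zero_le_two (Nat.cast_nonneg _))
        (pow_nonneg (add_nonneg (Nat.cast_nonneg _) zero_le_one) _)
    have b1 := mul_le_mul_of_nonneg_right a1 (zero_le_one.trans a3)
    have b2 := mul_le_mul_of_nonneg_right a2 a4
    have b3 := le_mul_of_one_le_right a5 a3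
    nlinarith

end Crest.Agent.R129
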