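import Crest.Agent.R129.Main173

/-!
# R129 / Wrap : removing the letters that do not occur

`Γ.res` is the same graph over the alphabet of letters that occur.  Words are transported by
`List.map (Prod.map Subtype.val id)`; every word read in `Γ` comes from a word read in `Γ.res`; balls, components,
pieces, degrees and `Bop` are the same.
-/

set_option autoImplicit false
open scoped InnerProductSpace ComplexConjugate

namespace Crest.Agent.R129

/-- the letters that occur. -/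
def LG.Occ {S Y : Type} (Γ : LG S Y) : Type := {s : S // ∃ x y, Γ.E x (s, true) y}

/-- the restriction to the letters that occur. -/
def LG.res {S Y : Type} (Γ : LG S Y) : LG Γ.Occ Y where
  E x a y := Γ.E x (a.1.1, a.2) y
  symm h := Γ.symm h
  func h h' := Γ.func h h'

namespace LG
variable {S Y : Type} {Γ : LG S Y}

/-- the letter of `S` underlying a letter that occurs. -/
def upL (Γ : LG S Y) (a : Γ.Occ × Bool) : S × Bool := (a.1.1, a.2)

theorem upL_inj : Function.Injective Γ.upL := by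
  rintro ⟨⟨s, hs⟩, b⟩ ⟨⟨t, ht⟩, b'⟩ h
  simp only [upL, Prod.mk.injEq] at h
  obtain ⟨rfl, rfl⟩ := h
  rfl

theorem res_E {x y : Y} {a : Γ.Occ × Bool} : Γ.res.E x a y ↔ Γ.E x (Γ.upL a) y := Iff.rfl

theorem exists_upL {x y : Y} {a : S × Bool} (h : Γ.E x a y) : ∃ a', Γ.upL a' = a := by
  obtain ⟨s, b⟩ := a
  cases b
  · exact ⟨(⟨s, y, x, Γ.symm h⟩, false), rfl⟩
  · exact ⟨(⟨s, x, y, h⟩, true), rfl⟩

theorem res_reads {x z : Y} {w : List (Γ.Occ × Bool)} :
    Γ.res.Reads x w z ↔ Γ.Reads x (w.map Γ.upL) z := by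
  induction w generalizing x with
  | nil => simp [reads_nil_iff]
  | cons a w ih => simp only [List.map_cons, reads_cons_iff, ih, res_E]

theorem exists_res_reads {x z : Y} {w : List (S × Bool)} (h : Γ.Reads x w z) :
    ∃ w' : List (Γ.Occ × Bool), w'.map Γ.upL = w := by
  induction w generalizing x with
  | nil => exact ⟨[], rfl⟩
  | cons a w ih =>
    obtain ⟨y, h1, h2⟩ := reads_cons_iff.1 h
    obtain ⟨w', rfl⟩ := ih h2
    obtain ⟨a', rfl⟩ := exists_upL h1
    exact ⟨a' :: w', rfl⟩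

theorem res_ball (y : Y) (r : ℕ) : Γ.res.Ball y r = Γ.Ball y r := by
  ext x
  constructor
  · rintro ⟨w, h1, h2⟩
    exact ⟨_, res_reads.1 h1, by simpa using h2⟩
  · rintro ⟨w, h1, h2⟩
    obtain ⟨w', rfl⟩ := exists_res_reads h1
    exact ⟨w', res_reads.2 h1, by simpa using h2⟩

theorem res_comp (y : Y) : Γ.res.Comp y = Γ.Comp y := by
  ext x
  constructor
  · rintro ⟨w, h1⟩
    exact ⟨_, res_reads.1 h1⟩
  · rintro ⟨w, h1⟩
    obtain ⟨w', rfl⟩ := exists_res_reads h1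
    exact ⟨w', res_reads.2 h1⟩

theorem pc_of_res {r : Setoid Y} {y z : Y} (h : Γ.res.Pc r y z) : Γ.Pc r y z := by
  rcases h with h | ⟨y', z', w, h1, h2, h3⟩
  · exact Or.inl h
  · exact Or.inr ⟨y', z', _, h1, res_reads.1 h2, res_reads.1 h3⟩

theorem ch3_of_res {r : Setoid Y} {y z : Y} (h : Γ.res.Ch3 r y z) : Γ.Ch3 r y z := by
  obtain ⟨m, ⟨m', h1, h2⟩, h3⟩ := h
  exact ⟨m, ⟨m', pc_of_res h1, pc_of_res h2⟩, pc_of_res h3⟩

theorem isReduced_map {w : List (Γ.Occ × Bool)} (h : FreeGroup.IsReduced w) :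
    FreeGroup.IsReduced (w.map Γ.upL) := by
  unfold FreeGroup.IsReduced at h ⊢
  rw [List.isChain_map]
  exact h.imp fun a b hab e => hab (Subtype.ext e)

noncomputable instance occFintype [Fintype S] : Fintype Γ.Occ := by
  classical
  unfold Occ
  infer_instance

theorem res_degLe [Fintype S] {dt : ℕ} (h : Γ.DegLe dt) : Γ.res.DegLe dt := by
  intro y s hs
  have := h y (s.map ⟨Γ.upL, upL_inj⟩) (by
    intro a ha
    obtain ⟨a', h1, rfl⟩ := Finset.mem_map.1 ha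
    exact hs a' h1)
  simpa using this

theorem res_Bop [Fintype S] (c : S → ℂ) : Γ.res.Bop (fun s => c s.1) = Γ.Bop c := by
  classical
  ext f y
  rw [Bop_apply, Bop_apply]
  refine Finset.sum_of_injOn Γ.upL (upL_inj.injOn) (fun _ _ => Finset.mem_univ _) ?_ ?_
  · intro a _ ha
    rw [if_neg]
    rintro ⟨x, hx⟩
    obtain ⟨a', rfl⟩ := exists_upL hx
    exact ha ⟨a', Finset.mem_coe.2 (Finset.mem_univ _), rfl⟩
  · intro a _
    by_cases ha : ∃ x, Γ.res.E x a y
    · obtain ⟨x, hx⟩ := ha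
      rw [if_pos ⟨x, hx⟩, if_pos ⟨x, res_E.1 hx⟩, Γ.res.back_eq hx, Γ.back_eq (res_E.1 hx)]
      rfl
    · have ha' : ¬ ∃ x, Γ.E x (Γ.upL a) y := ha
      rw [if_neg ha, if_neg ha']

theorem res_hall (s : Γ.Occ) : ∃ x y, Γ.res.E x (s, true) y := s.2

end LG

/-- the small cancellation data of the restriction. -/
def SC.res {S Y : Type} {Γ : LG S Y} (sc : SC Γ) : SC Γ.res where
  eqv := sc.eqv
  lift h h' := sc.lift h (LG.res_E.1 h')
  closed h h' := LG.res_reads.2 (sc.closed h (LG.res_reads.1 h'))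
  rad := sc.rad
  chain h := by
    obtain ⟨w, h1, h2⟩ := sc.chain (LG.ch3_of_res h)
    obtain ⟨w', rfl⟩ := LG.exists_res_reads h1
    exact ⟨w', LG.res_reads.2 h1, by simpa using h2⟩
  tree h h1 h2 := by
    simpa using sc.tree (LG.res_reads.1 h) (LG.isReduced_map h1) (by simpa using h2)

theorem SC.TF.res {S Y : Type} {Γ : LG S Y} {sc : SC Γ} (tf : sc.TF) : sc.res.TF := by
  intro y x w n hn h1 h2 h3
  refine tf y x (w.map Γ.upL) n hn (LG.res_reads.1 h1) h2 ?_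
  have := LG.res_reads.1 h3
  rwa [List.map_flatten, List.map_replicate] at this

/-- `Fin173` for the restriction. -/
noncomputable def Fin173.res {S Y : Type} [Fintype S] {Γ : LG S Y} {sc : SC Γ} {c : S → ℂ} {ζ γ α : ℝ}
    (h : Fin173 Γ sc c ζ γ α) : Fin173 Γ.res sc.res (fun s => c s.1) ζ γ α where
  yN := h.yN
  C := h.C
  mem_C n x := by rw [LG.res_comp]; exact h.mem_C n x
  reach := h.reach
  sep := h.sep
  a := h.a
  a_eq := h.a_eq
  Rep := h.Rep
  rep_sub := h.rep_sub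
  rep_cov := h.rep_cov
  rep_inj := h.rep_inj
  β := h.β
  ball n o ho s hs := h.ball n o ho s (by rw [LG.res_ball] at hs; exact hs)
  half := h.half
  small := h.small
  upper := by rw [LG.res_Bop]; exact h.upper
  lower := by rw [LG.res_Bop]; exact h.lower

theorem main174 {S Y : Type} [Fintype S] (Γ : LG S Y) (sc : SC Γ) (tf : sc.TF)
    (A : Finset S) (hA : ∀ s x y, Γ.E x (s, true) y → s ∈ A) (c : S → ℂ) (hc : ∀ s, ‖c s‖ = 1)
    (dt : ℕ) (hd : Γ.DegLe dt) (ζ γ : ℝ) (hζ : 0 < ζ) (hκ : 2 * (A.card : ℝ) ≤ 9 / 16 * ζ ^ 2)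
    (hγζ : γ ≤ ζ) (herr : 16 * Forest.err dt ζ < γ) (hLG : LocGap Γ sc c ζ γ)
    (hneg : ∃ f : L2 Y ℂ, f ≠ 0 ∧
      fm ((ζ : ℂ) • (1 : L2 Y ℂ →L[ℂ] L2 Y ℂ) - Γ.Bop c) f ≤ -γ * ‖f‖ ^ 2) : Goal174 := by
  have hcard : Fintype.card Γ.Occ ≤ A.card := by
    rw [← Finset.card_univ]
    refine Finset.card_le_card_of_injOn (fun s => s.1) (fun s _ => ?_) fun s _ t _ e => Subtype.ext e
    obtain ⟨x, y, h⟩ := s.2
    exact Finset.mem_coe.2 (hA _ x y h)
  have hcard' : (Fintype.card Γ.Occ : ℝ) ≤ A.card := by exact_mod_cast hcard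
  refine main174' Γ.res sc.res tf.res LG.res_hall (fun s => c s.1) (fun s => hc s.1) dt
    (LG.res_degLe hd) ζ γ hζ (by linarith) hγζ herr ?_ ?_
  · intro o D hD f hf
    rw [LG.res_Bop]
    exact hLG o D (by rw [LG.res_ball] at hD; exact hD) f hf
  · rw [LG.res_Bop]
    exact hneg

theorem main173 {S Y : Type} [Fintype S] (Γ : LG S Y) (sc : SC Γ)
    (c : S → ℂ) (hc : ∀ s, ‖c s‖ = 1) (dt : ℕ)
    (hd : Γ.DegLe dt) (ζ γ α : ℝ) (hγ : 0 < γ) (hγζ : γ ≤ ζ)
    (hκ : 2 * (Fintype.card S : ℝ) ≤ 9 / 16 * ζ ^ 2) (herr : 64 * Forest.err dt ζ ≤ γ)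
    (hα : α ≤ 1 / 16) (hMα : 64 * (dt + dt ^ 2 / γ + γ) * α ^ 2 ≤ γ)
    (h : Fin173 Γ sc c ζ γ α) : Goal173 h.a := by
  have hcard : Fintype.card Γ.Occ ≤ Fintype.card S :=
    Fintype.card_le_of_injective (fun s : Γ.Occ => s.1) fun s t e => Subtype.ext e
  have hcard' : (Fintype.card Γ.Occ : ℝ) ≤ Fintype.card S := by exact_mod_cast hcard
  exact main173' Γ.res sc.res LG.res_hall (fun s => c s.1) (fun s => hc s.1) dt
    (LG.res_degLe hd) ζ γ α hγ hγζ (by linarith) herr hα hMα h.res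

end Crest.Agent.R129
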