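import Crest.Agent.R129.FnDef
import Crest.Agent.R129.Wrap

/-!
# R129 / Fn6 : from `FinData` to `Fin173`
-/

set_option autoImplicit false
open scoped InnerProductSpace ComplexConjugate
open FreeGroup

namespace Crest.Agent.R129

open Classical in
theorem Fn6_card_fib {V Q : Type} (T : Finset Q) (D : Finset (V × Q)) (x : V) {φ : Q → Q}
    (hφ : Function.Injective φ) :
    (T.filter fun g => (x, φ g) ∈ D).card ≤ (D.filter fun d => x = d.1).card := by
  refine Finset.card_le_card_of_injOn (fun g => (x, φ g)) ?_ ?_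
  · intro g hg
    exact Finset.mem_coe.2 (Finset.mem_filter.2 ⟨(Finset.mem_filter.1 (Finset.mem_coe.1 hg)).2, rfl⟩)
  · intro g _ g' _ h
    exact hφ (Prod.mk.inj h).2

open Classical in
theorem Fn6_deg {V E : Type} {Gr : EG V E} {dt : ℕ} (hd : Gr.HDeg dt) (F : Finset E) (x : V) :
    (F.filter fun e => Gr.tgt e = x).card + (F.filter fun e => Gr.src e = x).card ≤ dt := by
  have h := hd x (((F.filter fun e => Gr.tgt e = x).image fun e => (e, false)) ∪
    ((F.filter fun e => Gr.src e = x).image fun e => (e, true))) (by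
      intro h hh
      rcases Finset.mem_union.1 hh with hh | hh
      · obtain ⟨e, he, rfl⟩ := Finset.mem_image.1 hh
        exact (Finset.mem_filter.1 he).2
      · obtain ⟨e, he, rfl⟩ := Finset.mem_image.1 hh
        exact (Finset.mem_filter.1 he).2)
  rw [Finset.card_union_of_disjoint, Finset.card_image_of_injective, Finset.card_image_of_injective] at h
  · exact h
  · intro e e' h
    exact (Prod.mk.inj h).1
  · intro e e' h
    exact (Prod.mk.inj h).1
  · rw [Finset.disjoint_left]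
    intro h h1 h2
    obtain ⟨e, -, rfl⟩ := Finset.mem_image.1 h1
    obtain ⟨e', -, h3⟩ := Finset.mem_image.1 h2
    exact absurd (Prod.mk.inj h3).2 (by simp)

open Classical in
theorem Fn6_count {V E Q : Type} [Group Q] {Gr : EG V E} {dt : ℕ} (hd : Gr.HDeg dt) (F : Finset E)
    (T : Finset Q) (v : E → Q) (D : Finset (V × Q)) :
    ∑ e ∈ F, ((T.filter fun g => (Gr.tgt e, g) ∈ D).card +
      (T.filter fun g => (Gr.src e, v e * g) ∈ D).card) ≤ dt * D.card := by
  calc ∑ e ∈ F, ((T.filter fun g => (Gr.tgt e, g) ∈ D).card +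
        (T.filter fun g => (Gr.src e, v e * g) ∈ D).card)
      ≤ ∑ e ∈ F, ((D.filter fun d => Gr.tgt e = d.1).card + (D.filter fun d => Gr.src e = d.1).card) :=
        Finset.sum_le_sum fun e _ => add_le_add
          (Fn6_card_fib T D (Gr.tgt e) (φ := id) Function.injective_id)
          (Fn6_card_fib T D (Gr.src e) (φ := fun g => v e * g) (mul_right_injective _))
    _ = ∑ d ∈ D, ((F.filter fun e => Gr.tgt e = d.1).card + (F.filter fun e => Gr.src e = d.1).card) := by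
        simp only [Finset.card_filter, ← Finset.sum_add_distrib]
        exact Finset.sum_comm
    _ ≤ ∑ _d ∈ D, dt := Finset.sum_le_sum fun d _ => Fn6_deg hd F d.1
    _ = dt * D.card := by rw [Finset.sum_const, smul_eq_mul, mul_comm]

/-- `Bn_curry`, `fm_Bn`, `L2_inner_eq`, `curry_apply`, `lam_apply`. -/
theorem EG.fm_cover_fin {V E L Q : Type} [Group Q] [Fintype L] {Gr : EG V E} {lab : E → L}
    (hf : Gr.Fold lab) (v : E → Q) (X : Finset V) (F : Finset E) (T : Finset Q)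
    (hF : ∀ e, Gr.src e ∈ X → Gr.tgt e ∈ X → e ∈ F) (f : L2 (V × Q) ℂ)
    (hs : ∀ p, p ∉ X ×ˢ T → f p = 0) :
    fm ((Gr.cover lab hf v).Bop fun _ => 1) f = FmC Gr F T v fun x g => f (x, g) := by
  have h1 : fm ((Gr.cover lab hf v).Bop fun _ => 1) f = fm (EG.Bn hf v fun _ => 1) (curry V Q f) := by
    rw [fm, fm, EG.Bn_curry, LinearIsometryEquiv.inner_map_map]
  have h2 : ∀ x, x ∉ X → curry V Q f x = 0 := by
    intro x hx
    ext g
    rw [curry_apply, hs _ fun h => hx (Finset.mem_product.1 h).1]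
    rfl
  rw [h1, EG.fm_Bn hf v _ _ X h2 F hF, FmC]
  refine Finset.sum_congr rfl fun e _ => ?_
  rw [L2_inner_eq _ _ T fun g hg => by
    rw [curry_apply, hs _ fun h => hg (Finset.mem_product.1 h).2], Complex.re_sum, Finset.mul_sum]
  refine Finset.sum_congr rfl fun g _ => ?_
  rw [one_smul, lam_apply, inv_inv, curry_apply, curry_apply, RCLike.inner_apply, mul_comm (f _)]

namespace FinData
variable {V E L Q : Type} [Group Q] [Fintype L] {Gr : EG V E} {lab : E → L} {dt : ℕ} {ζ γ α : ℝ}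
  (D : FinData Gr lab Q dt ζ γ α) (hf : Gr.Fold lab)

omit [Fintype L] in
theorem Fn6_walk (n : ℕ) : ∀ (ω : List (E × Bool)) (x z : V), Gr.Walk x ω z → D.idx x = n →
    D.idx z = n ∧ wv D.v ω ∈ D.T n := by
  intro ω
  induction ω with
  | nil =>
    intro x z h hx
    rw [← LG.reads_nil_iff.1 h, wv_nil]
    exact ⟨hx, D.one_mem n⟩
  | cons a ω ih =>
    intro x z h hx
    obtain ⟨h1, h2⟩ := EG.eg_walk_cons.1 h
    obtain ⟨e, b⟩ := a
    have h3 : D.idx (Gr.src e) = n := by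
      cases b
      · rw [← D.idx_tgt, ← hx, h1]; rfl
      · rw [← hx, h1]; rfl
    have h4 : D.idx (Gr.ht (e, b)) = n := by
      cases b
      · exact h3
      · exact (D.idx_tgt e).trans h3
    have h5 : D.v e ∈ D.T n := h3 ▸ D.v_mem e
    obtain ⟨h6, h7⟩ := ih _ _ h2 h4
    refine ⟨h6, ?_⟩
    rw [wv_cons]
    refine D.mul_mem n _ ?_ _ h7
    cases b
    · exact D.inv_mem n _ h5
    · exact h5

omit [Fintype L] in
/-- `cover_reads_iff`, `conn`; along a walk `idx` is constant and the voltage stays in `T n`. -/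
theorem mem_comp (n : ℕ) (p : V × Q) :
    p ∈ D.X n ×ˢ D.T n ↔ p ∈ (Gr.cover lab hf D.v).Comp (D.y n, 1) := by
  constructor
  · intro hp
    obtain ⟨h1, h2⟩ := Finset.mem_product.1 hp
    obtain ⟨ω, h3, h4⟩ := D.conn n p.1 h1 p.2⁻¹ (D.inv_mem n _ h2)
    exact ⟨lw lab ω, (EG.cover_reads_iff hf D.v).2 ⟨ω, h3, rfl, by rw [h4, inv_inv, mul_one]⟩⟩
  · rintro ⟨w, hw⟩
    obtain ⟨ω, h1, -, h3⟩ := (EG.cover_reads_iff hf D.v).1 hw
    obtain ⟨h4, h5⟩ := D.Fn6_walk n ω _ _ h1 ((D.mem_X n _).1 (D.y_mem n))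
    refine Finset.mem_product.2 ⟨(D.mem_X n _).2 h4, ?_⟩
    rw [h3, mul_one]
    exact D.inv_mem n _ h5

theorem upper' (n : ℕ) (f : L2 (V × Q) ℂ) (hs : ∀ p, p ∉ D.X n ×ˢ D.T n → f p = 0)
    (h0 : ∑ p ∈ D.X n ×ˢ D.T n, f p = 0) :
    fm ((Gr.cover lab hf D.v).Bop fun _ => 1) f ≤ (ζ - 2 * γ) * ‖f‖ ^ 2 := by
  rw [EG.fm_cover_fin hf D.v (D.X n) (D.F n) (D.T n)
    (fun e he _ => (D.mem_F n e).2 ((D.mem_X n _).1 he)) f hs, L2_norm_sq_eq f _ hs, Finset.sum_product]
  rw [Finset.sum_product] at h0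
  exact D.upper n (fun x g => f (x, g)) h0

open Classical in
/-- the form is twice the number of pairs `(e, g) ∈ F n × T n` with both ends outside `D'`; at most `dt |D'|` pairs
have an end in `D'` (half edges, `HDeg`); `‖f‖² ≤ |X n| |T n|`. -/
theorem lower' (hd : Gr.HDeg dt) (hζγ : 0 ≤ ζ + γ) (n : ℕ) (D' : Finset (V × Q))
    (hD : (D'.card : ℝ) ≤ ((dt : ℝ) + 1) ^ (18 * D.p n)) (f : L2 (V × Q) ℂ)
    (hs : ∀ p, f p = if p ∈ D.X n ×ˢ D.T n ∧ p ∉ D' then 1 else 0) :
    (ζ + γ) * ‖f‖ ^ 2 ≤ fm ((Gr.cover lab hf D.v).Bop fun _ => 1) f := by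
  have hs0 : ∀ p, p ∉ D.X n ×ˢ D.T n → f p = 0 := fun p hp => by
    rw [hs, if_neg fun h => hp h.1]
  have h1 : ‖f‖ ^ 2 ≤ (D.X n).card * (D.T n).card := by
    rw [L2_norm_sq_eq f _ hs0, ← Nat.cast_mul, ← Finset.card_product, Finset.card_eq_sum_ones,
      Nat.cast_sum]
    refine Finset.sum_le_sum fun p _ => ?_
    rw [hs]
    split_ifs <;> simp
  have h2 := Fn6_count hd (D.F n) (D.T n) D.v D'
  have h3 : ∑ e ∈ D.F n, (2 * ((D.T n).card : ℝ) -
      2 * ((((D.T n).filter fun g => (Gr.tgt e, g) ∈ D').card +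
        ((D.T n).filter fun g => (Gr.src e, D.v e * g) ∈ D').card : ℕ) : ℝ)) ≤
      FmC Gr (D.F n) (D.T n) D.v fun x g => f (x, g) := by
    refine Finset.sum_le_sum fun e he => ?_
    have he1 := (D.mem_F n e).1 he
    rw [Finset.card_filter, Finset.card_filter, ← Finset.sum_add_distrib, Finset.card_eq_sum_ones,
      Nat.cast_sum, Nat.cast_sum, Finset.mul_sum, Finset.mul_sum, ← Finset.sum_sub_distrib]
    refine Finset.sum_le_sum fun g hg => ?_
    have m1 : (Gr.tgt e, g) ∈ D.X n ×ˢ D.T n :=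
      Finset.mem_product.2 ⟨(D.mem_X n _).2 ((D.idx_tgt e).trans he1), hg⟩
    have m2 : (Gr.src e, D.v e * g) ∈ D.X n ×ˢ D.T n :=
      Finset.mem_product.2 ⟨(D.mem_X n _).2 he1, D.mul_mem n _ (he1 ▸ D.v_mem e) _ hg⟩
    simp only [hs, m1, m2, true_and]
    by_cases c1 : (Gr.tgt e, g) ∈ D' <;> by_cases c2 : (Gr.src e, D.v e * g) ∈ D' <;>
      simp [c1, c2]
  rw [Finset.sum_sub_distrib, Finset.sum_const, nsmul_eq_mul, ← Finset.mul_sum, ← Nat.cast_sum] at h3
  rw [EG.fm_cover_fin hf D.v (D.X n) (D.F n) (D.T n)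
    (fun e he _ => (D.mem_F n e).2 ((D.mem_X n _).1 he)) f hs0]
  have h4 := D.lower n
  have h5 : ((∑ e ∈ D.F n, (((D.T n).filter fun g => (Gr.tgt e, g) ∈ D').card +
      ((D.T n).filter fun g => (Gr.src e, D.v e * g) ∈ D').card) : ℕ) : ℝ) ≤ dt * D'.card := by
    exact_mod_cast h2
  have h6 := mul_le_mul_of_nonneg_left h1 hζγ
  have h7 := mul_le_mul_of_nonneg_left hD (Nat.cast_nonneg (α := ℝ) dt)
  linarith

/-- `exists_SC`; `C n = X n ×ˢ T n`, `Rep n = X n ×ˢ {1}`, `β n = (dt+1)^(18 p n)` (`DegLe.ball_card`,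
`cover_degLe`). -/
theorem exists_fin173 (hd : Gr.HDeg dt) (hζγ : 0 ≤ ζ + γ) :
    ∃ (sc : SC (Gr.cover lab hf D.v)) (h : Fin173 (Gr.cover lab hf D.v) sc (fun _ => 1) ζ γ α),
      h.a = fun n => (D.T n).card := by
  classical
  obtain ⟨sc, h1, h2, -⟩ := EG.exists_SC hf D.v D.sl D.volt
  have hX : ∀ n, (1 : ℝ) ≤ (D.X n).card := fun n => by
    exact_mod_cast Finset.card_pos.2 ⟨_, D.y_mem n⟩
  have hT : ∀ n, (0 : ℝ) < (D.T n).card := fun n => by
    exact_mod_cast Finset.card_pos.2 ⟨_, D.one_mem n⟩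
  have hC : ∀ n, ((D.T n).card : ℝ) ≤ (D.X n ×ˢ D.T n).card := fun n => by
    rw [Finset.card_product, Nat.cast_mul]
    nlinarith [hX n, hT n]
  refine ⟨sc, ⟨fun n => (D.y n, 1), fun n => D.X n ×ˢ D.T n, D.mem_comp hf, ?_, ?_,
    fun n => (D.T n).card, ?_, fun n => D.X n ×ˢ {1}, ?_, ?_, ?_,
    fun n => ((dt : ℝ) + 1) ^ (18 * D.p n), ?_, ?_, ?_, ?_, ?_⟩, rfl⟩
  · intro y
    exact ⟨D.idx y.1, (y.1, 1), Finset.mem_product.2 ⟨(D.mem_X _ _).2 rfl, D.one_mem _⟩,
      (h1 _ _).2 rfl⟩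
  · intro n m x hx x' hx' h
    rw [← (D.mem_X n _).1 (Finset.mem_product.1 hx).1, ← (D.mem_X m _).1 (Finset.mem_product.1 hx').1,
      (h1 _ _).1 h]
  · intro n
    have e : (D.T n).card = (({D.y n} : Finset V) ×ˢ D.T n).card := by
      rw [Finset.card_product, Finset.card_singleton, one_mul]
    rw [e]
    congr 1
    ext p
    rw [Finset.mem_filter, h1, Finset.mem_product, Finset.mem_product, Finset.mem_singleton]
    constructor
    · exact fun h => ⟨h.2, h.1.2⟩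
    · exact fun h => ⟨⟨h.1 ▸ D.y_mem n, h.2⟩, h.1⟩
  · intro n
    exact Finset.product_subset_product_right (Finset.singleton_subset_iff.2 (D.one_mem n))
  · intro n x hx
    exact ⟨(x.1, 1), Finset.mem_product.2 ⟨(Finset.mem_product.1 hx).1, Finset.mem_singleton_self _⟩,
      (h1 _ _).2 rfl⟩
  · intro n r hr r' hr' h
    exact Prod.ext ((h1 _ _).1 h) ((Finset.mem_singleton.1 (Finset.mem_product.1 hr).2).trans
      (Finset.mem_singleton.1 (Finset.mem_product.1 hr').2).symm)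
  · intro n o ho s hs
    obtain ⟨B, hB1, hB2⟩ := (EG.cover_degLe hf D.v hd).ball_card o (sc.rad o)
    have h3 : s.card ≤ B.card := Finset.card_le_card fun x hx => (hB1 x).2 (hs hx)
    rw [h2, D.dep_eq, (D.mem_X n _).1 (Finset.mem_product.1 ho).1] at hB2
    exact_mod_cast h3.trans hB2
  · intro n
    exact (D.half n).trans (hC n)
  · intro G
    refine le_trans (Finset.sum_le_sum fun n _ => ?_) (D.small G)
    have e : ((D.X n ×ˢ ({1} : Finset Q)).card : ℝ) = (D.X n).card := by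
      rw [Finset.card_product, Finset.card_singleton, mul_one]
    rw [e]
    exact mul_le_mul_of_nonneg_left (Real.sqrt_le_sqrt
      (div_le_div_of_nonneg_left (by positivity) (hT n) (hC n))) (Nat.cast_nonneg _)
  · intro n f hs h0
    exact D.upper' hf n f hs h0
  · intro n D' hD f hs
    exact D.lower' hf hd hζγ n D' hD f fun p => by convert hs p

end FinData

end Crest.Agent.R129
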