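import Crest.Agent.R129.Fn4
import Crest.Agent.R129.Fn5b
import Crest.Agent.R129.Fn6
import Crest.Agent.R129.Base2

/-!
# R129 / Fn7 : S0173
-/

set_option autoImplicit false

namespace Crest.Agent.R129

theorem exists_lev' {k t q : ℕ} (hp : Prm3 k t q) (B : Base t q 400) (p : ℕ) (h : 200 ≤ p) :
    ∃ lv : Lev B.Gr p ((2 * B.s - (B.s : ℝ) / 3200) - 2 * ((B.s : ℝ) / 6400))
        ((1 - 2 * (1 / (q : ℝ) ^ 3)) * (2 * B.s)),
      (∀ x ∈ lv.Y, B.sl.dep x = p) ∧ lv.Y.card ≤ q ^ (p + 1) ∧ q ^ (100 * p) ≤ Fintype.card lv.U := by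
  have e : ((2 * B.s - (B.s : ℝ) / 3200) - 2 * ((B.s : ℝ) / 6400)) = (1 - 1 / 3200) * (2 * B.s) := by
    ring
  rw [e]
  have h1 := exists_lev hp B ((400 * (p - 200) : ℕ) : ℤ)
  have h2 := B.cardX_le ((400 * (p - 200) : ℕ) : ℤ)
  have h3 : ∀ x ∈ B.X ((400 * (p - 200) : ℕ) : ℤ), B.sl.dep x = p := fun x hx => by
    rw [B.dep_eq, (B.mem_X _ _).1 hx, depOf_level h]
  rw [depOf_level h] at h1 h2
  obtain ⟨lv, hY, hU⟩ := h1
  exact ⟨lv, fun x hx => h3 x (hY hx), (Finset.card_le_card hY).trans h2, hU⟩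

theorem goal173 : ∃ a : ℕ → ℕ, (∀ n, 0 < a n) ∧
    (∀ n, 2 * (n + 1) * ∏ i ∈ Finset.range (n + 1), a i < a (n + 1)) ∧ Goal173 a := by
  obtain ⟨k, hk⟩ : ∃ k : ℕ, 500 ^ 3 + 2 ≤ k := ⟨_, le_rfl⟩
  obtain ⟨t, q, hp⟩ := exists_prm3 hk
  have ht := hp.t_ge
  obtain ⟨B⟩ := exists_base (t := t) (q := q) (K := 400)
    ⟨hp.prime, hp.t_ge, hp.q_gt, hp.q_le, le_rfl, by omega⟩
  choose lv hdep hY hU using exists_lev' hp B
  classical
  have hq : 1 < q := hp.prime.one_lt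
  obtain ⟨p, hm, h0, hfast⟩ := exists_fast
    (fun p => if h : 200 ≤ p then Fintype.card (lv p h).U else 0) (fun p h => by
      rw [dif_pos h]
      refine lt_of_lt_of_le ?_ (hU p h)
      exact lt_of_le_of_lt (by omega) (Nat.lt_pow_self hq))
  have hpn : ∀ n, 200 ≤ p n := fun n => h0.trans (hm.monotone (Nat.zero_le n))
  obtain ⟨m1, m2, m3, m4, m5, m6⟩ := hp.num_main B.s_ge B.s_le B.cardL
  have hζγ : 0 ≤ (2 * B.s - (B.s : ℝ) / 3200) + (B.s : ℝ) / 6400 := by linarith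
  obtain ⟨V', E', Q, _, Gr', lab', hf', hd', D, hT⟩ := exists_finData (α := 1 / q) B.fold B.sl B.hdeg p
    hm.injective hζγ (fun n => lv (p n) (hpn n)) (fun n => hdep _ _)
    (fun n => hp.num_low B.s_ge (hpn n) (hU _ _)) (fun n => hp.num_half (hpn n) (hU _ _))
    (hp.num_small p _ _ hm h0 (fun n => hY _ _) fun n => hU _ _)
  obtain ⟨sc, h, ha⟩ := D.exists_fin173 hf' hd' hζγ
  have hG := main173 _ sc (fun _ => 1) (fun _ => by simp) (2 * q) (EG.cover_degLe hf' D.v hd') _ _ _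
    m1 m2 m3 m4 m5 m6 h
  refine ⟨h.a, fun n => ?_, fun n => ?_, hG⟩
  · rw [ha]
    exact Finset.card_pos.2 ⟨1, D.one_mem n⟩
  · have := hfast n
    simp only [dif_pos (hpn _)] at this
    simpa only [ha, hT] using this

end Crest.Agent.R129
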