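import Crest.Agent.R129.EG

/-!
# R129 / FnDef : finite covers (interfaces for S0173)
-/

set_option autoImplicit false
open scoped ComplexConjugate
open FreeGroup

namespace Crest.Agent.R129

section
variable {V E Q : Type} [Group Q] (Gr : EG V E)

/-- the form of the cover on functions: the edge `(e, g)` goes from `(src e, v e * g)` to `(tgt e, g)`. -/
noncomputable def FmC (F : Finset E) (T : Finset Q) (v : E → Q) (f : V → Q → ℂ) : ℝ :=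
  ∑ e ∈ F, ∑ g ∈ T, 2 * (conj (f (Gr.tgt e) g) * f (Gr.src e) (v e * g)).re

/-- functions of mean zero have small form. -/
def UpOK (X : Finset V) (F : Finset E) (T : Finset Q) (v : E → Q) (κ : ℝ) : Prop :=
  ∀ f : V → Q → ℂ, ∑ x ∈ X, ∑ g ∈ T, f x g = 0 → FmC Gr F T v f ≤ κ * ∑ x ∈ X, ∑ g ∈ T, ‖f x g‖ ^ 2

end

/-- a finite connected cover of the subgraph `(Y, F)`. -/
structure Lev {V E : Type} (Gr : EG V E) (p : ℕ) (κ μ : ℝ) where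
  U : Type
  [grp : Group U]
  [fin : Fintype U]
  v : E → U
  Y : Finset V
  F : Finset E
  mem_F : ∀ e ∈ F, Gr.src e ∈ Y ∧ Gr.tgt e ∈ Y
  y0 : V
  y0_mem : y0 ∈ Y
  conn : ∀ x ∈ Y, ∀ g, ∃ ω, Gr.Walk y0 ω x ∧ (∀ a ∈ ω, a.1 ∈ F) ∧ wv v ω = g
  volt : ∀ x ∈ Y, ∀ ω y, Gr.Walk x ω y → IsReduced ω → ω ≠ [] → ω.length ≤ 40 * p → wv v ω ≠ 1
  upper : UpOK Gr Y F Finset.univ v κ
  edges : μ * Y.card ≤ 2 * F.card

attribute [instance] Lev.grp Lev.fin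

/-- a graph whose components are finite, with voltages in finite subgroups `T n` of `Q`. -/
structure FinData {V E L : Type} (Gr : EG V E) (lab : E → L) (Q : Type) [Group Q] (dt : ℕ)
    (ζ γ α : ℝ) where
  sl : Gr.Scale lab
  v : E → Q
  volt : Gr.VoltOK sl.dep v
  idx : V → ℕ
  X : ℕ → Finset V
  mem_X : ∀ n x, x ∈ X n ↔ idx x = n
  F : ℕ → Finset E
  mem_F : ∀ n e, e ∈ F n ↔ idx (Gr.src e) = n
  idx_tgt : ∀ e, idx (Gr.tgt e) = idx (Gr.src e)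
  T : ℕ → Finset Q
  one_mem : ∀ n, 1 ∈ T n
  mul_mem : ∀ n, ∀ g ∈ T n, ∀ g' ∈ T n, g * g' ∈ T n
  inv_mem : ∀ n, ∀ g ∈ T n, g⁻¹ ∈ T n
  v_mem : ∀ e, v e ∈ T (idx (Gr.src e))
  y : ℕ → V
  y_mem : ∀ n, y n ∈ X n
  conn : ∀ n, ∀ x ∈ X n, ∀ g ∈ T n, ∃ ω, Gr.Walk (y n) ω x ∧ wv v ω = g
  p : ℕ → ℕ
  dep_eq : ∀ x, sl.dep x = p (idx x)
  upper : ∀ n, UpOK Gr (X n) (F n) (T n) v (ζ - 2 * γ)
  lower : ∀ n, (ζ + γ) * ((X n).card * (T n).card) + 2 * dt * ((dt : ℝ) + 1) ^ (18 * p n) ≤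
    2 * (F n).card * (T n).card
  half : ∀ n, 2 * ((dt : ℝ) + 1) ^ (18 * p n) ≤ (T n).card
  small : ∀ G : Finset ℕ, ∑ n ∈ G, (X n).card * √(((dt : ℝ) + 1) ^ (18 * p n) / (T n).card) ≤ α

end Crest.Agent.R129
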