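import Crest.Agent.R129.HilbG

/-!
# R129 / GF : functional calculus for commuting unitaries; finitely supported approximations
-/

set_option autoImplicit false
open scoped InnerProductSpace ComplexConjugate Pointwise
open UnitAddTorus

namespace Crest.Agent.R129

open WeakDual in
theorem gf_comm {A ι : Type} [CommCStarAlgebra A] [Fintype ι] (u : Multiplicative (ι → ℤ) →* A)
    (hu : ∀ a, star (u a) = u a⁻¹) :
    ∃ ρ : C(UnitAddTorus ι, ℂ) →⋆ₐ[ℂ] A, ∀ n, ρ (mFourier n) = u (Multiplicative.ofAdd n) := by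
  classical
  have h1 : ∀ (φ : characterSpace ℂ A) a, φ (u a) ∈ Submonoid.unitSphere ℂ := fun φ a => by
    have h2 : conj (φ (u a)) * φ (u a) = 1 := by
      rw [← Complex.star_def, ← map_star, ← map_mul, hu, ← map_mul, inv_mul_cancel, map_one, map_one]
    rw [Complex.conj_mul'] at h2
    have h3 : ‖φ (u a)‖ ^ 2 = 1 := by exact_mod_cast h2
    exact mem_sphere_zero_iff_norm.2 ((pow_eq_one_iff_of_nonneg (norm_nonneg _) two_ne_zero).1 h3)
  let c : ι → characterSpace ℂ A → Circle := fun i φ =>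
    ⟨φ (u (Multiplicative.ofAdd (Pi.single i 1))), h1 φ _⟩
  have hc : ∀ i, Continuous (c i) := fun i =>
    (gelfandTransform ℂ A (u (Multiplicative.ofAdd (Pi.single i 1)))).continuous.subtype_mk _
  let r : C(characterSpace ℂ A, UnitAddTorus ι) :=
    ⟨fun φ i => (AddCircle.homeomorphCircle one_ne_zero).symm (c i φ),
      continuous_pi fun i => (Homeomorph.continuous _).comp (hc i)⟩
  refine ⟨((gelfandStarTransform A).symm : C(characterSpace ℂ A, ℂ) →⋆ₐ[ℂ] A).comp
    (ContinuousMap.compStarAlgHom' ℂ ℂ r), fun n => ?_⟩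
  change (gelfandStarTransform A).symm ((mFourier n).comp r) = _
  rw [StarAlgEquiv.symm_apply_eq]
  ext φ
  have h2 : ∀ i, AddCircle.toCircle (r φ i) = c i φ := fun i => by
    rw [← AddCircle.homeomorphCircle_apply one_ne_zero]
    exact Homeomorph.apply_symm_apply _ _
  have h3 : Multiplicative.ofAdd n = ∏ i, Multiplicative.ofAdd (Pi.single i 1) ^ n i := by
    simp only [← ofAdd_zsmul, ← ofAdd_sum, ← Pi.single_smul, smul_eq_mul, mul_one,
      Finset.univ_sum_single]
  let χ : Multiplicative (ι → ℤ) →* ℂ := (φ : A →* ℂ).comp u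
  change ∏ i, fourier (n i) (r φ i) = χ (Multiplicative.ofAdd n)
  rw [h3, map_prod]
  refine Finset.prod_congr rfl fun i _ => ?_
  rw [fourier_apply, AddCircle.toCircle_zsmul, h2, map_zpow, Circle.coe_zpow]
  rfl

theorem gf_star {B ι : Type} [CStarAlgebra B] [Fintype ι] (u : Multiplicative (ι → ℤ) →* B)
    (hu : ∀ a, star (u a) = u a⁻¹) :
    ∃ ρ : C(UnitAddTorus ι, ℂ) →⋆ₐ[ℂ] B, ∀ n, ρ (mFourier n) = u (Multiplicative.ofAdd n) := by
  let S : StarSubalgebra ℂ B := (StarAlgebra.adjoin ℂ (Set.range u)).topologicalClosure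
  have hS : IsClosed (S : Set B) := StarSubalgebra.isClosed_topologicalClosure _
  have hc : IsMulCommutative (StarAlgebra.adjoin ℂ (Set.range u)) := by
    refine StarAlgebra.isMulCommutative_adjoin ℂ ?_ ?_
    · rintro _ ⟨a, rfl⟩ _ ⟨b, rfl⟩
      rw [← map_mul, ← map_mul, mul_comm]
    · rintro _ ⟨a, rfl⟩ _ ⟨b, rfl⟩
      rw [hu, ← map_mul, ← map_mul, mul_comm]
  let cr : CommRing S := StarSubalgebra.commRingTopologicalClosure _ hc.is_comm.comm
  let _ : CommCStarAlgebra S := { StarSubalgebra.cstarAlgebra S with mul_comm := cr.mul_comm }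
  have hm : ∀ a, u a ∈ S := fun a =>
    StarSubalgebra.le_topologicalClosure _ (StarAlgebra.subset_adjoin ℂ _ ⟨a, rfl⟩)
  obtain ⟨ρ, hρ⟩ := gf_comm (A := S) (u.codRestrict S hm) fun a => Subtype.ext (hu a)
  exact ⟨S.subtype.comp ρ, fun n => congrArg Subtype.val (hρ n)⟩

/-- Gelfand: let `A` be the closure of the star algebra generated by the range of `u` (a commutative C*-algebra:
`StarSubalgebra.topologicalClosure`, `StarAlgebra.adjoin`, build `CommCStarAlgebra` as in
`StarAlgebra.elemental`).  A character `φ` gives the point `i ↦ (φ (u eᵢ) ∈ Circle) ≃ UnitAddCircle`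
(`AddCircle.homeomorphCircle`), continuous in `φ`.  `ρ F = (gelfandStarTransform A).symm (F ∘ r)`. -/
theorem exists_calculus {H ι : Type} [NormedAddCommGroup H] [InnerProductSpace ℂ H] [CompleteSpace H]
    [Fintype ι] (u : Multiplicative (ι → ℤ) →* (H →L[ℂ] H)) (hu : ∀ a, star (u a) = u a⁻¹) :
    ∃ ρ : C(UnitAddTorus ι, ℂ) →⋆ₐ[ℂ] (H →L[ℂ] H),
      (∀ n, ρ (mFourier n) = u (Multiplicative.ofAdd n)) ∧ ∀ F, ‖ρ F‖ ≤ ‖F‖ := by
  obtain ⟨ρ, hρ⟩ := gf_star u hu
  exact ⟨ρ, hρ, fun F => NonUnitalStarAlgHom.norm_apply_le ρ F⟩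

/-- the endomorphism of the torus given by an integer matrix. -/
noncomputable def tmap {ι : Type} [Fintype ι] (C : Matrix ι ι ℤ) : C(UnitAddTorus ι, UnitAddTorus ι) where
  toFun x i := ∑ j, C i j • x j
  continuous_toFun := by fun_prop

theorem mFourier_tmap {ι : Type} [Fintype ι] (C : Matrix ι ι ℤ) (n : ι → ℤ) :
    (mFourier n).comp (tmap C) = mFourier (Matrix.vecMul n C) := by
  ext x
  have h : ∀ s : Finset ι, ∀ f : ι → UnitAddCircle,
      (AddCircle.toCircle (∑ i ∈ s, f i) : ℂ) = ∏ i ∈ s, (AddCircle.toCircle (f i) : ℂ) := fun s f => by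
    classical
    induction s using Finset.induction with
    | empty => simp
    | insert a s ha ih =>
      rw [Finset.sum_insert ha, Finset.prod_insert ha, AddCircle.toCircle_add, Circle.coe_mul, ih]
  change ∏ i, fourier (n i) (∑ j, C i j • x j) = ∏ j, fourier (∑ i, n i * C i j) (x j)
  simp only [fourier_apply]
  rw [← h, ← h]
  simp only [Finset.smul_sum, Finset.sum_smul, mul_smul]
  rw [Finset.sum_comm]

theorem tmap_mul {ι : Type} [Fintype ι] (C C' : Matrix ι ι ℤ) (x : UnitAddTorus ι) :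
    tmap (C * C') x = tmap C (tmap C' x) := by
  funext i
  change ∑ j, (∑ k, C i k * C' k j) • x j = ∑ k, C i k • ∑ j, C' k j • x j
  simp only [Finset.smul_sum, Finset.sum_smul, mul_smul]
  rw [Finset.sum_comm]

/-- continuous linear maps on `C(𝕋^ι)` are determined by their values on characters
(`span_mFourier_closure_eq_top`). -/
theorem torus_ext {ι B : Type} [Fintype ι] [NormedAddCommGroup B] [NormedSpace ℂ B]
    (f g : C(UnitAddTorus ι, ℂ) →ₗ[ℂ] B) (hf : Continuous f) (hg : Continuous g)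
    (h : ∀ n, f (mFourier n) = g (mFourier n)) : f = g := by
  have h1 : Dense (Submodule.span ℂ (Set.range (mFourier (d := ι))) : Set C(UnitAddTorus ι, ℂ)) :=
    Submodule.dense_iff_topologicalClosure_eq_top.2 span_mFourier_closure_eq_top
  refine DFunLike.coe_injective (Continuous.ext_on h1 hf hg ?_)
  refine LinearMap.eqOn_span' ?_
  rintro _ ⟨n, rfl⟩
  exact h n

/-- covariance. -/
theorem calculus_cov {H ι : Type} [NormedAddCommGroup H] [InnerProductSpace ℂ H] [CompleteSpace H]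
    [Fintype ι] (ρ : C(UnitAddTorus ι, ℂ) →⋆ₐ[ℂ] (H →L[ℂ] H)) (hρ : ∀ F, ‖ρ F‖ ≤ ‖F‖)
    (V : H →L[ℂ] H) (C : Matrix ι ι ℤ)
    (h : ∀ n, V * ρ (mFourier n) = ρ (mFourier (Matrix.vecMul n C)) * V) (F : C(UnitAddTorus ι, ℂ)) :
    V * ρ F = ρ (F.comp (tmap C)) * V := by
  have hc : Continuous ρ := AddMonoidHomClass.continuous_of_bound ρ 1 fun F => by simpa using hρ F
  let ρ' : C(UnitAddTorus ι, ℂ) →ₗ[ℂ] (H →L[ℂ] H) := ρ.toAlgHom.toLinearMap
  let τ : C(UnitAddTorus ι, ℂ) →ₗ[ℂ] C(UnitAddTorus ι, ℂ) :=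
    (ContinuousMap.compStarAlgHom' ℂ ℂ (tmap C)).toAlgHom.toLinearMap
  have h1 := torus_ext (LinearMap.mulLeft ℂ V ∘ₗ ρ') (LinearMap.mulRight ℂ V ∘ₗ ρ' ∘ₗ τ)
    (continuous_const.mul hc)
    ((hc.comp (ContinuousMap.continuous_precomp (tmap C))).mul continuous_const) fun n => by
      change V * ρ (mFourier n) = ρ ((mFourier n).comp (tmap C)) * V
      rw [mFourier_tmap, h]
  exact DFunLike.congr_fun h1 F

open MeasureTheory in
theorem gf_coeff {ι : Type} [Fintype ι] (f : UnitAddTorus ι → ℂ) :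
    mFourierCoeff f 0 = ∫ t, f t ∂(Measure.pi fun _ : ι => AddCircle.haarAddCircle) := by
  simp only [mFourierCoeff, neg_zero, mFourier_zero, ContinuousMap.one_apply, one_smul]
  rfl

/-- a non-zero non-negative continuous function has positive mean. -/
theorem mFourierCoeff_ne_zero {ι : Type} [Fintype ι] (F : C(UnitAddTorus ι, ℂ)) (x : UnitAddTorus ι)
    (hx : F x ≠ 0) : mFourierCoeff (fun y => F y * conj (F y)) 0 ≠ 0 := by
  rw [gf_coeff]
  simp only [Complex.mul_conj', ← Complex.ofReal_pow]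
  rw [integral_complex_ofReal, Complex.ofReal_ne_zero]
  refine (Continuous.integral_pos_of_hasCompactSupport_nonneg_nonzero (x := x) (F.continuous.norm.pow 2)
    (HasCompactSupport.of_compactSpace _) (fun y => sq_nonneg _) ?_).ne'
  simpa using hx

theorem mFourierCoeff_mFourier_zero {ι : Type} [Fintype ι] [DecidableEq ι] (n : ι → ℤ) :
    mFourierCoeff (mFourier n) 0 = if n = 0 then 1 else 0 := by
  have h := orthonormal_iff_ite.1 (orthonormal_mFourier (d := ι)) 0 n
  simp only [MeasureTheory.ContinuousMap.inner_toLp, mFourier_zero, ContinuousMap.one_apply, map_one,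
    mul_one] at h
  rw [gf_coeff]
  simp only [eq_comm (a := n)]
  exact h

theorem norm_mFourierCoeff_le {ι : Type} [Fintype ι] (F : C(UnitAddTorus ι, ℂ)) :
    ‖mFourierCoeff F 0‖ ≤ ‖F‖ := by
  rw [gf_coeff]
  simpa using MeasureTheory.norm_integral_le_of_norm_le_const
    (μ := MeasureTheory.Measure.pi fun _ : ι => (AddCircle.haarAddCircle : MeasureTheory.Measure UnitAddCircle))
    (f := F) (C := ‖F‖) (Filter.Eventually.of_forall fun x => F.norm_coe_le_norm x)

end Crest.Agent.R129
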