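import Mathlib

/-!
# R129 / Tri : triangle bumps on the circle and on tori; approximation by trigonometric polynomials
-/

set_option autoImplicit false
open UnitAddTorus

namespace Crest.Agent.R129

/-- triangle bump of half-width `w` centred at `c`. -/
noncomputable def tri (w c : ℝ) : C(UnitAddCircle, ℂ) where
  toFun x := ((max 0 (1 - ‖x - (c : UnitAddCircle)‖ / w) : ℝ) : ℂ)
  continuous_toFun := by fun_prop

/-- product bump. -/
noncomputable def bump {ι : Type} [Fintype ι] (w c : ι → ℝ) : C(UnitAddTorus ι, ℂ) where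
  toFun x := ∏ i, tri (w i) (c i) (x i)
  continuous_toFun := by fun_prop

/-- the same function on the real vector space. -/
noncomputable def rbump {ι : Type} [Fintype ι] (w c : ι → ℝ) (η : ι → ℝ) : ℝ :=
  ∏ i, max 0 (1 - |η i - c i| / w i)

/-- projection to the torus. -/
def tproj {ι : Type} (η : ι → ℝ) : UnitAddTorus ι := fun i => (η i : UnitAddCircle)

theorem tri_apply (w c : ℝ) (x : UnitAddCircle) :
    tri w c x = ((max 0 (1 - ‖x - (c : UnitAddCircle)‖ / w) : ℝ) : ℂ) := rfl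

theorem bump_apply {ι : Type} [Fintype ι] (w c : ι → ℝ) (x : UnitAddTorus ι) :
    bump w c x = ∏ i, tri (w i) (c i) (x i) := rfl

theorem tri_coe (w : ℝ) {c x : ℝ} (h : |x - c| ≤ 1 / 2) :
    tri w c (x : UnitAddCircle) = ((max 0 (1 - |x - c| / w) : ℝ) : ℂ) := by
  rw [tri_apply, ← AddCircle.coe_sub, (AddCircle.norm_coe_eq_abs_iff 1 one_ne_zero).2 (by simpa using h)]

theorem tri_norm_le {w : ℝ} (hw : 0 < w) (c : ℝ) (x : UnitAddCircle) : ‖tri w c x‖ ≤ 1 := by
  rw [tri_apply, Complex.norm_real, Real.norm_eq_abs, abs_of_nonneg (le_max_left _ _)]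
  exact max_le zero_le_one (sub_le_self _ (by positivity))

theorem tri_prod_le {ι : Type} (s : Finset ι) {f : ι → ℝ} {M : ℝ} (h0 : ∀ i, 0 ≤ f i)
    (h : ∀ i, f i ≤ M) : ∏ i ∈ s, f i ≤ M ^ s.card :=
  (Finset.prod_le_prod (fun i _ => h0 i) fun i _ => h i).trans_eq (Finset.prod_const M)

theorem tri_prod {𝕜 ι : Type} [NormedField 𝕜] (s : Finset ι) {f g : ι → 𝕜} {M δ : ℝ} (hM : 1 ≤ M)
    (hf : ∀ i, ‖f i‖ ≤ M) (hg : ∀ i, ‖g i‖ ≤ M) (h : ∀ i, ‖f i - g i‖ ≤ δ) :
    ‖∏ i ∈ s, f i - ∏ i ∈ s, g i‖ ≤ s.card * M ^ s.card * δ := by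
  classical
  induction s using Finset.induction_on with
  | empty => simp
  | insert a s ha ih =>
    have hδ : 0 ≤ δ := (norm_nonneg _).trans (h a)
    have hM0 : 0 ≤ M := by linarith
    have h1 : ‖∏ i ∈ s, f i‖ ≤ M ^ s.card := by
      rw [norm_prod]
      exact tri_prod_le _ (fun i => norm_nonneg _) hf
    rw [Finset.prod_insert ha, Finset.prod_insert ha, Finset.card_insert_of_notMem ha,
      show f a * ∏ i ∈ s, f i - g a * ∏ i ∈ s, g i =
        (f a - g a) * ∏ i ∈ s, f i + g a * (∏ i ∈ s, f i - ∏ i ∈ s, g i) by ring]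
    refine (norm_add_le _ _).trans ?_
    rw [norm_mul, norm_mul]
    have h2 := mul_le_mul (h a) h1 (norm_nonneg _) hδ
    have h3 := mul_le_mul (hg a) ih (norm_nonneg _) hM0
    have h4 : δ * M ^ s.card ≤ δ * M ^ s.card * M := le_mul_of_one_le_right (by positivity) hM
    push_cast
    rw [pow_succ]
    linarith

open Complex in
theorem tri_int {w : ℝ} (hw : 0 < w) (hw' : w ≤ 1 / 2) {k : ℂ} (hk : k ≠ 0) :
    ∫ y in (-(1 / 2) : ℝ)..(1 / 2), cexp (k * y) * ((max 0 (1 - |y| / w) : ℝ) : ℂ) =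
      (cexp (k * w) + cexp (-(k * w)) - 2) / (w * k ^ 2) := by
  have hc : Continuous fun y : ℝ => cexp (k * y) * ((max 0 (1 - |y| / w) : ℝ) : ℂ) := by fun_prop
  have hw0 : (w : ℂ) ≠ 0 := by exact_mod_cast hw.ne'
  have z : ∀ a b : ℝ, a ≤ b → (∀ y ∈ Set.Icc a b, w ≤ |y|) →
      ∫ y in a..b, cexp (k * y) * ((max 0 (1 - |y| / w) : ℝ) : ℂ) = 0 := by
    intro a b hab h
    refine (intervalIntegral.integral_congr (g := fun _ => 0) fun y hy => ?_).trans (by simp)
    rw [Set.uIcc_of_le hab] at hy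
    have : 1 - |y| / w ≤ 0 := by
      rw [sub_nonpos, one_le_div hw]
      exact h y hy
    simp [max_eq_left this]
  have d : ∀ (e : ℂ) (y : ℝ), HasDerivAt
      (fun y : ℝ => cexp (k * y) * ((1 + e * y) / k - e / k ^ 2)) (cexp (k * y) * (1 + e * y)) y := by
    intro e y
    have h1 : HasDerivAt (fun z : ℂ => cexp (k * z) * ((1 + e * z) / k - e / k ^ 2))
        (cexp (k * y) * (1 + e * y)) y := by
      refine (((hasDerivAt_id (y : ℂ)).const_mul k).cexp.mul
        (((((hasDerivAt_id (y : ℂ)).const_mul e).const_add 1).div_const k).sub_const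
          (e / k ^ 2))).congr_deriv ?_
      simp only [id]
      field_simp
      ring
    exact h1.comp_ofReal
  have p : ∀ (e : ℂ) (a b : ℝ), a ≤ b →
      (∀ y ∈ Set.Icc a b, ((max 0 (1 - |y| / w) : ℝ) : ℂ) = 1 + e * y) →
      ∫ y in a..b, cexp (k * y) * ((max 0 (1 - |y| / w) : ℝ) : ℂ) =
        cexp (k * b) * ((1 + e * b) / k - e / k ^ 2) -
          cexp (k * a) * ((1 + e * a) / k - e / k ^ 2) := by
    intro e a b hab h
    rw [← intervalIntegral.integral_eq_sub_of_hasDerivAt (fun y _ => d e y)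
      (Continuous.intervalIntegrable (by fun_prop) _ _)]
    refine intervalIntegral.integral_congr fun y hy => ?_
    rw [Set.uIcc_of_le hab] at hy
    simp only [h y hy]
  rw [← intervalIntegral.integral_add_adjacent_intervals (b := -w) (hc.intervalIntegrable _ _)
      (hc.intervalIntegrable _ _),
    ← intervalIntegral.integral_add_adjacent_intervals (a := -w) (b := 0) (hc.intervalIntegrable _ _)
      (hc.intervalIntegrable _ _),
    ← intervalIntegral.integral_add_adjacent_intervals (a := 0) (b := w) (hc.intervalIntegrable _ _)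
      (hc.intervalIntegrable _ _),
    z _ (-w) (by linarith) (fun y hy => by linarith [neg_le_abs y, hy.2]),
    z w _ hw' (fun y hy => hy.1.trans (le_abs_self y)),
    p (1 / w) (-w) 0 (by linarith) (fun y hy => by
      rw [abs_of_nonpos hy.2, max_eq_right (by
        rw [sub_nonneg, div_le_one hw]; linarith [hy.1])]
      push_cast
      ring),
    p (-(1 / w)) 0 w hw.le (fun y hy => by
      rw [abs_of_nonneg hy.1, max_eq_right (by
        rw [sub_nonneg, div_le_one hw]; exact hy.2)]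
      push_cast
      ring)]
  push_cast
  simp only [mul_zero, Complex.exp_zero, mul_neg]
  field_simp
  ring

open Complex in
theorem tri_coeff {w : ℝ} (hw : 0 < w) (hw' : w ≤ 1 / 2) (c : ℝ) (n : ℤ) :
    ∃ b : ℝ, 0 ≤ b ∧ (n ≠ 0 → b ≤ (4 * w)⁻¹ * ((n : ℝ) ^ 2)⁻¹) ∧
      fourierCoeff (tri w c) n = fourier (-n) (c : UnitAddCircle) * b := by
  have e : fourierCoeff (tri w c) n = fourier (-n) (c : UnitAddCircle) *
      ∫ y in (-(1 / 2) : ℝ)..(1 / 2), cexp (-(2 * Real.pi * I * n) * y) *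
        ((max 0 (1 - |y| / w) : ℝ) : ℂ) := by
    rw [fourierCoeff_eq_intervalIntegral _ n (-(1 / 2) + c), div_one, one_smul,
      show -(1 / 2) + c + 1 = 1 / 2 + c by ring, ← intervalIntegral.integral_comp_add_right,
      ← intervalIntegral.integral_const_mul]
    refine intervalIntegral.integral_congr fun y hy => ?_
    rw [Set.uIcc_of_le (by norm_num)] at hy
    beta_reduce
    rw [tri_coe w (by rw [add_sub_cancel_right]; exact abs_le.2 hy), add_sub_cancel_right,
      fourier_coe_apply, fourier_coe_apply, smul_eq_mul, ← mul_assoc, ← Complex.exp_add]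
    congr 2
    push_cast
    ring
  rw [e]
  by_cases hn : n = 0
  · subst hn
    refine ⟨∫ y in (-(1 / 2) : ℝ)..(1 / 2), max 0 (1 - |y| / w),
      intervalIntegral.integral_nonneg (by norm_num) fun y _ => le_max_left _ _,
      fun h => absurd rfl h, ?_⟩
    rw [← intervalIntegral.integral_ofReal]
    simp
  · have hn' : (n : ℂ) ≠ 0 := by exact_mod_cast hn
    have hn2 : (0 : ℝ) < (n : ℝ) ^ 2 := by positivity
    have hpi := Real.pi_gt_three
    refine ⟨(1 - Real.cos (2 * Real.pi * n * w)) / (2 * Real.pi ^ 2 * n ^ 2 * w),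
      div_nonneg (sub_nonneg.2 (Real.cos_le_one _)) (by positivity), fun _ => ?_, ?_⟩
    · rw [← mul_inv, div_le_iff₀ (by positivity), le_inv_mul_iff₀ (by positivity)]
      have h1 := Real.neg_one_le_cos (2 * Real.pi * n * w)
      have h2 : 0 < w * (n : ℝ) ^ 2 := by positivity
      have h3 : 9 ≤ Real.pi ^ 2 := by nlinarith
      nlinarith
    · have hpi' : (Real.pi : ℂ) ≠ 0 := by exact_mod_cast Real.pi_pos.ne'
      have hw0 : (w : ℂ) ≠ 0 := by exact_mod_cast hw.ne'
      rw [tri_int hw hw' (neg_ne_zero.2 (mul_ne_zero two_pi_I_ne_zero hn'))]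
      congr 1
      push_cast
      rw [Complex.cos, show -(2 * (Real.pi : ℂ) * I * n) * w = -(2 * Real.pi * n * w) * I by ring,
        show -(-(2 * (Real.pi : ℂ) * n * w) * I) = 2 * Real.pi * n * w * I by ring,
        show (-(2 * (Real.pi : ℂ) * I * n)) ^ 2 = -(4 * Real.pi ^ 2 * n ^ 2) by
          linear_combination (4 * (Real.pi : ℂ) ^ 2 * n ^ 2) * I_sq]
      field_simp
      ring

theorem tri_tail (N : ℕ) : ∃ S : ℝ, S ≤ 4 / (N + 1) ∧
    HasSum (fun n : ℤ => if (N : ℤ) < |n| then ((n : ℝ) ^ 2)⁻¹ else 0) S := by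
  have h0 : ∀ m : ℕ, 0 ≤ (if N < m then ((m : ℝ) ^ 2)⁻¹ else 0) := fun m => by positivity
  have h1 : ∀ n, ∑ m ∈ Finset.range n, (if N < m then ((m : ℝ) ^ 2)⁻¹ else 0) ≤ 2 / (N + 1) := by
    intro n
    rw [← Finset.sum_filter]
    refine le_trans (le_of_eq ?_) (sum_Ioo_inv_sq_le N n)
    congr 1
    ext m
    simp [and_comm]
  have h2 := (summable_of_sum_range_le h0 h1).hasSum
  have h3 := Real.tsum_le_of_sum_range_le h0 h1
  refine ⟨_, ?_, HasSum.of_nat_of_neg (by simpa using h2) (by simpa using h2)⟩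
  have : (4 : ℝ) / (N + 1) = 2 / (N + 1) + 2 / (N + 1) := by ring
  simp only [abs_zero, Int.cast_zero, ne_eq, OfNat.ofNat_ne_zero, not_false_eq_true, zero_pow,
    inv_zero, ite_self, sub_zero]
  linarith

/-- The Fourier coefficients of `tri w 0` are `w` at `0` and `sin²(π n w)/(π² n² w)` otherwise (compute with
`fourierCoeff_eq_intervalIntegral` on `[-1/2, 1/2]` and explicit antiderivatives); translation multiplies them by
`fourier (-n) c`.  They are bounded by `min w (1/(π² n² w))`, so the sum is `≤ 3` and the tail is `≤ 1/(w N)`;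
`hasSum_fourier_series_of_summable`. -/
theorem tri_approx {w : ℝ} (hw : 0 < w) (hw' : w ≤ 1 / 2) (c : ℝ) {N : ℕ} (hN : 0 < N) :
    ∃ a : ℤ → ℂ, ∑ n ∈ Finset.Icc (-(N : ℤ)) N, ‖a n‖ ≤ 3 ∧
      ‖tri w c - ∑ n ∈ Finset.Icc (-(N : ℤ)) N, a n • fourier n‖ ≤ 1 / (w * N) := by
  choose b hb0 hb1 hb using tri_coeff hw hw' c
  have hf : ∀ (n : ℤ) (x : UnitAddCircle), ‖fourier n x‖ = 1 := fun n x => Circle.norm_coe _
  have hn : ∀ n, ‖fourierCoeff (tri w c) n‖ = b n := fun n => by
    rw [hb, norm_mul, hf, one_mul, Complex.norm_real, Real.norm_of_nonneg (hb0 n)]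
  obtain ⟨S, hS, hT⟩ := tri_tail N
  have mem : ∀ n : ℤ, n ∉ Finset.Icc (-(N : ℤ)) N → (N : ℤ) < |n| := fun n h => by
    rw [Finset.mem_Icc, ← abs_le] at h
    exact not_le.1 h
  have bd : ∀ n : ℤ, n ∉ Finset.Icc (-(N : ℤ)) N →
      b n ≤ (4 * w)⁻¹ * if (N : ℤ) < |n| then ((n : ℝ) ^ 2)⁻¹ else 0 := fun n h => by
    rw [if_pos (mem n h)]
    refine hb1 n ?_
    rintro rfl
    exact h (by simp)
  have hs : Summable (fourierCoeff (tri w c)) := by
    refine Summable.of_norm_bounded_eventually (hT.summable.mul_left (4 * w)⁻¹) ?_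
    filter_upwards [(Finset.Icc (-(N : ℤ)) N).eventually_cofinite_notMem] with n h
    rw [hn]
    exact bd n h
  have h1 : HasSum b 1 := by
    have h2 := has_pointwise_sum_fourier_series_of_summable hs (c : UnitAddCircle)
    rw [tri_coe w (by simp)] at h2
    rw [← Complex.hasSum_ofReal]
    convert h2 using 1
    · funext n
      rw [hb, smul_eq_mul, mul_right_comm, ← fourier_add, neg_add_cancel, fourier_zero, one_mul]
    · simp
  refine ⟨fourierCoeff (tri w c), ?_, ?_⟩
  · simp only [hn]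
    linarith [sum_le_hasSum (Finset.Icc (-(N : ℤ)) N) (fun n _ => hb0 n) h1]
  · have h2 := (hasSum_fourier_series_of_summable hs).sub
      (hasSum_sum_of_ne_finset_zero (s := Finset.Icc (-(N : ℤ)) N)
        (f := fun n => if n ∈ Finset.Icc (-(N : ℤ)) N then
          fourierCoeff (tri w c) n • (fourier n : C(UnitAddCircle, ℂ)) else 0)
        fun n h => if_neg h)
    rw [Finset.sum_congr rfl fun n h => if_pos h] at h2
    refine (h2.norm_le_of_bounded (hT.mul_left (4 * w)⁻¹) fun n => ?_).trans ?_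
    · by_cases h : n ∈ Finset.Icc (-(N : ℤ)) N
      · rw [if_pos h, sub_self, norm_zero]
        positivity
      · rw [if_neg h, sub_zero, norm_smul, fourier_norm, mul_one, hn]
        exact bd n h
    · have hN' : (0 : ℝ) < N := by exact_mod_cast hN
      refine (mul_le_mul_of_nonneg_left hS (by positivity)).trans ?_
      rw [show (4 * w)⁻¹ * (4 / (N + 1)) = 1 / (w * (N + 1)) by field_simp]
      exact one_div_le_one_div_of_le (by positivity) (by nlinarith)

/-- telescoping product; `Finset.prod_univ_sum`. -/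
theorem bump_approx {ι : Type} [Fintype ι] [DecidableEq ι] {w : ι → ℝ} {w₀ : ℝ} (hw₀ : 0 < w₀)
    (hw : ∀ i, w₀ ≤ w i) (hw' : ∀ i, w i ≤ 1 / 2) (c : ι → ℝ) {N : ℕ} (hN : 0 < N) :
    ∃ a : (ι → ℤ) → ℂ,
      ∑ n ∈ Fintype.piFinset fun _ : ι => Finset.Icc (-(N : ℤ)) N, ‖a n‖ ≤ 3 ^ Fintype.card ι ∧
      ‖bump w c - ∑ n ∈ Fintype.piFinset fun _ : ι => Finset.Icc (-(N : ℤ)) N, a n • mFourier n‖ ≤
        Fintype.card ι * 3 ^ Fintype.card ι / (w₀ * N) := by
  have hp : ∀ i, 0 < w i := fun i => hw₀.trans_le (hw i)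
  have hN' : (0 : ℝ) < N := by exact_mod_cast hN
  choose a ha1 ha2 using fun i => tri_approx (hp i) (hw' i) (c i) hN
  refine ⟨fun n => ∏ i, a i (n i), ?_, ?_⟩
  · simp only [norm_prod]
    rw [← Finset.prod_univ_sum (fun _ => Finset.Icc (-(N : ℤ)) N) fun i n => ‖a i n‖,
      ← Finset.card_univ]
    exact tri_prod_le _ (fun i => Finset.sum_nonneg fun _ _ => norm_nonneg _) ha1
  · refine (ContinuousMap.norm_le _ (by positivity)).2 fun x => ?_
    have e : (∑ n ∈ Fintype.piFinset fun _ : ι => Finset.Icc (-(N : ℤ)) N,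
        (∏ i, a i (n i)) • mFourier n) x =
        ∏ i, (∑ n ∈ Finset.Icc (-(N : ℤ)) N, a i n • (fourier n : C(UnitAddCircle, ℂ))) (x i) := by
      simp only [ContinuousMap.coe_sum, Finset.sum_apply, ContinuousMap.smul_apply, smul_eq_mul]
      rw [Finset.prod_univ_sum]
      refine Finset.sum_congr rfl fun n _ => ?_
      rw [Finset.prod_mul_distrib]
      rfl
    rw [ContinuousMap.sub_apply, e, bump_apply, div_eq_mul_one_div, ← Finset.card_univ]
    refine tri_prod _ (by norm_num) (fun i => (tri_norm_le (hp i) _ _).trans (by norm_num))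
      (fun i => ?_) fun i => ?_
    · refine (ContinuousMap.norm_coe_le_norm _ _).trans ((norm_sum_le _ _).trans ?_)
      simpa only [norm_smul, fourier_norm, mul_one] using ha1 i
    · rw [← ContinuousMap.sub_apply]
      refine (ContinuousMap.norm_coe_le_norm _ _).trans ((ha2 i).trans ?_)
      exact one_div_le_one_div_of_le (by positivity) (mul_le_mul_of_nonneg_right (hw i) hN'.le)

theorem norm_bump_le {ι : Type} [Fintype ι] {w : ι → ℝ} (hw : ∀ i, 0 < w i) (c : ι → ℝ) :
    ‖bump w c‖ ≤ 1 := by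
  refine (ContinuousMap.norm_le _ zero_le_one).2 fun x => ?_
  rw [bump_apply, norm_prod]
  exact Finset.prod_le_one (fun _ _ => norm_nonneg _) fun i _ => tri_norm_le (hw i) _ _

theorem star_bump {ι : Type} [Fintype ι] (w c : ι → ℝ) : star (bump w c) = bump w c := by
  ext x
  simp only [ContinuousMap.star_apply, bump_apply, tri_apply, star_prod, Complex.star_def,
    Complex.conj_ofReal]

theorem bump_tproj {ι : Type} [Fintype ι] (w c η : ι → ℝ) (h : ∀ i, |η i - c i| ≤ 1 / 2) :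
    bump w c (tproj η) = (rbump w c η : ℂ) := by
  rw [bump_apply, rbump, Complex.ofReal_prod]
  exact Finset.prod_congr rfl fun i _ => tri_coe (w i) (h i)

theorem exists_lift_of_bump_ne_zero {ι : Type} [Fintype ι] {w : ι → ℝ} (hw : ∀ i, 0 < w i)
    (c : ι → ℝ) {x : UnitAddTorus ι} (hx : bump w c x ≠ 0) :
    ∃ η : ι → ℝ, tproj η = x ∧ ∀ i, |η i - c i| < w i := by
  have h : ∀ i, ∃ η : ℝ, (η : UnitAddCircle) = x i ∧ |η - c i| < w i := by
    intro i
    have h1 := Finset.prod_ne_zero_iff.1 hx i (Finset.mem_univ i)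
    have h2 : ‖x i - (c i : UnitAddCircle)‖ < w i := by
      by_contra hn
      refine h1 ?_
      rw [tri_apply, max_eq_left (by rw [sub_nonpos, one_le_div (hw i)]; exact not_lt.1 hn)]
      simp
    obtain ⟨y, hy⟩ := QuotientAddGroup.mk_surjective (x i - (c i : UnitAddCircle))
    rw [← hy, UnitAddCircle.norm_eq] at h2
    refine ⟨y - round y + c i, ?_, by rwa [add_sub_cancel_right]⟩
    rw [AddCircle.coe_add, AddCircle.coe_sub, hy,
      (AddCircle.coe_eq_zero_iff 1 (x := (round y : ℝ))).2 ⟨round y, by simp⟩, sub_zero, sub_add_cancel]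
  choose η h1 h2 using h
  exact ⟨η, funext h1, h2⟩

theorem rbump_ne_zero_iff {ι : Type} [Fintype ι] {w : ι → ℝ} (hw : ∀ i, 0 < w i) (c η : ι → ℝ) :
    rbump w c η ≠ 0 ↔ ∀ i, |η i - c i| < w i := by
  rw [rbump, Finset.prod_ne_zero_iff]
  refine forall_congr' fun i => ?_
  rw [← div_lt_one (hw i), ← sub_pos]
  simp only [Finset.mem_univ, true_imp_iff, ne_eq, max_eq_left_iff, not_le]

theorem rbump_mem {ι : Type} [Fintype ι] {w : ι → ℝ} (hw : ∀ i, 0 < w i) (c η : ι → ℝ) :
    0 ≤ rbump w c η ∧ rbump w c η ≤ 1 := by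
  exact ⟨Finset.prod_nonneg fun _ _ => le_max_left _ _,
    Finset.prod_le_one (fun _ _ => le_max_left _ _) fun i _ =>
      max_le zero_le_one (sub_le_self _ (div_nonneg (abs_nonneg _) (hw i).le))⟩

/-- Lipschitz bound. -/
theorem rbump_sub_le {ι : Type} [Fintype ι] {w : ι → ℝ} (hw : ∀ i, 0 < w i) (c η η' : ι → ℝ) {ε : ℝ}
    (h : ∀ i, |η i - η' i| ≤ ε * w i) : |rbump w c η - rbump w c η'| ≤ Fintype.card ι * ε := by
  have hb : ∀ (ξ : ι → ℝ) i, ‖max 0 (1 - |ξ i - c i| / w i)‖ ≤ 1 := fun ξ i => by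
    rw [Real.norm_of_nonneg (le_max_left _ _)]
    exact max_le zero_le_one (sub_le_self _ (div_nonneg (abs_nonneg _) (hw i).le))
  have := tri_prod Finset.univ le_rfl (hb η) (hb η') (δ := ε) fun i => by
    rw [Real.norm_eq_abs, max_comm, max_comm 0]
    refine (abs_max_sub_max_le_abs _ _ _).trans ?_
    rw [sub_sub_sub_cancel_left, ← sub_div, abs_div, abs_of_pos (hw i), div_le_iff₀ (hw i)]
    refine (abs_abs_sub_abs_le_abs_sub _ _).trans ?_
    rw [sub_sub_sub_cancel_right, abs_sub_comm]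
    exact h i
  simpa [rbump] using this

end Crest.Agent.R129
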