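import Crest.Agent.R129.Uni
import Crest.Agent.R129.GF
import Crest.Agent.R129.Tri

/-!
# R129 / GhAlg : the nilpotent group `Q = (ℤ ⊕ J* ⊕ J*) ⋊ (M × M)`

Coordinates `GI k = Option (Bool × UI k)`: `none` is `θ`, `some (σ, p)` is the entry `p` of the strictly upper triangular matrix `ξ_σ`.
`m` acts on the right by `(ξ_σ + c_σ θ) ↦ (ξ_σ + c_σ θ) m_σ`, with `c = b + 1, -b`.  The local action uses
`θ'_σ = c_σ θ - e_σ` (`e = 1, -1`) instead of `c_σ θ`; both agree on the torus.
-/

set_option autoImplicit false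

namespace Crest.Agent.R129

abbrev GI (k : ℕ) : Type := Option (Bool × UI k)
abbrev MM (k : ℕ) : Type := Bool → U k ℤ

section
variable {k : ℕ} (b : ℕ)

def cc (σ : Bool) : ℤ := cond σ (-(b : ℤ)) (b + 1)
def ee (σ : Bool) : ℤ := cond σ (-1) 1

/-- upper triangular matrix with diagonal `d` and entries `η (some (σ, ·))`. -/
def gm {R : Type} [CommRing R] (σ : Bool) (η : GI k → R) (d : R) : Matrix (Fin k) (Fin k) R :=
  fun i j => if h : i < j then η (some (σ, ⟨(i, j), h⟩)) else if i = j then d else 0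

/-- the matrix of the action on the coordinates. -/
def Cm (m : MM k) : Matrix (GI k) (GI k) ℤ
  | none, none => 1
  | none, some _ => 0
  | some (σ, p), none => cc b σ * ent (m σ) p
  | some (σ, p), some (σ', p') => if σ' = σ ∧ p'.1.1 = p.1.1 then (m σ).1 p'.1.2 p.1.2 else 0

theorem ghalg_dite {α R : Type} [Fintype α] [AddCommMonoid R] (q : α → Prop) [DecidablePred q]
    (f : {a // q a} → R) : (∑ a, if h : q a then f ⟨a, h⟩ else 0) = ∑ a, f a := by
  rw [← Fintype.sum_subtype_add_sum_subtype q, Finset.sum_congr rfl (fun a _ => dif_pos a.2),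
    Finset.sum_eq_zero (s := Finset.univ (α := {a // ¬ q a})) (fun a _ => dif_neg a.2), add_zero]

theorem ghalg_key {R : Type} [CommRing R] (σ : Bool) (η : GI k → R) (d : R) (g : U k ℤ) (p : UI k) :
    (gm σ η d * g.1.map (Int.cast : ℤ → R)) p.1.1 p.1.2 = d * ((ent g p : ℤ) : R) +
      ∑ p' : UI k, if p'.1.1 = p.1.1 then (g.1 p'.1.2 p.1.2 : R) * η (some (σ, p')) else 0 := by
  rw [← ghalg_dite (fun q : Fin k × Fin k => q.1 < q.2)
    (fun p' => if p'.1.1 = p.1.1 then (g.1 p'.1.2 p.1.2 : R) * η (some (σ, p')) else 0),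
    Fintype.sum_prod_type, Finset.sum_eq_single p.1.1, Matrix.mul_apply]
  · have h2 : d * ((ent g p : ℤ) : R) = ∑ l : Fin k, if p.1.1 = l then d * (g.1 l p.1.2 : R) else 0 := by
      rw [Finset.sum_ite_eq, if_pos (Finset.mem_univ _), ent]
    rw [h2, ← Finset.sum_add_distrib]
    refine Finset.sum_congr rfl fun l _ => ?_
    simp only [gm, Matrix.map_apply, if_true]
    by_cases h : p.1.1 < l
    · rw [dif_pos h, dif_pos h, if_neg h.ne, zero_add, mul_comm]
    · rw [dif_neg h, dif_neg h, add_zero]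
      split_ifs <;> simp
  · intro i _ hi
    refine Finset.sum_eq_zero fun l _ => ?_
    simp [hi]
  · simp

theorem ghalg_gm {R : Type} [CommRing R] (σ : Bool) (η η' : GI k → R) (d : R) (g : U k ℤ)
    (h : ∀ p : UI k, η' (some (σ, p)) = (gm σ η d * g.1.map (Int.cast : ℤ → R)) p.1.1 p.1.2) :
    gm σ η' d = gm σ η d * g.1.map (Int.cast : ℤ → R) := by
  ext i j
  by_cases hij : i < j
  · exact (dif_pos hij).trans (h ⟨(i, j), hij⟩)
  · rw [Matrix.mul_apply, Finset.sum_eq_single i]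
    · simp only [gm, dif_neg hij, dif_neg (lt_irrefl i), if_true, Matrix.map_apply,
        g.2 i j (not_lt.1 hij), Matrix.one_apply]
      split_ifs <;> simp
    · intro l _ hl
      rcases lt_or_gt_of_ne hl with h1 | h1
      · simp only [gm, dif_neg (not_lt.2 h1.le), if_neg hl.symm, zero_mul]
      · rw [Matrix.map_apply, g.2.zero ((not_lt.1 hij).trans_lt h1), Int.cast_zero, mul_zero]
    · simp

theorem ghalg_map {R : Type} [CommRing R] (g h : U k ℤ) :
    g.1.map (Int.cast : ℤ → R) * h.1.map (Int.cast : ℤ → R) = (g * h).1.map (Int.cast : ℤ → R) :=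
  (Matrix.map_mul (f := Int.castRingHom R)).symm

theorem Cm_mulVec {R : Type} [CommRing R] (m : MM k) (η : GI k → R) (σ : Bool) (p : UI k) :
    ∑ j, (Cm b m (some (σ, p)) j : R) * η j =
      (gm σ η (cc b σ * η none) * (m σ).1.map (Int.cast : ℤ → R)) p.1.1 p.1.2 := by
  rw [ghalg_key, Fintype.sum_option, Fintype.sum_prod_type, Finset.sum_eq_single σ]
  · simp only [Cm, true_and]
    congr 1
    · push_cast
      ring
    · refine Finset.sum_congr rfl fun p' _ => ?_
      split_ifs <;> simp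
  · intro σ' _ h
    refine Finset.sum_eq_zero fun p' _ => ?_
    simp [Cm, h]
  · simp

theorem ghalg_none (m : MM k) (η : GI k → ℤ) : Matrix.mulVec (Cm b m) η none = η none := by
  show ∑ j, Cm b m none j * η j = _
  rw [Fintype.sum_option]
  simp [Cm]

theorem ghalg_some (m : MM k) (η : GI k → ℤ) (σ : Bool) (p : UI k) :
    Matrix.mulVec (Cm b m) η (some (σ, p)) =
      (gm σ η (cc b σ * η none) * (m σ).1.map (Int.cast : ℤ → ℤ)) p.1.1 p.1.2 :=
  Cm_mulVec b m η σ p

theorem Cm_one : Cm b (1 : MM k) = 1 := by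
  refine Matrix.ext_iff_mulVec.2 fun η => funext fun i => ?_
  rw [Matrix.one_mulVec]
  rcases i with _ | ⟨σ, p⟩
  · exact ghalg_none b 1 η
  · rw [ghalg_some]
    show (gm σ η (cc b σ * η none) * (1 : Matrix (Fin k) (Fin k) ℤ).map (Int.cast : ℤ → ℤ))
      p.1.1 p.1.2 = _
    rw [Matrix.map_one _ Int.cast_zero Int.cast_one, Matrix.mul_one]
    exact dif_pos p.2

/-- from `Cm_mulVec` over `ℤ` and associativity: `gm σ (Cm m η) d = gm σ η d * m σ`. -/
theorem Cm_mul (m m' : MM k) : Cm b (m * m') = Cm b m' * Cm b m := by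
  refine Matrix.ext_iff_mulVec.2 fun η => funext fun i => ?_
  rw [← Matrix.mulVec_mulVec]
  rcases i with _ | ⟨σ, p⟩
  · rw [ghalg_none, ghalg_none, ghalg_none]
  · rw [ghalg_some, ghalg_some, ghalg_none,
      ghalg_gm σ η (Matrix.mulVec (Cm b m) η) _ (m σ) (fun q => ghalg_some b m η σ q), Matrix.mul_assoc,
      ghalg_map]
    rfl

theorem exists_phi : ∃ φ : MM k →* MulAut (Multiplicative (GI k → ℤ)),
    ∀ m a, φ m a = Multiplicative.ofAdd (Matrix.vecMul a.toAdd (Cm b m)) := by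
  have h1 : ∀ (m m' : MM k) (a : GI k → ℤ), m * m' = 1 →
      Matrix.vecMul (Matrix.vecMul a (Cm b m')) (Cm b m) = a := fun m m' a h => by
    rw [Matrix.vecMul_vecMul, ← Cm_mul, h, Cm_one, Matrix.vecMul_one]
  refine ⟨MonoidHom.mk' (fun m =>
    { toFun := fun a => Multiplicative.ofAdd (Matrix.vecMul a.toAdd (Cm b m))
      invFun := fun a => Multiplicative.ofAdd (Matrix.vecMul a.toAdd (Cm b m⁻¹))
      left_inv := fun a => congrArg Multiplicative.ofAdd (h1 m⁻¹ m a.toAdd (inv_mul_cancel m))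
      right_inv := fun a => congrArg Multiplicative.ofAdd (h1 m m⁻¹ a.toAdd (mul_inv_cancel m))
      map_mul' := fun a a' => congrArg Multiplicative.ofAdd (Matrix.add_vecMul _ _ _) }) ?_,
    fun _ _ => rfl⟩
  intro m m'
  refine MulEquiv.ext fun a => ?_
  show Multiplicative.ofAdd (Matrix.vecMul a.toAdd (Cm b (m * m'))) =
    Multiplicative.ofAdd (Matrix.vecMul (Matrix.vecMul a.toAdd (Cm b m')) (Cm b m))
  rw [Matrix.vecMul_vecMul, Cm_mul]

noncomputable def phi (k b : ℕ) : MM k →* MulAut (Multiplicative (GI k → ℤ)) := (exists_phi b).choose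

theorem phi_apply (m : MM k) (a : Multiplicative (GI k → ℤ)) :
    phi k b m a = Multiplicative.ofAdd (Matrix.vecMul a.toAdd (Cm b m)) := (exists_phi b).choose_spec m a

/-- the group. -/
abbrev QQ (k b : ℕ) : Type := Multiplicative (GI k → ℤ) ⋊[phi k b] MM k

theorem QQ_torsionFree (g : QQ k b) (hg : IsOfFinOrder g) : g = 1 := by
  have h1 : g.right = 1 := by
    funext σ
    exact U.torsionFree _
      (((Pi.evalMonoidHom (fun _ : Bool => U k ℤ) σ).comp SemidirectProduct.rightHom).isOfFinOrder hg)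
  have h2 : g = SemidirectProduct.inl g.left := by
    ext <;> simp [h1]
  obtain ⟨n, hn, h3⟩ := isOfFinOrder_iff_pow_eq_one.1 hg
  rw [h2, ← map_pow, ← map_one SemidirectProduct.inl, SemidirectProduct.inl_inj] at h3
  have h4 : n • g.left.toAdd = 0 := congrArg Multiplicative.toAdd h3
  have h5 : g.left = 1 := by
    refine Multiplicative.toAdd.injective ?_
    exact (smul_eq_zero.1 h4).resolve_left hn.ne'
  rw [h2, h5, map_one]

/-- `θ'_σ`. -/
def thp (σ : Bool) (θ : ℝ) : ℝ := cc b σ * θ - ee σ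

/-- the local action on the real vector space. -/
def loc (m : MM k) (η : GI k → ℝ) : GI k → ℝ
  | none => η none
  | some (σ, p) => (gm σ η (thp b σ (η none)) * (m σ).1.map (Int.cast : ℤ → ℝ)) p.1.1 p.1.2

theorem gm_loc (m : MM k) (η : GI k → ℝ) (σ : Bool) :
    gm σ (loc b m η) (thp b σ (η none)) =
      gm σ η (thp b σ (η none)) * (m σ).1.map (Int.cast : ℤ → ℝ) := by
  exact ghalg_gm σ η _ _ (m σ) (fun _ => rfl)

theorem loc_one (η : GI k → ℝ) : loc b 1 η = η := by
  funext i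
  rcases i with _ | ⟨σ, p⟩
  · rfl
  · show (gm σ η (thp b σ (η none)) * (1 : Matrix (Fin k) (Fin k) ℤ).map (Int.cast : ℤ → ℝ))
      p.1.1 p.1.2 = _
    rw [Matrix.map_one _ Int.cast_zero Int.cast_one, Matrix.mul_one]
    exact dif_pos p.2

theorem loc_mul (m m' : MM k) (η : GI k → ℝ) : loc b (m * m') η = loc b m' (loc b m η) := by
  funext i
  rcases i with _ | ⟨σ, p⟩
  · rfl
  · show _ = (gm σ (loc b m η) (thp b σ (η none)) * (m' σ).1.map (Int.cast : ℤ → ℝ)) p.1.1 p.1.2
    rw [gm_loc, Matrix.mul_assoc, ghalg_map]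
    rfl

theorem tproj_loc (m : MM k) (η : GI k → ℝ) : tproj (loc b m η) = tmap (Cm b m) (tproj η) := by
  funext i
  have h1 : tmap (Cm b m) (tproj η) i = ((∑ j, (Cm b m i j : ℝ) * η j : ℝ) : UnitAddCircle) := by
    show ∑ j, Cm b m i j • ((η j : ℝ) : UnitAddCircle) = _
    rw [QuotientAddGroup.mk_sum]
    refine Finset.sum_congr rfl fun j _ => ?_
    rw [← zsmul_eq_mul, QuotientAddGroup.mk_zsmul]
  rw [h1]
  rcases i with _ | ⟨σ, p⟩
  · rw [Fintype.sum_option]
    simp [Cm, tproj, loc]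
  · rw [Cm_mulVec]
    show (((gm σ η (thp b σ (η none)) * (m σ).1.map (Int.cast : ℤ → ℝ)) p.1.1 p.1.2 : ℝ) :
      UnitAddCircle) = _
    rw [ghalg_key, ghalg_key, eq_comm, QuotientAddGroup.eq]
    refine ⟨-(ee σ * ent (m σ) p), ?_⟩
    simp only [thp, zsmul_eq_mul]
    push_cast
    ring

end

end Crest.Agent.R129
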