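import Crest.Agent.R129.Graph

/-!
# R129 / Uni : unitriangular groups
-/

set_option autoImplicit false
open FreeGroup

namespace Crest.Agent.R129

/-- positions strictly above the diagonal. -/
abbrev UI (k : ℕ) : Type := {p : Fin k × Fin k // p.1 < p.2}

/-- distance to the diagonal. -/
def UI.ht {k : ℕ} (p : UI k) : ℕ := p.1.2.val - p.1.1.val

section
variable {k : ℕ} {R : Type} [CommRing R]

/-- upper unitriangular. -/
def IsUni (g : Matrix (Fin k) (Fin k) R) : Prop :=
  ∀ i j, j ≤ i → g i j = (1 : Matrix (Fin k) (Fin k) R) i j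

theorem IsUni.zero {g : Matrix (Fin k) (Fin k) R} (hg : IsUni g) {i j : Fin k} (h : j < i) : g i j = 0 := by
  rw [hg i j h.le, Matrix.one_apply_ne h.ne']

theorem IsUni.diag {g : Matrix (Fin k) (Fin k) R} (hg : IsUni g) (i : Fin k) : g i i = 1 := by
  rw [hg i i le_rfl, Matrix.one_apply_eq]

theorem IsUni.mul {g h : Matrix (Fin k) (Fin k) R} (hg : IsUni g) (hh : IsUni h) : IsUni (g * h) := by
  intro i j hji
  rw [Matrix.mul_apply, Finset.sum_eq_single i, hg.diag, one_mul, hh i j hji]
  · intro l _ hl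
    rcases lt_or_gt_of_ne hl with h1 | h1
    · rw [hg.zero h1, zero_mul]
    · rw [hh.zero (hji.trans_lt h1), mul_zero]
  · simp

theorem IsUni.pow_zero' {g : Matrix (Fin k) (Fin k) R} (hg : IsUni g) (n : ℕ) :
    ∀ i j : Fin k, j.val < i.val + n → ((1 - g) ^ n) i j = 0 := by
  induction n with
  | zero => intro i j h; rw [pow_zero, Matrix.one_apply_ne (fun e => by rw [e] at h; omega)]
  | succ n ih =>
    intro i j h
    rw [pow_succ, Matrix.mul_apply]
    refine Finset.sum_eq_zero fun l _ => ?_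
    by_cases hl : l.val < i.val + n
    · rw [ih i l hl, zero_mul]
    · rw [Matrix.sub_apply, hg l j (by rw [Fin.le_def]; omega), sub_self, mul_zero]

/-- the inverse is `∑_{j<k} (1 - g)^j` (`(1-g)^k = 0`: `(1-g)^n i j = 0` unless `i + n ≤ j`). -/
theorem IsUni.exists_inv {g : Matrix (Fin k) (Fin k) R} (hg : IsUni g) :
    IsUni (∑ j ∈ Finset.range (k + 1), (1 - g) ^ j) ∧
      g * (∑ j ∈ Finset.range (k + 1), (1 - g) ^ j) = 1 ∧
      (∑ j ∈ Finset.range (k + 1), (1 - g) ^ j) * g = 1 := by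
  have h0 : (1 - g) ^ (k + 1) = 0 := by
    ext i j
    exact hg.pow_zero' _ i j (by omega)
  refine ⟨fun i j hji => ?_, ?_, ?_⟩
  · rw [Finset.sum_range_succ', pow_zero, Matrix.add_apply, Matrix.sum_apply, Finset.sum_eq_zero, zero_add]
    intro m _
    exact hg.pow_zero' _ i j (by rw [Fin.le_def] at hji; omega)
  · have := mul_neg_geom_sum (1 - g) (k + 1)
    rwa [h0, sub_sub_cancel, sub_zero] at this
  · have := geom_sum_mul_neg (1 - g) (k + 1)
    rwa [h0, sub_sub_cancel, sub_zero] at this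

end

/-- the group of upper unitriangular matrices. -/
def U (k : ℕ) (R : Type) [CommRing R] : Type := {g : Matrix (Fin k) (Fin k) R // IsUni g}

section
variable {k : ℕ} {R : Type} [CommRing R]

noncomputable instance : Group (U k R) where
  mul g h := ⟨g.1 * h.1, g.2.mul h.2⟩
  one := ⟨1, fun _ _ _ => rfl⟩
  inv g := ⟨∑ j ∈ Finset.range (k + 1), (1 - g.1) ^ j, g.2.exists_inv.1⟩
  mul_assoc a b c := Subtype.ext (Matrix.mul_assoc a.1 b.1 c.1)
  one_mul a := Subtype.ext (Matrix.one_mul a.1)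
  mul_one a := Subtype.ext (Matrix.mul_one a.1)
  inv_mul_cancel a := Subtype.ext a.2.exists_inv.2.2

@[simp] theorem U.val_mul (g h : U k R) : (g * h).1 = g.1 * h.1 := rfl
@[simp] theorem U.val_one : (1 : U k R).1 = 1 := rfl
theorem U.val_inv (g : U k R) : (g⁻¹).1 = ∑ j ∈ Finset.range (k + 1), (1 - g.1) ^ j := rfl

/-- entries above the diagonal. -/
def ent (g : U k R) (p : UI k) : R := g.1 p.1.1 p.1.2

/-- the unitriangular matrix with given entries. -/
def uni (m : UI k → R) : U k R :=
  ⟨fun i j => if h : i < j then m ⟨(i, j), h⟩ else (1 : Matrix (Fin k) (Fin k) R) i j,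
    fun i j h => by simp only [dif_neg (not_lt.2 h)]⟩

theorem ent_uni (m : UI k → R) : ent (uni m) = m := by
  funext p
  exact dif_pos p.2

theorem uni_ent (g : U k R) : uni (ent g) = g := by
  refine Subtype.ext ?_
  ext i j
  by_cases h : i < j
  · exact dif_pos h
  · exact (dif_neg h).trans (g.2 i j (not_lt.1 h)).symm

/-- change of rings. -/
theorem exists_map {R' : Type} [CommRing R'] (φ : R →+* R') :
    ∃ f : U k R →* U k R', ∀ g, (f g).1 = g.1.map φ := by
  refine ⟨MonoidHom.mk' (fun g => ⟨g.1.map φ, fun i j h => ?_⟩) fun a b => Subtype.ext ?_, fun _ => rfl⟩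
  · rw [Matrix.map_apply, g.2 i j h, Matrix.one_apply, Matrix.one_apply]
    split_ifs <;> simp
  · exact Matrix.map_mul

theorem U.card [Finite R] : Nat.card (U k R) = Nat.card R ^ Fintype.card (UI k) := by
  rw [Nat.card_congr (⟨ent, uni, uni_ent, ent_uni⟩ : U k R ≃ (UI k → R)), Nat.card_fun,
    Nat.card_eq_fintype_card (α := UI k)]

theorem U.val_pow (g : U k R) (n : ℕ) : (g ^ n).1 = g.1 ^ n := by
  induction n with
  | zero => rw [pow_zero, pow_zero, U.val_one]
  | succ n ih => rw [pow_succ, pow_succ, U.val_mul, ih]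

instance [Finite R] : Finite (U k R) :=
  Finite.of_injective ent (Function.LeftInverse.injective uni_ent)

/-- `(g - 1) * ∑_{i<n} g^i = 0`, and the sum is upper triangular with diagonal `n`, so its determinant is
`n^k ≠ 0` (adjugate). -/
theorem U.torsionFree (g : U k ℤ) (hg : IsOfFinOrder g) : g = 1 := by
  obtain ⟨n, hn, h1⟩ := isOfFinOrder_iff_pow_eq_one.1 hg
  have h2 : (∑ i ∈ Finset.range n, g.1 ^ i) * (g.1 - 1) = 0 := by
    rw [geom_sum_mul, ← U.val_pow, h1, U.val_one, sub_self]
  have h3 : (∑ i ∈ Finset.range n, g.1 ^ i).BlockTriangular id := by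
    intro i j h
    rw [Matrix.sum_apply]
    refine Finset.sum_eq_zero fun m _ => ?_
    rw [← U.val_pow]; exact (g ^ m).2.zero h
  have h4 : (∑ i ∈ Finset.range n, g.1 ^ i).det ≠ 0 := by
    rw [Matrix.det_of_isUpperTriangular h3]
    refine Finset.prod_ne_zero_iff.2 fun i _ => ?_
    rw [Matrix.sum_apply, Finset.sum_congr rfl (g := fun _ => (1 : ℤ))
      (fun m _ => by rw [← U.val_pow]; exact (g ^ m).2.diag i)]
    simpa using hn.ne'
  have h5 := congrArg (fun M => Matrix.adjugate (∑ i ∈ Finset.range n, g.1 ^ i) * M) h2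
  simp only [← Matrix.mul_assoc, Matrix.adjugate_mul, Matrix.mul_zero, Matrix.smul_mul, Matrix.one_mul] at h5
  exact Subtype.ext (sub_eq_zero.1 ((smul_eq_zero.1 h5).resolve_left h4))

end

/-- graded bound `|g i j| ≤ T^(j-i)`. -/
def GrB {k : ℕ} {R : Type} [CommRing R] [LinearOrder R] (T : R) (g : U k R) : Prop :=
  ∀ p : UI k, |ent g p| ≤ T ^ p.ht

section
variable {k : ℕ} {R : Type} [CommRing R] [LinearOrder R] [IsStrictOrderedRing R]

theorem GrB.mono {T T' : R} (h0 : 0 ≤ T) (h : T ≤ T') {g : U k R} (hg : GrB T g) : GrB T' g :=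
  fun p => (hg p).trans (pow_le_pow_left₀ h0 h _)

theorem UI.ht_pos (p : UI k) : 0 < p.ht := by
  have := p.2
  rw [Fin.lt_def] at this
  unfold UI.ht; omega

theorem GrB.of_le {T : R} (h1 : 1 ≤ T) {g : U k R} (hg : ∀ p, |ent g p| ≤ T) : GrB T g :=
  fun p => (hg p).trans (le_self_pow₀ h1 p.ht_pos.ne')

theorem GrB.le {T : R} {g : U k R} (hg : GrB T g) {i j : Fin k} (h : i ≤ j) :
    |g.1 i j| ≤ T ^ (j.val - i.val) := by
  rcases h.eq_or_lt with rfl | h
  · rw [g.2.diag, abs_one, Nat.sub_self, pow_zero]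
  · exact hg ⟨(i, j), h⟩

theorem uni_sum_le (i : Fin k) (m : ℕ) {f : Fin k → R} {F : ℕ → R} (hF : ∀ a, 0 ≤ F a)
    (h0 : ∀ l : Fin k, l < i ∨ i.val + m ≤ l.val → f l = 0)
    (h1 : ∀ l : Fin k, i ≤ l → l.val < i.val + m → |f l| ≤ F (l.val - i.val)) :
    |∑ l, f l| ≤ ∑ a ∈ Finset.range m, F a := by
  set s := Finset.univ.filter (fun l : Fin k => i ≤ l ∧ l.val < i.val + m) with hs
  have hinj : Set.InjOn (fun l : Fin k => l.val - i.val) s := by
    intro a ha b hb e
    simp only [hs, Finset.coe_filter, Finset.mem_univ, true_and, Set.mem_ofPred_eq, Fin.le_def] at ha hb e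
    exact Fin.ext (by omega)
  calc |∑ l, f l| = |∑ l ∈ s, f l| := by
        rw [Finset.sum_subset (Finset.subset_univ s)]
        intro l _ hl
        simp only [hs, Finset.mem_filter, Finset.mem_univ, true_and, not_and_or, not_le, not_lt] at hl
        exact h0 l hl
    _ ≤ ∑ l ∈ s, |f l| := Finset.abs_sum_le_sum_abs _ _
    _ ≤ ∑ l ∈ s, F (l.val - i.val) := Finset.sum_le_sum fun l hl => by
        simp only [hs, Finset.mem_filter, Finset.mem_univ, true_and] at hl
        exact h1 l hl.1 hl.2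
    _ = ∑ a ∈ s.image (fun l : Fin k => l.val - i.val), F a := (Finset.sum_image hinj).symm
    _ ≤ _ := by
        refine Finset.sum_le_sum_of_subset_of_nonneg (fun a ha => ?_) fun a _ _ => hF a
        obtain ⟨l, hl, rfl⟩ := Finset.mem_image.1 ha
        simp only [hs, Finset.mem_filter, Finset.mem_univ, true_and, Fin.le_def] at hl
        rw [Finset.mem_range]; omega

/-- `∑_{a+b=δ} S^a T^b ≤ (S+T)^δ`. -/
theorem GrB.mul {S T : R} (hS : 0 ≤ S) (hT : 0 ≤ T) {g h : U k R} (hg : GrB S g) (hh : GrB T h) :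
    GrB (S + T) (g * h) := by
  rintro ⟨⟨i, j⟩, hij⟩
  show |(g.1 * h.1) i j| ≤ (S + T) ^ (j.val - i.val)
  have hij' : i.val < j.val := hij
  rw [Matrix.mul_apply]
  refine (uni_sum_le i (j.val - i.val + 1) (F := fun a => S ^ a * T ^ (j.val - i.val - a))
    (fun a => by positivity) (fun l hl => ?_) (fun l h1 h2 => ?_)).trans ?_
  · rcases hl with hl | hl
    · rw [g.2.zero hl, zero_mul]
    · rw [h.2.zero (by rw [Fin.lt_def]; omega), mul_zero]
  · rw [abs_mul]
    have e : j.val - i.val - (l.val - i.val) = j.val - l.val := by rw [Fin.le_def] at h1; omega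
    simp only [e]
    exact mul_le_mul (hg.le h1) (hh.le (by rw [Fin.le_def]; omega)) (abs_nonneg _) (by positivity)
  · rw [add_pow]
    refine Finset.sum_le_sum fun a ha => le_mul_of_one_le_right (by positivity) ?_
    exact_mod_cast Nat.choose_pos (Nat.lt_succ_iff.1 (Finset.mem_range.1 ha))

/-- from `g⁻¹ i j = -∑_{i ≤ l < j} g⁻¹ i l * g l j`, by induction on `j - i`. -/
theorem GrB.inv {T : R} (hT : 0 ≤ T) {g : U k R} (hg : GrB T g) : GrB (2 * T) g⁻¹ := by
  have key : ∀ (δ : ℕ) (i j : Fin k), i ≤ j → j.val - i.val = δ → |(g⁻¹).1 i j| ≤ (2 * T) ^ δ := by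
    intro δ
    induction δ using Nat.strong_induction_on with
    | _ δ ih =>
      intro i j hij e
      rcases hij.eq_or_lt with rfl | hij
      · rw [(g⁻¹).2.diag, abs_one, ← e, Nat.sub_self, pow_zero]
      have hij' : i.val < j.val := hij
      have h1 : ((g⁻¹).1 * g.1) i j = 0 := by
        rw [← U.val_mul, inv_mul_cancel, U.val_one, Matrix.one_apply_ne hij.ne]
      have h2 : (g⁻¹).1 i j = -∑ l, if l = j then 0 else (g⁻¹).1 i l * g.1 l j := by
        rw [Matrix.mul_apply, ← Finset.add_sum_erase _ _ (Finset.mem_univ j), g.2.diag, mul_one] at h1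
        rw [← Finset.add_sum_erase _ _ (Finset.mem_univ j), if_pos rfl, zero_add,
          Finset.sum_congr rfl (fun l hl => if_neg (Finset.ne_of_mem_erase hl))]
        exact eq_neg_of_add_eq_zero_left h1
      rw [h2, abs_neg]
      refine (uni_sum_le i δ (F := fun a => 2 ^ a * T ^ δ) (fun a => by positivity)
        (fun l hl => ?_) (fun l h3 h4 => ?_)).trans ?_
      · split_ifs with h5
        · rfl
        · rcases hl with hl | hl
          · rw [(g⁻¹).2.zero hl, zero_mul]
          · rw [g.2.zero (lt_of_le_of_ne (by rw [Fin.le_def]; omega) (Ne.symm h5)), mul_zero]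
      · have h3' : i.val ≤ l.val := h3
        rw [if_neg (fun e' => by rw [e'] at h4; omega), abs_mul]
        refine (mul_le_mul (ih _ (by omega) i l h3 rfl) (hg.le (by rw [Fin.le_def]; omega))
          (abs_nonneg _) (by positivity)).trans (le_of_eq ?_)
        rw [mul_pow, mul_assoc, ← pow_add]
        congr 2; omega
      · rw [← Finset.sum_mul, mul_pow]
        refine mul_le_mul_of_nonneg_right ?_ (by positivity)
        have := geom_sum_mul (2 : R) δ
        norm_num at this
        linarith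
  exact fun p => key _ _ _ p.2.le rfl

theorem GrB.prod {T : R} (hT : 0 ≤ T) (l : List (U k R)) (h : ∀ g ∈ l, GrB T g) :
    GrB (l.length * T) l.prod := by
  induction l with
  | nil =>
    intro p
    rw [List.prod_nil, ent, U.val_one, Matrix.one_apply_ne p.2.ne, abs_zero]
    positivity
  | cons a l ih =>
    rw [List.prod_cons, List.length_cons, Nat.cast_succ, add_mul, one_mul, add_comm]
    exact GrB.mul hT (by positivity) (h a (by simp)) (ih fun g hg => h g (by simp [hg]))

end

/-- the integer matrices with a graded bound form a finite set of size `≤ ∏ (2 T^ht + 1)`. -/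
theorem exists_grB_finset (k T : ℕ) :
    ∃ s : Finset (U k ℤ), (∀ g, g ∈ s ↔ GrB (T : ℤ) g) ∧ s.card = ∏ p : UI k, (2 * T ^ p.ht + 1) := by
  refine ⟨(Fintype.piFinset fun p : UI k => Finset.Icc (-(T : ℤ) ^ p.ht) ((T : ℤ) ^ p.ht)).map
    ⟨uni, Function.LeftInverse.injective ent_uni⟩, fun g => ?_, ?_⟩
  · simp only [Finset.mem_map, Fintype.mem_piFinset, Finset.mem_Icc, Function.Embedding.coeFn_mk]
    constructor
    · rintro ⟨m, hm, rfl⟩ p
      rw [ent_uni]; exact abs_le.2 (hm p)
    · exact fun h => ⟨ent g, fun p => abs_le.1 (h p), uni_ent g⟩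
  · rw [Finset.card_map, Fintype.card_piFinset]
    refine Finset.prod_congr rfl fun p _ => ?_
    rw [Int.card_Icc, ← Nat.cast_pow]
    omega

end Crest.Agent.R129
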