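import Crest.Agent.R129.HilbG
import Crest.Agent.R129.Uni

/-!
# R129 / GhostDef : the ghost package (interface)

A torsion-free group `Q` containing `M × M` (`M = U k ℤ`, the two factors indexed by `Bool`) as a retract, and a banded
self-adjoint matrix `P n n'` (`n, n' : ℤ`) of operators in the reduced algebra of `Q`, a multiple of a projection, almost invariant
under elements of `M × M` whose size grows exponentially with the level.
-/

set_option autoImplicit false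
open scoped InnerProductSpace ComplexConjugate

namespace Crest.Agent.R129

/-- positive part (`σ = false`) and negative part (`σ = true`) of the level. -/
def lvp (σ : Bool) (n : ℤ) : ℕ := cond σ (-n).toNat n.toNat

/-- entries bounded by `2^(a + lvp σ n)`. -/
def Tiny {k : ℕ} (a : ℕ) (n : ℤ) (m : Bool → U k ℤ) : Prop :=
  ∀ σ p, |ent (m σ) p| ≤ 2 ^ (a + lvp σ n)

structure Ghost (k K ν : ℕ) where
  Q : Type
  [grp : Group Q]
  tf : ∀ g : Q, IsOfFinOrder g → g = 1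
  ι : (Bool → U k ℤ) →* Q
  pr : Q →* (Bool → U k ℤ)
  pr_ι : ∀ m, pr (ι m) = m
  P : ℤ → ℤ → (L2 Q ℂ →L[ℂ] L2 Q ℂ)
  P_star : ∀ n n', star (P n n') = P n' n
  P_band : ∀ n n', 2 ≤ (n - n').natAbs → P n n' = 0
  P_band2 : ∀ n n' l, 2 ≤ (n - n').natAbs → P n l * P l n' = 0
  P_norm : ∀ n n', ‖P n n'‖ ≤ K
  P_ne : P 0 0 ≠ 0
  G : ℤ → (L2 Q ℂ →L[ℂ] L2 Q ℂ)
  G_sa : ∀ n, IsSelfAdjoint (G n)
  G_norm : ∀ n, ‖G n‖ ≤ K
  GPP : ∀ n n', G n * ∑ l ∈ Finset.Icc (n - 1) (n + 1), P n l * P l n' = P n n'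
  inv : ∀ l n j m, j ≤ ν → Tiny (ν - j) n m → ‖P l n * (lam (ι m) - 1)‖ ≤ K / 2 ^ j
  A : ℤ → ℤ → (Q →₀ ℂ)
  A_l1 : ∀ n n', l1 (A n n') ≤ K
  A_approx : ∀ n n',
    ‖lamS (A n n') - ∑ l ∈ Finset.Icc (n - 1) (n + 1), P n l * P l n'‖ ≤ K / 2 ^ ν
  growth : ∀ (n : ℤ) (L : ℕ), ∃ W : Finset Q,
    W.card ≤ (L + 2) ^ K * 2 ^ (K * (n.natAbs + ν + 1)) ∧
    ∀ l : List Q, l.length = L → (∀ g ∈ l, ∃ u m, Tiny ν n m ∧
      (u = 1 ∨ ∃ n', (n' - n).natAbs ≤ 1 ∧ u ∈ (A n' n).support) ∧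
      (g = u * ι m ∨ g = (u * ι m)⁻¹)) → l.prod ∈ W

attribute [instance] Ghost.grp

end Crest.Agent.R129
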