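import Crest.Agent.R129.GhSz
import Crest.Agent.R129.GhostDef

/-!
# R129 / GhGeo : boxes and bumps

`R = 2^(k+2)`.  With `θ = (1 + t/b)/(b+1)`, `t ∈ (0,1)`: `θ'_false = t/b`, `θ'_true = (1-t)/(b+1)`.  The level `n` lives on
`t ∈ (lo n, hi n)`; the entry `p` of `ξ_σ` is smaller than `th σ n * (NN σ n)^(ht p)`.
-/

set_option autoImplicit false

namespace Crest.Agent.R129

section
variable (k ν : ℕ)

def RR : ℕ := 2 ^ (k + 2)
def NN (σ : Bool) (n : ℤ) : ℕ := 2 ^ (ν + lvp σ n)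
def bb : ℕ := 4 * RR k * (10 * RR k ^ 2 * 2 ^ ν) ^ k

noncomputable def lo (n : ℤ) : ℝ :=
  if 0 ≤ n then (RR k : ℝ) ^ (-(n + 1)) / 2 else 1 - (RR k : ℝ) ^ (n + 1) / 2
noncomputable def hi (n : ℤ) : ℝ :=
  if 0 < n then (RR k : ℝ) ^ (-(n - 1)) / 2 else 1 - (RR k : ℝ) ^ (n - 1) / 2

/-- the scale of `θ'_σ` on the level `n`. -/
noncomputable def th (σ : Bool) (n : ℤ) : ℝ :=
  (RR k : ℝ) / ((RR k : ℝ) ^ lvp σ n * (bb k ν + σ.toNat))

/-- half-widths. -/
noncomputable def wd (n : ℤ) : GI k → ℝ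
  | none => (hi k n - lo k n) / (2 * bb k ν * (bb k ν + 1))
  | some (σ, p) => th k ν σ n * (NN ν σ n : ℝ) ^ p.ht

/-- centres. -/
noncomputable def ct (n : ℤ) : GI k → ℝ
  | none => (1 + (lo k n + hi k n) / 2 / bb k ν) / (bb k ν + 1)
  | some _ => 0

def Box (n : ℤ) : Set (GI k → ℝ) := {η | ∀ i, |η i - ct k ν n i| < wd k ν n i}

/-- normalisation. -/
noncomputable def cn (n : ℤ) : ℝ := (√(∏ σ : Bool, ∏ p : UI k, (NN ν σ n : ℝ) ^ p.ht))⁻¹

/-- real bump. -/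
noncomputable def rb (n : ℤ) (η : GI k → ℝ) : ℝ := cn k ν n * rbump (wd k ν n) (ct k ν n) η

/-- the bump on the torus. -/
noncomputable def Phi (n : ℤ) : C(UnitAddTorus (GI k), ℂ) :=
  (cn k ν n : ℂ) • bump (wd k ν n) (ct k ν n)

/-- the relevant group elements. -/
def Rel (n n' : ℤ) : Set (MM k) := {m | ∃ η ∈ Box k ν n, loc (bb k ν) m η ∈ Box k ν n'}

variable {k ν}

theorem gg_R : (4 : ℝ) ≤ RR k := by
  have : 4 ≤ RR k := by
    unfold RR
    calc 4 = 2 ^ 2 := by norm_num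
      _ ≤ 2 ^ (k + 2) := Nat.pow_le_pow_right (by norm_num) (by omega)
  exact_mod_cast this

theorem gg_R0 : (0 : ℝ) < RR k := by linarith [gg_R (k := k)]

theorem gg_b : 4 * (RR k : ℝ) * (2 ^ ν) ^ k ≤ bb k ν := by
  have h := gg_R (k := k)
  unfold bb
  push_cast
  gcongr
  exact le_mul_of_one_le_left (by positivity) (by nlinarith)

theorem gg_b1 : (1 : ℝ) ≤ bb k ν := by
  have h := gg_R (k := k)
  have h1 : (1 : ℝ) ≤ (2 ^ ν) ^ k := one_le_pow₀ (one_le_pow₀ one_le_two)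
  nlinarith [gg_b (k := k) (ν := ν)]

theorem gg_N (σ : Bool) (n : ℤ) : (1 : ℝ) ≤ NN ν σ n := by
  unfold NN
  push_cast
  exact one_le_pow₀ one_le_two

theorem gg_sym (n : ℤ) : lo k (-n) = 1 - hi k n := by
  unfold lo hi
  split_ifs with h1 h2 h2
  · omega
  · rw [show -(-n + 1) = n - 1 by ring]; ring
  · rw [show -n + 1 = -(n - 1) by ring]
  · omega

theorem gg_sym' (n : ℤ) : hi k (-n) = 1 - lo k n := by
  have := gg_sym (k := k) (-n)
  rw [neg_neg] at this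
  linarith

theorem gg_hi_lo (n : ℤ) : hi k (n + 2) = lo k n := by
  unfold lo hi
  split_ifs with h1 h2 h2
  · rw [show -(n + 2 - 1) = -(n + 1) by ring]
  · obtain rfl : n = -1 := by omega
    norm_num
  · omega
  · rw [show n + 2 - 1 = n + 1 by ring]

theorem gg_anti : Antitone (lo k) := by
  have h := gg_R (k := k)
  refine antitone_int_of_succ_le fun n => ?_
  unfold lo
  split_ifs with h1 h2 h2
  · gcongr
    · linarith
    · omega
  · obtain rfl : n = -1 := by omega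
    have : (RR k : ℝ)⁻¹ ≤ 1 := inv_le_one_of_one_le₀ (by linarith)
    simp only [neg_add_cancel, zpow_zero, zero_add, zpow_neg_one]
    linarith
  · omega
  · gcongr
    · linarith
    · omega

theorem gg_lo_nat (m : ℕ) : lo k m = ((RR k : ℝ) ^ (m + 1))⁻¹ / 2 := by
  unfold lo
  rw [if_pos (by positivity), zpow_neg]
  norm_cast

theorem gg_hi_nat (m : ℕ) : hi k (m + 1 : ℕ) = ((RR k : ℝ) ^ m)⁻¹ / 2 := by
  unfold hi
  rw [if_pos (by positivity), zpow_neg]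
  simp

theorem gg_hi_zero : hi k 0 = 1 - (RR k : ℝ)⁻¹ / 2 := by simp [hi]

theorem gg_lo_pos (n : ℤ) : 0 < lo k n := by
  have h := gg_R0 (k := k)
  refine lt_of_lt_of_le ?_ (gg_anti (Int.le_natAbs (a := n)))
  rw [gg_lo_nat]
  positivity

theorem gg_hi_lt (n : ℤ) : hi k n < 1 := by
  have := gg_lo_pos (k := k) (-n)
  rw [gg_sym] at this
  linarith

theorem gg_gap_nat (m : ℕ) : ((RR k : ℝ) ^ (m + 1))⁻¹ / 2 ≤ hi k m - lo k m := by
  have h := gg_R (k := k)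
  rw [gg_lo_nat]
  cases m with
  | zero =>
    have : (RR k : ℝ)⁻¹ ≤ 4⁻¹ := inv_anti₀ (by norm_num) h
    simp only [Nat.cast_zero, gg_hi_zero, zero_add, pow_one]
    linarith
  | succ m =>
    rw [gg_hi_nat]
    have h1 : 2 * ((RR k : ℝ) ^ (m + 1 + 1))⁻¹ ≤ ((RR k : ℝ) ^ m)⁻¹ := by
      rw [← div_eq_mul_inv, inv_eq_one_div, div_le_div_iff₀ (by positivity) (by positivity), pow_succ,
        pow_succ]
      have : 0 < (RR k : ℝ) ^ m := by positivity
      have : (2 : ℝ) ≤ RR k * RR k := by nlinarith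
      nlinarith
    linarith

theorem gg_gap (n : ℤ) : ((RR k : ℝ) ^ (n.natAbs + 1))⁻¹ / 2 ≤ hi k n - lo k n := by
  obtain ⟨m, rfl | rfl⟩ := n.eq_nat_or_neg
  · simpa using gg_gap_nat m
  · have := gg_gap_nat (k := k) m
    rw [gg_sym, gg_sym', Int.natAbs_neg, Int.natAbs_natCast]
    linarith

theorem gg_lt (n : ℤ) : lo k n < hi k n := by
  have h := gg_R0 (k := k)
  have : 0 < ((RR k : ℝ) ^ (n.natAbs + 1))⁻¹ / 2 := by positivity
  linarith [gg_gap (k := k) n]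

theorem gg_scale (n : ℤ) : ((RR k : ℝ) ^ (n.toNat + 1))⁻¹ / 2 ≤ lo k n ∧
    hi k n ≤ RR k / (RR k : ℝ) ^ n.toNat := by
  have h := gg_R (k := k)
  refine ⟨(gg_lo_nat _).ge.trans (gg_anti (Int.self_le_toNat n)), ?_⟩
  rcases le_or_gt n 0 with hn | hn
  · rw [Int.toNat_of_nonpos hn, pow_zero, div_one]
    linarith [gg_hi_lt (k := k) n]
  · obtain ⟨m, rfl⟩ : ∃ m : ℕ, n = (m + 1 : ℕ) := ⟨(n - 1).toNat, by omega⟩
    rw [gg_hi_nat, Int.toNat_natCast, pow_succ]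
    have : 0 < ((RR k : ℝ) ^ m)⁻¹ := by positivity
    have e : RR k / ((RR k : ℝ) ^ m * RR k) = ((RR k : ℝ) ^ m)⁻¹ := by field_simp
    linarith

theorem gg_th_pos (σ : Bool) (n : ℤ) : 0 < th k ν σ n := by
  have h := gg_R0 (k := k)
  have h1 := gg_b1 (k := k) (ν := ν)
  unfold th
  positivity

theorem gg_ratio (n : ℤ) (θ : ℝ) : |θ - ct k ν n none| / wd k ν n none =
    |bb k ν * thp (bb k ν) false θ - (lo k n + hi k n) / 2| / ((hi k n - lo k n) / 2) := by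
  have h1 := gg_b1 (k := k) (ν := ν)
  have h2 := sub_pos.2 (gg_lt (k := k) n)
  have e : θ - ct k ν n none = (bb k ν * thp (bb k ν) false θ - (lo k n + hi k n) / 2) /
      (bb k ν * (bb k ν + 1)) := by
    simp only [ct, thp, cc, ee, cond_false]
    push_cast
    field_simp
    ring
  rw [e, abs_div, abs_of_pos (by positivity : (0 : ℝ) < bb k ν * (bb k ν + 1))]
  simp only [wd]
  field_simp

theorem gg_cov_of {l : ℤ} {t δ : ℝ} (hδ : (hi k l - lo k l) / (2 * (RR k : ℝ) ^ 2) ≤ δ)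
    (h1 : lo k l + δ ≤ t) (h2 : t + δ ≤ hi k l) :
    1 / (RR k : ℝ) ^ 2 ≤ 1 - |t - (lo k l + hi k l) / 2| / ((hi k l - lo k l) / 2) := by
  have h := gg_R0 (k := k)
  have h0 := sub_pos.2 (gg_lt (k := k) l)
  rw [le_sub_comm, div_le_iff₀ (by positivity)]
  have e : (1 - 1 / (RR k : ℝ) ^ 2) * ((hi k l - lo k l) / 2) =
      (hi k l - lo k l) / 2 - (hi k l - lo k l) / (2 * (RR k : ℝ) ^ 2) := by
    field_simp
  rw [e, abs_le]
  constructor <;> linarith

theorem gg_cov_half {t : ℝ} (h0 : 0 < t) (h1 : t ≤ 1 / 2) : ∃ l : ℤ,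
    1 / (RR k : ℝ) ^ 2 ≤ 1 - |t - (lo k l + hi k l) / 2| / ((hi k l - lo k l) / 2) := by
  have h := gg_R (k := k)
  have hR : (RR k : ℝ)⁻¹ ≤ 4⁻¹ := inv_anti₀ (by norm_num) h
  rcases le_total (RR k : ℝ)⁻¹ t with ht | ht
  · refine ⟨0, gg_cov_of (δ := (RR k : ℝ)⁻¹ / 2) ?_ ?_ ?_⟩
    · have a1 := gg_lo_pos (k := k) 0
      have a2 := gg_hi_lt (k := k) 0
      rw [div_le_iff₀ (by positivity)]
      have e : (RR k : ℝ)⁻¹ / 2 * (2 * (RR k : ℝ) ^ 2) = RR k := by field_simp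
      linarith
    · have := gg_lo_nat (k := k) 0
      simp only [Nat.cast_zero, zero_add, pow_one] at this
      linarith
    · rw [gg_hi_zero]; linarith
  · obtain ⟨j, a1, a2⟩ := exists_mem_Ioc_zpow h0 (show (1 : ℝ) < RR k by linarith)
    have a3 : j < -1 := by
      have := a1.trans_le ht
      rwa [← zpow_neg_one, zpow_lt_zpow_iff_right₀ (by linarith)] at this
    obtain ⟨m, rfl⟩ : ∃ m : ℕ, j = -((m + 2 : ℕ) : ℤ) := ⟨(-j - 2).toNat, by omega⟩
    rw [zpow_neg, zpow_natCast] at a1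
    rw [show -((m + 2 : ℕ) : ℤ) + 1 = -((m + 1 : ℕ) : ℤ) by push_cast; ring, zpow_neg,
      zpow_natCast] at a2
    have b0 : 0 < ((RR k : ℝ) ^ (m + 2))⁻¹ := by positivity
    have b1 : ((RR k : ℝ) ^ (m + 1))⁻¹ = ((RR k : ℝ) ^ (m + 2))⁻¹ * RR k := by
      field_simp; ring
    have b2 : ((RR k : ℝ) ^ m)⁻¹ = ((RR k : ℝ) ^ (m + 2))⁻¹ * RR k ^ 2 := by
      field_simp; ring
    refine ⟨(m + 1 : ℕ), gg_cov_of (δ := ((RR k : ℝ) ^ (m + 2))⁻¹ / 4) ?_ ?_ ?_⟩
    · rw [gg_hi_nat, gg_lo_nat, div_le_iff₀ (by positivity), b2]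
      nlinarith
    · rw [gg_lo_nat]; linarith
    · rw [gg_hi_nat, b2]
      rw [b1] at a2
      have b3 : RR k + 1 / 4 ≤ (RR k : ℝ) ^ 2 / 2 := by nlinarith
      nlinarith

theorem gg_cov {t : ℝ} (h0 : 0 < t) (h1 : t < 1) : ∃ l : ℤ,
    1 / (RR k : ℝ) ^ 2 ≤ 1 - |t - (lo k l + hi k l) / 2| / ((hi k l - lo k l) / 2) := by
  rcases le_total t (1 / 2) with h | h
  · exact gg_cov_half h0 h
  · obtain ⟨l, hl⟩ := gg_cov_half (k := k) (t := 1 - t) (by linarith) (by linarith)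
    refine ⟨-l, hl.trans (le_of_eq ?_)⟩
    rw [gg_sym, gg_sym', ← abs_neg]
    congr 3 <;> ring

theorem wd_pos (n : ℤ) (i : GI k) : 0 < wd k ν n i := by
  have h1 := gg_b1 (k := k) (ν := ν)
  rcases i with _ | ⟨σ, p⟩
  · have := sub_pos.2 (gg_lt (k := k) n)
    simp only [wd]
    positivity
  · have := gg_th_pos (k := k) (ν := ν) σ n
    have := gg_N (ν := ν) σ n
    simp only [wd]
    positivity

theorem wd_le (n : ℤ) (i : GI k) : wd k ν n i ≤ 1 / 4 := by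
  have h1 := gg_b1 (k := k) (ν := ν)
  rcases i with _ | ⟨σ, p⟩
  · have a1 := gg_lo_pos (k := k) n
    have a2 := gg_hi_lt (k := k) n
    simp only [wd]
    rw [div_le_iff₀ (by positivity)]
    nlinarith
  · have h := gg_R0 (k := k)
    have hp : p.ht ≤ k := by
      have := p.1.2.2
      unfold UI.ht; omega
    have a1 : (NN ν σ n : ℝ) ^ p.ht ≤ (2 ^ ν) ^ k * (RR k : ℝ) ^ lvp σ n := by
      refine (pow_le_pow_right₀ (gg_N σ n) hp).trans ?_
      unfold NN RR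
      push_cast
      rw [pow_add, mul_pow, ← pow_mul 2 (lvp σ n), ← pow_mul 2 (k + 2)]
      exact mul_le_mul_of_nonneg_left (pow_le_pow_right₀ one_le_two (by nlinarith)) (by positivity)
    have a2 : (bb k ν : ℝ) ≤ bb k ν + σ.toNat := le_add_of_nonneg_right (by positivity)
    have a3 := gg_b (k := k) (ν := ν)
    simp only [wd, th]
    rw [div_mul_eq_mul_div, div_le_iff₀ (by positivity)]
    calc _ ≤ RR k * ((2 ^ ν) ^ k * (RR k : ℝ) ^ lvp σ n) := by gcongr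
      _ = 1 / 4 * ((RR k : ℝ) ^ lvp σ n * (4 * (RR k : ℝ) * (2 ^ ν) ^ k)) := by ring
      _ ≤ _ := by gcongr; exact a3.trans a2

theorem wd_ge (n : ℤ) (i : GI k) :
    1 / (4 * ((bb k ν : ℝ) + 1) ^ 2 * (RR k : ℝ) ^ (n.natAbs + 1)) ≤ wd k ν n i := by
  have h1 := gg_b1 (k := k) (ν := ν)
  have h := gg_R (k := k)
  rcases i with _ | ⟨σ, p⟩
  · have a1 := gg_gap (k := k) n
    simp only [wd]
    calc _ = ((RR k : ℝ) ^ (n.natAbs + 1))⁻¹ / 2 / (2 * (bb k ν + 1) * (bb k ν + 1)) := by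
          field_simp; ring
      _ ≤ _ := by
          gcongr
          · linarith [gg_lt (k := k) n]
          · linarith
  · have a1 : (1 : ℝ) ≤ (NN ν σ n : ℝ) ^ p.ht := one_le_pow₀ (gg_N σ n)
    have a2 : lvp σ n ≤ n.natAbs + 1 := by cases σ <;> simp only [lvp, cond_true, cond_false] <;> omega
    have a3 : (σ.toNat : ℝ) ≤ 1 := by cases σ <;> simp
    simp only [wd]
    refine le_trans ?_ (le_mul_of_one_le_right (gg_th_pos σ n).le a1)
    unfold th
    rw [mul_comm]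
    gcongr
    · linarith
    · linarith
    · nlinarith

theorem cn_pos (n : ℤ) : 0 < cn k ν n ∧ cn k ν n ≤ 1 := by
  have h : (1 : ℝ) ≤ √(∏ σ : Bool, ∏ p : UI k, (NN ν σ n : ℝ) ^ p.ht) :=
    Real.one_le_sqrt.2 (Finset.one_le_prod fun σ _ => Finset.one_le_prod fun p _ =>
      one_le_pow₀ (gg_N σ n))
  exact ⟨inv_pos.2 (by linarith), inv_le_one_of_one_le₀ h⟩

theorem ct_mem_Box (n : ℤ) : ct k ν n ∈ Box k ν n := by
  intro i
  rw [sub_self, abs_zero]
  exact wd_pos n i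

/-- the `θ` condition in terms of `t = b θ'_false`. -/
theorem box_t {n : ℤ} {θ : ℝ} : |θ - ct k ν n none| < wd k ν n none ↔
    lo k n < bb k ν * thp (bb k ν) false θ ∧ bb k ν * thp (bb k ν) false θ < hi k n := by
  have h := sub_pos.2 (gg_lt (k := k) n)
  rw [← div_lt_one (wd_pos n none), gg_ratio, div_lt_one (by positivity), abs_lt]
  constructor <;> rintro ⟨h1, h2⟩ <;> constructor <;> linarith

theorem thp_true (b : ℕ) (θ : ℝ) : (b + 1) * thp b true θ = 1 - b * thp b false θ := by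
  simp only [thp, cc, ee, cond_true, cond_false]
  push_cast
  ring

/-- (g1) -/
theorem Box.thp {n : ℤ} {η : GI k → ℝ} (h : η ∈ Box k ν n) (σ : Bool) :
    th k ν σ n / (2 * (RR k : ℝ) ^ 2) ≤ thp (bb k ν) σ (η none) ∧
      thp (bb k ν) σ (η none) ≤ th k ν σ n := by
  have h1 := gg_b1 (k := k) (ν := ν)
  have hR := gg_R0 (k := k)
  obtain ⟨a1, a2⟩ := box_t.1 (h none)
  have key : ∀ (m : ℤ) (c x : ℝ), 0 < c → lo k m < c * x → c * x < hi k m →
      RR k / ((RR k : ℝ) ^ m.toNat * c) / (2 * (RR k : ℝ) ^ 2) ≤ x ∧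
        x ≤ RR k / ((RR k : ℝ) ^ m.toNat * c) := by
    intro m c x hc b1 b2
    obtain ⟨c1, c2⟩ := gg_scale (k := k) m
    constructor
    · refine le_of_mul_le_mul_left (le_trans (le_of_eq ?_) (c1.trans b1.le)) hc
      field_simp
      ring
    · refine le_of_mul_le_mul_left ((b2.le.trans c2).trans (le_of_eq ?_)) hc
      field_simp
  cases σ
  · simpa [th, lvp] using key n _ _ (by linarith) a1 a2
  · have := key (-n) (bb k ν + 1) (R129.thp (bb k ν) true (η none)) (by linarith)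
      (by rw [thp_true, gg_sym]; linarith) (by rw [thp_true, gg_sym']; linarith)
    simpa [th, lvp] using this

theorem th_pos (σ : Bool) (n : ℤ) : 0 < th k ν σ n := gg_th_pos σ n

/-- (g2) -/
theorem Box.band {n n' : ℤ} {η η' : GI k → ℝ} (h : η ∈ Box k ν n) (h' : η' ∈ Box k ν n')
    (e : η none = η' none) : (n - n').natAbs ≤ 1 := by
  obtain ⟨a1, a2⟩ := box_t.1 (h none)
  obtain ⟨b1, b2⟩ := box_t.1 (h' none)
  rw [e] at a1 a2
  have key : ∀ m m' : ℤ, lo k m < hi k m' → m' < m + 2 := fun m m' hm => by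
    by_contra hc
    have c1 := gg_hi_lo (k := k) (m' - 2)
    have c2 := gg_anti (k := k) (show m ≤ m' - 2 by omega)
    rw [sub_add_cancel] at c1
    linarith
  have := key n n' (a1.trans b2)
  have := key n' n (b1.trans a2)
  omega

/-- covering: for `t ∈ (0,1)` some level has a `θ`-bump `≥ 1/R²`. -/
theorem Box.cover {n : ℤ} {η : GI k → ℝ} (h : η ∈ Box k ν n) :
    ∃ l : ℤ, 1 / (RR k : ℝ) ^ 2 ≤ 1 - |η none - ct k ν l none| / wd k ν l none := by
  obtain ⟨a1, a2⟩ := box_t.1 (h none)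
  simp only [gg_ratio]
  exact gg_cov ((gg_lo_pos n).trans a1) (a2.trans (gg_hi_lt n))

end

end Crest.Agent.R129
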