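import Crest.Agent.R129.GhGeo

/-!
# R129 / GhGeo1 : the relevant group elements
-/

set_option autoImplicit false

namespace Crest.Agent.R129

section
variable {k ν : ℕ}

theorem gg1_rel_inv {n n' : ℤ} {m : MM k} (h : m ∈ Rel k ν n n') : m⁻¹ ∈ Rel k ν n' n := by
  obtain ⟨η, h1, h2⟩ := h
  refine ⟨_, h2, ?_⟩
  rwa [← loc_mul, mul_inv_cancel, loc_one]

theorem gg1_RR : (4 : ℝ) ≤ RR k := by
  have : 2 ^ 2 ≤ RR k := Nat.pow_le_pow_right (by norm_num) (by omega)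
  exact_mod_cast this

theorem gg1_NN (σ : Bool) (n : ℤ) : (1 : ℝ) ≤ NN ν σ n := by
  exact_mod_cast Nat.one_le_two_pow

theorem gg1_thp_pos {n : ℤ} {η : GI k → ℝ} (h : η ∈ Box k ν n) (σ : Bool) :
    0 < thp (bb k ν) σ (η none) := by
  have h1 := th_pos (k := k) (ν := ν) σ n
  have h2 := gg1_RR (k := k)
  exact lt_of_lt_of_le (by positivity) (Box.thp h σ).1

/-- the normalised matrix of a point of a box. -/
theorem gg1_uni {n : ℤ} {η : GI k → ℝ} (h : η ∈ Box k ν n) (σ : Bool) : ∃ u : U k ℝ,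
    gm σ η (thp (bb k ν) σ (η none)) = thp (bb k ν) σ (η none) • u.1 ∧
      GrB (2 * (RR k : ℝ) ^ 2 * NN ν σ n) u := by
  have h0 := gg1_thp_pos h σ
  have h1 := (Box.thp h σ).1
  have hR := gg1_RR (k := k)
  have hN := gg1_NN (ν := ν) σ n
  set θ := thp (bb k ν) σ (η none) with hθ
  refine ⟨uni fun p => η (some (σ, p)) / θ, ?_, fun p => ?_⟩
  · ext i j
    simp only [gm, uni, Matrix.smul_apply, smul_eq_mul, Matrix.one_apply]
    split_ifs
    · field_simp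
    · rw [mul_one]
    · rw [mul_zero]
  · rw [ent_uni, abs_div, abs_of_pos h0, div_le_iff₀ h0]
    have h2 := h (some (σ, p))
    simp only [ct, wd, sub_zero] at h2
    rw [div_le_iff₀ (by positivity)] at h1
    have h3 : 2 * (RR k : ℝ) ^ 2 ≤ (2 * (RR k : ℝ) ^ 2) ^ p.ht :=
      le_self_pow₀ (by nlinarith) p.ht_pos.ne'
    calc |η (some (σ, p))| ≤ th k ν σ n * (NN ν σ n : ℝ) ^ p.ht := h2.le
      _ ≤ θ * (2 * (RR k : ℝ) ^ 2) ^ p.ht * (NN ν σ n : ℝ) ^ p.ht :=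
          mul_le_mul_of_nonneg_right (h1.trans (mul_le_mul_of_nonneg_left h3 h0.le)) (by positivity)
      _ = _ := by rw [mul_pow (2 * (RR k : ℝ) ^ 2)]; ring

theorem gg1_NN_le {n n' : ℤ} (h : (n - n').natAbs ≤ 1) (σ : Bool) :
    (NN ν σ n' : ℝ) ≤ 2 * NN ν σ n := by
  have h1 : lvp σ n' ≤ lvp σ n + 1 := by
    cases σ <;> simp only [lvp, cond_true, cond_false] <;> omega
  have : NN ν σ n' ≤ 2 * NN ν σ n := by
    rw [NN, NN, ← pow_succ']
    exact Nat.pow_le_pow_right (by norm_num) (by omega)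
  exact_mod_cast this

theorem gg1_small (σ : Bool) (n : ℤ) {j : ℕ} (hj : j ≤ k) :
    th k ν σ n * (10 * (RR k : ℝ) ^ 2 * NN ν σ n) ^ j ≤ 1 / 4 := by
  have hR := gg1_RR (k := k)
  have hN := gg1_NN (ν := ν) σ n
  have h0 := th_pos (k := k) (ν := ν) σ n
  have h1 : (10 * (RR k : ℝ) ^ 2 * NN ν σ n) ^ j ≤ (10 * (RR k : ℝ) ^ 2 * NN ν σ n) ^ k :=
    pow_le_pow_right₀ (by nlinarith) hj
  have h2 : ((2 : ℝ) ^ lvp σ n) ^ k ≤ (RR k : ℝ) ^ lvp σ n := by
    rw [← pow_mul, mul_comm, pow_mul]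
    refine pow_le_pow_left₀ (by positivity) ?_ _
    have : 2 ^ k ≤ RR k := Nat.pow_le_pow_right (by norm_num) (by omega)
    exact_mod_cast this
  have h3 : (10 * (RR k : ℝ) ^ 2 * NN ν σ n) ^ k =
      (10 * (RR k : ℝ) ^ 2 * 2 ^ ν) ^ k * ((2 : ℝ) ^ lvp σ n) ^ k := by
    rw [← mul_pow, NN]
    push_cast
    rw [pow_add, mul_assoc (10 * (RR k : ℝ) ^ 2)]
  have h4 : (bb k ν : ℝ) = 4 * RR k * (10 * (RR k : ℝ) ^ 2 * 2 ^ ν) ^ k := by
    rw [bb]; push_cast; rfl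
  have h5 : (0 : ℝ) ≤ σ.toNat := Nat.cast_nonneg _
  refine (mul_le_mul_of_nonneg_left h1 h0.le).trans ?_
  rw [h3, th, div_mul_eq_mul_div, div_le_iff₀ (by rw [h4]; positivity), h4]
  set Y := (10 * (RR k : ℝ) ^ 2 * 2 ^ ν) ^ k with hY
  have hY0 : 0 ≤ Y := by positivity
  have h6 := mul_le_mul_of_nonneg_left h2 (show 0 ≤ (RR k : ℝ) * Y by positivity)
  have h7 : 0 ≤ (RR k : ℝ) ^ lvp σ n * σ.toNat := by positivity
  nlinarith

theorem rel_inv {n n' : ℤ} {m : MM k} : m ∈ Rel k ν n n' ↔ m⁻¹ ∈ Rel k ν n' n :=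
  ⟨gg1_rel_inv, fun h => by simpa only [inv_inv] using gg1_rel_inv h⟩

theorem one_mem_rel (n : ℤ) : (1 : MM k) ∈ Rel k ν n n :=
  ⟨_, ct_mem_Box n, by rw [loc_one]; exact ct_mem_Box n⟩

theorem rel_band {n n' : ℤ} {m : MM k} (h : m ∈ Rel k ν n n') : (n - n').natAbs ≤ 1 := by
  obtain ⟨η, h1, h2⟩ := h
  exact Box.band h1 h2 rfl

/-- (g3) `u = gm σ η θ' / θ' ∈ U k ℝ` has `GrB (2R²N)`, `u' = u m` has `GrB (4R²N)` (`N' ≤ 2N`), `m = u⁻¹ u'`
(`GrB.inv`, `GrB.mul`, `exists_map`). -/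
theorem rel_grB {n n' : ℤ} {m : MM k} (h : m ∈ Rel k ν n n') (σ : Bool) :
    GrB ((8 * RR k ^ 2 * NN ν σ n : ℕ) : ℤ) (m σ) := by
  have hb := gg1_NN_le (ν := ν) (rel_band h) σ
  obtain ⟨η, h1, h2⟩ := h
  obtain ⟨u, hu, gu⟩ := gg1_uni h1 σ
  obtain ⟨u', hu', gu'⟩ := gg1_uni h2 σ
  obtain ⟨f, hf⟩ := exists_map (k := k) (Int.castRingHom ℝ)
  have h0 := gg1_thp_pos h1 σ
  have e0 : loc (bb k ν) m η none = η none := rfl
  rw [e0, gm_loc, hu, Matrix.smul_mul] at hu'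
  have e1 : u * f (m σ) = u' := by
    refine Subtype.ext ?_
    rw [U.val_mul, hf]
    exact smul_right_injective _ h0.ne' hu'
  have e2 : f (m σ) = u⁻¹ * u' := by rw [← e1, inv_mul_cancel_left]
  have g := (gu.inv (by positivity)).mul (by positivity) (by positivity) gu'
  rw [← e2] at g
  have g' : GrB (8 * (RR k : ℝ) ^ 2 * NN ν σ n) (f (m σ)) :=
    g.mono (by positivity) (by nlinarith [sq_nonneg (RR k : ℝ)])
  intro p
  have := g' p
  rw [ent, hf, Matrix.map_apply, eq_intCast] at this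
  rw [ent]
  exact_mod_cast this

theorem finite_rel (n n' : ℤ) : (Rel k ν n n').Finite := by
  choose s hs _ using fun σ : Bool => exists_grB_finset k (8 * RR k ^ 2 * NN ν σ n)
  refine (Set.Finite.pi' fun σ => (s σ).finite_toSet).subset fun m hm σ => ?_
  exact (hs σ _).2 (rel_grB hm σ)

/-- (g4) periodisation is harmless: entries of `loc m η` are at most
`th (10 R² N)^k ≤ R (10 R² 2^ν)^k / b ≤ 1/4`, and `|θ - ct| ≤ 1/2`. -/
theorem Phi_loc {n n' : ℤ} {η : GI k → ℝ} (h : η ∈ Box k ν n) {m : MM k} (hm : m ∈ Rel k ν n n') :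
    Phi k ν n' (tmap (Cm (bb k ν) m) (tproj η)) = (rb k ν n' (loc (bb k ν) m η) : ℂ) := by
  rw [← tproj_loc, Phi, ContinuousMap.smul_apply, bump_tproj, rb, smul_eq_mul, Complex.ofReal_mul]
  rintro (_ | ⟨σ, p⟩)
  · have e0 : loc (bb k ν) m η none = η none := rfl
    have a1 := gg1_thp_pos h false
    have a2 := (Box.thp h false).2
    have a3 := gg1_thp_pos (ct_mem_Box (k := k) (ν := ν) n') false
    have a4 := (Box.thp (ct_mem_Box (k := k) (ν := ν) n') false).2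
    have a5 := gg1_small (k := k) (ν := ν) false n (Nat.zero_le _)
    have a6 := gg1_small (k := k) (ν := ν) false n' (Nat.zero_le _)
    rw [pow_zero, mul_one] at a5 a6
    simp only [thp, cc, ee, cond_false] at a1 a2 a3 a4
    push_cast at a1 a2 a3 a4
    have hb : (0 : ℝ) ≤ bb k ν := Nat.cast_nonneg _
    rw [e0, abs_le]
    constructor <;> nlinarith
  · obtain ⟨u, hu, gu⟩ := gg1_uni h σ
    obtain ⟨f, hf⟩ := exists_map (k := k) (Int.castRingHom ℝ)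
    have h0 := gg1_thp_pos h σ
    have g1 : GrB (8 * (RR k : ℝ) ^ 2 * NN ν σ n) (f (m σ)) := fun q => by
      have := rel_grB hm σ q
      rw [ent] at this
      rw [ent, hf, Matrix.map_apply, eq_intCast]
      exact_mod_cast this
    have g2 := gu.mul (by positivity) (by positivity) g1 p
    rw [ent, U.val_mul, hf, Int.coe_castRingHom,
      show 2 * (RR k : ℝ) ^ 2 * NN ν σ n + 8 * (RR k : ℝ) ^ 2 * NN ν σ n =
        10 * (RR k : ℝ) ^ 2 * NN ν σ n by ring] at g2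
    have hj : p.ht ≤ k := by
      have := p.1.2.2
      unfold UI.ht
      omega
    have a5 := gg1_small (k := k) (ν := ν) σ n hj
    simp only [loc, ct, sub_zero]
    rw [hu, Matrix.smul_mul, Matrix.smul_apply, smul_eq_mul, abs_mul, abs_of_pos h0]
    have := mul_le_mul (Box.thp h σ).2 g2 (abs_nonneg _) (th_pos σ n).le
    linarith

theorem rb_loc_eq_zero {n n' : ℤ} {η : GI k → ℝ} (h : η ∈ Box k ν n) {m : MM k}
    (hm : m ∉ Rel k ν n n') : rb k ν n' (loc (bb k ν) m η) = 0 := by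
  by_contra h0
  exact hm ⟨η, h, (rbump_ne_zero_iff (wd_pos n') _ _).1 (right_ne_zero_of_mul h0)⟩

theorem exists_box_of_Phi_ne_zero {n : ℤ} {x : UnitAddTorus (GI k)} (h : Phi k ν n x ≠ 0) :
    ∃ η ∈ Box k ν n, tproj η = x := by
  rw [Phi, ContinuousMap.smul_apply, smul_eq_mul] at h
  obtain ⟨η, h1, h2⟩ := exists_lift_of_bump_ne_zero (wd_pos n) _ (right_ne_zero_of_mul h)
  exact ⟨η, h2, h1⟩

end

end Crest.Agent.R129
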