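import Crest.Agent.R129.GhGeo1

/-!
# R129 / GhGeo2 : the three quantitative estimates, uniform in `ν` and the level
-/

set_option autoImplicit false

namespace Crest.Agent.R129

/-- the product of the scales -/
noncomputable def GhGeo2_Pi (k ν : ℕ) (n : ℤ) : ℝ := ∏ σ : Bool, ∏ p : UI k, (NN ν σ n : ℝ) ^ p.ht

theorem GhGeo2_NN_pos (ν : ℕ) (σ : Bool) (n : ℤ) : (0 : ℝ) < NN ν σ n := by
  unfold NN; positivity

theorem GhGeo2_Pi_pos (k ν : ℕ) (n : ℤ) : 0 < GhGeo2_Pi k ν n :=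
  Finset.prod_pos fun σ _ => Finset.prod_pos fun _ _ => pow_pos (GhGeo2_NN_pos ν σ n) _

theorem GhGeo2_NN_le (ν : ℕ) (σ : Bool) {n n' : ℤ} (h : (n - n').natAbs ≤ 1) :
    (NN ν σ n : ℝ) ≤ 2 * NN ν σ n' := by
  have h1 : lvp σ n ≤ lvp σ n' + 1 := by
    cases σ <;> simp only [lvp, cond_true, cond_false] <;> omega
  have h2 : NN ν σ n ≤ 2 * NN ν σ n' := by
    unfold NN
    rw [← pow_succ']
    exact Nat.pow_le_pow_right (by norm_num) (by omega)
  exact_mod_cast h2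

theorem GhGeo2_RR (k : ℕ) : (2 : ℝ) ≤ RR k := by
  have : 2 ^ 1 ≤ RR k := Nat.pow_le_pow_right (by norm_num) (by omega)
  exact_mod_cast this

theorem GhGeo2_gm_le {k ν : ℕ} {n : ℤ} {η : GI k → ℝ} (h : η ∈ Box k ν n) (σ : Bool) {i l : Fin k}
    (hil : i ≤ l) : |gm σ η (thp (bb k ν) σ (η none)) i l| ≤
      th k ν σ n * (NN ν σ n : ℝ) ^ (l.val - i.val) := by
  unfold gm
  rcases hil.eq_or_lt with rfl | hlt
  · obtain ⟨h1, h2⟩ := Box.thp h σ
    have h3 := th_pos (k := k) (ν := ν) σ n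
    have h4 : 0 ≤ th k ν σ n / (2 * (RR k : ℝ) ^ 2) := by positivity
    rw [dif_neg (lt_irrefl _), if_pos rfl, Nat.sub_self, pow_zero, mul_one,
      abs_of_nonneg (h4.trans h1)]
    exact h2
  · rw [dif_pos hlt]
    have := h (some (σ, ⟨(i, l), hlt⟩))
    simp only [ct, wd, sub_zero, UI.ht] at this
    exact this.le

theorem GhGeo2_move {k ν j : ℕ} (hj : j ≤ ν) {n : ℤ} {η : GI k → ℝ} (h : η ∈ Box k ν n) {m : MM k}
    (hm : ∀ σ, GrB (2 * 2 ^ (ν - j + lvp σ n) : ℤ) (m σ)) (i : GI k) :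
    |loc (bb k ν) m η i - η i| ≤ k * 2 ^ k / 2 ^ j * wd k ν n i := by
  rcases i with _ | ⟨σ, ⟨⟨a, b⟩, hab⟩⟩
  · have := wd_pos (k := k) (ν := ν) n none
    simp only [loc, sub_self, abs_zero]
    positivity
  have hab' : a.val < b.val := hab
  have hth := th_pos (k := k) (ν := ν) σ n
  have hN := GhGeo2_NN_pos ν σ n
  set g := gm σ η (thp (bb k ν) σ (η none)) with hg
  have e : loc (bb k ν) m η (some (σ, ⟨(a, b), hab⟩)) - η (some (σ, ⟨(a, b), hab⟩)) =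
      ∑ l, g a l * (((m σ).1 l b : ℝ) - (1 : Matrix (Fin k) (Fin k) ℝ) l b) := by
    have e1 : η (some (σ, ⟨(a, b), hab⟩)) = (g * (1 : Matrix (Fin k) (Fin k) ℝ)) a b := by
      rw [Matrix.mul_one, hg, gm, dif_pos hab]
    rw [e1]
    simp only [loc, Matrix.mul_apply, Matrix.map_apply, mul_sub, Finset.sum_sub_distrib, hg]
  set μ : ℝ := 2 ^ (ν - j + lvp σ n) with hμ
  have hμ0 : 0 < μ := by positivity
  have hNμ : (NN ν σ n : ℝ) = μ * 2 ^ j := by
    rw [hμ, ← pow_add, NN]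
    push_cast
    congr 1
    omega
  have hμN : μ ≤ NN ν σ n := by
    rw [hNμ]; exact le_mul_of_one_le_right hμ0.le (one_le_pow₀ (by norm_num))
  rw [e]
  refine (uni_sum_le a (b.val - a.val)
    (F := fun _ => 2 ^ k / 2 ^ j * (th k ν σ n * (NN ν σ n : ℝ) ^ (b.val - a.val)))
    (fun _ => by positivity) (fun l hl => ?_) (fun l h1 h2 => ?_)).trans ?_
  · rcases hl with hl | hl
    · rw [hg, gm, dif_neg (not_lt.2 hl.le), if_neg hl.ne', zero_mul]
    · rw [(m σ).2 l b (by rw [Fin.le_def]; omega)]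
      by_cases hlb : l = b
      · subst hlb; simp
      · simp [Matrix.one_apply_ne hlb]
  · have h1' : a.val ≤ l.val := h1
    have hlb : l < b := by rw [Fin.lt_def]; omega
    have hlb' : l.val < b.val := hlb
    rw [Matrix.one_apply_ne hlb.ne, sub_zero, abs_mul]
    have q1 := GhGeo2_gm_le h σ h1
    have q2 : |((m σ).1 l b : ℝ)| ≤ (2 * μ) ^ (b.val - l.val) := by
      have := (hm σ).le hlb.le
      rw [hμ]
      exact_mod_cast this
    obtain ⟨c, hc⟩ : ∃ c, b.val - l.val = c + 1 := ⟨b.val - l.val - 1, by omega⟩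
    have q3 : (2 * μ) ^ (b.val - l.val) ≤ 2 ^ k / 2 ^ j * (NN ν σ n : ℝ) ^ (b.val - l.val) := by
      have r1 : (2 : ℝ) ^ (c + 1) ≤ 2 ^ k := pow_le_pow_right₀ (by norm_num) (by omega)
      have r2 : μ ^ c ≤ (NN ν σ n : ℝ) ^ c := pow_le_pow_left₀ hμ0.le hμN c
      rw [hc, mul_pow, pow_succ μ, pow_succ (NN ν σ n : ℝ)]
      calc 2 ^ (c + 1) * (μ ^ c * μ) ≤ 2 ^ k * ((NN ν σ n : ℝ) ^ c * μ) := by gcongr
        _ = 2 ^ k / 2 ^ j * ((NN ν σ n : ℝ) ^ c * (μ * 2 ^ j)) := by field_simp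
        _ = _ := by rw [← hNμ]
    have e2 : b.val - a.val = (l.val - a.val) + (b.val - l.val) := by omega
    calc _ ≤ th k ν σ n * (NN ν σ n : ℝ) ^ (l.val - a.val) *
          (2 ^ k / 2 ^ j * (NN ν σ n : ℝ) ^ (b.val - l.val)) :=
          mul_le_mul q1 (q2.trans q3) (abs_nonneg _) (by positivity)
      _ = _ := by rw [e2, pow_add]; ring
  · rw [Finset.sum_const, Finset.card_range, nsmul_eq_mul]
    have : ((b.val - a.val : ℕ) : ℝ) ≤ k := by exact_mod_cast (by omega : b.val - a.val ≤ k)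
    simp only [wd, UI.ht]
    calc _ ≤ k * (2 ^ k / 2 ^ j * (th k ν σ n * (NN ν σ n : ℝ) ^ (b.val - a.val))) := by gcongr
      _ = _ := by ring

/-- (g6) `|Rel n n'| ≤ ∏_σ ∏_p (2 (8R²N)^ht + 1) ≤ ∏ 3 (8R²)^ht N^ht` (`rel_grB`, `exists_grB_finset`), and `N' ≥ N/2` when `Rel` is
non-empty. -/
theorem exists_card_rel (k : ℕ) : ∃ C : ℝ, ∀ ν n n',
    ((finite_rel (k := k) (ν := ν) n n').toFinset.card : ℝ) * (cn k ν n * cn k ν n') ≤ C := by
  refine ⟨(∏ _σ : Bool, ∏ p : UI k, 3 * (8 * (RR k : ℝ) ^ 2) ^ p.ht) *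
    √(∏ _σ : Bool, ∏ p : UI k, (2 : ℝ) ^ p.ht), fun ν n n' => ?_⟩
  classical
  rcases (finite_rel (k := k) (ν := ν) n n').toFinset.eq_empty_or_nonempty with h0 | ⟨m, hm⟩
  · rw [h0, Finset.card_empty, Nat.cast_zero, zero_mul]; positivity
  have hb := rel_band ((Set.Finite.mem_toFinset _).1 hm)
  choose s hs hcard using fun σ => exists_grB_finset k (8 * RR k ^ 2 * NN ν σ n)
  have h1 : (finite_rel (k := k) (ν := ν) n n').toFinset.card ≤
      ∏ σ : Bool, ∏ p : UI k, (2 * (8 * RR k ^ 2 * NN ν σ n) ^ p.ht + 1) := by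
    simp only [← hcard]
    rw [← Fintype.card_piFinset]
    exact Finset.card_le_card fun m hm => Fintype.mem_piFinset.2 fun σ =>
      (hs σ _).2 (rel_grB ((Set.Finite.mem_toFinset _).1 hm) σ)
  have hR := GhGeo2_RR k
  have h2 : ((finite_rel (k := k) (ν := ν) n n').toFinset.card : ℝ) ≤
      (∏ _σ : Bool, ∏ p : UI k, 3 * (8 * (RR k : ℝ) ^ 2) ^ p.ht) * GhGeo2_Pi k ν n := by
    refine (Nat.cast_le.2 h1).trans ?_
    rw [GhGeo2_Pi, ← Finset.prod_mul_distrib]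
    push_cast
    refine Finset.prod_le_prod (fun _ _ => by positivity) fun σ _ => ?_
    rw [← Finset.prod_mul_distrib]
    refine Finset.prod_le_prod (fun _ _ => by positivity) fun p _ => ?_
    have q1 : (1 : ℝ) ≤ NN ν σ n := by
      have : 1 ≤ NN ν σ n := Nat.one_le_two_pow
      exact_mod_cast this
    have q2 : (1 : ℝ) ≤ (8 * (RR k : ℝ) ^ 2 * NN ν σ n) ^ p.ht :=
      one_le_pow₀ (one_le_mul_of_one_le_of_one_le (by nlinarith) q1)
    rw [mul_assoc 3, ← mul_pow]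
    linarith
  have h3 : GhGeo2_Pi k ν n ≤ (∏ _σ : Bool, ∏ p : UI k, (2 : ℝ) ^ p.ht) * GhGeo2_Pi k ν n' := by
    rw [GhGeo2_Pi, GhGeo2_Pi, ← Finset.prod_mul_distrib]
    refine Finset.prod_le_prod (fun _ _ => by positivity) fun σ _ => ?_
    rw [← Finset.prod_mul_distrib]
    refine Finset.prod_le_prod (fun _ _ => by positivity) fun p _ => ?_
    rw [← mul_pow]
    exact pow_le_pow_left₀ (by positivity) (GhGeo2_NN_le ν σ hb) _
  have p1 := Real.sqrt_pos.2 (GhGeo2_Pi_pos k ν n)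
  have p2 := Real.sqrt_pos.2 (GhGeo2_Pi_pos k ν n')
  have h4 : GhGeo2_Pi k ν n * (cn k ν n * cn k ν n') ≤
      √(∏ _σ : Bool, ∏ p : UI k, (2 : ℝ) ^ p.ht) := by
    have q := Real.sqrt_le_sqrt h3
    rw [Real.sqrt_mul (by positivity)] at q
    change GhGeo2_Pi k ν n * ((√(GhGeo2_Pi k ν n))⁻¹ * (√(GhGeo2_Pi k ν n'))⁻¹) ≤ _
    rw [← mul_assoc, ← div_eq_mul_inv, ← div_eq_mul_inv, Real.div_sqrt, div_le_iff₀ p2]
    exact q
  have c1 := (cn_pos (k := k) (ν := ν) n).1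
  have c2 := (cn_pos (k := k) (ν := ν) n').1
  refine (mul_le_mul_of_nonneg_right h2 (by positivity)).trans ?_
  rw [mul_assoc]
  exact mul_le_mul_of_nonneg_left h4 (by positivity)

/-- (g5) Take `l` from `Box.cover` (so `|n - l| ≤ 1`, and `θ'_σ ≤ th σ l`, apply `Box.thp` to a point of `Box l` with the same `θ`).  By
`exists_reduce` there is `m₀` with `u m₀` having entries `≤ 1`, i.e. `GrB 1`.  For `m₁` with `GrB T`, `T = N_l/4`
(`N_l` is a power of two `≥ 4`): `u m₀ m₁` has `GrB (1 + T)` and `1 + T ≤ N_l/2`, so the entries of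
`loc (m₀ m₁) η` are at most half the widths and `rbump ≥ R⁻² 2^(-2|UI|)`.  There are `∏ (2T^ht+1) ≥ ∏ (N_l/8)^ht` such `m₁`. -/
theorem exists_lower (k : ℕ) : ∃ c : ℝ, 0 < c ∧ ∀ ν, 2 ≤ ν → ∀ n, ∀ η ∈ Box k ν n,
    c ≤ ∑ l ∈ Finset.Icc (n - 1) (n + 1), ∑ m ∈ (finite_rel (k := k) (ν := ν) n l).toFinset,
      rb k ν l (loc (bb k ν) m η) ^ 2 := by
  have hR := GhGeo2_RR k
  refine ⟨(∏ _σ : Bool, ∏ p : UI k, (1 / 4 : ℝ) ^ p.ht) *
    ((1 / (RR k : ℝ) ^ 2) ^ Fintype.card (GI k)) ^ 2, by positivity, fun ν hν n η hη => ?_⟩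
  classical
  obtain ⟨l, hl⟩ := Box.cover hη
  have hR0 : 0 < 1 / (RR k : ℝ) ^ 2 := by positivity
  have hR2 : 1 / (RR k : ℝ) ^ 2 ≤ 1 / 2 :=
    one_div_le_one_div_of_le (by norm_num) (by nlinarith)
  have hθ : |η none - ct k ν l none| < wd k ν l none :=
    (div_lt_one (wd_pos l none)).1 (by linarith)
  have hη0 : (fun i : GI k => Option.casesOn i (η none) fun _ => (0 : ℝ)) ∈ Box k ν l := by
    rintro (_ | ⟨σ, p⟩)
    · exact hθ
    · simpa [ct] using wd_pos (k := k) (ν := ν) l (some (σ, p))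
  have hband := Box.band hη hη0 rfl
  have hth : ∀ σ, 0 < thp (bb k ν) σ (η none) ∧ thp (bb k ν) σ (η none) ≤ th k ν σ l := fun σ => by
    obtain ⟨h1, h2⟩ := Box.thp hη0 σ
    have h3 := th_pos (k := k) (ν := ν) σ l
    exact ⟨lt_of_lt_of_le (by positivity) h1, h2⟩
  obtain ⟨f, hf⟩ := exists_map (k := k) (Int.castRingHom ℝ)
  set u : Bool → U k ℝ := fun σ => uni fun p => η (some (σ, p)) / thp (bb k ν) σ (η none) with hu
  have hgu : ∀ σ, gm σ η (thp (bb k ν) σ (η none)) = thp (bb k ν) σ (η none) • (u σ).1 := by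
    intro σ
    ext i j
    rw [Matrix.smul_apply, smul_eq_mul]
    simp only [gm, hu, uni, Matrix.one_apply]
    have := (hth σ).1.ne'
    split_ifs
    · field_simp
    · simp
    · simp
  choose m₀ hm₀ using fun σ => exists_reduce (u σ)
  choose s hs hcard using fun σ => exists_grB_finset k (2 ^ (ν - 2 + lvp σ l))
  have hT : ∀ σ, (NN ν σ l : ℝ) = 4 * 2 ^ (ν - 2 + lvp σ l) := fun σ => by
    rw [NN, show ν + lvp σ l = 2 + (ν - 2 + lvp σ l) by omega, pow_add]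
    push_cast
    ring
  have key : ∀ m₁ ∈ Fintype.piFinset s, ∀ σ p,
      |loc (bb k ν) (m₀ * m₁) η (some (σ, p))| ≤ wd k ν l (some (σ, p)) / 2 := by
    intro m₁ hm₁ σ p
    have g1 : GrB (1 : ℝ) (u σ * f (m₀ σ)) := GrB.of_le le_rfl fun p => by
      have := hm₀ σ p
      change |((u σ).1 * (f (m₀ σ)).1) p.1.1 p.1.2| ≤ 1
      rw [hf]
      exact this
    have g2 : GrB ((2 : ℝ) ^ (ν - 2 + lvp σ l)) (f (m₁ σ)) := fun p => by
      have := (hs σ _).1 (Fintype.mem_piFinset.1 hm₁ σ) p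
      unfold ent at this ⊢
      rw [hf, Matrix.map_apply, eq_intCast]
      exact_mod_cast this
    have g3 := GrB.mul zero_le_one (by positivity) g1 g2 p
    rw [mul_assoc, ← map_mul] at g3
    have e : loc (bb k ν) (m₀ * m₁) η (some (σ, p)) =
        thp (bb k ν) σ (η none) * ent (u σ * f (m₀ σ * m₁ σ)) p := by
      rw [loc, ent, U.val_mul, hgu, hf, Matrix.smul_mul, Matrix.smul_apply, smul_eq_mul]
      rfl
    have t1 : (1 : ℝ) ≤ 2 ^ (ν - 2 + lvp σ l) := one_le_pow₀ (by norm_num)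
    have g4 : (1 + (2 : ℝ) ^ (ν - 2 + lvp σ l)) ^ p.ht ≤ (NN ν σ l : ℝ) ^ p.ht / 2 := by
      have r1 : (1 + (2 : ℝ) ^ (ν - 2 + lvp σ l)) ≤ NN ν σ l / 2 := by rw [hT]; linarith
      refine (pow_le_pow_left₀ (by positivity) r1 _).trans ?_
      rw [div_pow]
      exact div_le_div_of_nonneg_left (by positivity) (by norm_num)
        (le_self_pow₀ (by norm_num) p.ht_pos.ne')
    rw [e, abs_mul, abs_of_pos (hth σ).1]
    simp only [wd]
    rw [mul_div_assoc]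
    exact mul_le_mul (hth σ).2 (g3.trans g4) (abs_nonneg _) (th_pos σ l).le
  have hrel : ∀ m₁ ∈ Fintype.piFinset s, m₀ * m₁ ∈ Rel k ν n l := fun m₁ hm₁ =>
    ⟨η, hη, by
      rintro (_ | ⟨σ, p⟩)
      · exact hθ
      · have := wd_pos (k := k) (ν := ν) l (some (σ, p))
        simp only [ct, sub_zero]
        linarith [key m₁ hm₁ σ p]⟩
  have hrb : ∀ m₁ ∈ Fintype.piFinset s, (1 / (RR k : ℝ) ^ 2) ^ Fintype.card (GI k) ≤
      rbump (wd k ν l) (ct k ν l) (loc (bb k ν) (m₀ * m₁) η) := by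
    intro m₁ hm₁
    rw [rbump, ← Finset.card_univ, ← Finset.prod_const]
    refine Finset.prod_le_prod (fun _ _ => hR0.le) ?_
    rintro (_ | ⟨σ, p⟩) _
    · exact hl.trans (le_max_right _ _)
    · refine le_trans ?_ (le_max_right _ _)
      have h1 := wd_pos (k := k) (ν := ν) l (some (σ, p))
      have h2 : |loc (bb k ν) (m₀ * m₁) η (some (σ, p)) - ct k ν l (some (σ, p))| /
          wd k ν l (some (σ, p)) ≤ 1 / 2 := by
        rw [div_le_iff₀ h1]
        simp only [ct, sub_zero]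
        linarith [key m₁ hm₁ σ p]
      linarith
  have hPi := GhGeo2_Pi_pos k ν l
  have hcn : cn k ν l ^ 2 = (GhGeo2_Pi k ν l)⁻¹ := by
    change ((√(GhGeo2_Pi k ν l))⁻¹) ^ 2 = _
    rw [inv_pow, Real.sq_sqrt hPi.le]
  have hc : (∏ _σ : Bool, ∏ p : UI k, (1 / 4 : ℝ) ^ p.ht) * GhGeo2_Pi k ν l ≤
      (Fintype.piFinset s).card := by
    rw [Fintype.card_piFinset, GhGeo2_Pi, ← Finset.prod_mul_distrib]
    simp only [hcard]
    push_cast
    refine Finset.prod_le_prod (fun _ _ => by positivity) fun σ _ => ?_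
    rw [← Finset.prod_mul_distrib]
    refine Finset.prod_le_prod (fun _ _ => by positivity) fun p _ => ?_
    rw [← mul_pow, hT, ← mul_assoc, show (1 / 4 : ℝ) * 4 = 1 by norm_num, one_mul]
    have : (0 : ℝ) ≤ (2 ^ (ν - 2 + lvp σ l)) ^ p.ht := by positivity
    linarith
  have hmem : l ∈ Finset.Icc (n - 1) (n + 1) := Finset.mem_Icc.2 ⟨by omega, by omega⟩
  refine le_trans ?_ (Finset.single_le_sum (f := fun l => ∑ m ∈
    (finite_rel (k := k) (ν := ν) n l).toFinset, rb k ν l (loc (bb k ν) m η) ^ 2)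
    (fun _ _ => Finset.sum_nonneg fun _ _ => sq_nonneg _) hmem)
  have hsub : (Fintype.piFinset s).image (fun m₁ : MM k => m₀ * m₁) ⊆
      (finite_rel (k := k) (ν := ν) n l).toFinset := by
    intro m hm
    obtain ⟨m₁, h1, rfl⟩ := Finset.mem_image.1 hm
    exact (Set.Finite.mem_toFinset _).2 (hrel m₁ h1)
  refine le_trans ?_ (Finset.sum_le_sum_of_subset_of_nonneg hsub fun _ _ _ => sq_nonneg _)
  rw [Finset.sum_image fun a _ b _ h => mul_left_cancel h]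
  refine le_trans ?_ (Finset.card_nsmul_le_sum _ _
    ((GhGeo2_Pi k ν l)⁻¹ * ((1 / (RR k : ℝ) ^ 2) ^ Fintype.card (GI k)) ^ 2) fun m₁ hm₁ => ?_)
  · rw [nsmul_eq_mul, ← mul_assoc]
    refine mul_le_mul_of_nonneg_right ?_ (by positivity)
    rw [← div_eq_mul_inv, le_div_iff₀ hPi]
    exact hc
  · rw [rb, mul_pow, hcn]
    exact mul_le_mul_of_nonneg_left (pow_le_pow_left₀ (by positivity) (hrb m₁ hm₁) 2)
      (by positivity)

/-- (g7) If `η ∈ Box n` and `m` has `GrB (2μ)`, `μ = N/2^j ≥ 1`, then the entry `(i,j)` changes by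
`∑_{i ≤ l < j} g i l * m l j`, at most `th ∑_{a ≥ 1} N^(δ-a) (2μ)^a ≤ th N^δ k 2^k / 2^j`; `rbump_sub_le`.  If
`loc m η ∈ Box n` use `m⁻¹` (`GrB.inv`).  Otherwise both values vanish. -/
theorem exists_lip (k : ℕ) : ∃ C : ℝ, ∀ ν n j (m : MM k), j ≤ ν → Tiny (ν - j) n m → ∀ η,
    |rb k ν n (loc (bb k ν) m η) - rb k ν n η| ≤ cn k ν n * (C / 2 ^ j) := by
  refine ⟨Fintype.card (GI k) * (k * 2 ^ k), fun ν n j m hj hm η => ?_⟩
  have hcn := (cn_pos (k := k) (ν := ν) n).1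
  have g0 : ∀ σ, GrB (2 ^ (ν - j + lvp σ n) : ℤ) (m σ) := fun σ =>
    GrB.of_le (one_le_pow₀ (by norm_num)) (hm σ)
  have key : ∀ (m : MM k) (η : GI k → ℝ), η ∈ Box k ν n →
      (∀ σ, GrB (2 * 2 ^ (ν - j + lvp σ n) : ℤ) (m σ)) →
      |rb k ν n (loc (bb k ν) m η) - rb k ν n η| ≤
        cn k ν n * (Fintype.card (GI k) * (k * 2 ^ k) / 2 ^ j) := by
    intro m η hη hm
    rw [rb, rb, ← mul_sub, abs_mul, abs_of_pos hcn, mul_div_assoc]
    exact mul_le_mul_of_nonneg_left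
      (rbump_sub_le (wd_pos n) _ _ _ (GhGeo2_move hj hη hm)) hcn.le
  by_cases h1 : η ∈ Box k ν n
  · refine key m η h1 fun σ => (g0 σ).mono (by positivity) ?_
    have : (0 : ℤ) ≤ 2 ^ (ν - j + lvp σ n) := by positivity
    linarith
  by_cases h2 : loc (bb k ν) m η ∈ Box k ν n
  · have := key m⁻¹ _ h2 fun σ => (g0 σ).inv (by positivity)
    rwa [← loc_mul, mul_inv_cancel, loc_one, abs_sub_comm] at this
  · have z : ∀ η, η ∉ Box k ν n → rb k ν n η = 0 := fun η h => by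
      rw [rb, not_not.1 (mt (rbump_ne_zero_iff (wd_pos n) _ _).1 h), mul_zero]
    rw [z _ h1, z _ h2, sub_zero, abs_zero]
    positivity

end Crest.Agent.R129
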