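import Crest.Agent.R129.GhGeo2

/-!
# R129 / GhOp : the operators `P n n'`
-/

set_option autoImplicit false
open scoped InnerProductSpace ComplexConjugate
open UnitAddTorus SemidirectProduct

namespace Crest.Agent.R129

theorem ghop_inner {Q : Type} (i : Q) (f : L2 Q ℂ) : ⟪dl i, f⟫_ℂ = f i := by
  rw [dl, inner_sgl_left]
  simp

open MeasureTheory in
/-- the mean as a linear map. -/
noncomputable def ghop_coeff {ι : Type} [Fintype ι] : C(UnitAddTorus ι, ℂ) →ₗ[ℂ] ℂ where
  toFun F := mFourierCoeff F 0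
  map_add' F F' := by
    simp only [gf_coeff]
    exact integral_add (F.continuous.integrable_of_hasCompactSupport (.of_compactSpace _))
      (F'.continuous.integrable_of_hasCompactSupport (.of_compactSpace _))
  map_smul' c F := by
    simp only [gf_coeff]
    exact integral_smul c F

section
variable (k b : ℕ)

theorem exists_rho : ∃ ρ : C(UnitAddTorus (GI k), ℂ) →⋆ₐ[ℂ] (L2 (QQ k b) ℂ →L[ℂ] L2 (QQ k b) ℂ),
    (∀ n, ρ (mFourier n) = lam (inl (Multiplicative.ofAdd n))) ∧ ∀ F, ‖ρ F‖ ≤ ‖F‖ := by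
  let u : Multiplicative (GI k → ℤ) →* (L2 (QQ k b) ℂ →L[ℂ] L2 (QQ k b) ℂ) :=
    { toFun := fun a => lam (inl a)
      map_one' := by rw [map_one, lam_one]
      map_mul' := fun a a' => by rw [map_mul, lam_mul] }
  exact exists_calculus u fun a => by
    change star (lam _) = lam _
    rw [star_lam, map_inv]

noncomputable def rho : C(UnitAddTorus (GI k), ℂ) →⋆ₐ[ℂ] (L2 (QQ k b) ℂ →L[ℂ] L2 (QQ k b) ℂ) :=
  (exists_rho k b).choose

theorem rho_mFourier (n : GI k → ℤ) : rho k b (mFourier n) = lam (inl (Multiplicative.ofAdd n)) :=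
  (exists_rho k b).choose_spec.1 n

theorem norm_rho_le (F : C(UnitAddTorus (GI k), ℂ)) : ‖rho k b F‖ ≤ ‖F‖ :=
  (exists_rho k b).choose_spec.2 F

noncomputable def Um (m : MM k) : L2 (QQ k b) ℂ →L[ℂ] L2 (QQ k b) ℂ := lam (inr m)

theorem Um_rho (m : MM k) (F : C(UnitAddTorus (GI k), ℂ)) :
    Um k b m * rho k b F = rho k b (F.comp (tmap (Cm b m))) * Um k b m := by
  refine calculus_cov (rho k b) (norm_rho_le k b) _ _ (fun n => ?_) F
  rw [rho_mFourier, rho_mFourier, Um, ← lam_mul, ← lam_mul]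
  congr 1
  have h := phi_apply b m (Multiplicative.ofAdd n)
  rw [toAdd_ofAdd] at h
  rw [← h, inl_aut, map_inv, inv_mul_cancel_right]

open Classical in
theorem rho_trace (m : MM k) (F : C(UnitAddTorus (GI k), ℂ)) :
    ⟪dl (1 : QQ k b), (rho k b F * Um k b m) (dl 1)⟫_ℂ = if m = 1 then mFourierCoeff F 0 else 0 := by
  have hc : Continuous (rho k b) :=
    AddMonoidHomClass.continuous_of_bound (rho k b) 1 fun F => by simpa using norm_rho_le k b F
  let f : C(UnitAddTorus (GI k), ℂ) →ₗ[ℂ] ℂ :=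
    { toFun := fun F => ⟪dl (1 : QQ k b), (rho k b F * Um k b m) (dl 1)⟫_ℂ
      map_add' := fun F F' => by
        rw [map_add, add_mul, ContinuousLinearMap.add_apply, inner_add_right]
      map_smul' := fun c F => by
        rw [map_smul, smul_mul_assoc, ContinuousLinearMap.smul_apply, inner_smul_right]; rfl }
  have hf : Continuous f := continuous_const.inner
    ((ContinuousLinearMap.apply ℂ _ (dl (1 : QQ k b))).continuous.comp (hc.mul continuous_const))
  have hv : ∀ n, f (mFourier n) = if n = 0 ∧ m = 1 then 1 else 0 := fun n => by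
    change ⟪dl (1 : QQ k b), (rho k b (mFourier n) * Um k b m) (dl 1)⟫_ℂ = _
    rw [rho_mFourier, Um, ← lam_mul, lam_dl, mul_one, ghop_inner]
    split_ifs with h
    · rw [h.1, h.2, ofAdd_zero, map_one, map_one, mul_one, HilbG_dl_self]
    · refine HilbG_dl_ne fun e => h ?_
      rw [← mk_eq_inl_mul_inr] at e
      exact ⟨(congrArg SemidirectProduct.left e).symm, (congrArg SemidirectProduct.right e).symm⟩
  split_ifs with hm
  · exact DFunLike.congr_fun (torus_ext f ghop_coeff hf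
      (AddMonoidHomClass.continuous_of_bound ghop_coeff 1 fun F => by
        rw [one_mul]; exact norm_mFourierCoeff_le F) fun n => by
      rw [hv]
      simp only [hm, and_true]
      exact Eq.trans (by congr) (mFourierCoeff_mFourier_zero n).symm) F
  · exact DFunLike.congr_fun (torus_ext f 0 hf continuous_const fun n => by
      rw [hv, if_neg fun h => hm h.2]; rfl) F

end

variable (k ν : ℕ)

/-- the coefficient function. -/
noncomputable def Fm (n n' : ℤ) (m : MM k) : C(UnitAddTorus (GI k), ℂ) :=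
  Phi k ν n * (Phi k ν n').comp (tmap (Cm (bb k ν) m))

noncomputable def Pop (n n' : ℤ) : L2 (QQ k (bb k ν)) ℂ →L[ℂ] L2 (QQ k (bb k ν)) ℂ :=
  rho k _ (Phi k ν n) * (∑ m ∈ (finite_rel (k := k) (ν := ν) n n').toFinset, Um k _ m) *
    rho k _ (Phi k ν n')

/-- the multiplier `γ n`. -/
noncomputable def gam (n : ℤ) : C(UnitAddTorus (GI k), ℂ) :=
  ∑ l ∈ Finset.Icc (n - 1) (n + 1), ∑ m ∈ (finite_rel (k := k) (ν := ν) n l).toFinset,
    (Phi k ν l).comp (tmap (Cm (bb k ν) m)) ^ 2

theorem ghop_star_Phi (n : ℤ) : star (Phi k ν n) = Phi k ν n := by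
  rw [Phi, star_smul, star_bump, Complex.star_def, Complex.conj_ofReal]

theorem Pop_eq (n n' : ℤ) : Pop k ν n n' =
    ∑ m ∈ (finite_rel (k := k) (ν := ν) n n').toFinset, rho k _ (Fm k ν n n' m) * Um k _ m := by
  rw [Pop, Finset.mul_sum, Finset.sum_mul]
  refine Finset.sum_congr rfl fun m _ => ?_
  rw [mul_assoc, Um_rho, Fm, map_mul, mul_assoc]

theorem Pop_star (n n' : ℤ) : star (Pop k ν n n') = Pop k ν n' n := by
  rw [Pop, Pop, star_mul, star_mul, ← map_star, ← map_star, ghop_star_Phi, ghop_star_Phi,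
    ← mul_assoc, star_sum]
  congr 2
  refine Finset.sum_bij' (fun m _ => m⁻¹) (fun m _ => m⁻¹) (fun m hm => ?_) (fun m hm => ?_)
    (fun m _ => inv_inv m) (fun m _ => inv_inv m) fun m _ => ?_
  · exact (Set.Finite.mem_toFinset _).2 (rel_inv.1 ((Set.Finite.mem_toFinset _).1 hm))
  · exact (Set.Finite.mem_toFinset _).2 (rel_inv.1 ((Set.Finite.mem_toFinset _).1 hm))
  · rw [Um, Um, star_lam, map_inv]

theorem Pop_band (n n' : ℤ) (h : 2 ≤ (n - n').natAbs) : Pop k ν n n' = 0 := by
  have e : (finite_rel (k := k) (ν := ν) n n').toFinset = ∅ :=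
    Finset.eq_empty_of_forall_notMem fun m hm => by
      have := rel_band ((Set.Finite.mem_toFinset _).1 hm)
      omega
  rw [Pop, e, Finset.sum_empty, mul_zero, zero_mul]

theorem norm_Pop_le (n n' : ℤ) : ‖Pop k ν n n'‖ ≤
    ((finite_rel (k := k) (ν := ν) n n').toFinset.card : ℝ) * (cn k ν n * cn k ν n') := by
  have h1 : ∀ l, ‖rho k (bb k ν) (Phi k ν l)‖ ≤ cn k ν l := fun l => by
    refine (norm_rho_le _ _ _).trans ?_
    rw [Phi, norm_smul, Complex.norm_real, Real.norm_of_nonneg (cn_pos l).1.le]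
    exact mul_le_of_le_one_right (cn_pos l).1.le (norm_bump_le (wd_pos l) _)
  have h2 : ‖∑ m ∈ (finite_rel (k := k) (ν := ν) n n').toFinset, Um k (bb k ν) m‖ ≤
      ((finite_rel (k := k) (ν := ν) n n').toFinset.card : ℝ) := by
    refine (norm_sum_le _ _).trans ((Finset.sum_le_card_nsmul _ _ 1 fun m _ =>
      norm_lam_le _).trans ?_)
    rw [nsmul_eq_mul, mul_one]
  have h3 := (cn_pos (k := k) (ν := ν) n).1.le
  refine (norm_mul_le _ _).trans ((mul_le_mul ((norm_mul_le _ _).trans (mul_le_mul (h1 n) h2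
    (norm_nonneg _) h3)) (h1 n') (norm_nonneg _) (by positivity)).trans (le_of_eq ?_))
  ring

theorem Pop_ne : Pop k ν 0 0 ≠ 0 := by
  classical
  intro h
  have h1 : ⟪dl (1 : QQ k (bb k ν)), Pop k ν 0 0 (dl 1)⟫_ℂ = mFourierCoeff (Fm k ν 0 0 1) 0 := by
    rw [Pop_eq, ContinuousLinearMap.sum_apply, inner_sum]
    simp only [rho_trace]
    rw [Finset.sum_eq_single 1 (fun m _ hm => if_neg hm) fun hm =>
      (hm ((Set.Finite.mem_toFinset _).2 (one_mem_rel 0))).elim, if_pos rfl]
  have h2 : (Fm k ν 0 0 1 : UnitAddTorus (GI k) → ℂ) =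
      fun y => Phi k ν 0 y * conj (Phi k ν 0 y) := by
    funext y
    have e1 : tmap (Cm (bb k ν) (1 : MM k)) y = y := by
      rw [Cm_one]
      funext i
      change ∑ j, (1 : Matrix (GI k) (GI k) ℤ) i j • y j = y i
      rw [Finset.sum_eq_single i (fun j _ hj => by rw [Matrix.one_apply_ne' hj, zero_smul])
        (fun hi => (hi (Finset.mem_univ _)).elim), Matrix.one_apply_eq, one_smul]
    have e2 : conj (Phi k ν 0 y) = Phi k ν 0 y := DFunLike.congr_fun (ghop_star_Phi k ν 0) y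
    rw [e2, Fm, ContinuousMap.mul_apply, ContinuousMap.comp_apply, e1]
  have h3 : Phi k ν 0 (tproj (ct k ν 0)) ≠ 0 := by
    rw [Phi, ContinuousMap.smul_apply, bump_tproj _ _ _ fun i => by simp, smul_eq_mul]
    exact mul_ne_zero (Complex.ofReal_ne_zero.2 (cn_pos 0).1.ne') (Complex.ofReal_ne_zero.2
      ((rbump_ne_zero_iff (wd_pos 0) _ _).2 (ct_mem_Box 0)))
  refine mFourierCoeff_ne_zero _ _ h3 ?_
  rw [← h2, ← h1, h, ContinuousLinearMap.zero_apply, inner_zero_right]

end Crest.Agent.R129
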