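import Crest.Agent.R129.GhOp

/-!
# R129 / GhOp2 : products, inverse multiplier, almost invariance
-/

set_option autoImplicit false
open scoped InnerProductSpace ComplexConjugate
open UnitAddTorus SemidirectProduct

namespace Crest.Agent.R129

variable (k ν : ℕ)

theorem go2_Um_mul (b : ℕ) (m m' : MM k) : Um k b m * Um k b m' = Um k b (m * m') := by
  rw [Um, Um, Um, map_mul, lam_mul]

theorem go2_tmap {k : ℕ} (b : ℕ) (m m' : MM k) (η : GI k → ℝ) :
    tmap (Cm b (m * m')) (tproj η) = tmap (Cm b m') (tproj (loc b m η)) := by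
  rw [Cm_mul, tmap_mul, tproj_loc]

theorem go2_box {k ν : ℕ} {n : ℤ} {η : GI k → ℝ} (h : rb k ν n η ≠ 0) : η ∈ Box k ν n :=
  (rbump_ne_zero_iff (wd_pos n) _ _).1 (right_ne_zero_of_mul h)

theorem go2_zero {k ν : ℕ} {n l n' : ℤ} {m m' : MM k} (hm : m ∈ Rel k ν n l)
    (h : (m' ∈ Rel k ν l n' ∧ m * m' ∉ Rel k ν n n') ∨ (m * m' ∈ Rel k ν n n' ∧ m' ∉ Rel k ν l n')) :
    (Phi k ν l).comp (tmap (Cm (bb k ν) m)) ^ 2 * Fm k ν n n' (m * m') = 0 := by
  ext x
  change Phi k ν l (tmap (Cm (bb k ν) m) x) ^ 2 *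
    (Phi k ν n x * Phi k ν n' (tmap (Cm (bb k ν) (m * m')) x)) = 0
  by_cases h1 : Phi k ν n x = 0
  · simp [h1]
  obtain ⟨η, hη, rfl⟩ := exists_box_of_Phi_ne_zero h1
  rw [Phi_loc hη hm]
  by_cases h2 : rb k ν l (loc (bb k ν) m η) = 0
  · simp [h2]
  have h3 := go2_box h2
  rcases h with ⟨h4, h5⟩ | ⟨h4, h5⟩
  · rw [go2_tmap, Phi_loc h3 h4, ← loc_mul, rb_loc_eq_zero hη h5]
    simp
  · rw [Phi_loc hη h4, loc_mul, rb_loc_eq_zero h3 h5]
    simp

theorem go2_norm_Phi (n : ℤ) (x : UnitAddTorus (GI k)) : ‖Phi k ν n x‖ ≤ cn k ν n := by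
  refine ((Phi k ν n).norm_coe_le_norm x).trans ?_
  rw [Phi, norm_smul, Complex.norm_real, Real.norm_of_nonneg (cn_pos n).1.le]
  exact mul_le_of_le_one_right (cn_pos n).1.le (norm_bump_le (wd_pos n) _)

/-- `P n l * P l n' = ∑_{m ∈ Rel n l, m' ∈ Rel l n'} ρ(Φ_n (Φ_l∘m)² Φ_{n'}∘(m m')) U (m m')`.  At a point `tproj η`, `η ∈ Box n`:
if `Φ_l(m η) ≠ 0` then `loc m η ∈ Box l`, so `Φ_{n'}(m m' η) = rb n' (loc (m m') η)`.  Hence the product equals
`∑_{m ∈ Rel n l} ∑_{m'' ∈ Rel n n'} ρ(Φ_n (Φ_l∘m)² Φ_{n'}∘m'') U m''` (terms with `m m' ∉ Rel n n'`, resp. `m⁻¹ m'' ∉ Rel l n'`, vanish). -/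
theorem Pop_mul (n l n' : ℤ) : Pop k ν n l * Pop k ν l n' =
    rho k _ (∑ m ∈ (finite_rel (k := k) (ν := ν) n l).toFinset,
      (Phi k ν l).comp (tmap (Cm (bb k ν) m)) ^ 2) * Pop k ν n n' := by
  classical
  rw [Pop_eq, Pop_eq, Pop_eq, map_sum, Finset.sum_mul_sum, Finset.sum_mul_sum]
  refine Finset.sum_congr rfl fun m hm => ?_
  have hm' : m ∈ Rel k ν n l := (Set.Finite.mem_toFinset _).1 hm
  have h1 : ∀ m', rho k _ (Fm k ν n l m) * Um k _ m * (rho k _ (Fm k ν l n' m') * Um k (bb k ν) m') =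
      rho k _ ((Phi k ν l).comp (tmap (Cm (bb k ν) m)) ^ 2 * Fm k ν n n' (m * m')) *
        Um k _ (m * m') := fun m' => by
    rw [mul_assoc, ← mul_assoc (Um k _ m), Um_rho, mul_assoc, go2_Um_mul, ← mul_assoc, ← map_mul]
    congr 2
    ext x
    simp only [Fm, ContinuousMap.mul_apply, ContinuousMap.comp_apply, ContinuousMap.pow_apply,
      Cm_mul, tmap_mul]
    ring
  simp only [h1, ← mul_assoc, ← map_mul]
  rw [← Finset.sum_image (g := fun m' => m * m') (f := fun m'' => rho k _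
    ((Phi k ν l).comp (tmap (Cm (bb k ν) m)) ^ 2 * Fm k ν n n' m'') * Um k (bb k ν) m'')
    (mul_right_injective m).injOn]
  refine Finset.sum_congr_of_eq_on_inter (fun a ha ha' => ?_) (fun a ha ha' => ?_) fun _ _ _ => rfl
  · obtain ⟨m', h2, rfl⟩ := Finset.mem_image.1 ha
    rw [Set.Finite.mem_toFinset] at h2 ha'
    rw [go2_zero hm' (Or.inl ⟨h2, ha'⟩), map_zero, zero_mul]
  · obtain ⟨m', rfl⟩ : ∃ m', a = m * m' := ⟨m⁻¹ * a, (mul_inv_cancel_left _ _).symm⟩
    rw [go2_zero hm' (Or.inr ⟨(Set.Finite.mem_toFinset _).1 ha, fun h2 =>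
      ha' (Finset.mem_image_of_mem _ ((Set.Finite.mem_toFinset _).2 h2))⟩), map_zero, zero_mul]

/-- `G n = ρ (1 / max (re γ) c)`; on the support of `Φ n`, `γ n` is real and `≥ c` (`exists_lower`, `Phi_loc`). -/
theorem exists_G (k : ℕ) : ∃ C : ℝ, ∀ ν, 2 ≤ ν → ∀ n,
    ∃ G : L2 (QQ k (bb k ν)) ℂ →L[ℂ] L2 (QQ k (bb k ν)) ℂ, IsSelfAdjoint G ∧ ‖G‖ ≤ C ∧
      ∀ n', G * ∑ l ∈ Finset.Icc (n - 1) (n + 1), Pop k ν n l * Pop k ν l n' = Pop k ν n n' := by
  obtain ⟨c, hc, h⟩ := exists_lower k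
  refine ⟨c⁻¹, fun ν hν n => ?_⟩
  have hp : ∀ x, 0 < max (gam k ν n x).re c := fun x => lt_max_of_lt_right hc
  let g : C(UnitAddTorus (GI k), ℂ) := ⟨fun x => (((max (gam k ν n x).re c)⁻¹ : ℝ) : ℂ),
    Complex.continuous_ofReal.comp (Continuous.inv₀ (by fun_prop) fun x => (hp x).ne')⟩
  refine ⟨rho k _ g, ?_, (norm_rho_le k _ g).trans ?_, fun n' => ?_⟩
  · have : star g = g := by
      ext x
      exact Complex.conj_ofReal _
    rw [IsSelfAdjoint, ← map_star, this]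
  · refine (ContinuousMap.norm_le _ (by positivity)).2 fun x => ?_
    change ‖(((max (gam k ν n x).re c)⁻¹ : ℝ) : ℂ)‖ ≤ _
    rw [Complex.norm_real, Real.norm_of_nonneg (inv_nonneg.2 (hp x).le)]
    exact inv_anti₀ hc (le_max_right _ _)
  · have h1 : g * gam k ν n * Phi k ν n = Phi k ν n := by
      ext x
      change (((max (gam k ν n x).re c)⁻¹ : ℝ) : ℂ) * gam k ν n x * Phi k ν n x = _
      by_cases h1 : Phi k ν n x = 0
      · simp [h1]
      obtain ⟨η, hη, rfl⟩ := exists_box_of_Phi_ne_zero h1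
      have h2 := h ν hν n η hη
      have h3 : gam k ν n (tproj η) = ((∑ l ∈ Finset.Icc (n - 1) (n + 1),
          ∑ m ∈ (finite_rel (k := k) (ν := ν) n l).toFinset,
            rb k ν l (loc (bb k ν) m η) ^ 2 : ℝ) : ℂ) := by
        simp only [gam, ContinuousMap.sum_apply, ContinuousMap.pow_apply, ContinuousMap.comp_apply]
        push_cast
        exact Finset.sum_congr rfl fun l _ => Finset.sum_congr rfl fun m hm => by
          rw [Phi_loc hη ((Set.Finite.mem_toFinset _).1 hm)]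
      rw [h3, Complex.ofReal_re, max_eq_left h2, ← Complex.ofReal_mul,
        inv_mul_cancel₀ (hc.trans_le h2).ne', Complex.ofReal_one, one_mul]
    simp only [Pop_mul]
    rw [← Finset.sum_mul, ← map_sum, ← gam, ← mul_assoc, ← map_mul, Pop, ← mul_assoc, ← mul_assoc,
      ← map_mul, h1]

/-- `P l n * U m₀ - P l n = ∑_{m'' ∈ Rel ∪ Rel·m₀} ρ(H m'') U m''`, where at `tproj η`, `η ∈ Box l`,
`H m'' = Φ_l · (rb n (loc (m'' m₀⁻¹) η) - rb n (loc m'' η))` (`Phi_loc`, `rb_loc_eq_zero`); `exists_lip` at the point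
`loc (m'' m₀⁻¹) η`; at most `2 |Rel l n|` terms. -/
theorem exists_inv (k : ℕ) : ∃ C : ℝ, ∀ ν l n j (m : MM k), j ≤ ν → Tiny (ν - j) n m →
    ‖Pop k ν l n * (Um k _ m - 1)‖ ≤ C / 2 ^ j := by
  classical
  obtain ⟨C, h⟩ := exists_lip k
  obtain ⟨C', h'⟩ := exists_card_rel k
  refine ⟨2 * C' * C, fun ν l n j m₀ hj hm => ?_⟩
  have hl := (cn_pos (k := k) (ν := ν) l).1
  have hn := (cn_pos (k := k) (ν := ν) n).1
  have hC : 0 ≤ C / 2 ^ j :=
    nonneg_of_mul_nonneg_right ((abs_nonneg _).trans (h ν n j m₀ hj hm 0)) hn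
  have hA := h' ν l n
  set A := (finite_rel (k := k) (ν := ν) l n).toFinset with hAd
  have hmem : ∀ m, m ∈ A ↔ m ∈ Rel k ν l n := fun m => Set.Finite.mem_toFinset _
  let a : MM k → C(UnitAddTorus (GI k), ℂ) := fun m => if m ∈ A then Fm k ν l n m else 0
  have h1 : Pop k ν l n * (Um k _ m₀ - 1) =
      ∑ m ∈ A ∪ A.image (· * m₀), rho k _ (a (m * m₀⁻¹) - a m) * Um k (bb k ν) m := by
    simp only [map_sub, sub_mul, Finset.sum_sub_distrib]
    rw [mul_sub, mul_one, Pop_eq, Finset.sum_mul]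
    congr 1
    · rw [← Finset.sum_subset Finset.subset_union_right, Finset.sum_image
        (mul_left_injective m₀).injOn]
      · refine Finset.sum_congr rfl fun m hm => ?_
        simp only [mul_inv_cancel_right, a, if_pos hm]
        rw [mul_assoc, go2_Um_mul]
      · intro m _ hm
        have : m * m₀⁻¹ ∉ A := fun h2 => hm (Finset.mem_image.2 ⟨_, h2, inv_mul_cancel_right _ _⟩)
        simp only [a, if_neg this, map_zero, zero_mul]
    · rw [← Finset.sum_subset Finset.subset_union_left]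
      · exact Finset.sum_congr rfl fun m hm => by simp only [a, if_pos hm]
      · intro m _ hm
        simp only [a, if_neg hm, map_zero, zero_mul]
  have h2 : ∀ m, ‖a (m * m₀⁻¹) - a m‖ ≤ cn k ν l * (cn k ν n * (C / 2 ^ j)) := fun m => by
    refine (ContinuousMap.norm_le _ (by positivity)).2 fun x => ?_
    by_cases hx : Phi k ν l x = 0
    · have : ∀ m, a m x = 0 := fun m => by
        simp only [a]
        split_ifs
        · simp [Fm, hx]
        · rfl
      rw [ContinuousMap.sub_apply, this, this, sub_self, norm_zero]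
      positivity
    obtain ⟨η, hη, rfl⟩ := exists_box_of_Phi_ne_zero hx
    have h3 : ∀ m, a m (tproj η) = Phi k ν l (tproj η) * (rb k ν n (loc (bb k ν) m η) : ℂ) :=
      fun m => by
        simp only [a]
        split_ifs with hm
        · rw [← Phi_loc hη ((hmem m).1 hm)]
          rfl
        · rw [rb_loc_eq_zero hη fun h2 => hm ((hmem m).2 h2)]
          simp
    have h4 := h ν n j m₀ hj hm (loc (bb k ν) (m * m₀⁻¹) η)
    rw [← loc_mul, inv_mul_cancel_right, abs_sub_comm] at h4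
    rw [ContinuousMap.sub_apply, h3, h3, ← mul_sub, norm_mul, ← Complex.ofReal_sub,
      Complex.norm_real, Real.norm_eq_abs]
    exact mul_le_mul (go2_norm_Phi k ν l _) h4 (abs_nonneg _) hl.le
  have h3 : ((A ∪ A.image (· * m₀)).card : ℝ) ≤ 2 * A.card := by
    have := (Finset.card_union_le A (A.image (· * m₀))).trans
      (Nat.add_le_add_left Finset.card_image_le _)
    rw [← two_mul] at this
    exact_mod_cast this
  rw [h1]
  calc _ ≤ ∑ m ∈ A ∪ A.image (· * m₀), cn k ν l * (cn k ν n * (C / 2 ^ j)) := by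
        refine (norm_sum_le _ _).trans (Finset.sum_le_sum fun m _ => (norm_mul_le _ _).trans ?_)
        exact (mul_le_of_le_one_right (norm_nonneg _) (norm_lam_le _)).trans
          ((norm_rho_le k _ _).trans (h2 m))
    _ ≤ 2 * A.card * (cn k ν l * (cn k ν n * (C / 2 ^ j))) := by
        rw [Finset.sum_const, nsmul_eq_mul]
        gcongr
    _ = 2 * (A.card * (cn k ν l * cn k ν n)) * (C / 2 ^ j) := by ring
    _ ≤ 2 * C' * (C / 2 ^ j) := by gcongr
    _ = _ := by ring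

end Crest.Agent.R129
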