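import Crest.Agent.R129.GhAlg

/-!
# R129 / GhSz : polynomial growth of `QQ`; reduction to a fundamental domain
-/

set_option autoImplicit false

namespace Crest.Agent.R129

section
variable {k : ℕ} (b : ℕ)

/-- size of a group element. -/
def SzQ (T S : ℕ) (g : QQ k b) : Prop :=
  (∀ i, |g.left.toAdd i| ≤ S) ∧ ∀ σ, GrB (T : ℤ) (g.right σ)

theorem SzQ.mono {T S T' S' : ℕ} {g : QQ k b} (h : SzQ b T S g) (hT : T ≤ T') (hS : S ≤ S') :
    SzQ b T' S' g := by
  refine ⟨fun i => (h.1 i).trans (by exact_mod_cast hS), fun σ => ?_⟩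
  exact GrB.mono (Nat.cast_nonneg T) (by exact_mod_cast hT) (h.2 σ)

theorem ghsz_entry {T : ℕ} (hT : 1 ≤ T) {g : U k ℤ} (hg : GrB (T : ℤ) g) (i j : Fin k) :
    |g.1 i j| ≤ (T : ℤ) ^ k := by
  have hT' : (1 : ℤ) ≤ T := by exact_mod_cast hT
  rcases le_or_gt i j with h | h
  · exact (hg.le h).trans (pow_le_pow_right₀ hT' (by have := j.2; omega))
  · rw [g.2.zero h, abs_zero]
    positivity

theorem ghsz_Cm {T : ℕ} (hT : 1 ≤ T) {m : MM k} (hm : ∀ σ, GrB (T : ℤ) (m σ)) (i j : GI k) :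
    |Cm b m i j| ≤ ((b : ℤ) + 1) * (T : ℤ) ^ k := by
  have hT' : (1 : ℤ) ≤ T := by exact_mod_cast hT
  have h1 : (1 : ℤ) ≤ (T : ℤ) ^ k := one_le_pow₀ hT'
  have hb : (1 : ℤ) ≤ (b : ℤ) + 1 := by omega
  have h2 : (T : ℤ) ^ k ≤ ((b : ℤ) + 1) * (T : ℤ) ^ k := le_mul_of_one_le_left (by positivity) hb
  rcases i with _ | ⟨σ, p⟩ <;> rcases j with _ | ⟨σ', p'⟩
  · exact (show |(1 : ℤ)| ≤ _ from by rw [abs_one]; exact h1.trans h2)
  · exact (show |(0 : ℤ)| ≤ _ from by rw [abs_zero]; positivity)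
  · show |cc b σ * ent (m σ) p| ≤ _
    rw [abs_mul]
    refine mul_le_mul ?_ (ghsz_entry hT (hm σ) _ _) (abs_nonneg _) (by positivity)
    cases σ
    · exact (show |(b : ℤ) + 1| ≤ _ from by rw [abs_of_nonneg (by positivity)])
    · exact (show |-(b : ℤ)| ≤ _ from by rw [abs_neg, abs_of_nonneg (by positivity)]; omega)
  · show |(if σ' = σ ∧ p'.1.1 = p.1.1 then (m σ).1 p'.1.2 p.1.2 else 0)| ≤ _
    split_ifs
    · exact (ghsz_entry hT (hm σ) _ _).trans h2
    · rw [abs_zero]; positivity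

theorem ghsz_vec {T S : ℕ} (hT : 1 ≤ T) {m : MM k} (hm : ∀ σ, GrB (T : ℤ) (m σ)) {a : GI k → ℤ}
    (ha : ∀ i, |a i| ≤ S) (j : GI k) :
    |Matrix.vecMul a (Cm b m) j| ≤ ((Fintype.card (GI k) * ((b + 1) * T ^ k) * S : ℕ) : ℤ) := by
  show |∑ i, a i * Cm b m i j| ≤ _
  refine (Finset.abs_sum_le_sum_abs _ _).trans ?_
  refine (Finset.sum_le_card_nsmul _ _ ((S : ℤ) * (((b : ℤ) + 1) * (T : ℤ) ^ k)) fun i _ => ?_).trans
    (le_of_eq ?_)
  · rw [abs_mul]
    exact mul_le_mul (ha i) (ghsz_Cm b hT hm i j) (abs_nonneg _) (Nat.cast_nonneg S)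
  · rw [Finset.card_univ, nsmul_eq_mul]
    push_cast
    ring

/-- `|Cm m i j| ≤ (b+1) T^k`. -/
theorem SzQ.mul {T S T' S' : ℕ} (hT : 1 ≤ T) {g h : QQ k b} (hg : SzQ b T S g) (hh : SzQ b T' S' h) :
    SzQ b (T + T') (S + Fintype.card (GI k) * ((b + 1) * T ^ k) * S') (g * h) := by
  refine ⟨fun i => ?_, fun σ => ?_⟩
  · rw [SemidirectProduct.mul_left, toAdd_mul, phi_apply, toAdd_ofAdd, Pi.add_apply, Nat.cast_add]
    exact (abs_add_le _ _).trans (add_le_add (hg.1 i) (ghsz_vec b hT hg.2 hh.1 i))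
  · rw [SemidirectProduct.mul_right, Pi.mul_apply, Nat.cast_add]
    exact GrB.mul (Nat.cast_nonneg T) (Nat.cast_nonneg T') (hg.2 σ) (hh.2 σ)

theorem SzQ.inv {T S : ℕ} (hT : 1 ≤ T) {g : QQ k b} (hg : SzQ b T S g) :
    SzQ b (2 * T) (Fintype.card (GI k) * ((b + 1) * (2 * T) ^ k) * S) g⁻¹ := by
  have h2 : ∀ σ, GrB ((2 * T : ℕ) : ℤ) (g.right⁻¹ σ) := fun σ => by
    rw [Pi.inv_apply, Nat.cast_mul, Nat.cast_ofNat]
    exact GrB.inv (Nat.cast_nonneg T) (hg.2 σ)
  refine ⟨fun i => ?_, fun σ => ?_⟩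
  · rw [SemidirectProduct.inv_left, phi_apply, toAdd_ofAdd]
    refine ghsz_vec b (by omega) h2 (fun j => ?_) i
    rw [toAdd_inv, Pi.neg_apply, abs_neg]
    exact hg.1 j
  · rw [SemidirectProduct.inv_right]
    exact h2 σ

/-- induction from the right (`List.reverseRecOn`): `(l ++ [g]).prod = l.prod * g`. -/
theorem SzQ.prod {T S : ℕ} (hT : 1 ≤ T) (l : List (QQ k b)) (h : ∀ g ∈ l, SzQ b T S g) :
    SzQ b ((l.length + 1) * T)
      ((l.length + 1) * (Fintype.card (GI k) * ((b + 1) * ((l.length + 1) * T) ^ k) * S)) l.prod := by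
  induction l using List.reverseRecOn with
  | nil =>
    refine ⟨fun i => ?_, fun σ p => ?_⟩
    · rw [List.prod_nil, SemidirectProduct.one_left, toAdd_one, Pi.zero_apply, abs_zero]
      exact Nat.cast_nonneg _
    · rw [List.prod_nil, SemidirectProduct.one_right, Pi.one_apply, ent, U.val_one,
        Matrix.one_apply_ne p.2.ne, abs_zero]
      positivity
  | append_singleton l g ih =>
    rw [List.prod_append, List.prod_singleton, List.length_append, List.length_singleton]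
    have h1 := ih fun x hx => h x (List.mem_append_left _ hx)
    have h2 := h g (by simp)
    have h3 : 1 ≤ (l.length + 1) * T := Nat.mul_pos (Nat.succ_pos _) hT
    refine (SzQ.mul b h3 h1 h2).mono b (le_of_eq (by ring)) ?_
    rw [← add_one_mul]
    gcongr
    omega

theorem exists_SzQ_finset (T S : ℕ) (hT : 1 ≤ T) : ∃ W : Finset (QQ k b),
    W.card ≤ (2 * S + 1) ^ Fintype.card (GI k) * (2 * T ^ k + 1) ^ (2 * Fintype.card (UI k)) ∧
      ∀ g, SzQ b T S g → g ∈ W := by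
  classical
  obtain ⟨s, hs, hc⟩ := exists_grB_finset k T
  refine ⟨((Fintype.piFinset fun _ : GI k => Finset.Icc (-(S : ℤ)) S) ×ˢ
    (Fintype.piFinset fun _ : Bool => s)).image
      (fun x => (⟨Multiplicative.ofAdd x.1, x.2⟩ : QQ k b)), ?_, fun g hg => ?_⟩
  · refine Finset.card_image_le.trans ?_
    rw [Finset.card_product, Fintype.card_piFinset, Fintype.card_piFinset, Finset.prod_const,
      Finset.prod_const, Finset.card_univ, Finset.card_univ, Fintype.card_bool, Int.card_Icc,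
      mul_comm 2 (Fintype.card (UI k)), pow_mul]
    have e : ((S : ℤ) + 1 - -(S : ℤ)).toNat = 2 * S + 1 := by omega
    rw [e]
    refine Nat.mul_le_mul_left _ (Nat.pow_le_pow_left ?_ 2)
    rw [hc, ← Finset.card_univ]
    refine Finset.prod_le_pow_card _ _ _ fun p _ => ?_
    have : p.ht ≤ k := by
      have := p.1.2.2
      unfold UI.ht
      omega
    have := Nat.pow_le_pow_right hT this
    omega
  · refine Finset.mem_image.2 ⟨(g.left.toAdd, g.right), Finset.mem_product.2 ⟨?_, ?_⟩, rfl⟩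
    · exact Fintype.mem_piFinset.2 fun i => Finset.mem_Icc.2 (abs_le.1 (hg.1 i))
    · exact Fintype.mem_piFinset.2 fun σ => (hs _).2 (hg.2 σ)

end

/-- reduction to a fundamental domain: modify the rows of `m` from the bottom to the top. -/
theorem exists_reduce {k : ℕ} (u : U k ℝ) :
    ∃ m : U k ℤ, ∀ p : UI k, |(u.1 * m.1.map (Int.cast : ℤ → ℝ)) p.1.1 p.1.2| ≤ 1 := by
  have key : ∀ n : ℕ, ∃ m : U k ℤ, ∀ p : UI k, k ≤ p.1.1.val + n →
      |(u.1 * m.1.map (Int.cast : ℤ → ℝ)) p.1.1 p.1.2| ≤ 1 := by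
    intro n
    induction n with
    | zero => exact ⟨1, fun p hp => absurd p.1.1.2 (by omega)⟩
    | succ n ih =>
      obtain ⟨m, hm⟩ := ih
      set A := u.1 * m.1.map (Int.cast : ℤ → ℝ) with hA
      set D : Fin k → Fin k → ℤ := fun l j => if l < j ∧ l.val + n + 1 = k then ⌊A l j⌋ else 0 with hD
      refine ⟨⟨fun l j => m.1 l j - D l j, fun l j h => ?_⟩, fun p hp => ?_⟩
      · have : D l j = 0 := if_neg fun h' => not_lt.2 h h'.1
        show m.1 l j - D l j = _
        rw [this, sub_zero, m.2 l j h]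
      obtain ⟨⟨i, j⟩, hij⟩ := p
      have hij' : i < j := hij
      have hp' : k ≤ i.val + (n + 1) := hp
      have e1 : ∑ l, u.1 i l * (D l j : ℝ) = D i j := by
        rw [Finset.sum_eq_single i, u.2.diag, one_mul]
        · intro l _ hl
          rcases lt_or_gt_of_ne hl with h1 | h1
          · rw [u.2.zero h1, zero_mul]
          · have h2 : i.val < l.val := h1
            have : D l j = 0 := if_neg fun h' => by omega
            rw [this, Int.cast_zero, mul_zero]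
        · simp
      have e2 : ∑ l, u.1 i l * ((m.1 l j - D l j : ℤ) : ℝ) = A i j - D i j := by
        rw [← e1, hA, Matrix.mul_apply, ← Finset.sum_sub_distrib]
        refine Finset.sum_congr rfl fun l _ => ?_
        rw [Matrix.map_apply, Int.cast_sub, mul_sub]
      show |∑ l, u.1 i l * ((m.1 l j - D l j : ℤ) : ℝ)| ≤ 1
      rw [e2]
      by_cases h : i.val + n + 1 = k
      · have : D i j = ⌊A i j⌋ := if_pos ⟨hij', h⟩
        rw [this, Int.self_sub_floor, abs_of_nonneg (Int.fract_nonneg _)]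
        exact (Int.fract_lt_one _).le
      · have : D i j = 0 := if_neg fun h' => h h'.2
        rw [this, Int.cast_zero, sub_zero]
        exact hm ⟨(i, j), hij⟩ (show k ≤ i.val + n by omega)
  obtain ⟨m, hm⟩ := key k
  exact ⟨m, fun p => hm p (Nat.le_add_left _ _)⟩

end Crest.Agent.R129
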