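import Crest.Agent.R129.GhOp2
import Crest.Agent.R129.Apx

/-!
# R129 / Ghost : finite approximations, growth, and the ghost package
-/

set_option autoImplicit false
open scoped InnerProductSpace ComplexConjugate Pointwise
open UnitAddTorus SemidirectProduct

namespace Crest.Agent.R129

section
variable {Q : Type} [Group Q]

theorem gh_apx_zero (S : Set Q) : Apx (0 : L2 Q ℂ →L[ℂ] L2 Q ℂ) S 0 0 := by
  simpa using apx_sum_lam (∅ : Finset Q) id S (by simp)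

theorem gh_apx_sum {α : Type} (s : Finset α) {X : α → L2 Q ℂ →L[ℂ] L2 Q ℂ} {S : Set Q}
    {B δ : α → ℝ} (h : ∀ a ∈ s, Apx (X a) S (B a) (δ a)) :
    Apx (∑ a ∈ s, X a) S (∑ a ∈ s, B a) (∑ a ∈ s, δ a) := by
  classical
  induction s using Finset.induction with
  | empty => simpa using gh_apx_zero S
  | insert a s ha ih =>
    simp only [Finset.sum_insert ha]
    exact (h a (Finset.mem_insert_self _ _)).add (ih fun b hb => h b (Finset.mem_insert_of_mem hb))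

theorem gh_apx_near {X Y : L2 Q ℂ →L[ℂ] L2 Q ℂ} {S : Set Q} {B ε : ℝ} (h : Apx X S B 0)
    (hε : ‖Y - X‖ ≤ ε) : Apx Y S B ε := by
  obtain ⟨a, h1, h2, h3⟩ := h
  refine ⟨a, h1, h2, ?_⟩
  rwa [sub_eq_zero.1 (norm_le_zero_iff.1 h3), norm_sub_rev]

end

/-- polynomially bounded in terms of `z`. -/
def gh_P {α : Type} (z f : α → ℕ) : Prop := ∃ c, ∀ a, f a ≤ z a ^ c

section
variable {α : Type} {z f g : α → ℕ}

theorem gh_P.const (hz : ∀ a, 2 ≤ z a) (n : ℕ) : gh_P z fun _ => n :=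
  ⟨n, fun a => Nat.lt_two_pow_self.le.trans (Nat.pow_le_pow_left (hz a) n)⟩

theorem gh_P.of_le (h : ∀ a, f a ≤ z a) : gh_P z f := ⟨1, fun a => by simpa using h a⟩

theorem gh_P.mul (hf : gh_P z f) (hg : gh_P z g) : gh_P z fun a => f a * g a := by
  obtain ⟨c, hc⟩ := hf
  obtain ⟨d, hd⟩ := hg
  exact ⟨c + d, fun a => by rw [pow_add]; exact Nat.mul_le_mul (hc a) (hd a)⟩

theorem gh_P.pow (hf : gh_P z f) (n : ℕ) : gh_P z fun a => f a ^ n := by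
  obtain ⟨c, hc⟩ := hf
  exact ⟨c * n, fun a => by rw [pow_mul]; exact Nat.pow_le_pow_left (hc a) n⟩

theorem gh_P.add (hz : ∀ a, 2 ≤ z a) (hf : gh_P z f) (hg : gh_P z g) :
    gh_P z fun a => f a + g a := by
  obtain ⟨c, hc⟩ := hf
  obtain ⟨d, hd⟩ := hg
  refine ⟨c + d + 1, fun a => ?_⟩
  have h0 : 0 < z a := by linarith [hz a]
  have h1 : z a ^ c ≤ z a ^ (c + d) := Nat.pow_le_pow_right h0 (by omega)
  have h2 : z a ^ d ≤ z a ^ (c + d) := Nat.pow_le_pow_right h0 (by omega)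
  rw [pow_succ]
  nlinarith [hc a, hd a, Nat.mul_le_mul_left (z a ^ (c + d)) (hz a)]

theorem gh_P.bb (hz : ∀ a, 2 ≤ z a) (k : ℕ) (hf : gh_P z fun a => 2 ^ f a) :
    gh_P z fun a => bb k (f a) + 1 :=
  gh_P.add hz ((gh_P.const hz _).mul (((gh_P.const hz _).mul hf).pow k)) (gh_P.const hz 1)

end

/-- the scale. -/
def gh_z (p : ℕ × ℤ) : ℕ := 2 ^ (p.2.natAbs + p.1 + 1)

theorem gh_z_two (p : ℕ × ℤ) : 2 ≤ gh_z p := Nat.le_self_pow (by omega) 2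

theorem gh_z_pow (ν : ℕ) (n : ℤ) (c : ℕ) : gh_z (ν, n) ^ c = 2 ^ (c * (n.natAbs + ν + 1)) := by
  rw [gh_z, ← pow_mul, mul_comm]

theorem gh_P_nu : gh_P gh_z fun p => 2 ^ p.1 :=
  gh_P.of_le fun p => Nat.pow_le_pow_right two_pos (by omega)

theorem gh_P_n : gh_P gh_z fun p => 2 ^ p.2.natAbs :=
  gh_P.of_le fun p => Nat.pow_le_pow_right two_pos (by omega)

/-- families of sets of polynomial size. -/
def gh_S (k : ℕ) (S : ∀ p : ℕ × ℤ, Set (QQ k (bb k p.1))) : Prop :=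
  ∃ c, ∀ p, ∀ g ∈ S p, SzQ (bb k p.1) (gh_z p ^ c) (gh_z p ^ c) g

section
variable {k : ℕ} {S S' : ∀ p : ℕ × ℤ, Set (QQ k (bb k p.1))}

theorem gh_S.of {T B : ℕ × ℤ → ℕ} (hT : gh_P gh_z T) (hB : gh_P gh_z B)
    (h : ∀ p, ∀ g ∈ S p, SzQ (bb k p.1) (T p) (B p) g) : gh_S k S := by
  obtain ⟨c, hc⟩ := hT.add gh_z_two hB
  exact ⟨c, fun p g hg => (h p g hg).mono _ ((Nat.le_add_right _ _).trans (hc p))
    ((Nat.le_add_left _ _).trans (hc p))⟩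

theorem gh_one_le (p : ℕ × ℤ) (c : ℕ) : 1 ≤ gh_z p ^ c :=
  Nat.one_le_pow _ _ (by linarith [gh_z_two p])

theorem gh_S.mul (h : gh_S k S) (h' : gh_S k S') : gh_S k fun p => S p * S' p := by
  obtain ⟨c, hc⟩ := h
  obtain ⟨d, hd⟩ := h'
  have pc : gh_P gh_z fun p => gh_z p ^ c := ⟨c, fun _ => le_rfl⟩
  have pd : gh_P gh_z fun p => gh_z p ^ d := ⟨d, fun _ => le_rfl⟩
  refine gh_S.of (pc.add gh_z_two pd) (pc.add gh_z_two (((gh_P.const gh_z_two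
    (Fintype.card (GI k))).mul ((gh_P.bb gh_z_two k gh_P_nu).mul (pc.pow k))).mul pd)) ?_
  rintro p _ ⟨g, hg, g', hg', rfl⟩
  exact (hc p g hg).mul _ (gh_one_le p c) (hd p g' hg')

theorem gh_S.symm (h : gh_S k S) : gh_S k fun p => {g | g ∈ S p ∨ g⁻¹ ∈ S p} := by
  obtain ⟨c, hc⟩ := h
  have pc : gh_P gh_z fun p => gh_z p ^ c := ⟨c, fun _ => le_rfl⟩
  have p2 := (gh_P.const gh_z_two 2).mul pc
  refine gh_S.of p2 (pc.add gh_z_two (((gh_P.const gh_z_two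
    (Fintype.card (GI k))).mul ((gh_P.bb gh_z_two k gh_P_nu).mul (p2.pow k))).mul pc)) ?_
  rintro p g (hg | hg)
  · exact (hc p g hg).mono _ (by omega) (Nat.le_add_right _ _)
  · have := (hc p _ hg).inv _ (gh_one_le p c)
    rw [inv_inv] at this
    exact this.mono _ le_rfl (Nat.le_add_left _ _)

end

theorem gh_inr {k b T : ℕ} {m : MM k} (h : ∀ σ, GrB (T : ℤ) (m σ)) :
    SzQ b T 0 (inr m : QQ k b) :=
  ⟨fun i => by simp, h⟩

theorem gh_inl {k b T N : ℕ} {a : GI k → ℤ} (h : ∀ i, |a i| ≤ N) :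
    SzQ b T N (inl (Multiplicative.ofAdd a) : QQ k b) := by
  refine ⟨h, fun σ p => ?_⟩
  rw [right_inl, Pi.one_apply, ent, U.val_one, Matrix.one_apply_ne p.2.ne, abs_zero]
  positivity

theorem gh_lvp (σ : Bool) (n : ℤ) : lvp σ n ≤ n.natAbs := by
  cases σ <;> simp only [lvp, cond_true, cond_false] <;> omega

/-- truncation degree. -/
def Ntr (k ν : ℕ) (n : ℤ) : ℕ := 2 ^ ν * (4 * (bb k ν + 1) ^ 2 * RR k ^ (n.natAbs + 3))

/-- `bump_approx` with `w₀` from `wd_ge`. -/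
theorem apx_Phi (k ν : ℕ) (n n₀ : ℤ) (h : n.natAbs ≤ n₀.natAbs + 2) :
    Apx (rho k (bb k ν) (Phi k ν n)) {g | SzQ (bb k ν) 1 (Ntr k ν n₀) g}
      (cn k ν n * 3 ^ Fintype.card (GI k))
      (cn k ν n * (Fintype.card (GI k) * 3 ^ Fintype.card (GI k) / 2 ^ ν)) := by
  classical
  have hR : (1 : ℝ) ≤ RR k := by exact_mod_cast Nat.one_le_two_pow
  have hN : 0 < Ntr k ν n₀ := by
    unfold Ntr RR
    positivity
  obtain ⟨a, h1, h2⟩ := bump_approx (w := wd k ν n)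
    (w₀ := 1 / (4 * ((bb k ν : ℝ) + 1) ^ 2 * (RR k : ℝ) ^ (n₀.natAbs + 3))) (by positivity)
    (fun i => le_trans (one_div_le_one_div_of_le (by positivity) (mul_le_mul_of_nonneg_left
      (pow_le_pow_right₀ hR (by omega)) (by positivity))) (wd_ge n i))
    (fun i => (wd_le n i).trans (by norm_num)) (ct k ν n) hN
  have e : 1 / (4 * ((bb k ν : ℝ) + 1) ^ 2 * (RR k : ℝ) ^ (n₀.natAbs + 3)) * (Ntr k ν n₀ : ℝ) =
      2 ^ ν := by
    rw [Ntr]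
    push_cast
    field_simp
  rw [e] at h2
  have h3 := gh_apx_sum (Fintype.piFinset fun _ : GI k => Finset.Icc (-(Ntr k ν n₀ : ℤ)) (Ntr k ν n₀))
    (S := {g | SzQ (bb k ν) 1 (Ntr k ν n₀) g}) fun x hx =>
      (apx_sum_lam {x} (fun x => (inl (Multiplicative.ofAdd x) : QQ k (bb k ν))) _ fun y hy =>
        gh_inl fun i => abs_le.2 (Finset.mem_Icc.1
          (Fintype.mem_piFinset.1 (Finset.mem_singleton.1 hy ▸ hx) i))).smul (a x)
  simp only [Finset.sum_singleton, Finset.card_singleton, Nat.cast_one, mul_one, mul_zero,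
    Finset.sum_const_zero, ← rho_mFourier, ← map_smul, ← map_sum] at h3
  have h5 := (norm_rho_le k (bb k ν) _).trans h2
  rw [map_sub] at h5
  have h4 := (gh_apx_near (h3.mono subset_rfl h1 le_rfl) h5).smul (cn k ν n : ℂ)
  rwa [← map_smul, Complex.norm_real, Real.norm_of_nonneg (cn_pos n).1.le] at h4

/-- the set carrying the approximation of `Pop`. -/
def gh_T (k : ℕ) (p : ℕ × ℤ) : Set (QQ k (bb k p.1)) :=
  {g | SzQ (bb k p.1) 1 (Ntr k p.1 p.2) g} *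
    {g | SzQ (bb k p.1) (8 * RR k ^ 2 * (2 ^ p.1 * (2 ^ p.2.natAbs * 4))) 0 g} *
    {g | SzQ (bb k p.1) 1 (Ntr k p.1 p.2) g}

theorem gh_T_S (k : ℕ) : gh_S k (gh_T k) := by
  have h1 : gh_P gh_z fun p => Ntr k p.1 p.2 := by
    have e : ∀ p : ℕ × ℤ, Ntr k p.1 p.2 =
        2 ^ p.1 * (4 * (bb k p.1 + 1) ^ 2 * ((2 ^ p.2.natAbs) ^ (k + 2) * RR k ^ 3)) := fun p => by
      rw [Ntr, pow_add, ← pow_mul, mul_comm p.2.natAbs, pow_mul]
      rfl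
    simp only [e]
    exact gh_P_nu.mul (((gh_P.const gh_z_two 4).mul ((gh_P.bb gh_z_two k gh_P_nu).pow 2)).mul
      ((gh_P_n.pow _).mul (gh_P.const gh_z_two _)))
  have h2 : gh_S k fun p => {g | SzQ (bb k p.1) 1 (Ntr k p.1 p.2) g} :=
    gh_S.of (gh_P.const gh_z_two 1) h1 fun _ _ h => h
  exact (h2.mul (gh_S.of ((gh_P.const gh_z_two _).mul (gh_P_nu.mul (gh_P_n.mul
    (gh_P.const gh_z_two 4)))) (gh_P.const gh_z_two 0) fun _ _ h => h)).mul h2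

theorem gh_apx_Pop (k : ℕ) : ∃ C : ℝ, 0 ≤ C ∧ ∀ ν (n₁ n₂ n : ℤ), n₁.natAbs ≤ n.natAbs + 2 →
    n₂.natAbs ≤ n.natAbs + 2 → Apx (Pop k ν n₁ n₂) (gh_T k (ν, n)) C (C / 2 ^ ν) := by
  obtain ⟨C, hC⟩ := exists_card_rel k
  obtain ⟨E, hE, hE'⟩ : ∃ E : ℝ, 0 ≤ E ∧ E = 3 ^ Fintype.card (GI k) := ⟨_, by positivity, rfl⟩
  obtain ⟨D, hD, hD'⟩ : ∃ D : ℝ, 0 ≤ D ∧ D = Fintype.card (GI k) * E := ⟨_, by positivity, rfl⟩
  refine ⟨max C 0 * (E + D) ^ 2, by positivity, fun ν n₁ n₂ n h₁ h₂ => ?_⟩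
  have a1 := apx_Phi k ν n₁ n h₁
  have a3 := apx_Phi k ν n₂ n h₂
  rw [← hE', ← hD'] at a1 a3
  have a2 := apx_sum_lam (finite_rel (k := k) (ν := ν) n₁ n₂).toFinset
    (fun m => (inr m : QQ k (bb k ν)))
    {g | SzQ (bb k ν) (8 * RR k ^ 2 * (2 ^ ν * (2 ^ n.natAbs * 4))) 0 g} fun m hm =>
      gh_inr fun σ => (rel_grB ((Set.Finite.mem_toFinset _).1 hm) σ).mono (by positivity) (by
        have : NN ν σ n₁ ≤ 2 ^ ν * (2 ^ n.natAbs * 2 ^ 2) := by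
          rw [← pow_add, ← pow_add]
          exact Nat.pow_le_pow_right two_pos (by have := gh_lvp σ n₁; omega)
        exact_mod_cast Nat.mul_le_mul_left _ this)
  have hc := (hC ν n₁ n₂).trans (le_max_left C 0)
  have h0 := le_max_right C 0
  have c1 := (cn_pos (k := k) (ν := ν) n₁).1
  have c2 := (cn_pos (k := k) (ν := ν) n₂).1
  generalize max C 0 = C' at hc h0 ⊢
  have hx : (0 : ℝ) < 1 / 2 ^ ν := by positivity
  have hx1 : (1 : ℝ) / 2 ^ ν ≤ 1 := by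
    rw [div_le_one (by positivity)]
    exact one_le_pow₀ one_le_two
  refine ((a1.mul a2).mul a3).mono subset_rfl ?_ ?_
  · calc _ = ((finite_rel (k := k) (ν := ν) n₁ n₂).toFinset.card : ℝ) * (cn k ν n₁ * cn k ν n₂) *
          E ^ 2 := by ring
      _ ≤ _ := mul_le_mul hc (by nlinarith) (by positivity) h0
  · calc _ = ((finite_rel (k := k) (ν := ν) n₁ n₂).toFinset.card : ℝ) * (cn k ν n₁ * cn k ν n₂) *
          (2 * E * D + D ^ 2 * (1 / 2 ^ ν)) * (1 / 2 ^ ν) := by ring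
      _ ≤ C' * (E + D) ^ 2 * (1 / 2 ^ ν) := by
          refine mul_le_mul_of_nonneg_right (mul_le_mul hc ?_ (by positivity) h0) hx.le
          nlinarith [mul_le_mul_of_nonneg_left hx1 (sq_nonneg D), sq_nonneg E]
      _ = _ := by ring

/-- `Apx.mul`, `apx_sum_lam`, `rel_grB`, `SzQ.mul`, `exists_card_rel`; all sizes are bounded by `2^(C (|n| + ν + 1))`.
For `|n' - n| ≥ 2` the operator is `0` (`Pop_mul`, `Pop_band`). -/
theorem exists_apx (k : ℕ) : ∃ C : ℕ, ∀ ν n' n,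
    Apx (∑ l ∈ Finset.Icc (n' - 1) (n' + 1), Pop k ν n' l * Pop k ν l n)
      {g | SzQ (bb k ν) (2 ^ (C * (n.natAbs + ν + 1))) (2 ^ (C * (n.natAbs + ν + 1))) g}
      C (C / 2 ^ ν) := by
  obtain ⟨C, hC, h⟩ := gh_apx_Pop k
  obtain ⟨c, hc⟩ := (gh_T_S k).mul (gh_T_S k)
  refine ⟨c + ⌈9 * C ^ 2⌉₊, fun ν n' n => ?_⟩
  have hK : 9 * C ^ 2 ≤ ((c + ⌈9 * C ^ 2⌉₊ : ℕ) : ℝ) :=
    (Nat.le_ceil _).trans (by exact_mod_cast Nat.le_add_left _ _)
  by_cases hn : 2 ≤ (n' - n).natAbs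
  · rw [Finset.sum_eq_zero fun l _ => by rw [Pop_mul, Pop_band k ν n' n hn, mul_zero]]
    exact (gh_apx_zero _).mono subset_rfl (by positivity) (by positivity)
  have h1 := gh_apx_sum (Finset.Icc (n' - 1) (n' + 1)) fun l hl =>
    (h ν n' l n (by omega) (by have := Finset.mem_Icc.1 hl; omega)).mul
      (h ν l n n (by have := Finset.mem_Icc.1 hl; omega) (by omega))
  have e : (Finset.Icc (n' - 1) (n' + 1)).card = 3 := by
    rw [Int.card_Icc]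
    omega
  simp only [Finset.sum_const, e, nsmul_eq_mul] at h1
  have hx1 : C / 2 ^ ν ≤ C := div_le_self hC (one_le_pow₀ one_le_two)
  have hz : gh_z (ν, n) ^ c ≤ 2 ^ ((c + ⌈9 * C ^ 2⌉₊) * (n.natAbs + ν + 1)) := by
    rw [gh_z_pow]
    exact Nat.pow_le_pow_right two_pos (Nat.mul_le_mul_right _ (Nat.le_add_right _ _))
  refine h1.mono (fun g hg => (hc (ν, n) g hg).mono _ hz hz) (le_trans ?_ hK) ?_
  · push_cast
    nlinarith
  · calc _ = 3 * (C * (2 * C + C / 2 ^ ν)) / 2 ^ ν := by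
          push_cast
          ring
      _ ≤ _ := by
          refine div_le_div_of_nonneg_right (le_trans ?_ hK) (by positivity)
          nlinarith [mul_le_mul_of_nonneg_left hx1 hC]

/-- `SzQ.mul`, `SzQ.inv`, `SzQ.prod`, `exists_SzQ_finset`. -/
theorem exists_growth (k C : ℕ) : ∃ C' : ℕ, ∀ ν (n : ℤ) (L : ℕ), ∃ W : Finset (QQ k (bb k ν)),
    W.card ≤ (L + 2) ^ C' * 2 ^ (C' * (n.natAbs + ν + 1)) ∧
    ∀ l : List (QQ k (bb k ν)), l.length = L → (∀ g ∈ l, ∃ u m, Tiny ν n m ∧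
      SzQ (bb k ν) (2 ^ (C * (n.natAbs + ν + 1))) (2 ^ (C * (n.natAbs + ν + 1))) u ∧
      (g = u * inr m ∨ g = (u * inr m)⁻¹)) → l.prod ∈ W := by
  have pC : gh_P gh_z fun p => gh_z p ^ C := ⟨C, fun _ => le_rfl⟩
  obtain ⟨c, hc⟩ := ((gh_S.of (k := k) (S := fun p => {g | SzQ _ (gh_z p ^ C) (gh_z p ^ C) g}) pC pC
    fun _ _ h => h).mul (gh_S.of (S := fun p => {g | SzQ _ (gh_z p) 0 g})
      (gh_P.of_le fun _ => le_rfl) (gh_P.const gh_z_two 0) fun _ _ h => h)).symm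
  have hz : ∀ q : (ℕ × ℤ) × ℕ, gh_z q.1 ≤ (q.2 + 2) * gh_z q.1 := fun q =>
    Nat.le_mul_of_pos_left _ (by omega)
  have h2 : ∀ q : (ℕ × ℤ) × ℕ, 2 ≤ (q.2 + 2) * gh_z q.1 := fun q => (gh_z_two _).trans (hz q)
  have p1 : gh_P (fun q : (ℕ × ℤ) × ℕ => (q.2 + 2) * gh_z q.1) fun q => q.2 + 1 :=
    gh_P.of_le fun q => le_trans (by omega)
      (Nat.le_mul_of_pos_right (q.2 + 2) (by linarith [gh_z_two q.1]))
  have p2 := (gh_P.of_le hz).pow c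
  have p3 := gh_P.bb h2 k (f := fun q => q.1.1) (gh_P.of_le fun q =>
    le_trans (Nat.pow_le_pow_right two_pos (by omega)) (hz q))
  have pT := p1.mul p2
  have pS := p1.mul (((gh_P.const h2 (Fintype.card (GI k))).mul (p3.mul (pT.pow k))).mul p2)
  obtain ⟨C', hC'⟩ := ((((gh_P.const h2 2).mul pS).add h2 (gh_P.const h2 1)).pow
    (Fintype.card (GI k))).mul ((((gh_P.const h2 2).mul (pT.pow k)).add h2 (gh_P.const h2 1)).pow
      (2 * Fintype.card (UI k)))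
  refine ⟨C', fun ν n L => ?_⟩
  obtain ⟨W, hW, hW'⟩ := exists_SzQ_finset (k := k) (bb k ν) ((L + 1) * gh_z (ν, n) ^ c)
    ((L + 1) * (Fintype.card (GI k) * ((bb k ν + 1) * ((L + 1) * gh_z (ν, n) ^ c) ^ k) *
      gh_z (ν, n) ^ c)) (Nat.mul_pos (by omega) (gh_one_le _ _))
  refine ⟨W, hW.trans ((hC' ((ν, n), L)).trans (by rw [mul_pow, gh_z_pow])), ?_⟩
  rintro l rfl hl
  refine hW' _ (SzQ.prod _ (gh_one_le _ _) l fun g hg => hc (ν, n) g ?_)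
  obtain ⟨u, m, h1, h3, h4⟩ := hl g hg
  have h5 : u * inr m ∈ {g | SzQ (bb k ν) (gh_z (ν, n) ^ C) (gh_z (ν, n) ^ C) g} *
      {g | SzQ (bb k ν) (gh_z (ν, n)) 0 g} := by
    refine Set.mul_mem_mul (by rwa [gh_z_pow]) (gh_inr fun σ => GrB.of_le ?_ fun p => ?_)
    · exact_mod_cast le_trans one_le_two (gh_z_two _)
    · refine (h1 σ p).trans ?_
      have := gh_lvp σ n
      exact_mod_cast Nat.pow_le_pow_right two_pos (show ν + lvp σ n ≤ n.natAbs + ν + 1 by omega)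
  rcases h4 with h4 | h4
  · exact Or.inl (by rwa [h4])
  · exact Or.inr (by rwa [h4, inv_inv])

/-- **The ghost package.** -/
theorem exists_ghost (k : ℕ) : ∃ K : ℕ, 1 ≤ K ∧ ∀ ν, 2 ≤ ν → Nonempty (Ghost k K ν) := by
  obtain ⟨C₁, h₁⟩ := exists_apx k
  obtain ⟨C₂, h₂⟩ := exists_growth k C₁
  obtain ⟨C₃, h₃⟩ := exists_card_rel k
  obtain ⟨C₄, h₄⟩ := exists_G k
  obtain ⟨C₅, h₅⟩ := exists_inv k
  obtain ⟨K, k0, k1, k2, k3, k4, k5⟩ : ∃ K : ℕ, 1 ≤ K ∧ C₁ ≤ K ∧ C₂ ≤ K ∧ ⌈C₃⌉₊ ≤ K ∧ ⌈C₄⌉₊ ≤ K ∧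
    ⌈C₅⌉₊ ≤ K := ⟨1 + C₁ + C₂ + ⌈C₃⌉₊ + ⌈C₄⌉₊ + ⌈C₅⌉₊, by omega⟩
  rw [Nat.ceil_le] at k3 k4 k5
  have k1' : (C₁ : ℝ) ≤ K := by exact_mod_cast k1
  refine ⟨K, k0, fun ν hν => ?_⟩
  choose G g1 g2 g3 using h₄ ν hν
  choose A a1 a2 a3 using h₁ ν
  refine ⟨{
    Q := QQ k (bb k ν)
    tf := QQ_torsionFree _
    ι := inr
    pr := rightHom
    pr_ι := rightHom_inr
    P := Pop k ν
    P_star := Pop_star k ν
    P_band := Pop_band k ν
    P_band2 := fun n n' l h => by rw [Pop_mul, Pop_band k ν n n' h, mul_zero]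
    P_norm := fun n n' => (norm_Pop_le k ν n n').trans ((h₃ ν n n').trans k3)
    P_ne := Pop_ne k ν
    G := G
    G_sa := g1
    G_norm := fun n => (g2 n).trans k4
    GPP := g3
    inv := fun l n j m hj hm =>
      (h₅ ν l n j m hj hm).trans (div_le_div_of_nonneg_right k5 (by positivity))
    A := A
    A_l1 := fun n n' => (a2 n n').trans k1'
    A_approx := fun n n' => (a3 n n').trans (div_le_div_of_nonneg_right k1' (by positivity))
    growth := fun n L => ?_ }⟩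
  obtain ⟨W, w1, w2⟩ := h₂ ν n L
  refine ⟨W, w1.trans (Nat.mul_le_mul (Nat.pow_le_pow_right (by omega) k2)
    (Nat.pow_le_pow_right two_pos (Nat.mul_le_mul_right _ k2))), fun l hl h => w2 l hl fun g hg => ?_⟩
  obtain ⟨u, m, b1, b2, b3⟩ := h g hg
  refine ⟨u, m, b1, ?_, b3⟩
  rcases b2 with rfl | ⟨n', -, b2⟩
  · simpa using gh_inl (k := k) (b := bb k ν) (a := 0) (T := 2 ^ (C₁ * (n.natAbs + ν + 1)))
      (N := 2 ^ (C₁ * (n.natAbs + ν + 1))) fun i => by simp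
  · exact a1 n' n b2

end Crest.Agent.R129
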