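import Mathlib
import Crest.Prelude.Def_ReducedGroupCStar

/-!
# R129 / Hilb : the `ℓ²` toolkit

`L2 ι E` is `ℓ²(ι; E)`.  The only operator constructor is `pull σ A`: `(pull σ A f) x = A x (f (σ x))`,
bounded by `C` as soon as every fibre of `σ` has `∑ ‖A x‖² ≤ C²` (`PullBd`).
-/

set_option autoImplicit false
open scoped InnerProductSpace ComplexConjugate

namespace Crest.Agent.R129

/-- `ℓ²(ι; E)`. -/
abbrev L2 (ι : Type) (E : Type) [NormedAddCommGroup E] : Type := lp (fun _ : ι => E) 2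

section
variable {ι ι' : Type} {E E' : Type} [NormedAddCommGroup E] [InnerProductSpace ℂ E]
  [NormedAddCommGroup E'] [InnerProductSpace ℂ E']

/-- real part of the quadratic form of an operator. -/
noncomputable def fm {H : Type} [NormedAddCommGroup H] [InnerProductSpace ℂ H]
    (T : H →L[ℂ] H) (f : H) : ℝ := (⟪f, T f⟫_ℂ).re

/-- fibrewise `ℓ²` bound for a pull-back operator. -/
def PullBd (σ : ι' → ι) (A : ι' → E →L[ℂ] E') (C : ℝ) : Prop :=
  0 ≤ C ∧ ∀ (i : ι) (s : Finset ι'), (∀ x ∈ s, σ x = i) → ∑ x ∈ s, ‖A x‖ ^ 2 ≤ C ^ 2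

/-- Plan: for a finset `s`, `∑_{x∈s} ‖A x (f (σ x))‖² ≤ ∑_{i ∈ s.image σ} ‖f i‖² ∑_{x∈s, σ x=i} ‖A x‖²
≤ C² ‖f‖²` (`Finset.sum_fiberwise_of_maps_to`, `lp.sum_rpow_le_norm_rpow`); `memℓp_gen'`,
`lp.norm_le_of_forall_sum_le`, `LinearMap.mkContinuous`. -/
theorem exists_pull {σ : ι' → ι} {A : ι' → E →L[ℂ] E'} {C : ℝ} (h : PullBd σ A C) :
    ∃ T : L2 ι E →L[ℂ] L2 ι' E', (∀ f x, T f x = A x (f (σ x))) ∧ ‖T‖ ≤ C := by
  classical
  have key : ∀ (f : L2 ι E) (s : Finset ι'),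
      ∑ x ∈ s, ‖A x (f (σ x))‖ ^ (2 : ENNReal).toReal ≤ (C * ‖f‖) ^ (2 : ENNReal).toReal := by
    intro f s
    simp only [ENNReal.toReal_ofNat, Real.rpow_ofNat]
    have h1 := lp.sum_rpow_le_norm_rpow (p := 2) (by norm_num) f (s.image σ)
    simp only [ENNReal.toReal_ofNat, Real.rpow_ofNat] at h1
    rw [← Finset.sum_fiberwise_of_maps_to (g := σ) (t := s.image σ)
      (fun x hx => Finset.mem_image_of_mem σ hx), mul_pow]
    refine le_trans (Finset.sum_le_sum (g := fun i => C ^ 2 * ‖f i‖ ^ 2) fun i _ => ?_) ?_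
    · refine le_trans (Finset.sum_le_sum (g := fun x => ‖A x‖ ^ 2 * ‖f i‖ ^ 2) fun x hx => ?_) ?_
      · rw [(Finset.mem_filter.1 hx).2, ← mul_pow]
        exact pow_le_pow_left₀ (norm_nonneg _) ((A x).le_opNorm _) 2
      · rw [← Finset.sum_mul]
        exact mul_le_mul_of_nonneg_right (h.2 i _ fun x hx => (Finset.mem_filter.1 hx).2)
          (sq_nonneg _)
    · rw [← Finset.mul_sum]
      exact mul_le_mul_of_nonneg_left h1 (sq_nonneg _)
  let T0 : L2 ι E →ₗ[ℂ] L2 ι' E' :=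
    { toFun := fun f => ⟨fun x => A x (f (σ x)), memℓp_gen' (key f)⟩
      map_add' := fun f g => by
        apply lp.ext; funext x
        simp only [lp.coeFn_add, Pi.add_apply, map_add]
      map_smul' := fun c f => by
        apply lp.ext; funext x
        simp only [lp.coeFn_smul, Pi.smul_apply, map_smul, RingHom.id_apply] }
  have hb : ∀ f, ‖T0 f‖ ≤ C * ‖f‖ := fun f =>
    lp.norm_le_of_forall_sum_le (p := 2) (by norm_num) (mul_nonneg h.1 (norm_nonneg _)) (key f)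
  exact ⟨T0.mkContinuous C hb, fun f x => rfl, LinearMap.mkContinuous_norm_le _ h.1 _⟩

open Classical in
/-- the pull-back operator (junk `0` if unbounded). -/
noncomputable def pull (σ : ι' → ι) (A : ι' → E →L[ℂ] E') : L2 ι E →L[ℂ] L2 ι' E' :=
  if h : ∃ T : L2 ι E →L[ℂ] L2 ι' E', ∀ f x, T f x = A x (f (σ x)) then h.choose else 0

theorem pull_apply {σ : ι' → ι} {A : ι' → E →L[ℂ] E'} {C : ℝ} (h : PullBd σ A C)
    (f : L2 ι E) (x : ι') : pull σ A f x = A x (f (σ x)) := by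
  have h1 : ∃ T : L2 ι E →L[ℂ] L2 ι' E', ∀ f x, T f x = A x (f (σ x)) :=
    (exists_pull h).imp fun T hT => hT.1
  rw [pull, dif_pos h1]
  exact h1.choose_spec f x

theorem norm_pull_le {σ : ι' → ι} {A : ι' → E →L[ℂ] E'} {C : ℝ} (h : PullBd σ A C) :
    ‖pull σ A‖ ≤ C := by
  obtain ⟨T, hT, hn⟩ := exists_pull h
  have : pull σ A = T := by
    ext1 f
    apply lp.ext; funext x
    rw [pull_apply h, hT]
  rwa [this]

/-- if `σ` is injective on the points where `A x ≠ 0`, the bound is `sup ‖A x‖`. -/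
theorem pullBd_of_injOn {σ : ι' → ι} {A : ι' → E →L[ℂ] E'} {C : ℝ} (hC : 0 ≤ C)
    (hA : ∀ x, ‖A x‖ ≤ C) (hσ : ∀ x y, A x ≠ 0 → A y ≠ 0 → σ x = σ y → x = y) :
    PullBd σ A C := by
  classical
  refine ⟨hC, fun i s hs => ?_⟩
  by_cases h : ∃ x ∈ s, A x ≠ 0
  · obtain ⟨x, hx, hx0⟩ := h
    rw [Finset.sum_eq_single_of_mem x hx fun y hy hyx => ?_]
    · exact pow_le_pow_left₀ (norm_nonneg _) (hA x) 2
    · have : A y = 0 := by
        by_contra hy0
        exact hyx (hσ y x hy0 hx0 ((hs y hy).trans (hs x hx).symm))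
      simp [this]
  · push Not at h
    rw [Finset.sum_eq_zero fun x hx => by simp [h x hx]]
    exact sq_nonneg _

open Classical in
/-- `v ↦ δ_i ⊗ v`. -/
noncomputable def sgl (i : ι) : E →L[ℂ] L2 ι E :=
  lp.singleContinuousLinearMap ℂ (fun _ : ι => E) 2 i

/-- `f ↦ f i`. -/
noncomputable def ev (i : ι) : L2 ι E →L[ℂ] E := lp.evalCLM ℂ (fun _ : ι => E) 2 i

@[simp] theorem ev_apply (i : ι) (f : L2 ι E) : ev i f = f i := rfl

theorem sgl_self (i : ι) (v : E) : (sgl i v : L2 ι E) i = v := by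
  classical
  exact lp.single_apply_self (E := fun _ : ι => E) 2 i v

theorem sgl_ne {i j : ι} (h : j ≠ i) (v : E) : (sgl i v : L2 ι E) j = 0 := by
  classical
  exact lp.single_apply_ne (E := fun _ : ι => E) 2 i v h

theorem norm_sgl (i : ι) (v : E) : ‖(sgl i v : L2 ι E)‖ = ‖v‖ := by
  classical
  exact lp.norm_single (E := fun _ : ι => E) (by norm_num) i v

theorem inner_sgl_left (i : ι) (v : E) (f : L2 ι E) : ⟪(sgl i v : L2 ι E), f⟫_ℂ = ⟪v, f i⟫_ℂ := by
  classical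
  exact lp.inner_single_left (G := fun _ : ι => E) i v f

theorem inner_sgl_right (i : ι) (v : E) (f : L2 ι E) : ⟪f, (sgl i v : L2 ι E)⟫_ℂ = ⟪f i, v⟫_ℂ := by
  classical
  exact lp.inner_single_right (G := fun _ : ι => E) i v f

theorem L2_hasSum_norm (f : L2 ι E) : HasSum (fun i => ‖f i‖ ^ 2) (‖f‖ ^ 2) := by
  have := lp.hasSum_norm (p := 2) (by norm_num) f
  simpa only [ENNReal.toReal_ofNat, Real.rpow_ofNat] using this

theorem L2_hasSum_inner (f g : L2 ι E) : HasSum (fun i => ⟪f i, g i⟫_ℂ) ⟪f, g⟫_ℂ := by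
  exact lp.hasSum_inner f g

theorem L2_sum_le (f : L2 ι E) (s : Finset ι) : ∑ i ∈ s, ‖f i‖ ^ 2 ≤ ‖f‖ ^ 2 := by
  exact sum_le_hasSum s (fun i _ => sq_nonneg _) (L2_hasSum_norm f)

theorem L2_norm_sq_eq (f : L2 ι E) (s : Finset ι) (h : ∀ i, i ∉ s → f i = 0) :
    ‖f‖ ^ 2 = ∑ i ∈ s, ‖f i‖ ^ 2 := by
  exact (L2_hasSum_norm f).unique (hasSum_sum_of_ne_finset_zero fun i hi => by simp [h i hi])

theorem L2_inner_eq (f g : L2 ι E) (s : Finset ι) (h : ∀ i, i ∉ s → f i = 0) :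
    ⟪f, g⟫_ℂ = ∑ i ∈ s, ⟪f i, g i⟫_ℂ := by
  exact (L2_hasSum_inner f g).unique (hasSum_sum_of_ne_finset_zero fun i hi => by simp [h i hi])

/-- a finitely supported function is an element of `ℓ²`. -/
theorem L2_of_finite (φ : ι → E) (s : Finset ι) (h : ∀ i, i ∉ s → φ i = 0) :
    ∃ f : L2 ι E, ∀ i, f i = φ i := by
  refine ⟨⟨φ, (memℓp_zero (E := fun _ : ι => E) ?_).of_exponent_ge (by simp)⟩, fun i => rfl⟩
  exact s.finite_toSet.subset fun i hi => by
    by_contra h1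
    exact hi (h i h1)

theorem L2_eq_sum (f : L2 ι E) (s : Finset ι) (h : ∀ i, i ∉ s → f i = 0) :
    f = ∑ i ∈ s, sgl i (f i) := by
  classical
  have h1 : HasSum (fun i => (sgl i (f i) : L2 ι E)) f := lp.hasSum_single (by simp) f
  exact h1.unique (hasSum_sum_of_ne_finset_zero fun i hi => by simp [h i hi])

/-- density of finitely supported vectors (inside a prescribed support `A`); use `lp.hasSum_single`. -/
theorem L2_dense (A : Set ι) (P : L2 ι E → Prop) (hc : IsClosed {f | P f})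
    (h : ∀ (f : L2 ι E) (s : Finset ι), (∀ i, i ∉ s → f i = 0) → (∀ i, i ∉ A → f i = 0) → P f)
    (f : L2 ι E) (hf : ∀ i, i ∉ A → f i = 0) : P f := by
  classical
  have h1 : HasSum (fun i => (sgl i (f i) : L2 ι E)) f := lp.hasSum_single (by simp) f
  refine hc.mem_of_tendsto h1 (Filter.Eventually.of_forall fun s => ?_)
  have h2 : ∀ j, (∑ i ∈ s, (sgl i (f i) : L2 ι E)) j = if j ∈ s then f j else 0 := by
    intro j
    rw [← ev_apply, map_sum]
    simp only [ev_apply]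
    split_ifs with hj
    · rw [Finset.sum_eq_single_of_mem j hj fun i _ hi => sgl_ne (Ne.symm hi) _, sgl_self]
    · exact Finset.sum_eq_zero fun i hi => sgl_ne (fun e : j = i => hj (e ▸ hi)) _
  refine h _ s (fun i hi => by rw [h2, if_neg hi]) fun i hi => ?_
  rw [h2, hf i hi, ite_self]

/-- operators are determined by their values on the `sgl i v`. -/
theorem L2_hom_ext {H : Type} [NormedAddCommGroup H] [InnerProductSpace ℂ H]
    {T T' : L2 ι E →L[ℂ] H} (h : ∀ i v, T (sgl i v) = T' (sgl i v)) : T = T' := by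
  classical
  exact lp.ext_continuousLinearMap (by simp) fun i => ContinuousLinearMap.ext fun v => h i v

/-- adjointness is checked on matrix entries. -/
theorem adjoint_eq_of_entries [CompleteSpace E] [CompleteSpace E'] (T : L2 ι E →L[ℂ] L2 ι' E')
    (T' : L2 ι' E' →L[ℂ] L2 ι E)
    (h : ∀ i j v w, ⟪w, T (sgl i v) j⟫_ℂ = ⟪T' (sgl j w) i, v⟫_ℂ) :
    ContinuousLinearMap.adjoint T = T' := by
  refine L2_hom_ext fun j w => ?_
  apply lp.ext; funext i
  refine ext_inner_right ℂ fun v => ?_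
  rw [← inner_sgl_right, ContinuousLinearMap.adjoint_inner_left, inner_sgl_left, h]

theorem adjoint_sgl [CompleteSpace E] (i : ι) :
    ContinuousLinearMap.adjoint (sgl i : E →L[ℂ] L2 ι E) = ev i := by
  ext1 f
  refine ext_inner_left ℂ fun v => ?_
  rw [ContinuousLinearMap.adjoint_inner_right, inner_sgl_left, ev_apply]

open Classical in
/-- multiplication by the indicator of `D`. -/
noncomputable def proj (D : Set ι) : L2 ι E →L[ℂ] L2 ι E :=
  pull id fun x => if x ∈ D then ContinuousLinearMap.id ℂ E else 0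

open Classical in
theorem Hilb_projBd (D : Set ι) :
    PullBd (id : ι → ι) (fun x => if x ∈ D then ContinuousLinearMap.id ℂ E else 0) 1 :=
  pullBd_of_injOn zero_le_one (fun x => by
    split_ifs
    · exact ContinuousLinearMap.norm_id_le
    · simp) fun x y _ _ h => h

theorem proj_apply_mem {D : Set ι} (f : L2 ι E) {x : ι} (h : x ∈ D) : proj D f x = f x := by
  rw [proj, pull_apply (Hilb_projBd D)]
  simp [h]

theorem proj_apply_not_mem {D : Set ι} (f : L2 ι E) {x : ι} (h : x ∉ D) : proj D f x = 0 := by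
  rw [proj, pull_apply (Hilb_projBd D)]
  simp [h]

theorem norm_proj_le (D : Set ι) : ‖(proj D : L2 ι E →L[ℂ] L2 ι E)‖ ≤ 1 := by
  exact norm_pull_le (Hilb_projBd D)

theorem proj_mul_self (D : Set ι) : (proj D : L2 ι E →L[ℂ] L2 ι E) * proj D = proj D := by
  ext1 f
  apply lp.ext; funext x
  show proj D (proj D f) x = proj D f x
  by_cases h : x ∈ D
  · rw [proj_apply_mem _ h]
  · rw [proj_apply_not_mem _ h, proj_apply_not_mem _ h]

theorem proj_selfAdjoint [CompleteSpace E] (D : Set ι) :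
    IsSelfAdjoint (proj D : L2 ι E →L[ℂ] L2 ι E) := by
  rw [ContinuousLinearMap.isSelfAdjoint_iff']
  ext1 f
  refine ext_inner_right ℂ fun g => ?_
  rw [ContinuousLinearMap.adjoint_inner_left]
  refine (L2_hasSum_inner f (proj D g)).unique ?_
  convert L2_hasSum_inner (proj D f) g using 2 with x
  by_cases h : x ∈ D
  · rw [proj_apply_mem _ h, proj_apply_mem _ h]
  · rw [proj_apply_not_mem _ h, proj_apply_not_mem _ h]
    simp

theorem proj_compl (D : Set ι) : (proj Dᶜ : L2 ι E →L[ℂ] L2 ι E) = 1 - proj D := by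
  ext1 f
  apply lp.ext; funext x
  show proj Dᶜ f x = (f - proj D f) x
  rw [lp.coeFn_sub, Pi.sub_apply]
  by_cases h : x ∈ D
  · rw [proj_apply_mem _ h, proj_apply_not_mem _ (show x ∉ Dᶜ from fun h' => h' h), sub_self]
  · rw [proj_apply_not_mem _ h, proj_apply_mem _ (show x ∈ Dᶜ from h), sub_zero]

theorem proj_eq_self_iff (D : Set ι) (f : L2 ι E) : proj D f = f ↔ ∀ x, x ∉ D → f x = 0 := by
  constructor
  · intro h x hx
    rw [← h, proj_apply_not_mem _ hx]
  · intro h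
    apply lp.ext; funext x
    by_cases hx : x ∈ D
    · rw [proj_apply_mem _ hx]
    · rw [proj_apply_not_mem _ hx, h x hx]

end

/-- the unit vector `δ_i`. -/
noncomputable def dl {ι : Type} (i : ι) : L2 ι ℂ := sgl i 1

/-- scalar pull-back: `(spull σ ω f) x = ω x * f (σ x)`. -/
noncomputable def spull {ι ι' : Type} (σ : ι' → ι) (ω : ι' → ℂ) : L2 ι ℂ →L[ℂ] L2 ι' ℂ :=
  pull σ fun x => ω x • ContinuousLinearMap.id ℂ ℂ

/-- scalar version of `PullBd`. -/
def SBd {ι ι' : Type} (σ : ι' → ι) (ω : ι' → ℂ) (C : ℝ) : Prop :=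
  0 ≤ C ∧ ∀ (i : ι) (s : Finset ι'), (∀ x ∈ s, σ x = i) → ∑ x ∈ s, ‖ω x‖ ^ 2 ≤ C ^ 2

theorem Hilb_sBd {ι ι' : Type} {σ : ι' → ι} {ω : ι' → ℂ} {C : ℝ} (h : SBd σ ω C) :
    PullBd σ (fun x => ω x • ContinuousLinearMap.id ℂ ℂ) C :=
  ⟨h.1, fun i s hs => by simpa [norm_smul] using h.2 i s hs⟩

theorem spull_apply {ι ι' : Type} {σ : ι' → ι} {ω : ι' → ℂ} {C : ℝ} (h : SBd σ ω C)
    (f : L2 ι ℂ) (x : ι') : spull σ ω f x = ω x * f (σ x) := by
  rw [spull, pull_apply (Hilb_sBd h)]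
  simp

theorem norm_spull_le {ι ι' : Type} {σ : ι' → ι} {ω : ι' → ℂ} {C : ℝ} (h : SBd σ ω C) :
    ‖spull σ ω‖ ≤ C := by
  exact norm_pull_le (Hilb_sBd h)

theorem sBd_of_injOn {ι ι' : Type} {σ : ι' → ι} {ω : ι' → ℂ} {C : ℝ} (hC : 0 ≤ C)
    (hA : ∀ x, ‖ω x‖ ≤ C) (hσ : ∀ x y, ω x ≠ 0 → ω y ≠ 0 → σ x = σ y → x = y) : SBd σ ω C := by
  have := pullBd_of_injOn (σ := σ) (A := fun x => ω x • ContinuousLinearMap.id ℂ ℂ) hC
    (fun x => by simpa [norm_smul] using hA x)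
    (fun x y hx hy => hσ x y (fun h => hx (by simp [h])) (fun h => hy (by simp [h])))
  exact ⟨hC, fun i s hs => by simpa [norm_smul] using this.2 i s hs⟩

end Crest.Agent.R129
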