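import Crest.Agent.R129.Hilb

/-!
# R129 / HilbG : regular representations, the reduced C*-algebra, currying
-/

set_option autoImplicit false
open scoped InnerProductSpace ComplexConjugate

namespace Crest.Agent.R129

section Group
variable {Q : Type} [Group Q]

/-- left regular representation, `(lam g f) x = f (g⁻¹ x)`. -/
noncomputable def lam (g : Q) : L2 Q ℂ →L[ℂ] L2 Q ℂ := spull (fun x => g⁻¹ * x) fun _ => 1

/-- right translation, `(rt g f) x = f (x g)`. -/
noncomputable def rt (g : Q) : L2 Q ℂ →L[ℂ] L2 Q ℂ := spull (fun x => x * g) fun _ => 1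

theorem HilbG_sBd_lam (g : Q) : SBd (fun x => g⁻¹ * x) (fun _ : Q => (1 : ℂ)) 1 :=
  sBd_of_injOn zero_le_one (fun _ => by simp) fun _ _ _ _ h => mul_left_cancel h

theorem HilbG_sBd_rt (g : Q) : SBd (fun x => x * g) (fun _ : Q => (1 : ℂ)) 1 :=
  sBd_of_injOn zero_le_one (fun _ => by simp) fun _ _ _ _ h => mul_right_cancel h

omit [Group Q] in
theorem HilbG_dl_self (i : Q) : dl i i = 1 := sgl_self i (1 : ℂ)

omit [Group Q] in
theorem HilbG_dl_ne {i j : Q} (h : j ≠ i) : dl i j = 0 := sgl_ne h (1 : ℂ)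

theorem lam_apply (g : Q) (f : L2 Q ℂ) (x : Q) : lam g f x = f (g⁻¹ * x) := by
  rw [lam, spull_apply (HilbG_sBd_lam g), one_mul]

theorem rt_apply (g : Q) (f : L2 Q ℂ) (x : Q) : rt g f x = f (x * g) := by
  rw [rt, spull_apply (HilbG_sBd_rt g), one_mul]

theorem lam_one : lam (1 : Q) = 1 := by
  ext f x
  rw [lam_apply]
  simp

theorem lam_mul (g h : Q) : lam (g * h) = lam g * lam h := by
  ext f x
  rw [ContinuousLinearMap.mul_apply, lam_apply, lam_apply, lam_apply, mul_inv_rev, mul_assoc]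

theorem star_lam (g : Q) : star (lam g) = lam g⁻¹ := by
  rw [ContinuousLinearMap.star_eq_adjoint]
  symm
  rw [ContinuousLinearMap.eq_adjoint_iff]
  intro u v
  have h1 := L2_hasSum_inner (lam g⁻¹ u) v
  have h2 := (Equiv.mulLeft g).hasSum_iff.2 (L2_hasSum_inner u (lam g v))
  refine h1.unique ?_
  convert h2 using 2 with x
  simp [lam_apply]

theorem norm_lam_apply (g : Q) (f : L2 Q ℂ) : ‖lam g f‖ = ‖f‖ := by
  have h1 := L2_hasSum_norm (lam g f)
  have h2 := (Equiv.mulLeft g⁻¹).hasSum_iff.2 (L2_hasSum_norm f)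
  have h3 : ‖lam g f‖ ^ 2 = ‖f‖ ^ 2 := by
    refine h1.unique ?_
    convert h2 using 2 with x
    simp [lam_apply]
  exact (pow_left_inj₀ (norm_nonneg _) (norm_nonneg _) two_ne_zero).1 h3

theorem norm_lam_le (g : Q) : ‖lam g‖ ≤ 1 := by
  exact norm_spull_le (HilbG_sBd_lam g)

theorem lam_dl (g h : Q) : lam g (dl h) = dl (g * h) := by
  ext x
  rw [lam_apply]
  by_cases hx : x = g * h
  · subst hx
    rw [inv_mul_cancel_left, HilbG_dl_self, HilbG_dl_self]
  · rw [HilbG_dl_ne hx, HilbG_dl_ne]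
    intro h'
    exact hx (by rw [← h', mul_inv_cancel_left])

theorem rt_dl (g h : Q) : rt g (dl h) = dl (h * g⁻¹) := by
  ext x
  rw [rt_apply]
  by_cases hx : x = h * g⁻¹
  · subst hx
    rw [inv_mul_cancel_right, HilbG_dl_self, HilbG_dl_self]
  · rw [HilbG_dl_ne hx, HilbG_dl_ne]
    intro h'
    exact hx (by rw [← h', mul_inv_cancel_right])

theorem lam_rt (g h : Q) : lam g * rt h = rt h * lam g := by
  ext f x
  rw [ContinuousLinearMap.mul_apply, ContinuousLinearMap.mul_apply, lam_apply, rt_apply, rt_apply,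
    lam_apply, mul_assoc]

/-- the operator of a finitely supported function. -/
noncomputable def lamS (a : Q →₀ ℂ) : L2 Q ℂ →L[ℂ] L2 Q ℂ := a.sum fun g c => c • lam g

/-- `ℓ¹` norm. -/
noncomputable def l1 (a : Q →₀ ℂ) : ℝ := a.sum fun _ c => ‖c‖

theorem norm_lamS_le (a : Q →₀ ℂ) : ‖lamS a‖ ≤ l1 a := by
  unfold lamS l1 Finsupp.sum
  refine (norm_sum_le _ _).trans (Finset.sum_le_sum fun g _ => ?_)
  rw [norm_smul]
  exact mul_le_of_le_one_right (norm_nonneg _) (norm_lam_le g)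

/-- an operator in the span of `lam g`, `g ∈ W`, has norm `≤ √|W| ‖X δ₁‖`
(write `X = ∑_{g∈W} c g • lam g` with `Finsupp.mem_span_image_iff_linearCombination` or
`Submodule.mem_span_finset`-style lemma, `X δ₁ g = c g`, Cauchy–Schwarz). -/
theorem norm_sq_le_of_mem_span (W : Finset Q) (X : L2 Q ℂ →L[ℂ] L2 Q ℂ)
    (hX : X ∈ Submodule.span ℂ (lam '' (W : Set Q))) :
    ‖X‖ ^ 2 ≤ W.card * ‖X (dl 1)‖ ^ 2 := by
  obtain ⟨c, hc⟩ := (Submodule.mem_span_image_finset_iff_exists_fun' ℂ).1 hX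
  have h1 : ‖X‖ ≤ ∑ g ∈ W, ‖c g‖ := by
    rw [← hc]
    refine (norm_sum_le _ _).trans (Finset.sum_le_sum fun g _ => ?_)
    rw [norm_smul]
    exact mul_le_of_le_one_right (norm_nonneg _) (norm_lam_le g)
  have h2 : ∀ g ∈ W, X (dl 1) g = c g := by
    intro g hg
    have e : X (dl 1) g = ∑ h ∈ W, c h * dl h g := by
      rw [← ev_apply, ← hc, ContinuousLinearMap.sum_apply, map_sum]
      refine Finset.sum_congr rfl fun h _ => ?_
      rw [ContinuousLinearMap.smul_apply, map_smul, lam_dl, mul_one, ev_apply, smul_eq_mul]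
    rw [e, Finset.sum_eq_single_of_mem g hg, HilbG_dl_self, mul_one]
    intro h _ hne
    rw [HilbG_dl_ne hne.symm, mul_zero]
  have h3 : ∑ g ∈ W, ‖c g‖ ^ 2 ≤ ‖X (dl 1)‖ ^ 2 := by
    refine le_trans (le_of_eq ?_) (L2_sum_le (X (dl 1)) W)
    exact Finset.sum_congr rfl fun g hg => by rw [h2 g hg]
  calc ‖X‖ ^ 2 ≤ (∑ g ∈ W, ‖c g‖) ^ 2 := pow_le_pow_left₀ (norm_nonneg _) h1 2
    _ ≤ W.card * ∑ g ∈ W, ‖c g‖ ^ 2 := sq_sum_le_card_mul_sum_sq
    _ ≤ W.card * ‖X (dl 1)‖ ^ 2 := mul_le_mul_of_nonneg_left h3 (Nat.cast_nonneg _)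

/-- the reduced C*-algebra of the statement is (the carrier of) a closed star subalgebra that contains
the `lam g` and commutes with right translations.  (`leftTranslations G = Set.range lam` by `ext`;
the span of a range closed under products and star is a star subalgebra; take
`StarSubalgebra.topologicalClosure`.) -/
theorem exists_cstar_subalgebra (G : Type) [Group G] :
    ∃ A : StarSubalgebra ℂ (L2 G ℂ →L[ℂ] L2 G ℂ), IsClosed (A : Set (L2 G ℂ →L[ℂ] L2 G ℂ)) ∧
      (A : Set (L2 G ℂ →L[ℂ] L2 G ℂ)) = Crest.OperatorAlgebra.reducedGroupCStar G ∧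
      (∀ g, lam g ∈ A) ∧ ∀ T ∈ A, ∀ g, T * rt g = rt g * T := by
  have hL : Crest.OperatorAlgebra.leftTranslations G = Set.range (lam : G → _) := by
    ext T
    constructor
    · rintro ⟨g, hg⟩
      refine ⟨g, ?_⟩
      ext f x
      rw [lam_apply, hg]
    · rintro ⟨g, rfl⟩
      exact ⟨g, lam_apply g⟩
  set S : Submodule ℂ (L2 G ℂ →L[ℂ] L2 G ℂ) := Submodule.span ℂ (Set.range (lam : G → _)) with hS
  have hmem : ∀ g, lam g ∈ S := fun g => Submodule.subset_span ⟨g, rfl⟩
  have hone : (1 : L2 G ℂ →L[ℂ] L2 G ℂ) ∈ S := by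
    rw [← lam_one]
    exact hmem 1
  have hmul : ∀ x y, x ∈ S → y ∈ S → x * y ∈ S := by
    intro x y hx hy
    induction hx, hy using Submodule.span_induction₂ with
    | mem_mem a b ha hb =>
      obtain ⟨g, rfl⟩ := ha
      obtain ⟨h, rfl⟩ := hb
      rw [← lam_mul]
      exact hmem _
    | zero_left y _ => simp
    | zero_right x _ => simp
    | add_left a b c _ _ _ h1 h2 =>
      rw [add_mul]
      exact S.add_mem h1 h2
    | add_right a b c _ _ _ h1 h2 =>
      rw [mul_add]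
      exact S.add_mem h1 h2
    | smul_left r a b _ _ h1 =>
      rw [smul_mul_assoc]
      exact S.smul_mem r h1
    | smul_right r a b _ _ h1 =>
      rw [mul_smul_comm]
      exact S.smul_mem r h1
  have hstar : ∀ x, x ∈ S → star x ∈ S := by
    intro x hx
    induction hx using Submodule.span_induction with
    | mem a ha =>
      obtain ⟨g, rfl⟩ := ha
      rw [star_lam]
      exact hmem _
    | zero => simp
    | add a b _ _ h1 h2 =>
      rw [star_add]
      exact S.add_mem h1 h2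
    | smul r a _ h1 =>
      rw [star_smul]
      exact S.smul_mem _ h1
  let B : StarSubalgebra ℂ (L2 G ℂ →L[ℂ] L2 G ℂ) :=
    { S.toSubalgebra hone hmul with star_mem' := fun {a} ha => hstar a ha }
  have hB : (B : Set (L2 G ℂ →L[ℂ] L2 G ℂ)) = S := rfl
  refine ⟨B.topologicalClosure, B.isClosed_topologicalClosure, ?_, ?_, ?_⟩
  · rw [StarSubalgebra.topologicalClosure_coe, hB, Crest.OperatorAlgebra.reducedGroupCStar, hL]
  · intro g
    exact B.le_topologicalClosure (hmem g)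
  · intro T hT g
    have hT' : T ∈ closure (S : Set (L2 G ℂ →L[ℂ] L2 G ℂ)) := hT
    have hcl : IsClosed {T : L2 G ℂ →L[ℂ] L2 G ℂ | T * rt g = rt g * T} :=
      isClosed_eq (continuous_id.mul continuous_const) (continuous_const.mul continuous_id)
    refine closure_minimal (t := {T : L2 G ℂ →L[ℂ] L2 G ℂ | T * rt g = rt g * T}) ?_ hcl hT'
    intro x hx
    induction hx using Submodule.span_induction with
    | mem a ha =>
      obtain ⟨h, rfl⟩ := ha
      exact lam_rt h g
    | zero => simp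
    | add a b _ _ h1 h2 =>
      simp only [Set.mem_setOf_eq] at h1 h2 ⊢
      rw [add_mul, mul_add, h1, h2]
    | smul r a _ h1 =>
      simp only [Set.mem_setOf_eq] at h1 ⊢
      rw [smul_mul_assoc, mul_smul_comm, h1]

theorem deltaOne_eq (G : Type) [Group G] : Crest.OperatorAlgebra.deltaOne G = dl (1 : G) := by
  rfl

end Group

theorem HilbG_memlp {ι E : Type} [NormedAddCommGroup E] {φ : ι → E}
    (h : Summable fun i => ‖φ i‖ ^ 2) : Memℓp φ 2 := by
  refine memℓp_gen ?_
  simpa using h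

/-- the row `g ↦ f (x, g)` -/
def HilbG_row {V Q : Type} (f : L2 (V × Q) ℂ) (x : V) : L2 Q ℂ :=
  ⟨fun g => f (x, g), HilbG_memlp ((L2_hasSum_norm f).summable.prod_factor x)⟩

theorem HilbG_row_hasSum {V Q : Type} (f : L2 (V × Q) ℂ) :
    HasSum (fun x => ‖HilbG_row f x‖ ^ 2) (‖f‖ ^ 2) :=
  (L2_hasSum_norm f).prod_fiberwise fun x => L2_hasSum_norm (HilbG_row f x)

/-- currying as a linear isometry -/
def HilbG_cur (V Q : Type) : L2 (V × Q) ℂ →ₗᵢ[ℂ] L2 V (L2 Q ℂ) where
  toFun f := ⟨fun x => HilbG_row f x, HilbG_memlp (HilbG_row_hasSum f).summable⟩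
  map_add' f g := by
    ext x y
    rfl
  map_smul' c f := by
    ext x y
    rfl
  norm_map' f := by
    refine (pow_left_inj₀ (norm_nonneg _) (norm_nonneg _) two_ne_zero).1 ?_
    exact (L2_hasSum_norm _).unique (HilbG_row_hasSum f)

/-- currying isometry.  Plan: define the map on `f` by `x ↦ (g ↦ f (x,g))`; summability by
`summable_prod_of_nonneg` / `HasSum.prod_fiberwise`; surjectivity by the same lemma;
`LinearIsometryEquiv.ofSurjective`. -/
theorem exists_curry (V Q : Type) :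
    ∃ U : L2 (V × Q) ℂ ≃ₗᵢ[ℂ] L2 V (L2 Q ℂ), ∀ f x g, U f x g = f (x, g) := by
  refine ⟨LinearIsometryEquiv.ofSurjective (HilbG_cur V Q) ?_, fun f x g => rfl⟩
  intro F
  have hs : Summable fun p : V × Q => ‖F p.1 p.2‖ ^ 2 := by
    rw [summable_prod_of_nonneg fun p => by positivity]
    refine ⟨fun x => (L2_hasSum_norm (F x)).summable, ?_⟩
    refine (L2_hasSum_norm F).summable.congr fun x => ?_
    exact (L2_hasSum_norm (F x)).tsum_eq.symm
  refine ⟨⟨fun p => F p.1 p.2, HilbG_memlp hs⟩, ?_⟩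
  ext x y
  rfl

/-- the currying isometry `ℓ²(V × Q) ≃ ℓ²(V; ℓ²(Q))`. -/
noncomputable def curry (V Q : Type) : L2 (V × Q) ℂ ≃ₗᵢ[ℂ] L2 V (L2 Q ℂ) :=
  (exists_curry V Q).choose

theorem curry_apply {V Q : Type} (f : L2 (V × Q) ℂ) (x : V) (g : Q) :
    curry V Q f x g = f (x, g) := (exists_curry V Q).choose_spec f x g

end Crest.Agent.R129
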