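import Crest.Agent.R129.GhostDef
import Crest.Agent.R129.Abs

/-!
# R129 / LG1 : the ghost matrices as operators on `ℓ²(ℤ; ℓ²(Q))`
-/

set_option autoImplicit false
open scoped InnerProductSpace ComplexConjugate

namespace Crest.Agent.R129

namespace Ghost
variable {k K ν : ℕ} (Gh : Ghost k K ν)

/-- the entries of the square of `P`. -/
noncomputable def Pi (n n' : ℤ) : L2 Gh.Q ℂ →L[ℂ] L2 Gh.Q ℂ :=
  ∑ l ∈ Finset.Icc (n - 1) (n + 1), Gh.P n l * Gh.P l n'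

/-- the banded matrix `P` as an operator. -/
noncomputable def PP : L2 ℤ (L2 Gh.Q ℂ) →L[ℂ] L2 ℤ (L2 Gh.Q ℂ) :=
  ∑ i ∈ Finset.Icc (-1 : ℤ) 1, pull (fun n => n + i) fun n => Gh.P n (n + i)

/-- the diagonal matrix `G` as an operator. -/
noncomputable def GG : L2 ℤ (L2 Gh.Q ℂ) →L[ℂ] L2 ℤ (L2 Gh.Q ℂ) := pull id Gh.G

theorem LG1_bd (i : ℤ) : PullBd (fun n : ℤ => n + i) (fun n => Gh.P n (n + i)) K :=
  pullBd_of_injOn (Nat.cast_nonneg K) (fun _ => Gh.P_norm _ _)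
    fun _ _ _ _ h => add_right_cancel h

theorem LG1_bdG : PullBd (id : ℤ → ℤ) Gh.G K :=
  pullBd_of_injOn (Nat.cast_nonneg K) Gh.G_norm fun _ _ _ _ h => h

theorem LG1_card (n : ℤ) : (Finset.Icc (n - 1) (n + 1)).card = 3 := by
  rw [Int.card_Icc]; omega

/-- `pullBd_of_injOn`, `pull_apply`. -/
theorem PP_apply (y : L2 ℤ (L2 Gh.Q ℂ)) (n : ℤ) :
    Gh.PP y n = ∑ l ∈ Finset.Icc (n - 1) (n + 1), Gh.P n l (y l) := by
  rw [PP, sum_apply, ← ev_apply, map_sum]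
  simp only [ev_apply, pull_apply (Gh.LG1_bd _)]
  refine Finset.sum_bij' (fun i _ => n + i) (fun l _ => l - n) ?_ ?_ ?_ ?_ ?_
  · intro i hi; rw [Finset.mem_Icc] at hi ⊢; omega
  · intro l hl; rw [Finset.mem_Icc] at hl ⊢; omega
  · intro i _; ring
  · intro l _; ring
  · intro i _; rfl

theorem PP_sgl (n l : ℤ) (v : L2 Gh.Q ℂ) : Gh.PP (sgl n v) l = Gh.P l n v := by
  rw [PP_apply]
  by_cases h : n ∈ Finset.Icc (l - 1) (l + 1)
  · rw [Finset.sum_eq_single_of_mem n h fun m _ hm => by rw [sgl_ne hm, map_zero], sgl_self]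
  · rw [Finset.sum_eq_zero fun m hm => by
      rw [sgl_ne (fun e : m = n => h (e ▸ hm)), map_zero]]
    rw [Gh.P_band l n (by rw [Finset.mem_Icc] at h; omega), zero_apply]

/-- `adjoint_eq_of_entries`, `P_star`. -/
theorem PP_sa : IsSelfAdjoint Gh.PP := by
  rw [IsSelfAdjoint, ContinuousLinearMap.star_eq_adjoint]
  refine adjoint_eq_of_entries _ _ fun i j v w => ?_
  rw [PP_sgl, PP_sgl, ← Gh.P_star j i, ContinuousLinearMap.star_eq_adjoint,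
    ContinuousLinearMap.adjoint_inner_left]

theorem norm_PP : ‖Gh.PP‖ ≤ 3 * K := by
  refine (norm_sum_le _ _).trans ?_
  refine (Finset.sum_le_sum fun i _ => norm_pull_le (Gh.LG1_bd i)).trans ?_
  rw [Finset.sum_const, Int.card_Icc, show (1 + 1 - -1 : ℤ).toNat = 3 from rfl, nsmul_eq_mul]
  norm_num

theorem GG_apply (y : L2 ℤ (L2 Gh.Q ℂ)) (n : ℤ) : Gh.GG y n = Gh.G n (y n) := by
  exact pull_apply Gh.LG1_bdG y n

theorem GG_sa : IsSelfAdjoint Gh.GG := by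
  rw [IsSelfAdjoint, ContinuousLinearMap.star_eq_adjoint]
  refine adjoint_eq_of_entries _ _ fun i j v w => ?_
  rw [GG_apply, GG_apply]
  by_cases h : j = i
  · subst h
    rw [sgl_self, sgl_self, Abs_sa (Gh.G_sa j)]
  · rw [sgl_ne h, sgl_ne (Ne.symm h), map_zero, map_zero, inner_zero_left, inner_zero_right]

theorem norm_GG : ‖Gh.GG‖ ≤ K := by
  exact norm_pull_le Gh.LG1_bdG

/-- `L2_hom_ext`, `PP_apply`, `PP_sgl`, `GPP`. -/
theorem GG_PP_PP : Gh.GG * Gh.PP * Gh.PP = Gh.PP := by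
  refine L2_hom_ext fun n' v => ?_
  apply lp.ext; funext n
  rw [mul_apply_eq_comp, mul_apply_eq_comp, GG_apply, PP_apply, PP_sgl,
    ← Gh.GPP n n', mul_apply_eq_comp, sum_apply]
  simp only [PP_sgl, mul_apply_eq_comp]

theorem PP_ne : Gh.PP ≠ 0 := by
  intro h
  refine Gh.P_ne (ContinuousLinearMap.ext fun v => ?_)
  rw [← PP_sgl, h]
  rfl

theorem inner_PP_sgl (n n' : ℤ) (u v : L2 Gh.Q ℂ) :
    ⟪Gh.PP (sgl n' u), Gh.PP (sgl n v)⟫_ℂ = ⟪u, Gh.Pi n' n v⟫_ℂ := by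
  rw [Abs_sa Gh.PP_sa, inner_sgl_left, PP_apply, Pi, sum_apply]
  simp only [PP_sgl, mul_apply_eq_comp]

theorem Pi_far {n n' : ℤ} (h : 2 ≤ (n - n').natAbs) : Gh.Pi n n' = 0 := by
  exact Finset.sum_eq_zero fun l _ => Gh.P_band2 n n' l h

theorem norm_Pi_mul {n : ℤ} {T : L2 Gh.Q ℂ →L[ℂ] L2 Gh.Q ℂ} {ε : ℝ} (h : ∀ l, ‖Gh.P l n * T‖ ≤ ε)
    (n' : ℤ) : ‖Gh.Pi n' n * T‖ ≤ 3 * K * ε := by
  rw [Pi, Finset.sum_mul]
  refine (norm_sum_le _ _).trans ?_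
  refine (Finset.sum_le_sum (g := fun _ => (K : ℝ) * ε) fun l _ => ?_).trans ?_
  · rw [mul_assoc]
    exact (norm_mul_le _ _).trans
      (mul_le_mul (Gh.P_norm _ _) (h l) (norm_nonneg _) (Nat.cast_nonneg K))
  · rw [Finset.sum_const, LG1_card, nsmul_eq_mul, mul_assoc]
    norm_num

/-- the vector is supported in `Icc (n-1) (n+1)`; `L2_norm_sq_eq`. -/
theorem norm_PP_sgl_le {n : ℤ} {T : L2 Gh.Q ℂ →L[ℂ] L2 Gh.Q ℂ} {ε : ℝ} (h : ∀ l, ‖Gh.P l n * T‖ ≤ ε)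
    (v : L2 Gh.Q ℂ) : ‖Gh.PP (sgl n (T v))‖ ≤ 3 * ε * ‖v‖ := by
  have hε : 0 ≤ ε := (norm_nonneg _).trans (h 0)
  refine (pow_le_pow_iff_left₀ (norm_nonneg _) (by positivity) two_ne_zero).1 ?_
  rw [L2_norm_sq_eq _ (Finset.Icc (n - 1) (n + 1)) fun l hl => by
    rw [PP_sgl, Gh.P_band l n (by rw [Finset.mem_Icc] at hl; omega),
      zero_apply]]
  refine (Finset.sum_le_sum (g := fun _ => (ε * ‖v‖) ^ 2) fun l _ => ?_).trans ?_
  · rw [PP_sgl]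
    refine pow_le_pow_left₀ (norm_nonneg _) ?_ 2
    exact ((Gh.P l n * T).le_opNorm v).trans (mul_le_mul_of_nonneg_right (h l) (norm_nonneg _))
  · rw [Finset.sum_const, LG1_card, nsmul_eq_mul]
    push_cast
    nlinarith [sq_nonneg (ε * ‖v‖)]

/-- `star ((lam g - 1) * P n l) = P l n * (lam g⁻¹ - 1) = -(P l n * (lam g - 1)) * lam g⁻¹`. -/
theorem norm_lam_sub_PP {n : ℤ} {g : Gh.Q} {ε : ℝ} (h : ∀ l, ‖Gh.P l n * (lam g - 1)‖ ≤ ε)
    (y : L2 ℤ (L2 Gh.Q ℂ)) :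
    ‖lam g (Gh.PP y n) - Gh.PP y n‖ ≤ ε * ∑ l ∈ Finset.Icc (n - 1) (n + 1), ‖y l‖ := by
  have h1 : ∀ l, ‖(lam g - 1) * Gh.P n l‖ ≤ ε := by
    intro l
    have e : star ((lam g - 1) * Gh.P n l) = -(Gh.P l n * (lam g - 1)) * lam g⁻¹ := by
      rw [star_mul, star_sub, star_one, star_lam, Gh.P_star, neg_mul, mul_assoc, sub_mul,
        ← lam_mul, mul_inv_cancel, lam_one, one_mul, ← mul_neg, neg_sub]
    rw [← norm_star, e]
    refine (norm_mul_le _ _).trans ?_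
    rw [norm_neg]
    exact (mul_le_of_le_one_right (norm_nonneg _) (norm_lam_le _)).trans (h l)
  have e : lam g (Gh.PP y n) - Gh.PP y n =
      ∑ l ∈ Finset.Icc (n - 1) (n + 1), ((lam g - 1) * Gh.P n l) (y l) := by
    rw [PP_apply, map_sum, ← Finset.sum_sub_distrib]
    rfl
  rw [e, Finset.mul_sum]
  refine (norm_sum_le _ _).trans (Finset.sum_le_sum fun l _ => ?_)
  exact (ContinuousLinearMap.le_opNorm _ _).trans
    (mul_le_mul_of_nonneg_right (h1 l) (norm_nonneg _))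

/-- `PP` moves supports by at most one. -/
theorem PP_supp {R : ℕ} {y : L2 ℤ (L2 Gh.Q ℂ)} (hy : ∀ n : ℤ, R < n.natAbs → y n = 0) (n : ℤ)
    (hn : R + 1 < n.natAbs) : Gh.PP y n = 0 := by
  rw [PP_apply]
  refine Finset.sum_eq_zero fun l hl => ?_
  rw [hy l (by rw [Finset.mem_Icc] at hl; omega), map_zero]

end Ghost

end Crest.Agent.R129
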