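import Crest.Agent.R129.LG4

/-!
# R129 / LG5 : the upper bound
-/

set_option autoImplicit false
open scoped InnerProductSpace ComplexConjugate
open ContinuousLinearMap

namespace Crest.Agent.R129

namespace Good
variable {t q N k K ν : ℕ} {B : Base t q N} {Gh : Ghost k K ν} {h ε η : ℝ} (g : Good B Gh h ε η)

omit g in
theorem LG5_gcomp_le (f : B.V → L2 Gh.Q ℂ) (x : B.V) : ‖gcomp B Gh f x‖ ≤ 3 * K * ‖f x‖ := by
  unfold gcomp
  refine (Gh.PP.le_opNorm _).trans ?_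
  rw [norm_sgl]
  exact mul_le_mul_of_nonneg_right Gh.norm_PP (norm_nonneg _)

omit g in
theorem LG5_gsum_le (f : B.V → L2 Gh.Q ℂ) (n : ℤ) :
    ∑ x ∈ B.X n, ‖gcomp B Gh f x‖ ^ 2 ≤ 9 * (K : ℝ) ^ 2 * B.Sq n f := by
  unfold Base.Sq
  rw [Finset.mul_sum]
  refine Finset.sum_le_sum fun x _ => ?_
  calc _ ≤ (3 * K * ‖f x‖) ^ 2 := pow_le_pow_left₀ (norm_nonneg _) (LG5_gcomp_le f x) 2
    _ = _ := by ring

omit g in
theorem LG5_Sq_nonneg (f : B.V → L2 Gh.Q ℂ) (n : ℤ) : 0 ≤ B.Sq n f :=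
  Finset.sum_nonneg fun _ _ => sq_nonneg _

/-- `main_up` with `R = PP ∘ sgl n`, `ρ = 3K` (`norm_PP`, `norm_sgl`), error `3ε` (`norm_PP_sgl_le`), `c = 1/800`. -/
theorem Mf_up (hK : 1 ≤ K) (n : ℤ) (f : B.V → L2 Gh.Q ℂ) :
    g.Mf n f ≤ (2 * B.s + (1 / (q : ℝ) ^ 3 + ε ^ 2) * B.s) * B.Sq n f -
      B.s / (7200 * (K : ℝ) ^ 2) * Var (B.X n) (gcomp B Gh f) := by
  have hK' : (1 : ℝ) ≤ K := by exact_mod_cast hK
  have key := main_up B.Gr (B.X n) (B.Em n) (fun e he => B.Em_mem he) (B.main_src n) (B.main_tgt n)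
    (c := 1 / 800) (ε₀ := 1 / (q : ℝ) ^ 3) (by positivity) (B.expand n)
    (fun e => lam (g.vol e)) (fun e v => norm_lam_apply _ v) (Gh.PP.comp (sgl n))
    (ρ := 3 * K) (ε := 3 * ε)
    (fun v => by
      rw [ContinuousLinearMap.comp_apply]
      refine (Gh.PP.le_opNorm _).trans ?_
      rw [norm_sgl]
      exact mul_le_mul_of_nonneg_right Gh.norm_PP (norm_nonneg _))
    (fun e he v => by
      have := Gh.norm_PP_sgl_le (g.main_inv n e he) v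
      rw [← map_sub]
      exact this) f
  have hV : Var (B.X n) (fun x => (Gh.PP.comp (sgl n)) (f x)) = Var (B.X n) (gcomp B Gh f) := by
    have e : ∀ x ∈ B.X n, (Gh.PP.comp (sgl n)) (f x) = gcomp B Gh f x := fun x hx => by
      rw [gcomp, (B.mem_X n x).1 hx]
      rfl
    unfold Var
    have e' : ∀ x ∈ B.X n, ‖(Gh.PP.comp (sgl n)) (f x)‖ ^ 2 = ‖gcomp B Gh f x‖ ^ 2 :=
      fun x hx => by rw [e x hx]
    rw [Finset.sum_congr rfl e, Finset.sum_congr rfl e']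
  rw [hV] at key
  change _ - _ * B.Sq n f ≤ _ * (_ * B.Sq n f - g.Mf n f) at key
  have hS := LG5_Sq_nonneg (B := B) f n
  have hK2 : (0 : ℝ) < 18 * (K : ℝ) ^ 2 := by positivity
  have hK3 : (1 : ℝ) ≤ (K : ℝ) ^ 2 := one_le_pow₀ hK'
  have hs : (0 : ℝ) ≤ B.s := Nat.cast_nonneg _
  have h3 : 0 ≤ ε ^ 2 * B.s * B.Sq n f * ((K : ℝ) ^ 2 - 1) :=
    mul_nonneg (mul_nonneg (mul_nonneg (sq_nonneg _) hs) hS) (by linarith)
  refine le_of_mul_le_mul_left ?_ hK2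
  have e1 : 18 * (K : ℝ) ^ 2 * ((2 * B.s + (1 / (q : ℝ) ^ 3 + ε ^ 2) * B.s) * B.Sq n f -
      B.s / (7200 * (K : ℝ) ^ 2) * Var (B.X n) (gcomp B Gh f)) =
      18 * (K : ℝ) ^ 2 * ((2 * B.s + (1 / (q : ℝ) ^ 3 + ε ^ 2) * B.s) * B.Sq n f) -
        B.s / 400 * Var (B.X n) (gcomp B Gh f) := by
    have : (K : ℝ) ≠ 0 := by positivity
    field_simp
    ring
  rw [e1]
  nlinarith

/-- `Lf_approx`, `link_cross` with `D = t⁹`, `l = s / (57600 K² D)`, `0 ≤ tau ≤ 1`, `‖gcomp f x‖ ≤ 3K ‖f x‖`. -/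
theorem Lf_up (hK : 1 ≤ K) (hq : 0 < q) (ht : 0 < t) (hs : 0 < B.s) (h0 : 0 ≤ h)
    (h1 : 3 * h ≤ (t : ℝ) ^ 7) (b : ℤ × Bool) (f : L2 B.V (L2 Gh.Q ℂ)) :
    g.Lf b f ≤ B.tau h b * (2 * (B.Eb b).card *
        (⟪mean (B.X (bt b)) (gcomp B Gh f), mean (B.X (bs b)) (gcomp B Gh f)⟫_ℂ).re) +
      B.s / (28800 * (K : ℝ) ^ 2) *
        (Var (B.X (bs b)) (gcomp B Gh f) + Var (B.X (bt b)) (gcomp B Gh f)) +
      (η + 259200 * (t : ℝ) ^ 18 * (K : ℝ) ^ 4 / B.s) * (B.Sq (bs b) f + B.Sq (bt b) f) := by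
  have hK' : (1 : ℝ) ≤ K := by exact_mod_cast hK
  have hK0 : (0 : ℝ) < K := by linarith
  have ht' : (0 : ℝ) < t := by exact_mod_cast ht
  have hs' : (0 : ℝ) < B.s := by exact_mod_cast hs
  have a1 := (abs_le.1 (g.Lf_approx b f)).2
  have a2 := (abs_le.1 (link_cross B.Gr (B.X (bs b)) (B.X (bt b)) (B.Eb b)
    (fun e he => B.Eb_mem he) (B.link_src b) (B.link_tgt b) (gcomp B Gh f)
    (l := B.s / (57600 * (K : ℝ) ^ 2 * (t : ℝ) ^ 9)) (by positivity))).2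
  have e1 : 2 * ((t ^ 9 : ℕ) : ℝ) * (B.s / (57600 * (K : ℝ) ^ 2 * (t : ℝ) ^ 9)) =
      B.s / (28800 * (K : ℝ) ^ 2) := by
    push_cast
    field_simp
    ring
  have e2 : ((t ^ 9 : ℕ) : ℝ) / (2 * (B.s / (57600 * (K : ℝ) ^ 2 * (t : ℝ) ^ 9))) =
      28800 * (t : ℝ) ^ 18 * (K : ℝ) ^ 2 / B.s := by
    push_cast
    field_simp
    ring
  rw [e1, e2] at a2
  have t0 := B.tau_nonneg h0 b
  have t1 : B.tau h b ≤ 1 := by
    have := (B.tau_le hq ht h0 b).trans h1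
    exact (mul_le_iff_le_one_left (by positivity)).1 this
  have s1 := LG5_gsum_le (B := B) (Gh := Gh) f (bs b)
  have s2 := LG5_gsum_le (B := B) (Gh := Gh) f (bt b)
  have v1 := Var_nonneg (B.X (bs b)) (gcomp B Gh f)
  have v2 := Var_nonneg (B.X (bt b)) (gcomp B Gh f)
  have q1 := LG5_Sq_nonneg (B := B) f (bs b)
  have q2 := LG5_Sq_nonneg (B := B) f (bt b)
  set E := B.s / (28800 * (K : ℝ) ^ 2) *
        (Var (B.X (bs b)) (gcomp B Gh f) + Var (B.X (bt b)) (gcomp B Gh f)) +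
      259200 * (t : ℝ) ^ 18 * (K : ℝ) ^ 4 / B.s * (B.Sq (bs b) f + B.Sq (bt b) f) with hE
  have hE0 : 0 ≤ E := by positivity
  have a3 : 28800 * (t : ℝ) ^ 18 * (K : ℝ) ^ 2 / B.s *
      (∑ x ∈ B.X (bs b), ‖gcomp B Gh f x‖ ^ 2 + ∑ x ∈ B.X (bt b), ‖gcomp B Gh f x‖ ^ 2) ≤
      259200 * (t : ℝ) ^ 18 * (K : ℝ) ^ 4 / B.s * (B.Sq (bs b) f + B.Sq (bt b) f) := by
    calc _ ≤ 28800 * (t : ℝ) ^ 18 * (K : ℝ) ^ 2 / B.s *
        (9 * (K : ℝ) ^ 2 * B.Sq (bs b) f + 9 * (K : ℝ) ^ 2 * B.Sq (bt b) f) :=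
          mul_le_mul_of_nonneg_left (add_le_add s1 s2) (by positivity)
      _ = _ := by ring
  have a4 : ∑ e ∈ B.Eb b, 2 * (⟪gcomp B Gh f (B.Gr.tgt e), gcomp B Gh f (B.Gr.src e)⟫_ℂ).re ≤
      2 * (B.Eb b).card *
        (⟪mean (B.X (bt b)) (gcomp B Gh f), mean (B.X (bs b)) (gcomp B Gh f)⟫_ℂ).re + E := by
    rw [hE]
    linarith
  have a5 := mul_le_mul_of_nonneg_left a4 t0
  have a6 : B.tau h b * E ≤ E := mul_le_of_le_one_left hE0 t1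
  rw [mul_add] at a5
  rw [add_mul η]
  linarith

/-- **Upper bound.**  For finitely supported `f`: `fm_eq`, `Mf_up`, `Lf_up`, `const_sum`, `band_mult` (twice),
`norm_sq_levels`; then `L2_dense`. -/
theorem up (hK : 1 ≤ K) (hq : 0 < q) (ht : 0 < t) (hs : 0 < B.s) (h0 : 0 ≤ h)
    (h1 : 3 * h ≤ (t : ℝ) ^ 7) (hη : 0 ≤ η) (f : L2 B.V (L2 Gh.Q ℂ)) :
    fm g.Bo f ≤ (2 * B.s + ((1 / (q : ℝ) ^ 3 + ε ^ 2) * B.s + 4 * η +
        1036800 * (t : ℝ) ^ 18 * (K : ℝ) ^ 4 / B.s)) * ‖f‖ ^ 2 + h * ‖Gh.PP (av B Gh f)‖ ^ 2 := by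
  classical
  have hK' : (1 : ℝ) ≤ K := by exact_mod_cast hK
  have hs' : (0 : ℝ) < B.s := by exact_mod_cast hs
  refine L2_dense Set.univ (fun f => fm g.Bo f ≤ (2 * B.s + ((1 / (q : ℝ) ^ 3 + ε ^ 2) * B.s +
    4 * η + 1036800 * (t : ℝ) ^ 18 * (K : ℝ) ^ 4 / B.s)) * ‖f‖ ^ 2 +
      h * ‖Gh.PP (av B Gh f)‖ ^ 2) ?_ ?_ f (fun _ hi => absurd (Set.mem_univ _) hi)
  · refine isClosed_le ?_ (by fun_prop)
    unfold fm
    exact Complex.continuous_re.comp (continuous_id.inner g.Bo.continuous)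
  intro f s hf _
  set I := s.image B.lev with hI
  have hfI : ∀ x, B.lev x ∉ I → f x = 0 := fun x hx =>
    hf x fun hs => hx (Finset.mem_image_of_mem _ hs)
  have hz : ∀ n, n ∉ I → ∀ x ∈ B.X n, f x = 0 := fun n hn x hx =>
    hfI x (by rwa [(B.mem_X n x).1 hx])
  have b1 := band_mult I (fun n => Var (B.X n) (gcomp B Gh f)) (fun n => Var_nonneg _ _)
    (fun n hn => by
      have e : ∀ x ∈ B.X n, gcomp B Gh f x = 0 := fun x hx => by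
        rw [gcomp, hz n hn x hx, map_zero, map_zero]
      show Var (B.X n) (gcomp B Gh f) = 0
      unfold Var
      rw [Finset.sum_eq_zero e, Finset.sum_eq_zero fun x hx => by rw [e x hx]; simp]
      simp)
  have b2 := band_mult I (fun n => B.Sq n f) (fun n => LG5_Sq_nonneg f n)
    (fun n hn => Finset.sum_eq_zero fun x hx => by rw [hz n hn x hx]; simp)
  have hn : ‖f‖ ^ 2 = ∑ n ∈ I, B.Sq n f := norm_sq_levels B.mem_X I f hfI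
  have m1 := Finset.sum_le_sum (s := I) fun n _ => g.Mf_up hK n f
  have m2 := Finset.sum_le_sum (s := I ×ˢ (Finset.univ : Finset Bool))
    fun b _ => g.Lf_up hK hq ht hs h0 h1 b f
  rw [Finset.sum_sub_distrib, ← Finset.mul_sum, ← Finset.mul_sum] at m1
  rw [Finset.sum_add_distrib, Finset.sum_add_distrib, const_sum B Gh hq ht h I f hfI,
    ← Finset.mul_sum, ← Finset.mul_sum] at m2
  rw [g.fm_eq I f hfI, hn]
  have c1 := mul_le_mul_of_nonneg_left b1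
    (show (0 : ℝ) ≤ B.s / (28800 * (K : ℝ) ^ 2) by positivity)
  have c2 := mul_le_mul_of_nonneg_left b2
    (show (0 : ℝ) ≤ η + 259200 * (t : ℝ) ^ 18 * (K : ℝ) ^ 4 / B.s by positivity)
  have e1 : B.s / (28800 * (K : ℝ) ^ 2) * (4 * ∑ n ∈ I, Var (B.X n) (gcomp B Gh f)) =
      B.s / (7200 * (K : ℝ) ^ 2) * ∑ n ∈ I, Var (B.X n) (gcomp B Gh f) := by
    have : (K : ℝ) ≠ 0 := by positivity
    field_simp
    ring
  have e2 : (η + 259200 * (t : ℝ) ^ 18 * (K : ℝ) ^ 4 / B.s) * (4 * ∑ n ∈ I, B.Sq n f) =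
      (4 * η + 1036800 * (t : ℝ) ^ 18 * (K : ℝ) ^ 4 / B.s) * ∑ n ∈ I, B.Sq n f := by ring
  rw [e1] at c1
  rw [e2] at c2
  linarith

end Good

end Crest.Agent.R129
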