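import Crest.Agent.R129.LG4

/-!
# R129 / LG6 : the lower bound
-/

set_option autoImplicit false
open scoped InnerProductSpace ComplexConjugate
open ContinuousLinearMap

namespace Crest.Agent.R129

theorem LG6_sq (m : ℕ) : (√(m : ℝ))⁻¹ ^ 2 = (m : ℝ)⁻¹ := by
  rw [inv_pow, Real.sq_sqrt (Nat.cast_nonneg m)]

theorem LG6_three (φ : ℤ → ℝ) (n : ℤ) :
    ∑ l ∈ Finset.Icc (n - 1) (n + 1), φ l = φ (n + -1) + φ (n + 0) + φ (n + 1) := by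
  have e : Finset.Icc (n - 1) (n + 1) = {n + -1, n + 0, n + 1} := by
    ext l
    simp only [Finset.mem_Icc, Finset.mem_insert, Finset.mem_singleton]
    omega
  rw [e, Finset.sum_insert (by simp only [Finset.mem_insert, Finset.mem_singleton]; omega),
    Finset.sum_insert (by simp only [Finset.mem_singleton]; omega), Finset.sum_singleton, add_assoc]

theorem LG6_shift {E : Type} [NormedAddCommGroup E] [InnerProductSpace ℂ E] (y : L2 ℤ E)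
    (I : Finset ℤ) (i : ℤ) : ∑ n ∈ I, ‖y (n + i)‖ ^ 2 ≤ ‖y‖ ^ 2 := by
  have := L2_sum_le y (I.map (addRightEmbedding i))
  rwa [Finset.sum_map] at this

namespace Good
variable {t q N k K ν : ℕ} {B : Base t q N} {Gh : Ghost k K ν} {h ε η : ℝ} (g : Good B Gh h ε η)

/-- the vector is constant on the level; `norm_lam_sub_PP`, `Em_ge`, `Em_le`. -/
theorem Mf_low (hq : 0 < q) (n : ℤ) (y : L2 ℤ (L2 Gh.Q ℂ)) :
    (1 - 1 / (q : ℝ) ^ 3) * (2 * B.s) * ‖Gh.PP y n‖ ^ 2 -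
        2 * B.s * |ε| * (‖Gh.PP y n‖ * ∑ l ∈ Finset.Icc (n - 1) (n + 1), ‖y l‖) ≤
      g.Mf n (avs (L2 Gh.Q ℂ) B.lev B.X (Gh.PP y)) := by
  have hm : 0 < (B.X n).card := (B.X_nonempty hq n).card_pos
  have hm' : (0 : ℝ) < (B.X n).card := by exact_mod_cast hm
  set v := Gh.PP y n with hv
  set Sg := ∑ l ∈ Finset.Icc (n - 1) (n + 1), ‖y l‖ with hSg
  have hSg0 : 0 ≤ Sg := Finset.sum_nonneg fun _ _ => norm_nonneg _
  have h1 : ∀ e ∈ B.Em n, 2 * (((B.X n).card : ℝ)⁻¹ * (‖v‖ ^ 2 - |ε| * (‖v‖ * Sg))) ≤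
      2 * (⟪avs (L2 Gh.Q ℂ) B.lev B.X (Gh.PP y) (B.Gr.tgt e),
        lam (g.vol e) (avs (L2 Gh.Q ℂ) B.lev B.X (Gh.PP y) (B.Gr.src e))⟫_ℂ).re := by
    intro e he
    obtain ⟨a1, a2⟩ := B.Em_mem he
    rw [avs_apply B.mem_X, avs_apply B.mem_X, (B.mem_X _ _).1 a1, (B.mem_X _ _).1 a2, map_smul,
      inner_smul_left, inner_smul_right, Complex.conj_ofReal, Complex.re_ofReal_mul,
      Complex.re_ofReal_mul, ← mul_assoc (√_)⁻¹, ← sq, LG6_sq, ← hv]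
    refine mul_le_mul_of_nonneg_left (mul_le_mul_of_nonneg_left ?_ (by positivity)) (by norm_num)
    have b1 := Gh.norm_lam_sub_PP (g.main_inv n e he) y
    rw [← hv, ← hSg] at b1
    have b2 := Abs_re_le v (v - lam (g.vol e) v)
    rw [inner_sub_right, Complex.sub_re, Abs_re_self, norm_sub_rev] at b2
    have b3 := mul_le_mul_of_nonneg_left
      (b1.trans (mul_le_mul_of_nonneg_right (le_abs_self ε) hSg0)) (norm_nonneg v)
    linarith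
  refine le_trans ?_ (Finset.card_nsmul_le_sum _ _ _ h1)
  rw [nsmul_eq_mul]
  have a1 := B.Em_ge n
  have a2 : ((B.Em n).card : ℝ) ≤ B.s * (B.X n).card := by exact_mod_cast B.Em_le n
  rw [← le_div_iff₀ hm'] at a1
  rw [← div_le_iff₀ hm'] at a2
  have b1 := mul_le_mul_of_nonneg_right a1 (sq_nonneg ‖v‖)
  have b2 := mul_le_mul_of_nonneg_right a2 (show 0 ≤ |ε| * (‖v‖ * Sg) by positivity)
  rw [div_eq_mul_inv ((B.Em n).card : ℝ)] at b1 b2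
  linarith

/-- `gcomp` of a vector that is constant on levels is constant on levels; `Lf_approx`. -/
theorem Lf_low (hq : 0 < q) (b : ℤ × Bool) (z : L2 ℤ (L2 Gh.Q ℂ)) :
    B.tau h b * (2 * (B.Eb b).card *
        (⟪mean (B.X (bt b)) (gcomp B Gh (avs (L2 Gh.Q ℂ) B.lev B.X z)),
          mean (B.X (bs b)) (gcomp B Gh (avs (L2 Gh.Q ℂ) B.lev B.X z))⟫_ℂ).re) -
      η * (‖z (bs b)‖ ^ 2 + ‖z (bt b)‖ ^ 2) ≤ g.Lf b (avs (L2 Gh.Q ℂ) B.lev B.X z) := by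
  have hw : ∀ n, ∀ x ∈ B.X n, gcomp B Gh (avs (L2 Gh.Q ℂ) B.lev B.X z) x =
      Gh.PP (sgl n ((((√((B.X n).card : ℝ))⁻¹ : ℝ) : ℂ) • z n)) := by
    intro n x hx
    rw [gcomp, avs_apply B.mem_X, (B.mem_X _ _).1 hx]
  have hmean : ∀ n, mean (B.X n) (gcomp B Gh (avs (L2 Gh.Q ℂ) B.lev B.X z)) =
      Gh.PP (sgl n ((((√((B.X n).card : ℝ))⁻¹ : ℝ) : ℂ) • z n)) := by
    intro n
    have hm : ((B.X n).card : ℂ) ≠ 0 := by exact_mod_cast (B.X_nonempty hq n).card_pos.ne'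
    rw [mean, Finset.sum_congr rfl (hw n), Finset.sum_const, ← Nat.cast_smul_eq_nsmul ℂ, smul_smul,
      inv_mul_cancel₀ hm, one_smul]
  have hSq : ∀ n, B.Sq n (avs (L2 Gh.Q ℂ) B.lev B.X z) = ‖z n‖ ^ 2 := by
    intro n
    have hm : 0 < (B.X n).card := (B.X_nonempty hq n).card_pos
    have hm' : ((B.X n).card : ℝ) ≠ 0 := by exact_mod_cast hm.ne'
    rw [Base.Sq, Finset.sum_congr rfl (g := fun _ => ((B.X n).card : ℝ)⁻¹ * ‖z n‖ ^ 2)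
      fun x hx => by
        rw [avs_apply B.mem_X, (B.mem_X _ _).1 hx, norm_smul, mul_pow, Complex.norm_real,
          Real.norm_eq_abs, sq_abs, LG6_sq],
      Finset.sum_const, nsmul_eq_mul, ← mul_assoc, mul_inv_cancel₀ hm', one_mul]
  have h1 := (abs_le.1 (g.Lf_approx b (avs (L2 Gh.Q ℂ) B.lev B.X z))).1
  rw [hSq, hSq, Finset.sum_congr rfl fun e he => by
    rw [hw _ _ (B.Eb_mem he).1, hw _ _ (B.Eb_mem he).2], Finset.sum_const, nsmul_eq_mul] at h1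
  rw [hmean, hmean]
  linarith

/-- For finitely supported `y` (`PP_supp`, `I = Icc (-R-1) (R+1)`): `fm_eq`, `Mf_low`, `Lf_low`, `const_sum`,
`adjoint_avs_avs`, `band_mult`, `2ab ≤ a² + b²`, `L2_sum_le`; then `L2_dense`. -/
theorem low' (hq : 0 < q) (ht : 0 < t) (hε : 0 ≤ ε) (hη : 0 ≤ η) (y : L2 ℤ (L2 Gh.Q ℂ)) :
    ((1 - 1 / (q : ℝ) ^ 3) * (2 * B.s) - 3 * B.s * ε - 4 * η) * ‖Gh.PP y‖ ^ 2 -
        3 * B.s * ε * ‖y‖ ^ 2 + h * ‖Gh.PP (Gh.PP y)‖ ^ 2 ≤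
      fm g.Bo (avs (L2 Gh.Q ℂ) B.lev B.X (Gh.PP y)) := by
  refine L2_dense Set.univ (fun y : L2 ℤ (L2 Gh.Q ℂ) =>
    ((1 - 1 / (q : ℝ) ^ 3) * (2 * B.s) - 3 * B.s * ε - 4 * η) * ‖Gh.PP y‖ ^ 2 -
        3 * B.s * ε * ‖y‖ ^ 2 + h * ‖Gh.PP (Gh.PP y)‖ ^ 2 ≤
      fm g.Bo (avs (L2 Gh.Q ℂ) B.lev B.X (Gh.PP y))) (isClosed_le (by fun_prop) ?_) ?_ y
    fun _ h => absurd trivial h
  · unfold fm
    fun_prop
  intro y s hs _
  set R := s.sup Int.natAbs with hR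
  set I : Finset ℤ := Finset.Icc (-(R + 1 : ℤ)) (R + 1) with hI
  have hz : ∀ n, n ∉ I → Gh.PP y n = 0 := fun n hn =>
    Gh.PP_supp (R := R) (fun l hl => hs l fun h => absurd (Finset.le_sup (f := Int.natAbs) h)
      (not_le.2 hl)) n (by rw [hI, Finset.mem_Icc] at hn; omega)
  have hf : ∀ x, B.lev x ∉ I → avs (L2 Gh.Q ℂ) B.lev B.X (Gh.PP y) x = 0 := fun x hx => by
    rw [avs_apply B.mem_X, hz _ hx, smul_zero]
  have a1 := Finset.sum_le_sum fun n (_ : n ∈ I) => g.Mf_low hq n y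
  have a2 := Finset.sum_le_sum fun b (_ : b ∈ I ×ˢ (Finset.univ : Finset Bool)) =>
    g.Lf_low hq b (Gh.PP y)
  rw [Finset.sum_sub_distrib, const_sum B Gh hq ht h I _ hf, av,
    adjoint_avs_avs B.mem_X (B.X_nonempty hq), ← Finset.mul_sum] at a2
  have a3 := band_mult I (fun n => ‖Gh.PP y n‖ ^ 2) (fun _ => sq_nonneg _)
    fun n hn => by rw [hz n hn]; simp
  have a4 := L2_norm_sq_eq (Gh.PP y) I hz
  rw [Finset.sum_sub_distrib, ← Finset.mul_sum, ← Finset.mul_sum, abs_of_nonneg hε, ← a4] at a1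
  rw [← a4] at a3
  have a5 : 2 * ∑ n ∈ I, ‖Gh.PP y n‖ * ∑ l ∈ Finset.Icc (n - 1) (n + 1), ‖y l‖ ≤
      3 * ‖Gh.PP y‖ ^ 2 + 3 * ‖y‖ ^ 2 := by
    have b1 : ∑ n ∈ I, 2 * (‖Gh.PP y n‖ * ∑ l ∈ Finset.Icc (n - 1) (n + 1), ‖y l‖) ≤
        ∑ n ∈ I, (3 * ‖Gh.PP y n‖ ^ 2 +
          (‖y (n + -1)‖ ^ 2 + ‖y (n + 0)‖ ^ 2 + ‖y (n + 1)‖ ^ 2)) := by
      refine Finset.sum_le_sum fun n _ => ?_
      rw [LG6_three fun l => ‖y l‖]
      nlinarith [sq_nonneg (‖Gh.PP y n‖ - ‖y (n + -1)‖), sq_nonneg (‖Gh.PP y n‖ - ‖y (n + 0)‖),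
        sq_nonneg (‖Gh.PP y n‖ - ‖y (n + 1)‖)]
    rw [← Finset.mul_sum, Finset.sum_add_distrib, Finset.sum_add_distrib, Finset.sum_add_distrib,
      ← Finset.mul_sum, ← a4] at b1
    linarith [LG6_shift y I (-1), LG6_shift y I 0, LG6_shift y I 1]
  have a6 := mul_le_mul_of_nonneg_left a3 hη
  have a7 := mul_le_mul_of_nonneg_left a5 (show 0 ≤ (B.s : ℝ) * ε by positivity)
  show _ ≤ _
  rw [g.fm_eq I _ hf]
  linarith

/-- **Lower bound** on the range of the projection `GG * PP`: `low'` with `y = GG z`, `PP y = z` (`proj_of_GPP`),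
`‖y‖ ≤ K ‖z‖`, `‖z‖ ≤ K ‖PP z‖`. -/
theorem low (hK : 1 ≤ K) (hq : 0 < q) (ht : 0 < t) (h0 : 0 ≤ h) (hε : 0 ≤ ε) (hη : 0 ≤ η)
    (z : L2 ℤ (L2 Gh.Q ℂ)) (hz : Gh.GG (Gh.PP z) = z) :
    ((1 - 1 / (q : ℝ) ^ 3) * (2 * B.s) - 3 * B.s * ε * (1 + (K : ℝ) ^ 2) - 4 * η + h / (K : ℝ) ^ 2) *
        ‖z‖ ^ 2 ≤ fm g.Bo (avs (L2 Gh.Q ℂ) B.lev B.X z) := by
  have hK' : (1 : ℝ) ≤ K := by exact_mod_cast hK
  have e : Gh.PP (Gh.GG z) = z := by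
    have := congrArg (fun T => T z) (proj_of_GPP Gh.PP_sa Gh.GG_sa Gh.GG_PP_PP).2.2.2
    simp only [mul_apply_eq_comp, hz] at this
    exact this
  have a1 := g.low' hq ht hε hη (Gh.GG z)
  rw [e] at a1
  have a2 : ∀ w, ‖Gh.GG w‖ ^ 2 ≤ (K : ℝ) ^ 2 * ‖w‖ ^ 2 := fun w => by
    rw [← mul_pow]
    exact pow_le_pow_left₀ (norm_nonneg _) ((Gh.GG.le_opNorm w).trans
      (mul_le_mul_of_nonneg_right Gh.norm_GG (norm_nonneg _))) 2
  have a3 := a2 (Gh.PP z)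
  rw [hz, ← div_le_iff₀' (by positivity)] at a3
  have a4 := mul_le_mul_of_nonneg_left a3 h0
  have a5 := mul_le_mul_of_nonneg_left (a2 z) (show 0 ≤ 3 * (B.s : ℝ) * ε by positivity)
  have e2 : h * (‖z‖ ^ 2 / (K : ℝ) ^ 2) = h / (K : ℝ) ^ 2 * ‖z‖ ^ 2 := by ring
  linarith

end Good

end Crest.Agent.R129
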