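import Crest.Agent.R129.EG
import Crest.Agent.R129.Wrap

/-!
# R129 / LG7a : the local gap from form bounds
-/

set_option autoImplicit false
open scoped InnerProductSpace ComplexConjugate
open ContinuousLinearMap

namespace Crest.Agent.R129

namespace EG
variable {V E L Q : Type} [Group Q] [Fintype L] {Gr : EG V E} {lab : E → L} (hf : Gr.Fold lab)
  (v : E → Q) (c : L → ℂ)

omit [Group Q] in
theorem LG7a_R (D : Set (V × Q)) : ∃ R : L2 V (L2 Q ℂ) →L[ℂ] L2 V (L2 Q ℂ),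
    ∀ f, R (curry V Q f) = curry V Q (proj D f) := by
  refine ⟨((curry V Q).toContinuousLinearEquiv : L2 (V × Q) ℂ →L[ℂ] L2 V (L2 Q ℂ)).comp
    ((proj D).comp
      ((curry V Q).symm.toContinuousLinearEquiv : L2 V (L2 Q ℂ) →L[ℂ] L2 (V × Q) ℂ)), fun f => ?_⟩
  show curry V Q (proj D ((curry V Q).symm (curry V Q f))) = _
  rw [LinearIsometryEquiv.symm_apply_apply]

theorem LG7a_proj {ι : Type} (D : Set ι) (f : L2 ι ℂ) {K : ℝ}
    (h : ∀ s : Finset ι, (s : Set ι) ⊆ D → ∑ p ∈ s, ‖f p‖ ^ 2 ≤ K) : ‖proj D f‖ ^ 2 ≤ K := by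
  classical
  refine hasSum_le_of_sum_le (L2_hasSum_norm (proj D f)) fun s => ?_
  refine le_trans (le_of_eq ?_) (h (s.filter (· ∈ D)) fun x hx => (Finset.mem_filter.1 hx).2)
  rw [Finset.sum_filter]
  refine Finset.sum_congr rfl fun x _ => ?_
  split_ifs with hx
  · rw [proj_apply_mem f hx]
  · rw [proj_apply_not_mem f hx]; simp

/-- `compress` in `L2 V (L2 Q ℂ)` with `R = curry ∘ proj Dᶜ ∘ curry⁻¹` (`Bn_curry`, `proj_compl`);
`‖proj D (curry⁻¹ w)‖² ≤ η² ‖w‖²` from `hS` (`L2_hasSum_norm`, `hasSum_le_of_sum_le`), `‖P₀‖ ≤ 1`. -/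
theorem locGap_of (sc : SC (Gr.cover lab hf v)) {P₀ : L2 V (L2 Q ℂ) →L[ℂ] L2 V (L2 Q ℂ)}
    (hP : IsSelfAdjoint P₀) (hPP : P₀ * P₀ = P₀) {M η a b ζ γ : ℝ} (hM : ‖Bn hf v c‖ ≤ M)
    (hη0 : 0 ≤ η) (hη : η ≤ 1 / 2) (hζ : 0 ≤ ζ) (hγ : 0 ≤ γ) (ha : ζ + γ + 3 * M * η ≤ a)
    (hb : b + γ ≤ ζ) (hL : ∀ w, P₀ w = w → a * ‖w‖ ^ 2 ≤ fm (Bn hf v c) w)
    (hU : ∀ f, P₀ f = 0 → fm (Bn hf v c) f ≤ b * ‖f‖ ^ 2)
    (hS : ∀ (o : V × Q) (D : Finset (V × Q)),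
      (D : Set (V × Q)) ⊆ (Gr.cover lab hf v).Ball o (sc.rad o) →
      ∀ w, P₀ w = w → ∑ p ∈ D, ‖w p.1 p.2‖ ^ 2 ≤ η ^ 2 * ‖w‖ ^ 2) :
    LocGap (Gr.cover lab hf v) sc c ζ (γ / 2) := by
  intro o D hD f hf0
  obtain ⟨R, hR⟩ := LG7a_R (V := V) (Q := Q) Dᶜ
  have hRs : IsSelfAdjoint R := by
    have h := (proj_selfAdjoint (E := ℂ) Dᶜ).isSymmetric
    refine ContinuousLinearMap.isSelfAdjoint_iff_isSymmetric.2 fun f g => ?_
    obtain ⟨f, rfl⟩ := (curry V Q).surjective f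
    obtain ⟨g, rfl⟩ := (curry V Q).surjective g
    show ⟪R (curry V Q f), curry V Q g⟫_ℂ = ⟪curry V Q f, R (curry V Q g)⟫_ℂ
    rw [hR, hR, LinearIsometryEquiv.inner_map_map, LinearIsometryEquiv.inner_map_map]
    exact h f g
  have hRR : R * R = R := by
    refine ContinuousLinearMap.ext fun g => ?_
    obtain ⟨g, rfl⟩ := (curry V Q).surjective g
    show R (R (curry V Q g)) = _
    rw [hR, hR]
    exact congrArg (curry V Q) (congrArg (fun T : L2 (V × Q) ℂ →L[ℂ] L2 (V × Q) ℂ => T g)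
      (proj_mul_self Dᶜ))
  have hP1 := Abs_proj_le hP hPP
  have hηR : ‖(1 - R) * P₀‖ ≤ η := by
    refine ContinuousLinearMap.opNorm_le_bound _ hη0 fun x => ?_
    have hw : P₀ (P₀ x) = P₀ x :=
      congrArg (fun T : L2 V (L2 Q ℂ) →L[ℂ] L2 V (L2 Q ℂ) => T x) hPP
    have hn : ‖P₀ x‖ ≤ ‖x‖ := (P₀.le_opNorm x).trans (mul_le_of_le_one_left (norm_nonneg _) hP1)
    show ‖P₀ x - R (P₀ x)‖ ≤ _
    obtain ⟨g, hg⟩ := (curry V Q).surjective (P₀ x)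
    rw [← hg] at hw hn ⊢
    have e : curry V Q g - R (curry V Q g) = curry V Q (proj D g) := by
      rw [hR, ← map_sub, proj_compl]
      congr 1
      show g - (g - proj D g) = _
      abel
    rw [e, LinearIsometryEquiv.norm_map]
    have h1 : ‖proj D g‖ ^ 2 ≤ η ^ 2 * ‖curry V Q g‖ ^ 2 := by
      refine LG7a_proj D g fun s hs => ?_
      have := hS o s (hs.trans hD) _ hw
      simpa only [curry_apply] using this
    rw [← mul_pow] at h1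
    exact (abs_le_of_sq_le_sq' h1 (by positivity)).2.trans (mul_le_mul_of_nonneg_left hn hη0)
  have hf1 : R (curry V Q f) = curry V Q f := by
    rw [hR, (proj_eq_self_iff Dᶜ f).2 fun x hx => hf0 x (not_not.1 hx)]
  have h := compress (Bn_selfAdjoint hf v c) hP hPP hRs hRR hM hηR hη hζ hγ ha hb hL hU _ hf1
  rw [Bn_curry, ← map_smul, ← map_sub, hR, LinearIsometryEquiv.norm_map,
    LinearIsometryEquiv.norm_map] at h
  exact h

theorem neg_of {w : L2 V (L2 Q ℂ)} (hw : w ≠ 0) {a ζ γ : ℝ} (h : a * ‖w‖ ^ 2 ≤ fm (Bn hf v c) w)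
    (ha : ζ + γ ≤ a) : ∃ f : L2 (V × Q) ℂ, f ≠ 0 ∧
      fm ((ζ : ℂ) • (1 : L2 (V × Q) ℂ →L[ℂ] L2 (V × Q) ℂ) - (Gr.cover lab hf v).Bop c) f ≤
        -γ * ‖f‖ ^ 2 := by
  obtain ⟨g, rfl⟩ := (curry V Q).surjective w
  refine ⟨g, fun h0 => hw (by rw [h0, map_zero]), ?_⟩
  have e : fm (Bn hf v c) (curry V Q g) = fm ((Gr.cover lab hf v).Bop c) g := by
    unfold fm
    rw [Bn_curry, LinearIsometryEquiv.inner_map_map]
  rw [e, LinearIsometryEquiv.norm_map] at h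
  rw [M173c_fm_sub]
  nlinarith [sq_nonneg ‖g‖]

end EG

end Crest.Agent.R129
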