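import Crest.Agent.R129.LG4

/-!
# R129 / LG7b : the projection `P0`
-/

set_option autoImplicit false
open scoped InnerProductSpace ComplexConjugate
open ContinuousLinearMap

namespace Crest.Agent.R129

section
variable {t q N k K ν : ℕ} (B : Base t q N) (Gh : Ghost k K ν)

/-- the projection `avs ∘ GG ∘ PP ∘ av`. -/
noncomputable def P0 : L2 B.V (L2 Gh.Q ℂ) →L[ℂ] L2 B.V (L2 Gh.Q ℂ) :=
  (avs (L2 Gh.Q ℂ) B.lev B.X).comp ((Gh.GG * Gh.PP).comp (av B Gh))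

theorem LG7b_apply (f : L2 B.V (L2 Gh.Q ℂ)) :
    P0 B Gh f = avs (L2 Gh.Q ℂ) B.lev B.X (Gh.GG (Gh.PP (av B Gh f))) := rfl

theorem LG7b_av (hq : 0 < q) (y : L2 ℤ (L2 Gh.Q ℂ)) :
    av B Gh (avs (L2 Gh.Q ℂ) B.lev B.X y) = y :=
  adjoint_avs_avs B.mem_X (B.X_nonempty hq) y

theorem LG7b_idem (y : L2 ℤ (L2 Gh.Q ℂ)) : Gh.GG (Gh.PP (Gh.GG (Gh.PP y))) = Gh.GG (Gh.PP y) :=
  DFunLike.congr_fun (proj_of_GPP Gh.PP_sa Gh.GG_sa Gh.GG_PP_PP).2.1 y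

theorem LG7b_PGP (y : L2 ℤ (L2 Gh.Q ℂ)) : Gh.PP (Gh.GG (Gh.PP y)) = Gh.PP y :=
  DFunLike.congr_fun (proj_of_GPP Gh.PP_sa Gh.GG_sa Gh.GG_PP_PP).2.2.1 y

/-- `proj_of_GPP`, `adjoint_avs_avs`. -/
theorem P0_proj (hq : 0 < q) : IsSelfAdjoint (P0 B Gh) ∧ P0 B Gh * P0 B Gh = P0 B Gh := by
  refine ⟨?_, ContinuousLinearMap.ext fun f => ?_⟩
  · have h := isSelfAdjoint_iff'.1 (proj_of_GPP Gh.PP_sa Gh.GG_sa Gh.GG_PP_PP).1
    rw [isSelfAdjoint_iff', P0, adjoint_comp, adjoint_comp, h, av, adjoint_adjoint, comp_assoc]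
  · change P0 B Gh (P0 B Gh f) = _
    rw [LG7b_apply, LG7b_apply, LG7b_av B Gh hq, LG7b_idem]

theorem P0_fix (hq : 0 < q) {w : L2 B.V (L2 Gh.Q ℂ)} (hw : P0 B Gh w = w) :
    ∃ z, Gh.GG (Gh.PP z) = z ∧ w = avs (L2 Gh.Q ℂ) B.lev B.X z := by
  have _ := hq
  exact ⟨Gh.GG (Gh.PP (av B Gh w)), LG7b_idem Gh _, hw.symm⟩

theorem P0_ker (hq : 0 < q) {f : L2 B.V (L2 Gh.Q ℂ)} (hf : P0 B Gh f = 0) :
    Gh.PP (av B Gh f) = 0 := by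
  have h := congrArg (fun w => Gh.PP (av B Gh w)) hf
  simpa only [LG7b_apply, LG7b_av B Gh hq, LG7b_PGP, map_zero] using h

theorem exists_fix : ∃ z, z ≠ 0 ∧ Gh.GG (Gh.PP z) = z := by
  obtain ⟨y, hy⟩ := DFunLike.ne_iff.1 Gh.PP_ne
  refine ⟨Gh.GG (Gh.PP y), fun h => hy ?_, LG7b_idem Gh y⟩
  rw [← LG7b_PGP, h, map_zero]
  rfl

/-- if `D` meets every sheet at most once then `p ↦ (lev p.1, p.2)` is injective on `D`; `cardX_ge`; use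
`curry ℤ Q` (or `L2_sum_le` twice). -/
theorem avs_small (hq : 0 < q) (D : Finset (B.V × Gh.Q))
    (hD : ∀ x x' γ, (x, γ) ∈ D → (x', γ) ∈ D → x = x') (z : L2 ℤ (L2 Gh.Q ℂ)) :
    ∑ p ∈ D, ‖avs (L2 Gh.Q ℂ) B.lev B.X z p.1 p.2‖ ^ 2 ≤ (2 / (q : ℝ) ^ 100) ^ 2 * ‖z‖ ^ 2 := by
  classical
  have hq' : (0 : ℝ) < q := by exact_mod_cast hq
  have h1 : ∀ p ∈ D, ‖avs (L2 Gh.Q ℂ) B.lev B.X z p.1 p.2‖ ^ 2 ≤
      (2 / (q : ℝ) ^ 100) ^ 2 * ‖(curry ℤ Gh.Q).symm z (B.lev p.1, p.2)‖ ^ 2 := fun p _ => by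
    have h2 : (q : ℝ) ^ 200 ≤ 2 * (B.X (B.lev p.1)).card := by exact_mod_cast B.cardX_ge _
    have h3 : (0 : ℝ) < (B.X (B.lev p.1)).card := by
      exact_mod_cast (B.X_nonempty hq _).card_pos
    rw [← curry_apply, LinearIsometryEquiv.apply_symm_apply, avs_apply B.mem_X, lp.coeFn_smul,
      Pi.smul_apply, norm_smul, mul_pow, Complex.norm_real, Real.norm_eq_abs, sq_abs, inv_pow,
      Real.sq_sqrt h3.le]
    refine mul_le_mul_of_nonneg_right ?_ (sq_nonneg _)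
    rw [div_pow, ← pow_mul, inv_eq_one_div, div_le_div_iff₀ h3 (by positivity), one_mul]
    exact h2.trans (by linarith)
  refine (Finset.sum_le_sum h1).trans ?_
  rw [← Finset.mul_sum, ← (curry ℤ Gh.Q).symm.norm_map z]
  refine mul_le_mul_of_nonneg_left (le_trans (le_of_eq ?_)
    (L2_sum_le _ (D.image fun p => (B.lev p.1, p.2)))) (sq_nonneg _)
  rw [Finset.sum_image]
  rintro ⟨x, γ⟩ hp ⟨x', γ'⟩ hp' e
  obtain rfl : γ = γ' := congrArg Prod.snd e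
  rw [hD x x' γ hp hp']

end

end Crest.Agent.R129
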