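import Crest.Agent.R129.BaseDef
import Crest.Agent.R129.Forest

/-!
# R129 / LGP : parameters for S0174 and the numerical inequalities
-/

set_option autoImplicit false

namespace Crest.Agent.R129

/-- parameters: `t = 2N`. -/
structure Prm (k K N q : ℕ) : Prop where
  prime : q.Prime
  q_gt : (2 * N) ^ 12 < q
  q_le : q ≤ 2 * (2 * N) ^ 12
  K_pos : 1 ≤ K
  N_ge : 10 ^ 15 * K ^ 10 ≤ N
  k_ge : 500 ^ 3 + 2 ≤ k
  big : 10 ^ 40 * k * q ^ 42 * 2 ^ N ≤ 3 ^ N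

theorem lgp_exp (c d : ℕ) : ∀ᶠ n : ℕ in Filter.atTop, c * n ^ d * 2 ^ n ≤ 3 ^ n := by
  have h := (tendsto_pow_const_div_const_pow_of_one_lt d (r := 3 / 2) (by norm_num)).const_mul
    (c : ℝ)
  rw [mul_zero] at h
  filter_upwards [h.eventually (ge_mem_nhds one_pos)] with n hn
  rw [div_pow, div_div_eq_mul_div, ← mul_div_assoc, div_le_one (by positivity), ← mul_assoc] at hn
  exact_mod_cast hn

/-- Bertrand (`Nat.exists_prime_lt_and_le_two_mul`); exponential beats polynomial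
(`tendsto_pow_const_div_const_pow_of_one_lt`). -/
theorem exists_prm {k K : ℕ} (hk : 500 ^ 3 + 2 ≤ k) (hK : 1 ≤ K) : ∃ N q, Prm k K N q := by
  obtain ⟨N, h1, h2⟩ := ((lgp_exp (10 ^ 40 * k * (2 * 2 ^ 12) ^ 42) (12 * 42)).and
    (Filter.eventually_ge_atTop (10 ^ 15 * K ^ 10))).exists
  have hN : N ≠ 0 := by
    have : 0 < 10 ^ 15 * K ^ 10 := by positivity
    omega
  obtain ⟨q, hq, h3, h4⟩ := Nat.exists_prime_lt_and_le_two_mul ((2 * N) ^ 12) (by positivity)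
  refine ⟨N, q, hq, h3, h4, hK, h2, hk, le_trans ?_ h1⟩
  refine Nat.mul_le_mul_right _ ?_
  rw [mul_assoc (10 ^ 40 * k), pow_mul, ← mul_pow, mul_assoc 2, ← mul_pow]
  exact Nat.mul_le_mul_left _ (Nat.pow_le_pow_left h4 _)

/-- the unit `t⁷/K³`. -/
noncomputable def unit (K N : ℕ) : ℝ := (2 * N : ℝ) ^ 7 / (K : ℝ) ^ 3

namespace Prm
variable {k K N q : ℕ} (hp : Prm k K N q)
include hp

theorem pow_le : q ^ 42 ≤ 2 ^ N := by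
  have h1 : 3 ^ N ≤ 2 ^ N * 2 ^ N := by
    rw [← mul_pow]
    exact Nat.pow_le_pow_left (by norm_num) _
  have h2 := Nat.le_of_mul_le_mul_right (hp.big.trans h1) (by positivity)
  have h3 : 0 < 10 ^ 40 * k := by
    have := hp.k_ge
    have : 0 < k := by omega
    positivity
  exact (Nat.le_mul_of_pos_left _ h3).trans h2

theorem K_le : K ≤ N ∧ N ≤ q ∧ 10 ^ 15 ≤ N := by
  have h1 : K ≤ K ^ 10 := Nat.le_self_pow (by norm_num) _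
  have h2 := hp.N_ge
  have h3 := hp.K_pos
  have h4 : 2 * N ≤ (2 * N) ^ 12 := Nat.le_self_pow (by norm_num) _
  have h5 := hp.q_gt
  generalize K ^ 10 = a at *
  generalize (2 * N) ^ 12 = b at *
  omega

theorem lgp_nine : 1000 * (2 * N) ^ 9 ≤ q ∧ 1 ≤ (2 * N) ^ 9 := by
  have h1 := hp.K_le.2.2
  have h2 : 10 ^ 3 ≤ (2 * N) ^ 3 := Nat.pow_le_pow_left (by omega) _
  refine ⟨le_trans ?_ hp.q_gt.le, Nat.one_le_pow _ _ (by omega)⟩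
  rw [show (12 : ℕ) = 3 + 9 from rfl, pow_add]
  exact Nat.mul_le_mul_right _ h2

theorem s_ge {s : ℕ} (h1 : q ≤ s + 3 * (2 * N) ^ 9 + 1) : 99 * q ≤ 100 * s := by
  obtain ⟨h2, h3⟩ := hp.lgp_nine
  generalize (2 * N) ^ 9 = a at *
  omega

theorem lgp_real : (1 : ℝ) ≤ K ∧ (K : ℝ) ≤ q ∧ (1 : ℝ) ≤ q ∧ (1 : ℝ) ≤ 2 * N ∧
    (2 * N : ℝ) ^ 12 ≤ q ∧ (q : ℝ) ≤ 2 * (2 * N : ℝ) ^ 12 ∧ (q : ℝ) ^ 42 ≤ 2 ^ N ∧
    2 * 10 ^ 15 * (K : ℝ) ^ 10 ≤ 2 * N := by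
  obtain ⟨h1, h2, h3⟩ := hp.K_le
  have h4 := hp.K_pos
  have h5 : (10 : ℝ) ^ 15 * (K : ℝ) ^ 10 ≤ N := by exact_mod_cast hp.N_ge
  refine ⟨by exact_mod_cast h4, by exact_mod_cast h1.trans h2,
    by exact_mod_cast h4.trans (h1.trans h2), by exact_mod_cast (show 1 ≤ 2 * N by omega),
    by exact_mod_cast hp.q_gt.le, by exact_mod_cast hp.q_le, by exact_mod_cast hp.pow_le,
    by linarith⟩

theorem lgp_unit : 2 * 10 ^ 15 * ((K : ℝ) ^ 7 * (2 * N : ℝ) ^ 6) ≤ unit K N := by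
  obtain ⟨hK, -, -, ht, -, -, -, h⟩ := hp.lgp_real
  rw [unit, le_div_iff₀ (by positivity)]
  calc _ = (2 * 10 ^ 15 * (K : ℝ) ^ 10) * (2 * N : ℝ) ^ 6 := by ring
    _ ≤ (2 * N : ℝ) * (2 * N : ℝ) ^ 6 := mul_le_mul_of_nonneg_right h (by positivity)
    _ = _ := by ring

theorem lgp_unit' : 2 * 10 ^ 15 * (2 * N : ℝ) ^ 6 ≤ unit K N ∧ 2 * 10 ^ 15 ≤ unit K N := by
  obtain ⟨hK, -, -, ht, -⟩ := hp.lgp_real
  have h1 := hp.lgp_unit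
  have h2 : (2 * N : ℝ) ^ 6 ≤ (K : ℝ) ^ 7 * (2 * N : ℝ) ^ 6 :=
    le_mul_of_one_le_left (by positivity) (one_le_pow₀ hK)
  have h3 : 1 ≤ (2 * N : ℝ) ^ 6 := one_le_pow₀ ht
  constructor <;> linarith

/-- `K / 2^N ≤ 1 / q³`. -/
theorem lgp_small : (K : ℝ) / 2 ^ N ≤ 1 / (q : ℝ) ^ 3 := by
  obtain ⟨hK, hKq, hq, -, -, -, h, -⟩ := hp.lgp_real
  rw [div_le_div_iff₀ (by positivity) (by positivity), one_mul]
  calc _ ≤ (q : ℝ) * q ^ 3 := mul_le_mul_of_nonneg_right hKq (by positivity)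
    _ = (q : ℝ) ^ 4 := by ring
    _ ≤ (q : ℝ) ^ 42 := pow_le_pow_right₀ hq (by norm_num)
    _ ≤ _ := h

theorem num_up {s : ℕ} (h1 : q ≤ s + 3 * (2 * N) ^ 9 + 1) (h2 : s ≤ q) :
    (1 / (q : ℝ) ^ 3 + ((K : ℝ) / 2 ^ N) ^ 2) * s + 4 * (unit K N / 200) +
      1036800 * ((2 * N : ℕ) : ℝ) ^ 18 * (K : ℝ) ^ 4 / s ≤ unit K N / 24 := by
  obtain ⟨hK, hKq, hq, ht, hq1, -⟩ := hp.lgp_real
  have hs : (99 : ℝ) * q ≤ 100 * s := by exact_mod_cast hp.s_ge h1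
  have hsq : (s : ℝ) ≤ q := by exact_mod_cast h2
  have hs0 : (0 : ℝ) < s := by linarith
  have hq3 : (q : ℝ) ≤ q ^ 3 := le_self_pow₀ hq (by norm_num)
  have a1 : 1 / (q : ℝ) ^ 3 * s ≤ 1 := by
    rw [one_div_mul_eq_div, div_le_one (by positivity)]
    linarith
  have a2 : ((K : ℝ) / 2 ^ N) ^ 2 ≤ 1 / (q : ℝ) ^ 3 := by
    have h3 := hp.lgp_small
    have h4 : 1 / (q : ℝ) ^ 3 ≤ 1 := by
      rw [div_le_one (by positivity)]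
      linarith
    have h5 : (0 : ℝ) ≤ (K : ℝ) / 2 ^ N := by positivity
    nlinarith
  have a3 := mul_le_mul_of_nonneg_right a2 hs0.le
  have a4 : 1036800 * ((2 * N : ℕ) : ℝ) ^ 18 * (K : ℝ) ^ 4 / s ≤
      2 * 10 ^ 7 * ((K : ℝ) ^ 7 * (2 * N : ℝ) ^ 6) := by
    rw [div_le_iff₀ hs0]
    push_cast
    have h3 : (K : ℝ) ^ 4 ≤ K ^ 7 := pow_le_pow_right₀ hK (by norm_num)
    have h4 : (2 * N : ℝ) ^ 12 ≤ 2 * s := by linarith
    calc _ = 1036800 * ((K : ℝ) ^ 4 * (2 * N : ℝ) ^ 6) * (2 * N : ℝ) ^ 12 := by ring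
      _ ≤ 10 ^ 7 * ((K : ℝ) ^ 7 * (2 * N : ℝ) ^ 6) * (2 * s) := by gcongr; norm_num
      _ = _ := by ring
  have a5 := hp.lgp_unit
  have a6 := hp.lgp_unit'.2
  rw [add_mul]
  linarith

theorem num_low {s : ℕ} (h2 : s ≤ q) :
    (2 * s + unit K N / 12) + unit K N / 24 + 3 * ((2 * q : ℕ) : ℝ) * (2 / (q : ℝ) ^ 100) ≤
      (1 - 1 / (q : ℝ) ^ 3) * (2 * s) - 3 * s * ((K : ℝ) / 2 ^ N) * (1 + (K : ℝ) ^ 2) -
        4 * (unit K N / 200) + ((2 * N : ℝ) ^ 7 / (6 * K)) / (K : ℝ) ^ 2 := by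
  obtain ⟨hK, hKq, hq, -⟩ := hp.lgp_real
  have hsq : (s : ℝ) ≤ q := by exact_mod_cast h2
  have hs0 : (0 : ℝ) ≤ s := by positivity
  have hq3 : (q : ℝ) ≤ q ^ 3 := le_self_pow₀ hq (by norm_num)
  have a0 : ((2 * N : ℝ) ^ 7 / (6 * K)) / (K : ℝ) ^ 2 = unit K N / 6 := by
    rw [unit]
    field_simp
  have a1 : 1 / (q : ℝ) ^ 3 * s ≤ 1 := by
    rw [one_div_mul_eq_div, div_le_one (by positivity)]
    linarith
  have a2 : 3 * ((2 * q : ℕ) : ℝ) * (2 / (q : ℝ) ^ 100) ≤ 12 := by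
    have : (q : ℝ) ≤ q ^ 100 := le_self_pow₀ hq (by norm_num)
    push_cast
    rw [← mul_div_assoc, div_le_iff₀ (by positivity)]
    linarith
  have a3 : 3 * s * ((K : ℝ) / 2 ^ N) * (1 + (K : ℝ) ^ 2) ≤ 6 := by
    have h3 : 1 + (K : ℝ) ^ 2 ≤ 2 * q ^ 2 := by nlinarith
    calc _ ≤ 3 * q * (1 / (q : ℝ) ^ 3) * (2 * q ^ 2) := by
          have := hp.lgp_small
          gcongr
      _ = 6 := by field_simp; norm_num
  have a6 := hp.lgp_unit'.2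
  rw [a0]
  linarith

theorem num_err {s : ℕ} (h1 : q ≤ s + 3 * (2 * N) ^ 9 + 1) :
    16 * Forest.err ((2 * q : ℕ) : ℝ) (2 * s + unit K N / 12) < unit K N / 48 := by
  obtain ⟨hK, hKq, hq, ht, -, hq2, -⟩ := hp.lgp_real
  have hs : (99 : ℝ) * q ≤ 100 * s := by exact_mod_cast hp.s_ge h1
  obtain ⟨a5, a6⟩ := hp.lgp_unit'
  have a1 : (((2 * q : ℕ) : ℝ) + 1) / (2 * s + unit K N / 12) ≤ 2 := by
    push_cast
    rw [div_le_iff₀ (by linarith)]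
    linarith
  have a2 : √((2 * q : ℕ) : ℝ) ≤ 2 * (2 * N : ℝ) ^ 6 := by
    refine Real.sqrt_le_iff.2 ⟨by positivity, ?_⟩
    push_cast
    calc (2 : ℝ) * q ≤ 2 * (2 * (2 * N : ℝ) ^ 12) := by linarith
      _ = _ := by ring
  rw [Forest.err]
  linarith

theorem num_card {s : ℕ} (h1 : q ≤ s + 3 * (2 * N) ^ 9 + 1) {A : ℕ}
    (hA : A ≤ q ^ 2 + 4 * (3 * (2 * N) ^ 9 * q)) :
    2 * (A : ℝ) ≤ 9 / 16 * (2 * s + unit K N / 12) ^ 2 := by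
  have hs : (99 : ℝ) * q ≤ 100 * s := by exact_mod_cast hp.s_ge h1
  have h2 := Nat.mul_le_mul_right q hp.lgp_nine.1
  have h3 : 1000 * A ≤ 1012 * q ^ 2 := by
    rw [mul_assoc] at h2 hA
    rw [sq] at hA ⊢
    generalize (2 * N) ^ 9 * q = a at *
    generalize q * q = b at *
    omega
  have h4 : (1000 : ℝ) * A ≤ 1012 * (q : ℝ) ^ 2 := by exact_mod_cast h3
  have a6 := hp.lgp_unit'.2
  have h5 : (198 / 100 * (q : ℝ)) ^ 2 ≤ (2 * s + unit K N / 12) ^ 2 :=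
    pow_le_pow_left₀ (by positivity) (by linarith) 2
  nlinarith [sq_nonneg (q : ℝ)]

theorem num_mean : ((2 * N) ^ 9 : ℕ) * (4 * (K : ℝ) ^ 2 / 2 ^ N) ≤ unit K N / 400 := by
  obtain ⟨hK, hKq, hq, -⟩ := hp.lgp_real
  have h1 : (((2 * N) ^ 9 : ℕ) : ℝ) ≤ q := by
    have := hp.lgp_nine.1
    exact_mod_cast (show (2 * N) ^ 9 ≤ q by omega)
  have a6 := hp.lgp_unit'.2
  have h2 := hp.lgp_small
  calc _ = ((2 * N) ^ 9 : ℕ) * (4 * (K : ℝ) * (K / 2 ^ N)) := by ring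
    _ ≤ q * (4 * (q : ℝ) ^ 2 * (1 / (q : ℝ) ^ 3)) := by
        have : (K : ℝ) ≤ q ^ 2 := hKq.trans (le_self_pow₀ hq (by norm_num))
        gcongr
    _ = 4 := by field_simp
    _ ≤ _ := by linarith

theorem num_eta : (16 * (2 * ((30 * K * N : ℕ) : ℝ) + 4) ^ 2) ^ 2 * ((2 * (2 * N) ^ 9 : ℕ) : ℝ) ≤
    (unit K N / 400) ^ 2 := by
  obtain ⟨hK, -, -, ht, -, -, -, h⟩ := hp.lgp_real
  have h1 : 2 * ((30 * K * N : ℕ) : ℝ) + 4 ≤ 34 * (K * (2 * N)) := by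
    have := one_le_mul_of_one_le_of_one_le hK ht
    push_cast
    linarith
  have h2 : (unit K N / 400) ^ 2 = (2 * N : ℝ) ^ 13 * (2 * N) / (160000 * (K : ℝ) ^ 6) := by
    rw [unit]
    field_simp
    norm_num
  have h3 : ((2 * (2 * N) ^ 9 : ℕ) : ℝ) = 2 * (2 * N : ℝ) ^ 9 := by push_cast; rfl
  rw [h2, h3, le_div_iff₀ (by positivity)]
  calc _ ≤ (16 * (34 * ((K : ℝ) * (2 * N))) ^ 2) ^ 2 * (2 * (2 * N : ℝ) ^ 9) *
        (160000 * (K : ℝ) ^ 6) := by gcongr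
    _ = (2 * N : ℝ) ^ 13 * (109472645120000 * (K : ℝ) ^ 10) := by ring
    _ ≤ _ := by
        refine mul_le_mul_of_nonneg_left (le_trans ?_ h) (by positivity)
        exact mul_le_mul_of_nonneg_right (by norm_num) (by positivity)

end Prm

end Crest.Agent.R129
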