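import Crest.Agent.R129.LG5
import Crest.Agent.R129.LG6
import Crest.Agent.R129.LG7a
import Crest.Agent.R129.LG7b
import Crest.Agent.R129.LGP

/-!
# R129 / LG7 : the conclusion from a good assignment
-/

set_option autoImplicit false
open scoped InnerProductSpace ComplexConjugate
open ContinuousLinearMap

namespace Crest.Agent.R129

/-- `Scale.exists_refine`, `exists_SC`, `sheet_unique`, `locGap_of` with `M = 2q`, `η = 2/q^100`,
`ζ = 2s + u/12`, `γ = u/24`, `b = 2s + u/24` (`u = unit K N`), `Good.up`, `Good.low`, `neg_of`, `main174` with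
`A = univ ×ˢ {0} ∪ LL ×ˢ univ`, `dt = 2q`, and the `Prm.num_*` lemmas. -/
theorem Good.goal {N q k K ν : ℕ} (hp : Prm k K N q) {B : Base (2 * N) q N} {Gh : Ghost k K ν}
    (g : Good B Gh ((2 * N : ℝ) ^ 7 / (6 * K)) ((K : ℝ) / 2 ^ N) (unit K N / 200)) : Goal174 := by
  classical
  obtain ⟨hKN, hNq, hN⟩ := hp.K_le
  have hK := hp.K_pos
  have hq : 0 < q := hp.prime.pos
  have ht : 0 < 2 * N := by omega
  have hs : 0 < B.s := by have := hp.s_ge B.s_ge; omega
  have hK' : (1 : ℝ) ≤ K := by exact_mod_cast hK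
  have hu : 0 ≤ unit K N := by unfold unit; positivity
  have h0 : 0 ≤ (2 * N : ℝ) ^ 7 / (6 * K) := by positivity
  have h1 : 3 * ((2 * N : ℝ) ^ 7 / (6 * K)) ≤ ((2 * N : ℕ) : ℝ) ^ 7 := by
    push_cast
    have h7 : (0 : ℝ) ≤ (2 * N : ℝ) ^ 7 := by positivity
    rw [← mul_div_assoc, div_le_iff₀ (by positivity)]
    nlinarith
  have hε : 0 ≤ (K : ℝ) / 2 ^ N := by positivity
  have hη : 0 ≤ unit K N / 200 := by positivity
  have hs' : (0 : ℝ) < B.s := by exact_mod_cast hs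
  obtain ⟨sl', hsl⟩ := EG.Scale.exists_refine (lab' := g.lab) Prod.fst (fun _ => rfl) B.sl
  have hv : B.Gr.VoltOK sl'.dep fun e => (g.vol e)⁻¹ := hsl ▸ g.volt
  obtain ⟨sc, -, hrad, htf⟩ := EG.exists_SC g.fold (fun e => (g.vol e)⁻¹) sl' hv
  obtain ⟨hP, hPP⟩ := P0_proj B Gh hq
  have hlow := hp.num_low B.s_le
  have hup := hp.num_up B.s_ge B.s_le
  have hq2 : (2 : ℝ) ≤ q := by exact_mod_cast hp.prime.two_le
  have hη2 : 2 / (q : ℝ) ^ 100 ≤ 1 / 2 := by
    rw [div_le_div_iff₀ (by positivity) two_pos]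
    have h2 : (2 : ℝ) ^ 100 ≤ (q : ℝ) ^ 100 := pow_le_pow_left₀ zero_le_two hq2 100
    have h3 : (4 : ℝ) ≤ 2 ^ 100 := by norm_num
    linarith
  have hL : ∀ z, Gh.GG (Gh.PP z) = z →
      ((1 - 1 / (q : ℝ) ^ 3) * (2 * B.s) - 3 * B.s * ((K : ℝ) / 2 ^ N) * (1 + (K : ℝ) ^ 2) -
        4 * (unit K N / 200) + ((2 * N : ℝ) ^ 7 / (6 * K)) / (K : ℝ) ^ 2) *
        ‖avs (L2 Gh.Q ℂ) B.lev B.X z‖ ^ 2 ≤ fm g.Bo (avs (L2 Gh.Q ℂ) B.lev B.X z) := fun z hz => by
    rw [norm_avs B.mem_X (B.X_nonempty hq)]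
    exact g.low hK hq ht h0 hε hη z hz
  have hLG : LocGap (B.Gr.cover g.lab g.fold fun e => (g.vol e)⁻¹) sc phc
      (2 * B.s + unit K N / 12) (unit K N / 24 / 2) := by
    refine EG.locGap_of g.fold (fun e => (g.vol e)⁻¹) phc sc hP hPP (M := ((2 * q : ℕ) : ℝ))
      (η := 2 / (q : ℝ) ^ 100) (b := 2 * B.s + unit K N / 24)
      (EG.norm_Bn_le g.fold _ norm_phc B.hdeg) (by positivity) hη2 (by positivity) (by positivity)
      hlow (by linarith) (fun w hw => ?_) (fun f hf => ?_) fun o D hD w hw => ?_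
    · obtain ⟨z, hz, rfl⟩ := P0_fix B Gh hq hw
      exact hL z hz
    · have := g.up hK hq ht hs h0 h1 hη f
      rw [P0_ker B Gh hq hf, norm_zero] at this
      refine (this.trans ?_)
      have h2 := mul_le_mul_of_nonneg_right hup (sq_nonneg ‖f‖)
      linarith
    · obtain ⟨z, -, rfl⟩ := P0_fix B Gh hq hw
      rw [norm_avs B.mem_X (B.X_nonempty hq)]
      refine avs_small B Gh hq D (fun x x' γ hx hx' => ?_) z
      rw [hrad] at hD
      exact EG.sheet_unique g.fold _ sl' hv (hD hx) (hD hx')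
  obtain ⟨z, hz0, hz⟩ := exists_fix Gh
  have hw : avs (L2 Gh.Q ℂ) B.lev B.X z ≠ 0 := fun h => hz0 (by
    rw [← norm_eq_zero, ← norm_avs B.mem_X (B.X_nonempty hq), h, norm_zero])
  have hneg := EG.neg_of g.fold (fun e => (g.vol e)⁻¹) phc hw (hL z hz)
    (ζ := 2 * B.s + unit K N / 12) (γ := unit K N / 24 / 2) (by
      refine le_trans ?_ hlow
      have : 0 ≤ 3 * ((2 * q : ℕ) : ℝ) * (2 / (q : ℝ) ^ 100) := by positivity
      linarith)
  refine main174 _ sc (htf Gh.tf)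
    ((Finset.univ ×ˢ {0}) ∪ (B.LL ×ˢ Finset.univ)) ?_ phc norm_phc (2 * q)
    (EG.cover_degLe g.fold _ B.hdeg) _ _ (by positivity) (hp.num_card B.s_ge ?_) (by linarith)
    ((hp.num_err B.s_ge).trans_le (by linarith)) hLG hneg
  · rintro s x y ⟨h, h1, -⟩
    obtain rfl : g.lab h.1 = s := (Prod.mk.inj h1).1
    rw [Finset.mem_union, Finset.mem_product, Finset.mem_product]
    rcases hk : B.kind h.1 with _ | b
    · exact Or.inl ⟨Finset.mem_univ _, Finset.mem_singleton.2 (g.ph_main _ hk)⟩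
    · exact Or.inr ⟨B.link_lab _ _ hk, Finset.mem_univ _⟩
  · refine (Finset.card_union_le _ _).trans ?_
    rw [Finset.card_product, Finset.card_product, Finset.card_singleton, Finset.card_univ,
      Finset.card_univ, Fintype.card_fin]
    have := B.cardL
    have := B.cardLL
    omega

end Crest.Agent.R129
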