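import Crest.Agent.R129.PV

/-!
# R129 / PV2 : product distributions; phases
-/

set_option autoImplicit false
open scoped InnerProductSpace ComplexConjugate
open FreeGroup

namespace Crest.Agent.R129

/-- product with uniform distributions. -/
noncomputable def FP.box {E Θ Θ' : Type} (P : FP E Θ) (T : E → Finset Θ') (hT : ∀ e, (T e).Nonempty) :
    FP E (Θ × Θ') where
  Ω e := P.Ω e ×ˢ T e
  w e θ := P.w e θ.1 / (T e).card
  nonneg e θ := div_nonneg (P.nonneg e θ.1) (Nat.cast_nonneg _)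
  sum_one e := by
    have h : ((T e).card : ℝ) ≠ 0 := by exact_mod_cast (hT e).card_pos.ne'
    rw [Finset.sum_product]
    simp only [Finset.sum_const, nsmul_eq_mul]
    rw [← P.sum_one e]
    exact Finset.sum_congr rfl fun θ _ => by field_simp
  x0 e := (P.x0 e, (hT e).choose)
  x0_mem e := Finset.mem_product.2 ⟨P.x0_mem e, (hT e).choose_spec⟩

open Classical in
theorem PV2_card {α : Type} (A : Bool → Finset α) (σ : Bool) (q : α → Prop) :
    ((Fintype.piFinset A).filter fun t => q (t σ)).card * (A σ).card =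
      ((A σ).filter q).card * (Fintype.piFinset A).card := by
  have h : ((Fintype.piFinset A).filter fun t => q (t σ)) =
      Fintype.piFinset (Function.update A σ ((A σ).filter q)) := by
    ext t
    simp only [Finset.mem_filter, Fintype.mem_piFinset]
    constructor
    · rintro ⟨h1, h2⟩ b
      by_cases hb : b = σ
      · subst hb
        rw [Function.update_self]
        exact Finset.mem_filter.2 ⟨h1 b, h2⟩
      · rw [Function.update_of_ne hb]
        exact h1 b
    · intro h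
      have hσ := h σ
      rw [Function.update_self, Finset.mem_filter] at hσ
      refine ⟨fun b => ?_, hσ.2⟩
      by_cases hb : b = σ
      · subst hb
        exact hσ.1
      · have := h b
        rwa [Function.update_of_ne hb] at this
  rw [h, Fintype.card_piFinset, Fintype.card_piFinset, Fintype.prod_bool, Fintype.prod_bool]
  cases σ
  · rw [Function.update_self, Function.update_of_ne (by decide)]
    ring
  · rw [Function.update_self, Function.update_of_ne (by decide)]
    ring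

open Classical in
/-- one factor of a product of boxes is uniform. -/
theorem uBox_box {E Θ R : Type} [CommRing R] {k : ℕ} (P : FP E Θ) (S : E → Bool → Finset R)
    (hT : ∀ e, (Fintype.piFinset fun σ : Bool => Fintype.piFinset fun _ : UI k => S e σ).Nonempty)
    (u : E → Θ → U k R) (σ : Bool) (e : E) {μ : ℕ} (hμ : μ ≤ (S e σ).card) :
    UBox (P.box (fun e => Fintype.piFinset fun σ : Bool => Fintype.piFinset fun _ : UI k => S e σ) hT)
      (fun e θ => (u e θ.1 * uni (θ.2 σ))⁻¹) e μ := by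
  refine ⟨S e σ, hμ, fun B δ h => ?_⟩
  set A : Bool → Finset (UI k → R) := fun σ => Fintype.piFinset fun _ : UI k => S e σ with hA
  have hT0 : (0 : ℝ) < (Fintype.piFinset A).card := by exact_mod_cast (hT e).card_pos
  have hAc : ((A σ).card : ℝ) = ((S e σ).card : ℝ) ^ Fintype.card (UI k) := by
    simp only [hA, Fintype.card_piFinset, Finset.prod_const, Finset.card_univ, Nat.cast_pow]
  have hA0 : (0 : ℝ) < (A σ).card := by
    obtain ⟨t, ht⟩ := hT e
    exact_mod_cast Finset.card_pos.2 ⟨t σ, Fintype.mem_piFinset.1 ht σ⟩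
  have key : ∀ v : U k R, (((Fintype.piFinset A).filter fun t => B (v * uni (t σ))⁻¹).card : ℝ) ≤
      δ * (Fintype.piFinset A).card := by
    intro v
    have h1 := h v
    rw [← hAc] at h1
    have h2 : (((Fintype.piFinset A).filter fun t => B (v * uni (t σ))⁻¹).card : ℝ) * (A σ).card =
        (((A σ).filter fun m => B (v * uni m)⁻¹).card : ℝ) * (Fintype.piFinset A).card := by
      exact_mod_cast PV2_card A σ fun m => B (v * uni m)⁻¹
    refine le_of_mul_le_mul_right ?_ hA0
    rw [h2]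
    calc _ ≤ δ * ((A σ).card : ℝ) * (Fintype.piFinset A).card :=
          mul_le_mul_of_nonneg_right h1 hT0.le
      _ = _ := by ring
  rw [Finset.sum_filter]
  change ∑ θ ∈ P.Ω e ×ˢ Fintype.piFinset A, (if B (u e θ.1 * uni (θ.2 σ))⁻¹ then
    P.w e θ.1 / (Fintype.piFinset A).card else 0) ≤ δ
  rw [Finset.sum_product]
  calc _ ≤ ∑ θ ∈ P.Ω e, P.w e θ * δ := by
        refine Finset.sum_le_sum fun θ _ => ?_
        rw [← Finset.sum_filter]
        simp only [Finset.sum_const, nsmul_eq_mul]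
        rw [mul_div_assoc', div_le_iff₀ hT0, mul_comm, mul_assoc]
        exact mul_le_mul_of_nonneg_left (key _) (P.nonneg e θ)
    _ = δ := by rw [← Finset.sum_mul, P.sum_one, one_mul]

/-- the four parts of a complex number -/
noncomputable def PV2part (c : ℂ) : Fin 4 → ℝ := ![max c.re 0, max c.im 0, max (-c.re) 0, max (-c.im) 0]

theorem PV2part_nonneg (c : ℂ) (j : Fin 4) : 0 ≤ PV2part c j := by
  fin_cases j <;> simp [PV2part]

theorem PV2part_sum_le (c : ℂ) : ∑ j, PV2part c j ≤ 2 * ‖c‖ := by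
  have h1 := Complex.abs_re_le_norm c
  have h2 := Complex.abs_im_le_norm c
  have h3 : ∀ x : ℝ, max x 0 + max (-x) 0 = |x| := fun x => max_zero_add_max_neg_zero_eq_abs_self x
  have := h3 c.re
  have := h3 c.im
  simp only [Fin.sum_univ_four, PV2part, Matrix.cons_val_zero, Matrix.cons_val_one, Matrix.cons_val]
  linarith

theorem PV2part_sum (c : ℂ) : ∑ j : Fin 4, (PV2part c j : ℂ) * Complex.I ^ (j : ℕ) = c := by
  have h3 : ∀ x : ℝ, max x 0 - max (-x) 0 = x := fun x => max_zero_sub_max_neg_zero_eq_self x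
  have h1 : ((max c.re 0 : ℝ) : ℂ) - (max (-c.re) 0 : ℝ) = c.re := by exact_mod_cast h3 c.re
  have h2 : ((max c.im 0 : ℝ) : ℂ) - (max (-c.im) 0 : ℝ) = c.im := by exact_mod_cast h3 c.im
  simp only [Fin.sum_univ_four, PV2part, Matrix.cons_val_zero, Matrix.cons_val_one, Matrix.cons_val]
  have e2 : ((2 : Fin 4) : ℕ) = 2 := rfl
  have e3 : ((3 : Fin 4) : ℕ) = 3 := rfl
  rw [Fin.val_zero, Fin.val_one, e2, e3, Complex.I_sq, Complex.I_pow_three]
  conv_rhs => rw [← Complex.re_add_im c, ← h1, ← h2]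
  ring

/-- four phases: `c = (Re c)⁺ + i (Im c)⁺ + i² (Re c)⁻ + i³ (Im c)⁻`; the missing mass is put on `(0, 1)` and `(2, 1)`
in equal parts.  Take `Ω = univ ×ˢ insert 1 a.support`. -/
theorem exists_phase {Q : Type} [Group Q] (a : Q →₀ ℂ) {τ : ℝ} (h0 : 0 ≤ τ) (h1 : 2 * τ * l1 a ≤ 1) :
    ∃ (Ω : Finset (Fin 4 × Q)) (w : Fin 4 × Q → ℝ), (∀ θ, 0 ≤ w θ) ∧ ∑ θ ∈ Ω, w θ = 1 ∧
      (∀ θ ∈ Ω, θ.2 = 1 ∨ θ.2 ∈ a.support) ∧
      ∑ θ ∈ Ω, (w θ : ℂ) • (Complex.I ^ (θ.1 : ℕ) • lam θ.2) = (τ : ℂ) • lamS a := by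
  classical
  set D := insert 1 a.support with hD
  set r : ℝ := 1 - τ * ∑ g ∈ D, ∑ j, PV2part (a g) j with hr
  have hl : l1 a = ∑ g ∈ D, ‖a g‖ :=
    Finsupp.sum_of_support_subset a (Finset.subset_insert _ _) _ fun _ _ => norm_zero
  have hS : lamS a = ∑ g ∈ D, a g • lam g :=
    Finsupp.sum_of_support_subset a (Finset.subset_insert _ _) _ fun _ _ => zero_smul _ _
  have hr0 : 0 ≤ r := by
    have h2 : ∑ g ∈ D, ∑ j, PV2part (a g) j ≤ 2 * l1 a := by
      rw [hl, Finset.mul_sum]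
      exact Finset.sum_le_sum fun g _ => PV2part_sum_le _
    have := mul_le_mul_of_nonneg_left h2 h0
    linarith
  set x : Fin 4 → ℝ := ![r / 2, 0, r / 2, 0] with hx
  have hx0 : ∀ j, 0 ≤ x j := by
    intro j
    have : 0 ≤ r / 2 := by linarith
    fin_cases j <;> simp [hx, this]
  have hx1 : ∑ j, x j = r := by
    simp only [hx, Fin.sum_univ_four, Matrix.cons_val_zero, Matrix.cons_val_one, Matrix.cons_val]
    ring
  have hx2 : ∑ j : Fin 4, (x j : ℂ) * Complex.I ^ (j : ℕ) = 0 := by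
    simp only [hx, Fin.sum_univ_four, Matrix.cons_val_zero, Matrix.cons_val_one, Matrix.cons_val]
    have e2 : ((2 : Fin 4) : ℕ) = 2 := rfl
    rw [Fin.val_zero, e2, Complex.I_sq]
    simp
  refine ⟨Finset.univ ×ˢ D, fun θ => τ * PV2part (a θ.2) θ.1 + if θ.2 = 1 then x θ.1 else 0,
    fun θ => ?_, ?_, fun θ hθ => ?_, ?_⟩
  · have := mul_nonneg h0 (PV2part_nonneg (a θ.2) θ.1)
    have := hx0 θ.1
    beta_reduce
    split_ifs <;> linarith
  · rw [Finset.sum_product_right]
    have : ∀ g ∈ D, ∑ j : Fin 4, (τ * PV2part (a g) j + if g = 1 then x j else 0) =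
        τ * ∑ j, PV2part (a g) j + if g = 1 then r else 0 := by
      intro g _
      rw [Finset.sum_add_distrib, ← Finset.mul_sum]
      split_ifs
      · rw [hx1]
      · simp
    rw [Finset.sum_congr rfl this, Finset.sum_add_distrib, ← Finset.mul_sum, Finset.sum_ite_eq',
      if_pos (Finset.mem_insert_self _ _), hr]
    ring
  · exact Finset.mem_insert.1 (Finset.mem_product.1 hθ).2
  · rw [Finset.sum_product_right, hS, Finset.smul_sum]
    refine Finset.sum_congr rfl fun g _ => ?_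
    simp only [smul_smul]
    rw [← Finset.sum_smul]
    congr 1
    have : ∀ j : Fin 4, ((τ * PV2part (a g) j + if g = 1 then x j else 0 : ℝ) : ℂ) * Complex.I ^ (j : ℕ) =
        τ * ((PV2part (a g) j : ℂ) * Complex.I ^ (j : ℕ)) +
          if g = 1 then (x j : ℂ) * Complex.I ^ (j : ℕ) else 0 := by
      intro j
      split_ifs
      · push_cast
        ring
      · push_cast
        ring
    simp only [this]
    rw [Finset.sum_add_distrib, ← Finset.mul_sum, PV2part_sum]
    split_ifs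
    · rw [hx2, add_zero]
    · simp

/-- the mean operator of a product distribution is an average of `A * lam (m θ')`. -/
theorem norm_emean_box {E Q Θ' : Type} [Group Q] (P : FP E (Fin 4 × Q)) (T : E → Finset Θ')
    (hT : ∀ e, (T e).Nonempty) (m : Θ' → Q) (e : E) {A C : L2 Q ℂ →L[ℂ] L2 Q ℂ} {δ : ℝ}
    (hA : ∑ θ ∈ P.Ω e, (P.w e θ : ℂ) • (Complex.I ^ (θ.1 : ℕ) • lam θ.2) = A)
    (hC : ∀ θ' ∈ T e, ‖A * lam (m θ') - C‖ ≤ δ) :
    ‖emean (P.box T hT) (fun _ θ => Complex.I ^ (θ.1.1 : ℕ)) (fun _ θ => θ.1.2 * m θ.2) e - C‖ ≤ δ := by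
  have hT0 : (0 : ℝ) < (T e).card := by exact_mod_cast (hT e).card_pos
  have h1 : emean (P.box T hT) (fun _ θ => Complex.I ^ (θ.1.1 : ℕ)) (fun _ θ => θ.1.2 * m θ.2) e =
      ∑ θ' ∈ T e, ((((T e).card : ℝ)⁻¹ : ℝ) : ℂ) • (A * lam (m θ')) := by
    change ∑ θ ∈ P.Ω e ×ˢ T e, ((P.w e θ.1 / (T e).card : ℝ) : ℂ) •
      (Complex.I ^ (θ.1.1 : ℕ) • lam (θ.1.2 * m θ.2)) = _
    rw [Finset.sum_product_right]
    refine Finset.sum_congr rfl fun θ' _ => ?_
    rw [← hA, Finset.sum_mul, Finset.smul_sum]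
    refine Finset.sum_congr rfl fun θ _ => ?_
    simp only [lam_mul, smul_mul_assoc, smul_smul]
    congr 1
    push_cast
    ring
  have h2 : C = ∑ _θ' ∈ T e, ((((T e).card : ℝ)⁻¹ : ℝ) : ℂ) • C := by
    rw [← Finset.sum_smul, Finset.sum_const, nsmul_eq_mul]
    have : (((T e).card : ℕ) : ℂ) * ((((T e).card : ℝ)⁻¹ : ℝ) : ℂ) = 1 := by
      exact_mod_cast mul_inv_cancel₀ hT0.ne'
    rw [this, one_smul]
  rw [h1]
  conv_lhs => rw [h2]
  rw [← Finset.sum_sub_distrib]
  refine (norm_sum_le _ _).trans ?_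
  calc _ ≤ ∑ _θ' ∈ T e, ((T e).card : ℝ)⁻¹ * δ := by
        refine Finset.sum_le_sum fun θ' hθ' => ?_
        rw [← smul_sub, norm_smul, Complex.norm_real, Real.norm_of_nonneg (inv_nonneg.2 hT0.le)]
        exact mul_le_mul_of_nonneg_left (hC θ' hθ') (inv_nonneg.2 hT0.le)
    _ = δ := by
        rw [Finset.sum_const, nsmul_eq_mul, ← mul_assoc, mul_inv_cancel₀ hT0.ne', one_mul]

end Crest.Agent.R129
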