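import Crest.Agent.R129.LG4
import Crest.Agent.R129.LGP
import Crest.Agent.R129.PV2

/-!
# R129 / LG8 : the random phases and voltages; bad events
-/

set_option autoImplicit false
open scoped InnerProductSpace ComplexConjugate

namespace Crest.Agent.R129

open Classical in
/-- the box of tiny entries at level `n`. -/
noncomputable def tbox (k a : ℕ) (n : ℤ) : Finset (Bool → UI k → ℤ) :=
  Fintype.piFinset fun σ : Bool => Fintype.piFinset fun _ : UI k => Finset.Ico (0 : ℤ) (2 ^ (a + lvp σ n))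

theorem tbox_nonempty (k a : ℕ) (n : ℤ) : (tbox k a n).Nonempty := by
  unfold tbox
  exact Fintype.piFinset_nonempty.2 fun σ => Fintype.piFinset_nonempty.2 fun _ =>
    Finset.nonempty_Ico.2 (by positivity)

theorem tiny_of_mem_tbox {k a a' : ℕ} (h : a ≤ a') {n : ℤ} {m : Bool → UI k → ℤ} (hm : m ∈ tbox k a n) :
    Tiny a' n fun σ => uni (m σ) := by
  intro σ p
  unfold tbox at hm
  have h1 := Finset.mem_Ico.1 (Fintype.mem_piFinset.1 (Fintype.mem_piFinset.1 hm σ) p)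
  simp only [ent_uni]
  rw [abs_of_nonneg h1.1]
  exact h1.2.le.trans (pow_le_pow_right₀ (by norm_num) (by omega))

section
variable {t q N k K ν : ℕ} (B : Base t q N) (Gh : Ghost k K ν)

/-- the distribution of the phases. -/
structure PhOK (h : ℝ) (P : FP B.E (Fin 4 × Gh.Q)) : Prop where
  main : ∀ e, B.kind e = none → ∀ θ ∈ P.Ω e, θ = (0, 1)
  supp : ∀ e b, B.kind e = some b → ∀ θ ∈ P.Ω e, θ.2 = 1 ∨ θ.2 ∈ (Gh.A (bt b) (bs b)).support
  mean : ∀ e b, B.kind e = some b →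
    ∑ θ ∈ P.Ω e, (P.w e θ : ℂ) • (Complex.I ^ (θ.1 : ℕ) • lam θ.2) =
      (B.tau h b : ℂ) • lamS (Gh.A (bt b) (bs b))

/-- `exists_phase`, `tau_le`, `A_l1`. -/
theorem exists_phOK (hq : 0 < q) (ht : 0 < t) {h : ℝ} (h0 : 0 ≤ h) (h1 : 6 * K * h ≤ (t : ℝ) ^ 7) :
    ∃ P, PhOK B Gh h P := by
  have key : ∀ e : B.E, ∃ (Ω : Finset (Fin 4 × Gh.Q)) (w : Fin 4 × Gh.Q → ℝ),
      (∀ θ, 0 ≤ w θ) ∧ ∑ θ ∈ Ω, w θ = 1 ∧ (B.kind e = none → ∀ θ ∈ Ω, θ = (0, 1)) ∧
      ∀ b, B.kind e = some b → (∀ θ ∈ Ω, θ.2 = 1 ∨ θ.2 ∈ (Gh.A (bt b) (bs b)).support) ∧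
        ∑ θ ∈ Ω, (w θ : ℂ) • (Complex.I ^ (θ.1 : ℕ) • lam θ.2) =
          (B.tau h b : ℂ) • lamS (Gh.A (bt b) (bs b)) := by
    intro e
    cases hk : B.kind e with
    | none =>
      exact ⟨{(0, 1)}, fun _ => 1, fun _ => zero_le_one, by simp,
        fun _ θ hθ => Finset.mem_singleton.1 hθ, fun b hb => by cases hb⟩
    | some b =>
      have ht7 : (0 : ℝ) < (t : ℝ) ^ 7 := by positivity
      have hτ0 := B.tau_nonneg h0 b
      have hτ := B.tau_le hq ht h0 b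
      have hK : (0 : ℝ) ≤ K := Nat.cast_nonneg K
      have h2 : 2 * B.tau h b * l1 (Gh.A (bt b) (bs b)) ≤ 1 := by
        refine le_of_mul_le_mul_right ?_ ht7
        calc 2 * B.tau h b * l1 (Gh.A (bt b) (bs b)) * (t : ℝ) ^ 7
            ≤ 2 * B.tau h b * K * (t : ℝ) ^ 7 := by
              gcongr
              exact Gh.A_l1 _ _
          _ = 2 * K * (B.tau h b * (t : ℝ) ^ 7) := by ring
          _ ≤ 2 * K * (3 * h) := by gcongr
          _ ≤ 1 * (t : ℝ) ^ 7 := by linarith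
      obtain ⟨Ω, w, a1, a2, a3, a4⟩ := exists_phase (Gh.A (bt b) (bs b)) hτ0 h2
      refine ⟨Ω, w, a1, a2, fun hh => (by cases hh), fun b' hb' => ?_⟩
      cases hb'
      exact ⟨a3, a4⟩
  choose Ω w h1 h2 h3 h4 using key
  have hne : ∀ e, (Ω e).Nonempty := fun e => by
    rcases (Ω e).eq_empty_or_nonempty with hh | hh
    · have := h2 e
      rw [hh, Finset.sum_empty] at this
      exact absurd this zero_ne_one
    · exact hh
  exact ⟨⟨Ω, w, h1, h2, fun e => (hne e).choose, fun e => (hne e).choose_spec⟩,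
    h3, fun e b hb => (h4 e b hb).1, fun e b hb => (h4 e b hb).2⟩

/-- the full distribution. -/
noncomputable def PF (P : FP B.E (Fin 4 × Gh.Q)) : FP B.E ((Fin 4 × Gh.Q) × (Bool → UI k → ℤ)) :=
  P.box (fun e => tbox k (200 * N) (B.lev (B.Gr.src e))) fun _ => tbox_nonempty _ _ _

/-- the tiny element. -/
noncomputable def tin (m : Bool → UI k → ℤ) : Gh.Q := Gh.ι fun σ => uni (m σ)

/-- the phase of a sample. -/
noncomputable def phv (_ : B.E) (θ : (Fin 4 × Gh.Q) × (Bool → UI k → ℤ)) : ℂ := Complex.I ^ (θ.1.1 : ℕ)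

/-- the group element of a sample. -/
noncomputable def volv (_ : B.E) (θ : (Fin 4 × Gh.Q) × (Bool → UI k → ℤ)) : Gh.Q := θ.1.2 * tin Gh θ.2

end

section
variable {q N k K : ℕ} (hp : Prm k K N q) (B : Base (2 * N) q N) (Gh : Ghost k K (201 * N))
  (P : FP B.E (Fin 4 × Gh.Q))
include hp

/-- `norm_emean_box`: `lamS A * lam m - Pi = (lamS A - Pi) * lam m + Pi * (lam m - 1)`, `A_approx`,
`norm_Pi_mul`, `inv` with `j = N`, `0 ≤ tau ≤ 1`. -/
theorem mean_err {h : ℝ} (h0 : 0 ≤ h) (h1 : 3 * h ≤ ((2 * N : ℕ) : ℝ) ^ 7) (hP : PhOK B Gh h P)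
    {b : ℤ × Bool} {e : B.E} (he : e ∈ B.Eb b) :
    ‖emean (PF B Gh P) (phv B Gh) (volv B Gh) e - (B.tau h b : ℂ) • Gh.Pi (bt b) (bs b)‖ ≤
      4 * (K : ℝ) ^ 2 / 2 ^ N := by
  have hk : B.kind e = some b := (B.mem_Eb b e).1 he
  have hlev : B.lev (B.Gr.src e) = bs b := (B.link_lev e b hk).1
  have hN : 0 < N := lt_of_lt_of_le (by norm_num) hp.K_le.2.2
  have hq : 0 < q := hp.prime.pos
  have ht : 0 < 2 * N := by omega
  have ht7 : (0 : ℝ) < ((2 * N : ℕ) : ℝ) ^ 7 := by positivity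
  have hτ0 := B.tau_nonneg h0 b
  have hτ1 : B.tau h b ≤ 1 := by
    refine le_of_mul_le_mul_right ?_ ht7
    rw [one_mul]
    exact (B.tau_le hq ht h0 b).trans h1
  have hK1 : (1 : ℝ) ≤ K := by exact_mod_cast hp.K_pos
  refine norm_emean_box P (fun e => tbox k (200 * N) (B.lev (B.Gr.src e)))
    (fun _ => tbox_nonempty _ _ _) (tin Gh) e (hP.mean e b hk) fun m hm => ?_
  rw [hlev] at hm
  have hT : Tiny (201 * N - N) (bs b) fun σ => uni (m σ) := tiny_of_mem_tbox (by omega) hm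
  have e1 : ‖Gh.Pi (bt b) (bs b) * (lam (tin Gh m) - 1)‖ ≤ 3 * K * (K / 2 ^ N) :=
    Gh.norm_Pi_mul (fun l => Gh.inv l (bs b) N _ (by omega) hT) _
  have e2 : ‖lamS (Gh.A (bt b) (bs b)) - Gh.Pi (bt b) (bs b)‖ ≤ K / 2 ^ (201 * N) :=
    Gh.A_approx _ _
  have e3 : (K : ℝ) / 2 ^ (201 * N) ≤ (K : ℝ) ^ 2 / 2 ^ N := by
    gcongr
    · nlinarith
    · norm_num
    · omega
  have e4 : (B.tau h b : ℂ) • lamS (Gh.A (bt b) (bs b)) * lam (tin Gh m) -
      (B.tau h b : ℂ) • Gh.Pi (bt b) (bs b) = (B.tau h b : ℂ) •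
        ((lamS (Gh.A (bt b) (bs b)) - Gh.Pi (bt b) (bs b)) * lam (tin Gh m) +
          Gh.Pi (bt b) (bs b) * (lam (tin Gh m) - 1)) := by
    rw [smul_mul_assoc, ← smul_sub, sub_mul, mul_sub, mul_one]
    congr 1
    abel
  rw [e4, norm_smul, Complex.norm_real, Real.norm_eq_abs, abs_of_nonneg hτ0]
  have e5 : ‖(lamS (Gh.A (bt b) (bs b)) - Gh.Pi (bt b) (bs b)) * lam (tin Gh m)‖ ≤
      (K : ℝ) ^ 2 / 2 ^ N :=
    (norm_mul_le _ _).trans ((mul_le_of_le_one_right (norm_nonneg _) (norm_lam_le _)).trans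
      (e2.trans e3))
  refine (mul_le_of_le_one_left (norm_nonneg _) hτ1).trans ((norm_add_le _ _).trans ?_)
  refine (add_le_add e5 e1).trans (le_of_eq ?_)
  ring

end

end Crest.Agent.R129
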