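import Crest.Agent.R129.LGP

/-!
# R129 / LGP2 : numerical inequalities for the union bounds
-/

set_option autoImplicit false

namespace Crest.Agent.R129

theorem lgp2_sq {n : ℕ} (hn : 8 ≤ n) : 3 * n * n + 2 ≤ 2 ^ n := by
  induction n, hn using Nat.le_induction with
  | base => norm_num
  | succ n hn ih => rw [pow_succ]; nlinarith

namespace Prm
variable {k K N q : ℕ} (hp : Prm k K N q)
include hp

/-- `(3/2)^(200N + m) ≥ (3/2)^(N P) ≥ (10^40 k q^42)^P`, `P² ≤ 4^P`, `2q+1 ≤ 3q`. -/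
theorem num_V {m P : ℕ} (hP : 200 ≤ P) (hm : N * P ≤ 200 * N + m) :
    (q : ℝ) ^ (P + 1) * (((2 * q : ℕ) : ℝ) + 1) ^ (40 * P) * ((40 * P : ℕ) : ℝ) ^ 2 * k /
      ((2 ^ (200 * N + (m - 40 * P)) : ℕ) : ℝ) ≤ 1 / 100 * (3 / 4) ^ m := by
  have hq : 1 ≤ q := hp.prime.one_le
  have hk : 1 ≤ k := le_trans (by norm_num) hp.k_ge
  have a1 : (40 * P) ^ 2 * 100 ≤ 8 ^ P := by
    have b1 : P ≤ 2 ^ P := Nat.lt_two_pow_self.le
    have b2 : 160000 ≤ 2 ^ P := le_trans (by norm_num) (Nat.pow_le_pow_right (by norm_num) hP)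
    calc (40 * P) ^ 2 * 100 = P * P * 160000 := by ring
      _ ≤ 2 ^ P * 2 ^ P * 2 ^ P := by gcongr
      _ = 8 ^ P := by rw [← mul_pow, ← mul_pow]; norm_num
  have a2 : 100 * (q ^ (P + 1) * (2 * q + 1) ^ (40 * P) * (40 * P) ^ 2 * k) * 2 ^ (40 * P) ≤
      (10 ^ 40 * k * q ^ 42) ^ P := by
    have b1 : q ^ (P + 1) ≤ q ^ (2 * P) := Nat.pow_le_pow_right hq (by omega)
    have b2 : (2 * q + 1) ^ (40 * P) ≤ (3 * q) ^ (40 * P) := Nat.pow_le_pow_left (by omega) _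
    have b3 : k ≤ k ^ P := Nat.le_self_pow (by omega) k
    have b4 : (6 ^ 40 * 8) ^ P ≤ (10 ^ 40) ^ P := Nat.pow_le_pow_left (by norm_num) _
    calc _ = q ^ (P + 1) * (2 * q + 1) ^ (40 * P) * ((40 * P) ^ 2 * 100) * k * 2 ^ (40 * P) := by ring
      _ ≤ q ^ (2 * P) * (3 * q) ^ (40 * P) * 8 ^ P * k ^ P * 2 ^ (40 * P) := by gcongr
      _ = (6 ^ 40 * 8) ^ P * (k * q ^ 42) ^ P := by
        simp only [pow_mul, ← mul_pow]
        congr 1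
        ring
      _ ≤ (10 ^ 40) ^ P * (k * q ^ 42) ^ P := by gcongr
      _ = _ := by rw [← mul_pow, mul_assoc]
  have a3 : (((10 ^ 40 * k * q ^ 42 : ℕ) : ℝ)) ≤ (3 / 2) ^ N := by
    rw [div_pow, le_div_iff₀ (by positivity)]
    exact_mod_cast hp.big
  have a4 : (((10 ^ 40 * k * q ^ 42 : ℕ) : ℝ)) ^ P ≤ 2 ^ (200 * N) * (3 / 2) ^ m := by
    calc _ ≤ ((3 / 2 : ℝ) ^ N) ^ P := pow_le_pow_left₀ (by positivity) a3 P
      _ = (3 / 2) ^ (N * P) := by rw [pow_mul]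
      _ ≤ (3 / 2) ^ (200 * N + m) := pow_le_pow_right₀ (by norm_num) hm
      _ = (3 / 2) ^ (200 * N) * (3 / 2) ^ m := pow_add _ _ _
      _ ≤ 2 ^ (200 * N) * (3 / 2) ^ m :=
        mul_le_mul_of_nonneg_right (pow_le_pow_left₀ (by norm_num) (by norm_num) _) (by positivity)
  have a5 : (2 : ℝ) ^ m ≤ 2 ^ (m - 40 * P) * 2 ^ (40 * P) := by
    rw [← pow_add]
    exact pow_le_pow_right₀ (by norm_num) (by omega)
  have a6 : (100 : ℝ) * ((q : ℝ) ^ (P + 1) * (((2 * q : ℕ) : ℝ) + 1) ^ (40 * P) *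
      ((40 * P : ℕ) : ℝ) ^ 2 * k) * 2 ^ (40 * P) ≤ (((10 ^ 40 * k * q ^ 42 : ℕ) : ℝ)) ^ P := by
    exact_mod_cast a2
  have a7 : (3 / 2 : ℝ) ^ m = (3 / 4) ^ m * 2 ^ m := by rw [← mul_pow]; norm_num
  rw [div_le_iff₀ (by positivity), Nat.cast_pow, pow_add _ (200 * N), Nat.cast_ofNat]
  generalize (q : ℝ) ^ (P + 1) * (((2 * q : ℕ) : ℝ) + 1) ^ (40 * P) * ((40 * P : ℕ) : ℝ) ^ 2 * k = A
    at a6 ⊢
  have a8 : 100 * A * 2 ^ (40 * P) ≤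
      (2 ^ (200 * N) * (3 / 4) ^ m * 2 ^ (m - 40 * P)) * 2 ^ (40 * P) := by
    calc _ ≤ (2 : ℝ) ^ (200 * N) * (3 / 2) ^ m := a6.trans a4
      _ = 2 ^ (200 * N) * (3 / 4) ^ m * 2 ^ m := by rw [a7, mul_assoc]
      _ ≤ 2 ^ (200 * N) * (3 / 4) ^ m * (2 ^ (m - 40 * P) * 2 ^ (40 * P)) :=
        mul_le_mul_of_nonneg_left a5 (by positivity)
      _ = _ := (mul_assoc _ _ _).symm
  have a9 := le_of_mul_le_mul_right a8 (by positivity)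
  generalize (2 : ℝ) ^ (200 * N) = U at a9 ⊢
  generalize (2 : ℝ) ^ (m - 40 * P) = V at a9 ⊢
  generalize (3 / 4 : ℝ) ^ m = W at a9 ⊢
  linarith

/-- all factors are bounded by powers of `2^(N P)`: `800 q^(3P+6) ≤ q^(4P) ≤ 2^(NP)`, `L + 2 ≤ 2^(NP)`,
`m + 201 N + 1 ≤ 2 N P`, `(4/3)^m' ≤ 2^(NP)`. -/
theorem num_Z {m m' P x w : ℕ} (hP : 200 ≤ P) (hm : m + 199 * N ≤ N * P) (hm' : m' ≤ m + 1)
    (hx : x ≤ 2 * q ^ (P + 2))
    (hw : w ≤ (3 * K * N * P + 2) ^ K * 2 ^ (K * (m + 201 * N + 1))) :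
    (x : ℝ) ^ 3 * w / 4 ^ (3 * K * N * P) ≤ 1 / 100 * (3 / 4) ^ m' := by
  obtain ⟨hKN, hNq, hN⟩ := hp.K_le
  have hK := hp.K_pos
  have hq : 800 ≤ q := le_trans (le_trans (by norm_num) hN) hNq
  have hN1 : 1 ≤ N := le_trans (by norm_num) hN
  have hNP : 200 * N ≤ N * P := by nlinarith
  have a1 : 100 * x ^ 3 ≤ 2 ^ (N * P) := by
    calc 100 * x ^ 3 ≤ 100 * (2 * q ^ (P + 2)) ^ 3 := by gcongr
      _ = 800 * q ^ (3 * P + 6) := by ring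
      _ ≤ q * q ^ (3 * P + 6) := by gcongr
      _ = q ^ (3 * P + 7) := by ring
      _ ≤ q ^ (42 * P) := Nat.pow_le_pow_right (by omega) (by omega)
      _ = (q ^ 42) ^ P := pow_mul _ _ _
      _ ≤ (2 ^ N) ^ P := Nat.pow_le_pow_left hp.pow_le _
      _ = 2 ^ (N * P) := (pow_mul _ _ _).symm
  have a2 : 3 * K * N * P + 2 ≤ 2 ^ (N * P) := by
    refine le_trans ?_ (lgp2_sq (by omega))
    have : K ≤ N * P := by omega
    calc 3 * K * N * P + 2 = 3 * K * (N * P) + 2 := by ring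
      _ ≤ 3 * (N * P) * (N * P) + 2 := by gcongr
  have a3 : w ≤ 2 ^ (N * P * (3 * K)) := by
    calc w ≤ _ := hw
      _ ≤ (2 ^ (N * P)) ^ K * 2 ^ (K * (2 * (N * P))) :=
        Nat.mul_le_mul (Nat.pow_le_pow_left a2 _)
          (Nat.pow_le_pow_right (by norm_num) (Nat.mul_le_mul_left _ (by omega)))
      _ = 2 ^ (N * P * (3 * K)) := by rw [← pow_mul, ← pow_add]; congr 1; ring
  have a4 : 2 ^ m' ≤ 2 ^ (N * P) := Nat.pow_le_pow_right (by norm_num) (by omega)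
  have a5 : 100 * x ^ 3 * w * 2 ^ m' ≤ 4 ^ (3 * K * N * P) := by
    calc 100 * x ^ 3 * w * 2 ^ m' ≤ 2 ^ (N * P) * 2 ^ (N * P * (3 * K)) * 2 ^ (N * P) :=
          Nat.mul_le_mul (Nat.mul_le_mul a1 a3) a4
      _ = 2 ^ (N * P * (3 * K + 2)) := by rw [← pow_add, ← pow_add]; congr 1; ring
      _ ≤ 2 ^ (N * P * (6 * K)) :=
          Nat.pow_le_pow_right (by norm_num) (Nat.mul_le_mul_left _ (by omega))
      _ = 4 ^ (3 * K * N * P) := by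
          rw [show (4 : ℕ) = 2 ^ 2 by norm_num, ← pow_mul]; congr 1; ring
  have a6 : (100 : ℝ) * (x : ℝ) ^ 3 * w * 2 ^ m' ≤ 4 ^ (3 * K * N * P) := by exact_mod_cast a5
  have a7 : (1 : ℝ) ≤ (3 / 4) ^ m' * 2 ^ m' := by
    rw [← mul_pow]; exact one_le_pow₀ (by norm_num)
  rw [div_le_iff₀ (by positivity)]
  have a8 : (0 : ℝ) ≤ (x : ℝ) ^ 3 * w := by positivity
  have a9 : (0 : ℝ) ≤ (3 / 4) ^ m' := by positivity
  calc (x : ℝ) ^ 3 * w ≤ (x : ℝ) ^ 3 * w * ((3 / 4) ^ m' * 2 ^ m') := le_mul_of_one_le_right a8 a7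
    _ = 1 / 100 * (3 / 4) ^ m' * (100 * (x : ℝ) ^ 3 * w * 2 ^ m') := by
      generalize (3 / 4 : ℝ) ^ m' = U
      generalize (2 : ℝ) ^ m' = V
      ring
    _ ≤ _ := mul_le_mul_of_nonneg_left a6 (by positivity)

end Prm

end Crest.Agent.R129
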