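import Crest.Agent.R129.LG8
import Crest.Agent.R129.LGP2

/-!
# R129 / LG8V : probability that a short walk has trivial voltage
-/

set_option autoImplicit false
open scoped InnerProductSpace ComplexConjugate

namespace Crest.Agent.R129

section
variable {q N k K : ℕ} (hp : Prm k K N q) (B : Base (2 * N) q N) (Gh : Ghost k K (201 * N))
  (P : FP B.E (Fin 4 × Gh.Q))
include hp

/-- `prob_volt_hom` with `φ = (Pi.evalMonoidHom _ σ).comp pr`, `σ = decide (n < 0)`,
`μ = 2^(200 N + (|n| - 40 p))` (`walk_lev`, `uBox_box`), `cardX_le`, `depOf_bounds`, `Prm.num_V`. -/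
theorem prob_V (n : ℤ) : ∃ F : Finset B.E,
    DepOn F (fun x => x ∈ BadV B.Gr (B.X n) (depOf N n) fun e θ => (volv B Gh e θ)⁻¹) ∧
      (PF B Gh P).Pr F (BadV B.Gr (B.X n) (depOf N n) fun e θ => (volv B Gh e θ)⁻¹) ≤
        1 / 100 * (3 / 4) ^ n.natAbs := by
  have hN : 0 < N := by
    have := hp.K_le.2.2
    omega
  obtain ⟨h200, hle, -⟩ := depOf_bounds hN n
  set σ : Bool := decide (n < 0) with hσ
  set φ : Gh.Q →* U k ℤ := (Pi.evalMonoidHom (fun _ : Bool => U k ℤ) σ).comp Gh.pr with hφ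
  have hfun : (fun (e : B.E) (θ : (Fin 4 × Gh.Q) × (Bool → UI k → ℤ)) => φ (volv B Gh e θ)⁻¹) =
      fun _ θ => (φ θ.1.2 * uni (θ.2 σ))⁻¹ := by
    funext e θ
    rw [map_inv, volv, map_mul, tin]
    congr 2
    simp only [hφ, MonoidHom.comp_apply, Gh.pr_ι, Pi.evalMonoidHom_apply]
  obtain ⟨F, hF, hPr⟩ := prob_volt_hom (R := ℤ) B.sl hp.k_ge (fun m hm _ => by exact_mod_cast hm.ne')
    (PF B Gh P) (fun e θ => (volv B Gh e θ)⁻¹) φ B.hdeg (B.X n) (p := depOf N n)
    (fun x hx => by rw [B.dep_eq, (B.mem_X n x).1 hx])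
    (μ := 2 ^ (200 * N + (n.natAbs - 40 * depOf N n))) (by positivity)
    (fun x hx ω y hw hl a ha => by
      rw [hfun]
      have hlev := B.walk_lev hw a ha
      rw [(B.mem_X n x).1 hx] at hlev
      refine uBox_box P
        (fun e σ => Finset.Ico (0 : ℤ) (2 ^ (200 * N + lvp σ (B.lev (B.Gr.src e)))))
        (fun _ => tbox_nonempty _ _ _) (fun _ θ => φ θ.2) σ a.1 ?_
      rw [Int.card_Ico, sub_zero]
      have e : ((2 : ℤ) ^ (200 * N + lvp σ (B.lev (B.Gr.src a.1)))).toNat =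
          2 ^ (200 * N + lvp σ (B.lev (B.Gr.src a.1))) := by
        rw [← Int.toNat_natCast (2 ^ (200 * N + lvp σ (B.lev (B.Gr.src a.1))))]
        push_cast
        rfl
      rw [e]
      refine Nat.pow_le_pow_right (by norm_num) (Nat.add_le_add_left ?_ _)
      by_cases hn : n < 0
      · have : σ = true := by simp [hσ, hn]
        rw [this, lvp, cond_true]
        omega
      · have : σ = false := by simp [hσ, hn]
        rw [this, lvp, cond_false]
        omega)
  refine ⟨F, hF, hPr.trans (le_trans ?_ (hp.num_V h200 hle))⟩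
  have hc : ((B.X n).card : ℝ) ≤ (q : ℝ) ^ (depOf N n + 1) := by exact_mod_cast B.cardX_le n
  gcongr

end

end Crest.Agent.R129
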