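import Crest.Agent.R129.LG8
import Crest.Agent.R129.LGP2

/-!
# R129 / LG8Z : probability that the centred part of a block is large
-/

set_option autoImplicit false
open scoped InnerProductSpace ComplexConjugate

namespace Crest.Agent.R129

theorem lg8z_deg {t q N : ℕ} (B : Base t q N) (b : ℤ × Bool) : B.Gr.DegIn (B.Eb b) (2 * t ^ 9) := by
  classical
  intro x s hs
  have h1 := B.link_src b x
  have h2 := B.link_tgt b x
  have h3 : s ⊆ ((B.Eb b).filter fun e => B.Gr.src e = x).image (fun e => (e, true)) ∪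
      ((B.Eb b).filter fun e => B.Gr.tgt e = x).image (fun e => (e, false)) := by
    rintro ⟨e, _ | _⟩ he
    · exact Finset.mem_union_right _ (Finset.mem_image_of_mem _ (Finset.mem_filter.2 (hs _ he)))
    · exact Finset.mem_union_left _ (Finset.mem_image_of_mem _ (Finset.mem_filter.2 (hs _ he)))
  refine (Finset.card_le_card h3).trans ((Finset.card_union_le _ _).trans ?_)
  rw [two_mul]
  exact add_le_add (Finset.card_image_le.trans (by convert h1)) (Finset.card_image_le.trans (by convert h2))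

theorem lg8z_girth {t q N : ℕ} (B : Base t q N) (b : ℤ × Bool) :
    B.Gr.GirthIn (B.Eb b) ((depOf N (bs b) - 1) / 4) := by
  intro x σ hw hr hne hF
  have h1 := B.sl.girth hw hr hne
  obtain ⟨h, ω, rfl⟩ := List.exists_cons_of_ne_nil hne
  have h2 := (EG.eg_walk_cons.1 hw).1
  obtain ⟨h3, h4⟩ := B.link_lev _ _ ((B.mem_Eb _ _).1 (hF h List.mem_cons_self))
  have h5 := depOf_near N (n := bt b) (n' := bs b) (by have := (bs_bt_near b).1; omega)
  rw [B.dep_eq, h2] at h1
  obtain ⟨e, _ | _⟩ := h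
  · rw [show B.Gr.hs (e, false) = B.Gr.tgt e from rfl, h4] at h1
    omega
  · rw [show B.Gr.hs (e, true) = B.Gr.src e from rfl, h3] at h1
    omega

section
variable {q N k K : ℕ} (hp : Prm k K N q) (B : Base (2 * N) q N) (Gh : Ghost k K (201 * N))
  (P : FP B.E (Fin 4 × Gh.Q))
include hp

/-- `prob_Zop` with `X = X (bs b) ∪ X (bt b)`, `d = 2 t⁹`, `p = depOf N (bs b)`, `g = (p-1)/4`, `A = 30 K N`,
`L = 3 K N p`, `W` from `growth (bs b) L`; `Prm.num_eta`, `Prm.num_Z`, `depOf_near`, `depOf_bounds`, `bs_bt_near`. -/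
theorem prob_Z {h : ℝ} (hP : PhOK B Gh h P) (b : ℤ × Bool) :
    (PF B Gh P).Pr (B.Eb b)
      {x | unit K N / 400 ≤ ‖Zop B.Gr (PF B Gh P) (phv B Gh) (volv B Gh) (B.Eb b) x‖} ≤
        1 / 100 * (3 / 4) ^ b.1.natAbs := by
  classical
  obtain ⟨-, -, hN⟩ := hp.K_le
  have hN0 : 0 < N := lt_of_lt_of_le (by norm_num) hN
  have hK := hp.K_pos
  obtain ⟨p1, -, p3⟩ := depOf_bounds hN0 (bs b)
  obtain ⟨n1, n2⟩ := bs_bt_near b
  obtain ⟨W, hW, hW'⟩ := Gh.growth (bs b) (3 * K * N * depOf N (bs b))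
  have hu : 0 < unit K N / 400 := by unfold unit; positivity
  refine (prob_Zop B.Gr (PF B Gh P) (phv B Gh) (volv B Gh) (fun e θ => ?_) (B.X (bs b) ∪ B.X (bt b))
    (fun e he => ⟨Finset.mem_union_left _ (B.Eb_mem he).1, Finset.mem_union_right _ (B.Eb_mem he).2⟩)
    (A := 30 * K * N) (L := 3 * K * N * depOf N (bs b)) (lg8z_deg B b) (Nat.succ_le_of_lt (by positivity))
    (lg8z_girth B b) (by omega) (by positivity) ?_ W (fun l hl hg => hW' l hl fun g hg' => ?_) hu
    hp.num_eta).trans (hp.num_Z p1 p3 (by omega) ?_ hW)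
  · simp [phv]
  · have h1 : depOf N (bs b) ≤ 5 * ((depOf N (bs b) - 1) / 4) := by omega
    calc _ = 6 * K * N * depOf N (bs b) := by ring
      _ ≤ 6 * K * N * (5 * ((depOf N (bs b) - 1) / 4)) := Nat.mul_le_mul_left _ h1
      _ = _ := by ring
  · obtain ⟨e, he, θ, hθ, hg⟩ := hg g hg'
    have hk := (B.mem_Eb _ _).1 he
    obtain ⟨h1, h2⟩ := Finset.mem_product.1 hθ
    simp only [(B.link_lev _ _ hk).1] at h2
    exact ⟨θ.1.2, _, tiny_of_mem_tbox (by omega) h2,
      (hP.supp e b hk _ h1).imp_right fun h3 => ⟨bt b, n1, h3⟩, hg⟩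
  · have hq : 1 ≤ q := hp.prime.one_le
    have h1 := (B.cardX_le (bs b)).trans (Nat.pow_le_pow_right hq (Nat.le_succ _))
    have h2 := (B.cardX_le (bt b)).trans
      (Nat.pow_le_pow_right hq (Nat.succ_le_succ (depOf_near N n1)))
    refine (Finset.card_union_le _ _).trans ?_
    exact (add_le_add h1 h2).trans (two_mul _).ge

end

end Crest.Agent.R129
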