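import Crest.Agent.R129.LG7
import Crest.Agent.R129.LG8V
import Crest.Agent.R129.LG8Z
import Crest.Agent.R129.Base2
import Crest.Agent.R129.Ghost

/-!
# R129 / LG9 : existence of a good assignment; S0174
-/

set_option autoImplicit false
open scoped InnerProductSpace ComplexConjugate

namespace Crest.Agent.R129

theorem LG9_sum_le (T : Finset (ℤ ⊕ (ℤ × Bool))) :
    ∑ j ∈ T, Sum.elim (fun n : ℤ => (1 / 100 * (3 / 4) ^ n.natAbs : ℝ))
      (fun b : ℤ × Bool => (1 / 100 * (3 / 4) ^ b.1.natAbs : ℝ)) j ≤ 1 / 2 := by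
  classical
  rw [← Finset.toLeft_disjSum_toRight (u := T), Finset.sum_disjSum]
  simp only [Sum.elim_inl, Sum.elim_inr]
  rw [← Finset.mul_sum, ← Finset.mul_sum]
  have h1 := sum_geom_int T.toLeft
  have h2 : ∑ b ∈ T.toRight, (3 / 4 : ℝ) ^ b.1.natAbs ≤ 16 := by
    have hsub : T.toRight ⊆ (T.toRight.image Prod.fst) ×ˢ (Finset.univ : Finset Bool) := by
      intro b hb
      exact Finset.mem_product.2 ⟨Finset.mem_image_of_mem _ hb, Finset.mem_univ _⟩
    refine (Finset.sum_le_sum_of_subset_of_nonneg hsub fun _ _ _ => by positivity).trans ?_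
    rw [Finset.sum_product]
    simp only [Finset.sum_const, Finset.card_univ, Fintype.card_bool, nsmul_eq_mul]
    rw [← Finset.mul_sum]
    have := sum_geom_int (T.toRight.image Prod.fst)
    push_cast
    linarith
  linarith

/-- `exists_phOK`; `FP.exists_avoid` with `J = ℤ ⊕ (ℤ × Bool)` (`prob_V`, `prob_Z`, `Zop_depOn`, `sum_geom_int`:
`3 · 8/100 ≤ 1/2`).  `link`: the edge operator minus `tau • Pi` is `zeta + (emean - tau • Pi)`; `fm_Zop`,
`abs_fm_Zop_le`, `abs_edge_le`, `mean_err`, `Prm.num_mean`.  `main_inv`: `inv` with `j = N`. -/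
theorem exists_good {q N k K : ℕ} (hp : Prm k K N q) (B : Base (2 * N) q N) (Gh : Ghost k K (201 * N)) :
    Nonempty (Good B Gh ((2 * N : ℝ) ^ 7 / (6 * K)) ((K : ℝ) / 2 ^ N) (unit K N / 200)) := by
  classical
  obtain ⟨hKN, hNq, hN⟩ := hp.K_le
  have hK := hp.K_pos
  have hq : 0 < q := by omega
  have ht : 0 < 2 * N := by omega
  have hKr : (1 : ℝ) ≤ K := by exact_mod_cast hK
  have hNr : (0 : ℝ) ≤ (2 * N : ℝ) ^ 7 := by positivity
  set h : ℝ := (2 * N : ℝ) ^ 7 / (6 * K) with hh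
  have h0 : 0 ≤ h := by positivity
  have h6 : 6 * K * h = ((2 * N : ℕ) : ℝ) ^ 7 := by
    rw [hh]
    push_cast
    field_simp
  have h3 : 3 * h ≤ ((2 * N : ℕ) : ℝ) ^ 7 := by
    rw [← h6]
    nlinarith
  obtain ⟨P, hP⟩ := exists_phOK B Gh hq ht h0 h6.le
  choose FV hFV1 hFV2 using prob_V hp B Gh P
  obtain ⟨x, hx, hav⟩ := (PF B Gh P).exists_avoid (J := ℤ ⊕ (ℤ × Bool))
    (Sum.elim FV B.Eb)
    (Sum.elim (fun n => BadV B.Gr (B.X n) (depOf N n) fun e θ => (volv B Gh e θ)⁻¹)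
      fun b => {x | unit K N / 400 ≤ ‖Zop B.Gr (PF B Gh P) (phv B Gh) (volv B Gh) (B.Eb b) x‖})
    (by
      rintro (n | b)
      · exact hFV1 n
      · intro y z hyz
        simp only [Sum.elim_inr, Set.mem_setOf_eq]
        rw [Zop_depOn B.Gr (PF B Gh P) (phv B Gh) (volv B Gh) (B.Eb b) y z hyz])
    (Sum.elim (fun n : ℤ => (1 / 100 * (3 / 4) ^ n.natAbs : ℝ))
      (fun b : ℤ × Bool => (1 / 100 * (3 / 4) ^ b.1.natAbs : ℝ)))
    (by
      rintro (n | b)
      · exact hFV2 n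
      · exact prob_Z hp B Gh P hP b)
    LG9_sum_le
  have hx1 : ∀ e, (x e).1 ∈ P.Ω e := fun e => (Finset.mem_product.1 (hx e)).1
  have hx2 : ∀ e, (x e).2 ∈ tbox k (200 * N) (B.lev (B.Gr.src e)) :=
    fun e => (Finset.mem_product.1 (hx e)).2
  refine ⟨⟨fun e => (x e).1.1, fun e => volv B Gh e (x e), ?_, ?_, ?_, ?_⟩⟩
  · intro e he
    rw [hP.main e he _ (hx1 e)]
  · intro n e he l
    obtain ⟨he1, he2⟩ := (B.mem_Em n e).1 he
    have e1 : volv B Gh e (x e) = Gh.ι fun σ => uni ((x e).2 σ) := by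
      unfold volv tin
      rw [hP.main e he1 _ (hx1 e), one_mul]
    rw [e1]
    refine Gh.inv l n N _ (by omega) ?_
    have := hx2 e
    rw [he2] at this
    exact tiny_of_mem_tbox (by omega) this
  · intro b f
    have hZ : ‖Zop B.Gr (PF B Gh P) (phv B Gh) (volv B Gh) (B.Eb b) x‖ ≤ unit K N / 400 :=
      (not_le.1 (hav (Sum.inr b))).le
    have hS0 : ∀ n, 0 ≤ B.Sq n f := fun n => Finset.sum_nonneg fun _ _ => by positivity
    have a1 := abs_fm_Zop_le B.Gr (PF B Gh P) (phv B Gh) (volv B Gh) (B.Eb b)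
      (B.X (bs b) ∪ B.X (bt b))
      (fun e he => ⟨Finset.mem_union_left _ (B.Eb_mem he).1, Finset.mem_union_right _ (B.Eb_mem he).2⟩)
      x f
    have a2 : ∑ y ∈ B.X (bs b) ∪ B.X (bt b), ‖f y‖ ^ 2 ≤ B.Sq (bs b) f + B.Sq (bt b) f := by
      have := Finset.sum_union_inter (s₁ := B.X (bs b)) (s₂ := B.X (bt b)) (f := fun y => ‖f y‖ ^ 2)
      have h4 : 0 ≤ ∑ y ∈ B.X (bs b) ∩ B.X (bt b), ‖f y‖ ^ 2 :=
        Finset.sum_nonneg fun _ _ => by positivity
      unfold Base.Sq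
      linarith
    have a3 := abs_edge_le B.Gr (B.X (bs b)) (B.X (bt b)) (B.Eb b) (fun e he => B.Eb_mem he)
      (D := (2 * N) ^ 9) (fun y => by convert B.link_src b y) (fun y => by convert B.link_tgt b y)
      (fun e => emean (PF B Gh P) (phv B Gh) (volv B Gh) e - (B.tau h b : ℂ) • Gh.Pi (bt b) (bs b))
      (δ := 4 * (K : ℝ) ^ 2 / 2 ^ N) (by positivity) (fun e he => mean_err hp B Gh P h0 h3 hP he) f
    have a4 := hp.num_mean
    have e1 : ∑ e ∈ B.Eb b, 2 * (⟪f (B.Gr.tgt e), (Complex.I ^ ((x e).1.1 : ℕ) • lam (volv B Gh e (x e)) -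
        (B.tau h b : ℂ) • Gh.Pi (bt b) (bs b)) (f (B.Gr.src e))⟫_ℂ).re =
        fm (Zop B.Gr (PF B Gh P) (phv B Gh) (volv B Gh) (B.Eb b) x) f +
          ∑ e ∈ B.Eb b, 2 * (⟪f (B.Gr.tgt e), (emean (PF B Gh P) (phv B Gh) (volv B Gh) e -
            (B.tau h b : ℂ) • Gh.Pi (bt b) (bs b)) (f (B.Gr.src e))⟫_ℂ).re := by
      rw [fm_Zop, ← Finset.sum_add_distrib]
      refine Finset.sum_congr rfl fun e _ => ?_
      rw [← mul_add, ← Complex.add_re, ← inner_add_right, ← ContinuousLinearMap.add_apply]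
      unfold zeta phv
      rw [sub_add_sub_cancel]
    rw [e1]
    refine (abs_add_le _ _).trans ?_
    have b1 : |fm (Zop B.Gr (PF B Gh P) (phv B Gh) (volv B Gh) (B.Eb b) x) f| ≤
        unit K N / 400 * (B.Sq (bs b) f + B.Sq (bt b) f) :=
      a1.trans (mul_le_mul hZ a2 (Finset.sum_nonneg fun _ _ => by positivity)
        ((norm_nonneg _).trans hZ))
    have b2 := a3.trans (mul_le_mul_of_nonneg_right ((mul_comm _ _).trans_le a4)
      (add_nonneg (hS0 (bs b)) (hS0 (bt b))))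
    unfold Base.Sq at b1 ⊢
    linarith
  · intro y ω z hw hr hne hlen hv
    refine hav (Sum.inl (B.lev y)) ⟨y, (B.mem_X _ _).2 rfl, ω, z, hw, hr, hne, ?_, hv⟩
    rwa [B.dep_eq] at hlen

theorem Prm.par {q N k K : ℕ} (hp : Prm k K N q) : Par (2 * N) q N := by
  have := hp.K_le
  exact ⟨hp.prime, by omega, hp.q_gt, hp.q_le, by omega, le_rfl⟩

theorem goal174 : Goal174 := by
  obtain ⟨K, hK, hG⟩ := exists_ghost (500 ^ 3 + 2)
  obtain ⟨N, q, hp⟩ := exists_prm le_rfl hK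
  obtain ⟨B⟩ := exists_base hp.par
  obtain ⟨Gh⟩ := hG (201 * N) (by have := hp.K_le; omega)
  obtain ⟨g⟩ := exists_good hp B Gh
  exact g.goal hp

end Crest.Agent.R129
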