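import Crest.Agent.R129.Ping

/-!
# R129 / Lv : levels `F^P × C`
-/

set_option autoImplicit false
open FreeGroup

namespace Crest.Agent.R129

section levels
variable {F : Type} [Field F] [Fintype F]

/-- extension by zero. -/
def lvExt (n : ℕ) (x : Fin n → F) : ℕ → F := fun j => if h : j < n then x ⟨j, h⟩ else 0

omit [Fintype F] in
theorem lvExt_injective (n : ℕ) : Function.Injective (lvExt (F := F) n) := fun x y h => by
  funext j
  simpa [lvExt, j.2] using congrFun h j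

omit [Fintype F] in
theorem lvExt_eq {P : ℕ} {z : ℕ → F} (h : ∀ j, P < j → z j = 0) :
    lvExt (P + 1) (fun j => z j) = z := by
  funext j
  unfold lvExt
  split_ifs with hj
  · rfl
  · exact (h j (by omega)).symm

theorem finite_Lv (P : ℕ) (C : Finset F) :
    {z : ℕ → F | z P ∈ C ∧ ∀ j, P < j → z j = 0}.Finite := by
  exact (Set.finite_range (lvExt (P + 1))).subset fun z hz => ⟨_, lvExt_eq hz.2⟩

/-- sequences with `z P ∈ C` and zero tail. -/
noncomputable def Lv (P : ℕ) (C : Finset F) : Finset (ℕ → F) := (finite_Lv P C).toFinset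

theorem mem_Lv {P : ℕ} {C : Finset F} {z : ℕ → F} : z ∈ Lv P C ↔ z P ∈ C ∧ ∀ j, P < j → z j = 0 := by
  simp [Lv]

theorem card_Lv (P : ℕ) (C : Finset F) : (Lv P C).card = Fintype.card F ^ P * C.card := by
  classical
  have h : Lv P C = (Fintype.piFinset fun j : Fin (P + 1) =>
      if (j : ℕ) = P then C else Finset.univ).map ⟨_, lvExt_injective (P + 1)⟩ := by
    ext z
    rw [mem_Lv, Finset.mem_map]
    constructor
    · rintro ⟨h1, h2⟩
      refine ⟨fun j => z j, Fintype.mem_piFinset.2 fun j => ?_, lvExt_eq h2⟩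
      split_ifs with hj
      · rwa [hj]
      · exact Finset.mem_univ _
    · rintro ⟨x, hx, rfl⟩
      refine ⟨?_, fun j hj => dif_neg (by omega)⟩
      simpa [lvExt] using Fintype.mem_piFinset.1 hx ⟨P, Nat.lt_succ_self P⟩
  rw [h, Finset.card_map, Fintype.card_piFinset, Fin.prod_univ_castSucc]
  simp [Nat.ne_of_lt]

/-- shadowing points: zeros on `(P', 2P']`. -/
theorem card_shadow (P P' : ℕ) (hP : 2 * P' < P) (C : Finset F) (s : Finset (ℕ → F))
    (hs : ∀ z ∈ s, z ∈ Lv P C ∧ ∀ j, P' < j → j ≤ 2 * P' → z j = 0) :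
    s.card * Fintype.card F ^ P' ≤ (Lv P C).card := by
  classical
  have h : s.card * Fintype.card F ^ P' = (s ×ˢ (Finset.univ : Finset (Fin P' → F))).card := by simp
  rw [h]
  refine Finset.card_le_card_of_injOn
    (fun x j => if h : P' < j ∧ j ≤ 2 * P' then x.2 ⟨j - P' - 1, by omega⟩ else x.1 j) ?_ ?_
  · intro x hx
    obtain ⟨h1, h2⟩ := mem_Lv.1 (hs _ (Finset.mem_product.1 hx).1).1
    refine mem_Lv.2 ⟨?_, fun j hj => ?_⟩ <;> beta_reduce
    · rwa [dif_neg (by omega)]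
    · rw [dif_neg (by omega), h2 j hj]
  · intro x hx y hy e
    have h1 := (hs _ (Finset.mem_product.1 hx).1).2
    have h2 := (hs _ (Finset.mem_product.1 hy).1).2
    refine Prod.ext (funext fun j => ?_) (funext fun j => ?_)
    · by_cases hj : P' < j ∧ j ≤ 2 * P'
      · rw [h1 j hj.1 hj.2, h2 j hj.1 hj.2]
      · simpa only [dif_neg hj] using congrFun e j
    · have hj : P' < j + P' + 1 ∧ j + P' + 1 ≤ 2 * P' := by omega
      have e2 : (⟨j + P' + 1 - P' - 1, by omega⟩ : Fin P') = j := Fin.ext (by simp only; omega)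
      simpa only [dif_pos hj, e2] using congrFun e (j + P' + 1)

theorem Sh_mem_Lv {P : ℕ} {C : Finset F} (l : F) {z : ℕ → F} :
    Sh l z ∈ Lv P C ↔ z ∈ Lv P C := by
  have h : (∀ j, P < j → Sh l z j = 0) ↔ ∀ j, P < j → z j = 0 := by
    refine ⟨fun h j hj => ?_, fun h j hj => by simp [Sh, h j hj, h (j + 1) (by omega)]⟩
    have h1 := h j hj
    by_cases h2 : j % 2 = 1
    · have h3 := h (j + 1) (by omega)
      rw [Sh, if_neg (by omega)] at h3
      simpa [Sh, h3] using h1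
    · rwa [Sh, if_neg h2] at h1
  rw [mem_Lv, mem_Lv, h]
  exact and_congr_left fun h1 => by simp [Sh, h1 (P + 1) (by omega)]

theorem Sh'_mem_Lv {P : ℕ} {C : Finset F} (l : F) {z : ℕ → F} :
    Sh' l z ∈ Lv P C ↔ z ∈ Lv P C := by
  have h : (∀ j, P < j → Sh' l z j = 0) ↔ ∀ j, P < j → z j = 0 := by
    refine ⟨fun h j hj => ?_, fun h j hj => by simp [Sh', h j hj, h (j + 1) (by omega)]⟩
    have h1 := h j hj
    by_cases h2 : j % 2 = 0
    · have h3 := h (j + 1) (by omega)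
      rw [Sh', if_neg (by omega)] at h3
      simpa [Sh', h3] using h1
    · rwa [Sh', if_neg h2] at h1
  rw [mem_Lv, mem_Lv, h]
  exact and_congr_left fun h1 => by simp [Sh', h1 (P + 1) (by omega)]

omit [Fintype F] in
/-- all local permutations fix `0`. -/
def Fix0 (π : Loc F) : Prop := ∀ j ν, π j ν 0 = 0

theorem Gm_mem_Lv {π : Loc F} (h0 : Fix0 π) {P : ℕ} {C C' : Finset F}
    (hC : ∀ ν, ∀ c ∈ C, π P ν c ∈ C') (l : F) {z : ℕ → F} (hz : z ∈ Lv P C) : Gm π l z ∈ Lv P C' := by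
  obtain ⟨h1, h2⟩ := mem_Lv.1 ((Sh_mem_Lv l).2 hz)
  exact (Sh'_mem_Lv l).2 (mem_Lv.2 ⟨hC _ _ h1, fun j hj => by rw [Tr, h2 j hj, h0]⟩)

theorem Gm_congr {π π' : Loc F} (h0 : Fix0 π) (h0' : Fix0 π') {P : ℕ} {C : Finset F}
    (hlt : ∀ j < P, π j = π' j) (hP : ∀ ν, ∀ c ∈ C, π P ν c = π' P ν c) (l : F) {z : ℕ → F}
    (hz : z ∈ Lv P C) : Gm π l z = Gm π' l z := by
  obtain ⟨h1, h2⟩ := mem_Lv.1 ((Sh_mem_Lv l).2 hz)
  refine congrArg (Sh' l) (funext fun j => ?_)
  rcases lt_trichotomy j P with hj | rfl | hj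
  · rw [Tr, Tr, hlt j hj]
  · exact hP _ _ h1
  · rw [Tr, Tr, h2 j hj, h0, h0']

end levels

end Crest.Agent.R129
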