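import Crest.Agent.R129.Uop

/-!
# R129 / Main173 : finite components with a one-dimensional top eigenspace; the exact trace

Notation.  `rp Z = (v_Z, yN (lev Z))` is a germ of the copy `Z`; `D_Z = Dset`; `Ψ₁ δ_Z = 1_{Z \ D_Z}/√|C|`,
`Ψ₂ δ_Z = 1_{D_Z}/√|C|`, `Ψ = Ψ₁ + Ψ₂` is equivariant.
-/

set_option autoImplicit false
open scoped InnerProductSpace ComplexConjugate
open ContinuousLinearMap

namespace Crest.Agent.R129

open Classical in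
/-- hypotheses on a graph all of whose components are equivalent to one of the finite components `C n`. -/
structure Fin173 {S Y : Type} [Fintype S] (Γ : LG S Y) (sc : SC Γ) (c : S → ℂ) (ζ γ α : ℝ) where
  yN : ℕ → Y
  C : ℕ → Finset Y
  mem_C : ∀ n x, x ∈ C n ↔ x ∈ Γ.Comp (yN n)
  reach : ∀ y, ∃ n, ∃ x ∈ C n, sc.eqv y x
  sep : ∀ n m, ∀ x ∈ C n, ∀ x' ∈ C m, sc.eqv x x' → n = m
  a : ℕ → ℕ
  a_eq : ∀ n, ((C n).filter fun x => sc.eqv x (yN n)).card = a n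
  Rep : ℕ → Finset Y
  rep_sub : ∀ n, Rep n ⊆ C n
  rep_cov : ∀ n, ∀ x ∈ C n, ∃ r ∈ Rep n, sc.eqv x r
  rep_inj : ∀ n, ∀ r ∈ Rep n, ∀ r' ∈ Rep n, sc.eqv r r' → r = r'
  β : ℕ → ℝ
  ball : ∀ n, ∀ o ∈ C n, ∀ s : Finset Y, (s : Set Y) ⊆ Γ.Ball o (sc.rad o) → (s.card : ℝ) ≤ β n
  half : ∀ n, 2 * β n ≤ (C n).card
  small : ∀ F : Finset ℕ, ∑ n ∈ F, (Rep n).card * √(β n / (C n).card) ≤ α
  upper : ∀ n (f : L2 Y ℂ), (∀ x, x ∉ C n → f x = 0) → ∑ x ∈ C n, f x = 0 →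
    fm (Γ.Bop c) f ≤ (ζ - 2 * γ) * ‖f‖ ^ 2
  lower : ∀ n (D : Finset Y), (D.card : ℝ) ≤ β n → ∀ f : L2 Y ℂ,
    (∀ x, f x = if x ∈ C n ∧ x ∉ D then 1 else 0) → (ζ + γ) * ‖f‖ ^ 2 ≤ fm (Γ.Bop c) f

/-- the statement proved for S0173. -/
def Goal173 (a : ℕ → ℕ) : Prop :=
  ∃ (G : Type) (_ : Group G), Group.FG G ∧
    ∃ b ∈ Crest.OperatorAlgebra.reducedGroupCStar G, b * b = b ∧ star b = b ∧
      HasSum (fun n => (1 : ℝ) / a n) (Crest.OperatorAlgebra.canonicalTrace G b).re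

section
variable {S Y : Type} [Fintype S] {Γ : LG S Y} {sc : SC Γ} {c : S → ℂ} {ζ γ α : ℝ}
  (h : Fin173 Γ sc c ζ γ α) {y₀ : Y} {G : Type} [Group G] (st : Str Γ sc y₀ G)

theorem Fin173.yN_mem (n : ℕ) : h.yN n ∈ h.C n := (h.mem_C n _).2 ⟨[], LG.Reads.nil _⟩

theorem M173a_split {H : Type} [NormedAddCommGroup H] [InnerProductSpace ℂ H] (B : H →L[ℂ] H)
    {d : ℝ} (hB : ‖B‖ ≤ d) (f g : H) :
    fm B (f + g) ≤ fm B f + 2 * d * (‖f‖ * ‖g‖) + d * ‖g‖ ^ 2 := by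
  have key : ∀ x y : H, (⟪x, B y⟫_ℂ).re ≤ d * (‖x‖ * ‖y‖) := fun x y => by
    refine (Abs_re_le _ _).trans ?_
    have := mul_le_mul_of_nonneg_left ((B.le_opNorm y).trans
      (mul_le_mul_of_nonneg_right hB (norm_nonneg _))) (norm_nonneg x)
    linarith
  have h1 := key f g
  have h2 := key g f
  have h3 := key g g
  simp only [fm, map_add, inner_add_left, inner_add_right, Complex.add_re]
  nlinarith

/-- one block: on `C n \ D` split `f = f₀ + t·1`; `upper` for `f₀`, `‖B‖ ≤ dt` for the rest,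
`|t|² |C \ D| ≤ 2 |∑ f|² / |C|`. -/
theorem Fin173.block_pos (hc : ∀ s, ‖c s‖ = 1) {dt : ℕ} (hd : Γ.DegLe dt) (hζ : 0 ≤ ζ) (hγ : 0 < γ)
    (n : ℕ) (D : Finset Y) (hD : (D.card : ℝ) ≤ h.β n) (f : L2 Y ℂ)
    (hf : ∀ x, ¬ (x ∈ h.C n ∧ x ∉ D) → f x = 0) :
    γ * ‖f‖ ^ 2 - 2 * (dt + dt ^ 2 / γ + γ) * (‖∑ x ∈ h.C n, f x‖ ^ 2 / (h.C n).card) ≤
      ζ * ‖f‖ ^ 2 - fm (Γ.Bop c) f := by
  classical
  set W : Finset Y := h.C n \ D with hW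
  have hWm : ∀ x, x ∈ W ↔ x ∈ h.C n ∧ x ∉ D := fun x => Finset.mem_sdiff
  have hC : (0 : ℝ) < (h.C n).card := by
    exact_mod_cast Finset.card_pos.2 ⟨_, h.yN_mem n⟩
  have hw : ((h.C n).card : ℝ) ≤ 2 * W.card := by
    have h1 : ((h.C n).card : ℝ) ≤ W.card + D.card := by
      exact_mod_cast Finset.card_le_card_sdiff_add_card
    have h2 := h.half n
    linarith
  have hw0 : (0 : ℝ) < W.card := by linarith
  have hwc : (W.card : ℂ) ≠ 0 := by exact_mod_cast hw0.ne'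
  set s : ℂ := ∑ x ∈ h.C n, f x with hs
  have hsW : ∑ x ∈ W, f x = s :=
    Finset.sum_subset Finset.sdiff_subset fun x _ hx => hf x fun h' => hx ((hWm x).2 h')
  obtain ⟨g, hg⟩ := L2_of_finite (fun x => if x ∈ W then s / W.card else 0) W
    fun x hx => if_neg hx
  have hg0 : ∀ x, x ∉ W → g x = 0 := fun x hx => by rw [hg, if_neg hx]
  have hf0 : ∀ x, (f - g) x = f x - g x := fun x => by rw [lp.coeFn_sub, Pi.sub_apply]
  have hsum : ∑ x ∈ W, (f - g) x = 0 := by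
    rw [Finset.sum_congr rfl fun x hx => (by rw [hf0, hg, if_pos hx] : (f - g) x = f x - s / W.card),
      Finset.sum_sub_distrib, hsW, Finset.sum_const, nsmul_eq_mul, mul_div_cancel₀ _ hwc, sub_self]
  have hz : ∀ x, x ∉ W → (f - g) x = 0 := fun x hx => by
    rw [hf0, hg0 x hx, hf x fun h' => hx ((hWm x).2 h'), sub_zero]
  have hup := h.upper n (f - g) (fun x hx => hz x fun h' => hx ((hWm x).1 h').1)
    ((Finset.sum_subset Finset.sdiff_subset fun x _ hx => hz x hx).symm.trans hsum)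
  have hort : ⟪g, f - g⟫_ℂ = 0 := by
    rw [L2_inner_eq g _ W hg0, Finset.sum_congr rfl fun x hx =>
      (by rw [hg, if_pos hx, RCLike.inner_apply] : ⟪g x, (f - g) x⟫_ℂ = (f - g) x * conj (s / W.card)),
      ← Finset.sum_mul, hsum, zero_mul]
  have hgn : ‖g‖ ^ 2 ≤ 2 * (‖s‖ ^ 2 / (h.C n).card) := by
    rw [L2_norm_sq_eq g W hg0, Finset.sum_congr rfl fun x hx =>
      (by rw [hg, if_pos hx, norm_div, Complex.norm_natCast] : ‖g x‖ ^ 2 = (‖s‖ / W.card) ^ 2),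
      Finset.sum_const, nsmul_eq_mul]
    have e : (W.card : ℝ) * (‖s‖ / W.card) ^ 2 = ‖s‖ ^ 2 / W.card := by field_simp
    rw [e, ← mul_div_assoc, div_le_div_iff₀ hw0 hC]
    nlinarith [sq_nonneg ‖s‖]
  have hpy : ‖f‖ ^ 2 = ‖g‖ ^ 2 + ‖f - g‖ ^ 2 := by
    have := norm_add_sq_eq_norm_sq_add_norm_sq_of_inner_eq_zero g (f - g) hort
    rw [add_sub_cancel] at this
    nlinarith
  have hsp := M173a_split (Γ.Bop c) (Γ.norm_Bop_le hc hd) (f - g) g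
  rw [sub_add_cancel] at hsp
  have hd0 : (0 : ℝ) ≤ dt := Nat.cast_nonneg _
  have ham : 2 * (dt : ℝ) * (‖f - g‖ * ‖g‖) ≤ γ * ‖f - g‖ ^ 2 + dt ^ 2 / γ * ‖g‖ ^ 2 := by
    have e : γ * ‖f - g‖ ^ 2 + dt ^ 2 / γ * ‖g‖ ^ 2 - 2 * (dt : ℝ) * (‖f - g‖ * ‖g‖) =
        (γ * ‖f - g‖ - dt * ‖g‖) ^ 2 / γ := by field_simp; ring
    have : 0 ≤ (γ * ‖f - g‖ - dt * ‖g‖) ^ 2 / γ := by positivity
    linarith
  have hK : 0 ≤ (dt : ℝ) + dt ^ 2 / γ + γ := by positivity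
  have h1 := mul_le_mul_of_nonneg_left hgn hK
  have h2 := mul_nonneg hζ (sq_nonneg ‖g‖)
  rw [hpy]
  nlinarith

/-- levels and germ representatives of copies. -/
theorem Fin173.exists_rp : ∃ (lev : st.Copy → ℕ) (v : st.Copy → G),
    (∀ Z, st.cp (v Z) (h.yN (lev Z)) = Z) ∧ ∀ g n, lev (st.cp g (h.yN n)) = n := by
  have h1 : ∀ Z : st.Copy, ∃ n v, st.cp v (h.yN n) = Z := fun Z => by
    obtain ⟨v, y, rfl⟩ := st.cp_surj Z
    obtain ⟨n, x, hx, hyx⟩ := h.reach y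
    obtain ⟨w, hw⟩ := (h.mem_C n x).1 hx
    exact ⟨n, wv st.π w * v, by rw [← st.cp_reads hw, inv_mul_cancel_left, st.cp_eqv hyx]⟩
  choose lev v hv using h1
  refine ⟨lev, v, hv, fun g n => ?_⟩
  obtain ⟨w, x, h₁, h₂, -⟩ := st.cp_eq_iff.1 (hv (st.cp g (h.yN n)))
  exact h.sep _ _ x ((h.mem_C _ _).2 ⟨w, h₁⟩) _ (h.yN_mem n) h₂

/-- the stabiliser of the copy `cp 1 (yN n)` is in bijection with the points of `C n` equivalent to `yN n`. -/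
theorem Fin173.card_stab (n : ℕ) :
    Nat.card {g // st.act g (st.cp 1 (h.yN n)) = st.cp 1 (h.yN n)} = h.a n := by
  classical
  rw [← h.a_eq n, ← Fintype.card_coe, ← Nat.card_eq_fintype_card]
  have h1 : ∀ x : ((h.C n).filter fun x => sc.eqv x (h.yN n)), ∃ w, Γ.Reads (h.yN n) w x :=
    fun x => (h.mem_C n x).1 (Finset.mem_filter.1 x.2).1
  choose w hw using h1
  symm
  refine Nat.card_eq_of_bijective (fun x => ⟨(wv st.π (w x))⁻¹, ?_⟩) ⟨fun x x' e => ?_, ?_⟩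
  · rw [st.act_cp, one_mul]
    exact (st.cp_eq_iff.2 ⟨w x, x, hw x, (Finset.mem_filter.1 x.2).2, (mul_one _).symm⟩).symm
  · exact Subtype.ext (st.inj' (hw x) (hw x') (inv_injective (congrArg Subtype.val e)))
  · rintro ⟨g, hg⟩
    have hg' := hg
    rw [st.act_cp, one_mul] at hg'
    obtain ⟨u, x, h₁, h₂, h₃⟩ := st.cp_eq_iff.1 hg'.symm
    refine ⟨⟨x, Finset.mem_filter.2 ⟨(h.mem_C n x).2 ⟨u, h₁⟩, h₂⟩⟩, Subtype.ext ?_⟩
    exact ((h₃.trans (mul_one _)).trans (congrArg _ (st.wv_eq h₁ (hw _)))).symm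

theorem Fin173.a_pos (n : ℕ) : 0 < h.a n := by
  classical
  rw [← h.a_eq n]
  exact Finset.card_pos.2 ⟨_, Finset.mem_filter.2 ⟨h.yN_mem n, sc.eqv.refl _⟩⟩

end

end Crest.Agent.R129
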