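import Crest.Agent.R129.M173a

/-!
# R129 / Main173 : finite components with a one-dimensional top eigenspace; the exact trace

Notation.  `rp Z = (v_Z, yN (lev Z))` is a germ of the copy `Z`; `D_Z = Dset`; `Ψ₁ δ_Z = 1_{Z \ D_Z}/√|C|`,
`Ψ₂ δ_Z = 1_{D_Z}/√|C|`, `Ψ = Ψ₁ + Ψ₂` is equivariant.
-/

set_option autoImplicit false
open scoped InnerProductSpace ComplexConjugate
open ContinuousLinearMap

namespace Crest.Agent.R129

section
variable {S Y : Type} [Fintype S] {Γ : LG S Y} {sc : SC Γ} {c : S → ℂ} {ζ γ α : ℝ}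
  (h : Fin173 Γ sc c ζ γ α) {y₀ : Y} {G : Type} [Group G] (st : Str Γ sc y₀ G)

theorem M173b_yN_mem (n : ℕ) : h.yN n ∈ h.C n := (h.mem_C n _).2 ⟨[], LG.Reads.nil _⟩

theorem M173b_card_pos (n : ℕ) : (0 : ℝ) < (h.C n).card :=
  Nat.cast_pos.2 (Finset.card_pos.2 ⟨_, M173b_yN_mem h n⟩)

theorem M173b_β_nonneg (n : ℕ) : 0 ≤ h.β n := by
  simpa using h.ball n _ (M173b_yN_mem h n) ∅ (by simp)

theorem M173b_D_card (g : G) (n : ℕ) (s : Finset Y) (hs : (s : Set Y) ⊆ st.Dset g (h.yN n)) :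
    (s.card : ℝ) ≤ h.β n := by
  rcases s.eq_empty_or_nonempty with rfl | ⟨x, hx⟩
  · simpa using M173b_β_nonneg h n
  · obtain ⟨o, h1, h2⟩ := st.Dset_subset g (h.yN n)
    exact h.ball n o ((h.mem_C n o).2 (h2 ⟨x, hs hx⟩)) s (hs.trans h1)

theorem M173b_cp_pt {g : G} {y x : Y} (hx : x ∈ Γ.Comp y) : st.cp (st.pt g y x) x = st.cp g y := by
  obtain ⟨w, hw⟩ := hx
  rw [st.pt_eq hw, st.cp_reads hw]

theorem M173b_pt_inj {g : G} {y x x' : Y} (hx : x ∈ Γ.Comp y) (hx' : x' ∈ Γ.Comp y)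
    (e : st.pt g y x = st.pt g y x') : x = x' := by
  obtain ⟨w, hw⟩ := hx
  obtain ⟨w', hw'⟩ := hx'
  rw [st.pt_eq hw, st.pt_eq hw', mul_left_inj, inv_inj] at e
  exact st.inj' hw hw' e

theorem M173b_exists_pt {g u : G} {y y' : Y} (e : st.cp u y' = st.cp g y) :
    ∃ x ∈ Γ.Comp y, st.pt g y x = u := by
  obtain ⟨w, x, h1, -, h3⟩ := st.cp_eq_iff.1 e.symm
  exact ⟨x, ⟨w, h1⟩, (st.pt_eq h1).trans h3.symm⟩

theorem M173b_lev {lev : st.Copy → ℕ} (hlev : ∀ g n, lev (st.cp g (h.yN n)) = n) {n : ℕ} {r : Y}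
    (hr : r ∈ h.C n) (u : G) : lev (st.cp u r) = n := by
  obtain ⟨w, hw⟩ := (h.mem_C n r).1 hr
  have := st.cp_reads (v := wv st.π w * u) hw
  rw [inv_mul_cancel_left] at this
  rw [this, hlev]

theorem M173b_norm_sq (n : ℕ) :
    ‖(((√(h.C n).card)⁻¹ : ℝ) : ℂ)‖ ^ 2 = ((h.C n).card : ℝ)⁻¹ := by
  rw [Complex.norm_real, Real.norm_eq_abs, sq_abs, inv_pow, Real.sq_sqrt (M173b_card_pos h n).le]

open Classical in
/-- the weight of `Ψ₁`. -/
noncomputable def M173b_w₁ (lev : st.Copy → ℕ) (u : G) : ℂ :=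
  if st.Near u then 0 else (((√(h.C (lev (st.cp u (st.home u)))).card)⁻¹ : ℝ) : ℂ)

open Classical in
/-- the entries of `Ψ₂`. -/
noncomputable def M173b_w₂ (lev : st.Copy → ℕ) (v : st.Copy → G) (Z : st.Copy) (u : G) : ℂ :=
  if ∃ x ∈ st.Dset (v Z) (h.yN (lev Z)), st.pt (v Z) (h.yN (lev Z)) x = u then
    (((√(h.C (lev Z)).card)⁻¹ : ℝ) : ℂ) else 0

theorem M173b_sBd₁ {lev : st.Copy → ℕ} {v : st.Copy → G}
    (hv : ∀ Z, st.cp (v Z) (h.yN (lev Z)) = Z) :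
    SBd (fun u => st.cp u (st.home u)) (M173b_w₁ h st lev) 1 := by
  classical
  refine ⟨zero_le_one, fun Z s hs => ?_⟩
  have hp := M173b_card_pos h (lev Z)
  have h1 : s.card ≤ (h.C (lev Z)).card := by
    refine le_trans (Finset.card_le_card fun u hu => ?_)
      (Finset.card_image_le (s := h.C (lev Z)) (f := st.pt (v Z) (h.yN (lev Z))))
    obtain ⟨x, hx, e⟩ := M173b_exists_pt st ((hs u hu).trans (hv Z).symm)
    exact Finset.mem_image.2 ⟨x, (h.mem_C _ _).2 hx, e⟩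
  calc ∑ u ∈ s, ‖M173b_w₁ h st lev u‖ ^ 2 ≤ ∑ u ∈ s, ((h.C (lev Z)).card : ℝ)⁻¹ := by
        refine Finset.sum_le_sum fun u hu => ?_
        have e : st.cp u (st.home u) = Z := hs u hu
        rw [M173b_w₁, e]
        split_ifs
        · simp
        · exact (M173b_norm_sq h _).le
    _ ≤ 1 ^ 2 := by
        rw [Finset.sum_const, nsmul_eq_mul, one_pow, mul_inv_le_iff₀ hp, one_mul]
        exact_mod_cast h1

theorem M173b_sBd₂ {lev : st.Copy → ℕ} (v : st.Copy → G)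
    (hlev : ∀ g n, lev (st.cp g (h.yN n)) = n) {n : ℕ} {r : Y} (hr : r ∈ h.C n) :
    SBd (fun u => st.cp u r) (fun u => M173b_w₂ h st lev v (st.cp u r) u)
      √(h.β n / (h.C n).card) := by
  classical
  refine ⟨Real.sqrt_nonneg _, fun Z s hs => ?_⟩
  have hp := M173b_card_pos h n
  have hβ := M173b_β_nonneg h n
  rw [Real.sq_sqrt (by positivity)]
  rcases s.eq_empty_or_nonempty with rfl | ⟨u₀, hu₀⟩
  · rw [Finset.sum_empty]; positivity
  have hn : lev Z = n := by rw [← hs u₀ hu₀]; exact M173b_lev h st hlev hr u₀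
  set t := s.filter fun u => ∃ x ∈ st.Dset (v Z) (h.yN n), st.pt (v Z) (h.yN n) x = u with ht
  have h1 : (t.card : ℝ) ≤ h.β n := by
    refine le_trans ?_ (M173b_D_card h st (v Z) n
      ((h.C n).filter fun x => x ∈ st.Dset (v Z) (h.yN n)) fun x hx => (Finset.mem_filter.1 hx).2)
    refine Nat.cast_le.2 (le_trans (Finset.card_le_card fun u hu => ?_)
      (Finset.card_image_le (f := st.pt (v Z) (h.yN n))))
    obtain ⟨x, hx, e⟩ := (Finset.mem_filter.1 hu).2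
    exact Finset.mem_image.2 ⟨x, Finset.mem_filter.2
      ⟨(h.mem_C _ _).2 (st.Dset_subset_comp _ _ hx), hx⟩, e⟩
  calc ∑ u ∈ s, ‖M173b_w₂ h st lev v (st.cp u r) u‖ ^ 2
      = ∑ u ∈ t, ((h.C n).card : ℝ)⁻¹ := by
        rw [ht, Finset.sum_filter]
        refine Finset.sum_congr rfl fun u hu => ?_
        have e : st.cp u r = Z := hs u hu
        rw [e, M173b_w₂, hn]
        split_ifs
        · exact M173b_norm_sq h _
        · simp
    _ ≤ _ := by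
        rw [Finset.sum_const, nsmul_eq_mul, div_eq_mul_inv]
        gcongr

theorem M173b_psi₂ {lev : st.Copy → ℕ} {v : st.Copy → G}
    (hv : ∀ Z, st.cp (v Z) (h.yN (lev Z)) = Z) (hlev : ∀ g n, lev (st.cp g (h.yN n)) = n) :
    ∃ Ψ₂ : L2 st.Copy ℂ →L[ℂ] L2 G ℂ, ‖Ψ₂‖ ≤ α ∧
      ∀ Z u, Ψ₂ (dl Z) u = M173b_w₂ h st lev v Z u := by
  set T : ℕ → L2 st.Copy ℂ →L[ℂ] L2 G ℂ := fun n => ∑ r ∈ h.Rep n,
    spull (fun u => st.cp u r) (fun u => M173b_w₂ h st lev v (st.cp u r) u) with hT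
  have hb : ∀ n, ‖T n‖ ≤ (h.Rep n).card * √(h.β n / (h.C n).card) := fun n => by
    rw [← nsmul_eq_mul, ← Finset.sum_const]
    exact norm_sum_le_of_le _ fun r hr => norm_spull_le (M173b_sBd₂ h st v hlev (h.rep_sub n hr))
  have hg : Summable fun n => (h.Rep n).card * √(h.β n / (h.C n).card) :=
    summable_of_sum_le (fun n => by positivity) h.small
  have hs : Summable T := Summable.of_norm_bounded hg hb
  refine ⟨∑' n, T n, (tsum_of_norm_bounded hg.hasSum hb).trans (hg.tsum_le_of_sum_le h.small),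
    fun Z u => ?_⟩
  set Φ : (L2 st.Copy ℂ →L[ℂ] L2 G ℂ) →L[ℂ] ℂ :=
    (ev u).comp (ContinuousLinearMap.apply ℂ _ (dl Z)) with hΦ
  have hΦT : ∀ n, Φ (T n) = ∑ r ∈ h.Rep n,
      M173b_w₂ h st lev v (st.cp u r) u * dl Z (st.cp u r) := fun n => by
    rw [hT, map_sum]
    exact Finset.sum_congr rfl fun r hr => spull_apply (M173b_sBd₂ h st v hlev (h.rep_sub n hr)) _ _
  have hne : ∀ {Z' : st.Copy}, Z' ≠ Z → dl Z Z' = 0 := fun e => sgl_ne e (1 : ℂ)
  refine (hs.hasSum.mapL Φ).unique ?_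
  have e : Φ (T (lev Z)) = M173b_w₂ h st lev v Z u := by
    rw [hΦT]
    by_cases hx : ∃ x ∈ st.Dset (v Z) (h.yN (lev Z)), st.pt (v Z) (h.yN (lev Z)) x = u
    · obtain ⟨x, hx, e⟩ := hx
      have hc := st.Dset_subset_comp _ _ hx
      obtain ⟨r, hr, er⟩ := h.rep_cov _ x ((h.mem_C _ _).2 hc)
      have h1 : st.cp u r = Z := by
        rw [← st.cp_eqv er, ← e, M173b_cp_pt st hc, hv]
      rw [Finset.sum_eq_single_of_mem r hr fun r' hr' hrr => ?_, h1]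
      · rw [show dl Z Z = 1 from sgl_self Z (1 : ℂ), mul_one]
      · rw [hne fun e' => hrr (h.rep_inj _ _ hr' _ hr (st.eqv_of_cp_eq (e'.trans h1.symm))),
          mul_zero]
    · have h0 : M173b_w₂ h st lev v Z u = 0 := if_neg hx
      rw [h0]
      refine Finset.sum_eq_zero fun r _ => ?_
      by_cases e' : st.cp u r = Z
      · rw [e', h0, zero_mul]
      · rw [hne e', mul_zero]
  rw [← e]
  refine hasSum_single (f := fun n => Φ (T n)) (lev Z) fun n hn => ?_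
  rw [hΦT]
  refine Finset.sum_eq_zero fun r hr => ?_
  rw [hne fun e' => hn ((M173b_lev h st hlev (h.rep_sub n hr) u).symm.trans (congrArg lev e')),
    mul_zero]

open Classical in
/-- The operators.  `Ψ₁ = spull (u ↦ cp u (home u)) (u ↦ if ¬ Near u then 1/√|C| else 0)`;
`Ψ₂ = ∑' (n, r), r ∈ Rep n` of `spull (u ↦ cp u r) (u ↦ if u ∈ pt '' D then 1/√|C n| else 0)`, each of norm
`≤ √(β n/|C n|)` (`SBd`: the fibre over `Z` injects into `D_Z`), summable in norm by `small`.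
Entries: every vertex `u` of `Z` is `pt x` for a unique `x ∈ C`, `x ∈ D_Z` or not (`root_of_mem`, `mem_of_root`),
and there is exactly one `r ∈ Rep` with `cp u r = Z`. -/
theorem Fin173.exists_psi (lev : st.Copy → ℕ) (v : st.Copy → G)
    (hv : ∀ Z, st.cp (v Z) (h.yN (lev Z)) = Z) (hlev : ∀ g n, lev (st.cp g (h.yN n)) = n) :
    ∃ Ψ₁ Ψ₂ : L2 st.Copy ℂ →L[ℂ] L2 G ℂ, ‖Ψ₁‖ ≤ 1 ∧ ‖Ψ₂‖ ≤ α ∧
      (∀ k u, Ψ₁ k u = if st.Near u then 0 else
        (((√(h.C (lev (st.cp u (st.home u)))).card)⁻¹ : ℝ) : ℂ) * k (st.cp u (st.home u))) ∧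
      ∀ Z u, (Ψ₁ + Ψ₂) (dl Z) u =
        if ∃ y, st.cp u y = Z then (((√(h.C (lev Z)).card)⁻¹ : ℝ) : ℂ) else 0 := by
  obtain ⟨Ψ₂, hn, he⟩ := M173b_psi₂ h st hv hlev
  have hb := M173b_sBd₁ h st hv
  refine ⟨spull (fun u => st.cp u (st.home u)) (M173b_w₁ h st lev), Ψ₂, norm_spull_le hb, hn,
    fun k u => ?_, fun Z u => ?_⟩
  · rw [spull_apply hb, M173b_w₁]
    split_ifs
    · exact zero_mul _
    · rfl
  have hne : ∀ {Z' : st.Copy}, Z' ≠ Z → dl Z Z' = 0 := fun e => sgl_ne e (1 : ℂ)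
  rw [ContinuousLinearMap.add_apply, lp.coeFn_add, Pi.add_apply, spull_apply hb, he]
  split_ifs with hy
  · obtain ⟨y, hy⟩ := hy
    obtain ⟨x, hx, e⟩ := M173b_exists_pt st (hy.trans (hv Z).symm)
    by_cases hD : x ∈ st.Dset (v Z) (h.yN (lev Z))
    · rw [M173b_w₂, if_pos ⟨x, hD, e⟩, add_eq_right]
      by_cases hu : st.Near u
      · rw [M173b_w₁, if_pos hu, zero_mul]
      · rw [hne fun e' => ?_, mul_zero]
        obtain ⟨x', hx', hD', e''⟩ := st.mem_of_root hu (e'.trans (hv Z).symm)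
        exact hD' (M173b_pt_inj st hx hx' (e.trans e''.symm) ▸ hD)
    · obtain ⟨h1, h2⟩ := st.root_of_mem hx hD
      rw [e] at h1 h2
      have h3 : st.cp u (st.home u) = Z := by
        rw [← st.cp_eqv h2, ← e, M173b_cp_pt st hx, hv]
      rw [M173b_w₁, if_neg h1, h3, show dl Z Z = 1 from sgl_self Z (1 : ℂ), mul_one, M173b_w₂,
        if_neg, add_zero]
      rintro ⟨x', hD', e'⟩
      exact hD (M173b_pt_inj st (st.Dset_subset_comp _ _ hD') hx (e'.trans e.symm) ▸ hD')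
  · rw [hne fun e' => hy ⟨_, e'⟩, mul_zero, zero_add, M173b_w₂, if_neg]
    rintro ⟨x, hD, e⟩
    exact hy ⟨x, by rw [← e, M173b_cp_pt st (st.Dset_subset_comp _ _ hD), hv]⟩

end

end Crest.Agent.R129
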