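import Crest.Agent.R129.M173a

/-!
# R129 / Main173 : finite components with a one-dimensional top eigenspace; the exact trace

Notation.  `rp Z = (v_Z, yN (lev Z))` is a germ of the copy `Z`; `D_Z = Dset`; `Ψ₁ δ_Z = 1_{Z \ D_Z}/√|C|`,
`Ψ₂ δ_Z = 1_{D_Z}/√|C|`, `Ψ = Ψ₁ + Ψ₂` is equivariant.
-/

set_option autoImplicit false
open scoped InnerProductSpace ComplexConjugate
open ContinuousLinearMap

namespace Crest.Agent.R129

section Aux
variable {H : Type} [NormedAddCommGroup H] [InnerProductSpace ℂ H]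

theorem M173c_fm_smul (T : H →L[ℂ] H) (t : ℂ) (f : H) : fm T (t • f) = ‖t‖ ^ 2 * fm T f := by
  unfold fm
  rw [map_smul, inner_smul_left, inner_smul_right, ← mul_assoc, Complex.conj_mul', ← Complex.ofReal_pow,
    Complex.re_ofReal_mul]

theorem M173c_fm_sub (T : H →L[ℂ] H) (ζ : ℝ) (f : H) :
    fm ((ζ : ℂ) • (1 : H →L[ℂ] H) - T) f = ζ * ‖f‖ ^ 2 - fm T f := by
  unfold fm
  rw [ContinuousLinearMap.sub_apply, ContinuousLinearMap.smul_apply, ContinuousLinearMap.one_apply,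
    inner_sub_right, inner_smul_right, inner_self_eq_norm_sq_to_K, Complex.sub_re]
  congr 1
  change ((ζ : ℂ) * ((‖f‖ : ℝ) : ℂ) ^ 2).re = _
  rw [← Complex.ofReal_pow, ← Complex.ofReal_mul, Complex.ofReal_re]

theorem M173c_inner_proj {ι E : Type} [NormedAddCommGroup E] [InnerProductSpace ℂ E] [CompleteSpace E]
    (A : Set ι) (f g : L2 ι E) : ⟪proj A f, g⟫_ℂ = ⟪f, proj A g⟫_ℂ := by
  have h := proj_selfAdjoint (E := E) A
  rw [← ContinuousLinearMap.adjoint_inner_right, h.adjoint_eq]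

theorem M173c_proj_proj {ι E : Type} [NormedAddCommGroup E] [InnerProductSpace ℂ E]
    (A : Set ι) (f : L2 ι E) : proj A (proj A f) = proj A f := by
  have h := congrArg (fun T : L2 ι E →L[ℂ] L2 ι E => T f) (proj_mul_self (E := E) A)
  simpa using h

end Aux

section
variable {S Y : Type} [Fintype S] {Γ : LG S Y} {sc : SC Γ} {c : S → ℂ} {ζ γ α : ℝ}
  (h : Fin173 Γ sc c ζ γ α) {y₀ : Y} {G : Type} [Group G] (st : Str Γ sc y₀ G)

omit [Fintype S] in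
theorem M173c_cp_pt {v : G} {y x : Y} (hx : x ∈ Γ.Comp y) (hD : x ∉ st.Dset v y) :
    st.cp (st.pt v y x) (st.home (st.pt v y x)) = st.cp v y := by
  have h1 := (st.root_of_mem hx hD).2
  rw [← st.cp_eqv h1]
  obtain ⟨w, hw⟩ := hx
  rw [st.pt_eq hw, st.cp_reads hw]

theorem M173c_child_zero (f : L2 G ℂ) {u : G} (hu : ¬ st.Near u) : eop st.π c st.Child f u = 0 := by
  rw [eop_apply]
  refine Finset.sum_eq_zero fun a _ => if_neg fun hc => hu ⟨linv a, ?_⟩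
  rwa [lv_linv, inv_inv, linv_linv]

open Classical in
theorem M173c_card_D (n : ℕ) (v : G) :
    (((h.C n).filter fun x => x ∈ st.Dset v (h.yN n)).card : ℝ) ≤ h.β n := by
  obtain ⟨o, ho, ho'⟩ := st.Dset_subset v (h.yN n)
  rcases ((h.C n).filter fun x => x ∈ st.Dset v (h.yN n)).eq_empty_or_nonempty with he | ⟨x, hx⟩
  · rw [he]
    exact h.ball n (h.yN n) ((h.mem_C n _).2 ⟨[], LG.Reads.nil _⟩) ∅ (by simp)
  · refine h.ball n o ((h.mem_C n _).2 (ho' ⟨x, (Finset.mem_filter.1 hx).2⟩)) _ fun z hz => ho ?_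
    exact (Finset.mem_filter.1 hz).2

theorem M173c_hasSum_fm (rp : st.Copy → G × Y) (hrp : ∀ Z, st.cp (rp Z).1 (rp Z).2 = Z) (f : L2 G ℂ) :
    HasSum (fun Z => fm (Γ.Bop c) (st.Uop rp f Z)) (fm (eop st.π c st.Far) f) := by
  have h1 : ⟪f, eop st.π c st.Far f⟫_ℂ = ⟪st.Uop rp f, st.Uop rp (eop st.π c st.Far f)⟫_ℂ := by
    rw [st.inner_Uop rp hrp, M173c_inner_proj, M173c_proj_proj, st.far_eq_proj]
  have h2 := Complex.hasSum_re (L2_hasSum_inner (st.Uop rp f) (st.Uop rp (eop st.π c st.Far f)))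
  rw [← h1] at h2
  unfold fm
  convert h2 using 2 with Z
  rw [st.Uop_far rp hrp, ← M173c_inner_proj]
  congr 2
  symm
  rw [proj_eq_self_iff]
  intro x hx
  rw [st.Uop_apply rp hrp, if_neg]
  exact fun hh => hx hh.2

omit [Fintype S] in
theorem M173c_hasSum_norm (rp : st.Copy → G × Y) (hrp : ∀ Z, st.cp (rp Z).1 (rp Z).2 = Z) (f : L2 G ℂ) :
    HasSum (fun Z => ‖st.Uop rp f Z‖ ^ 2) (‖proj {u | ¬ st.Near u} f‖ ^ 2) := by
  have h1 := st.inner_Uop rp hrp f f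
  rw [inner_self_eq_norm_sq_to_K, inner_self_eq_norm_sq_to_K] at h1
  have h2 : ‖st.Uop rp f‖ ^ 2 = ‖proj {u | ¬ st.Near u} f‖ ^ 2 := by exact_mod_cast h1
  rw [← h2]
  exact L2_hasSum_norm _

open Classical in
/-- form bounds for `J = eop Far` in terms of `Ψ₁` (through `Uop`, with `rp Z = (v Z, yN (lev Z))`):
`(Ψ₁* f) Z = ∑_{x ∈ C} (U f Z) x / √|C|`, `U (Ψ₁ k) Z = k Z · 1_{C \ D}/√|C|`. -/
theorem Fin173.forms (hc : ∀ s, ‖c s‖ = 1) {dt : ℕ} (hd : Γ.DegLe dt) (hγ : 0 < γ) (hγζ : γ ≤ ζ)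
    (lev : st.Copy → ℕ) (v : st.Copy → G) (hv : ∀ Z, st.cp (v Z) (h.yN (lev Z)) = Z)
    (Ψ₁ : L2 st.Copy ℂ →L[ℂ] L2 G ℂ)
    (hΨ : ∀ k u, Ψ₁ k u = if st.Near u then 0 else
        (((√(h.C (lev (st.cp u (st.home u)))).card)⁻¹ : ℝ) : ℂ) * k (st.cp u (st.home u))) :
    (∀ f, γ * ‖f‖ ^ 2 - 2 * (dt + dt ^ 2 / γ + γ) * ‖adjoint Ψ₁ f‖ ^ 2 ≤
      fm ((ζ : ℂ) • (1 : L2 G ℂ →L[ℂ] L2 G ℂ) - eop st.π c st.Far) f) ∧
    (∀ k, fm ((ζ : ℂ) • (1 : L2 G ℂ →L[ℂ] L2 G ℂ) - eop st.π c st.Far) (Ψ₁ k) ≤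
      -γ * ‖Ψ₁ k‖ ^ 2) ∧
    ‖1 - (adjoint Ψ₁).comp Ψ₁‖ ≤ 1 / 2 ∧
    (adjoint Ψ₁).comp (eop st.π c st.Child) = 0 := by
  set rp : st.Copy → G × Y := fun Z => (v Z, h.yN (lev Z)) with hrpdef
  have hrp : ∀ Z, st.cp (rp Z).1 (rp Z).2 = Z := hv
  set U := st.Uop rp with hU
  set DF : st.Copy → Finset Y :=
    fun Z => (h.C (lev Z)).filter fun x => x ∈ st.Dset (v Z) (h.yN (lev Z)) with hDF
  have hDcard : ∀ Z, ((DF Z).card : ℝ) ≤ h.β (lev Z) := fun Z => M173c_card_D h st (lev Z) (v Z)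
  have hiff : ∀ Z x, (x ∈ Γ.Comp (rp Z).2 ∧ x ∉ st.Dset (rp Z).1 (rp Z).2) ↔
      (x ∈ h.C (lev Z) ∧ x ∉ DF Z) := by
    intro Z x
    simp only [hDF, hrpdef, Finset.mem_filter, h.mem_C]
    tauto
  have hCpos : ∀ Z, (0 : ℝ) < (h.C (lev Z)).card := fun Z => by
    exact_mod_cast Finset.card_pos.2 ⟨_, (h.mem_C _ _).2 ⟨[], LG.Reads.nil _⟩⟩
  set r : st.Copy → ℝ := fun Z => (√(h.C (lev Z)).card)⁻¹ with hr
  have hr0 : ∀ Z, 0 ≤ r Z := fun Z => by positivity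
  have hr2 : ∀ Z, r Z ^ 2 = ((h.C (lev Z)).card : ℝ)⁻¹ := fun Z => by
    rw [hr, inv_pow, Real.sq_sqrt (hCpos Z).le]
  have hUz : ∀ f Z x, ¬ (x ∈ h.C (lev Z) ∧ x ∉ DF Z) → U f Z x = 0 := by
    intro f Z x hx
    rw [hU, st.Uop_apply rp hrp, if_neg (fun hh => hx ((hiff Z x).1 hh))]
  have hUΨ : ∀ k Z x, U (Ψ₁ k) Z x =
      if x ∈ h.C (lev Z) ∧ x ∉ DF Z then ((r Z : ℝ) : ℂ) * k Z else 0 := by
    intro k Z x
    by_cases hx : x ∈ h.C (lev Z) ∧ x ∉ DF Z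
    · have hx' := (hiff Z x).2 hx
      rw [if_pos hx, hU, st.Uop_apply rp hrp, if_pos hx', hΨ,
        if_neg (st.root_of_mem hx'.1 hx'.2).1, M173c_cp_pt st hx'.1 hx'.2, hrp]
    · rw [if_neg hx, hUz _ _ _ hx]
  have hPΨ : ∀ k, proj {u | ¬ st.Near u} (Ψ₁ k) = Ψ₁ k := by
    intro k
    rw [proj_eq_self_iff]
    intro u hu
    rw [hΨ, if_pos (not_not.1 hu)]
  have hadj : ∀ f Z, adjoint Ψ₁ f Z = ((r Z : ℝ) : ℂ) * ∑ x ∈ h.C (lev Z), U f Z x := by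
    intro f Z
    have e1 : adjoint Ψ₁ f Z = ⟪dl Z, adjoint Ψ₁ f⟫_ℂ := by
      rw [dl, inner_sgl_left]
      simp
    have e2 : ⟪Ψ₁ (dl Z), f⟫_ℂ = ⟪U (Ψ₁ (dl Z)), U f⟫_ℂ := by
      rw [hU, st.inner_Uop rp hrp, ← M173c_inner_proj, M173c_proj_proj, hPΨ]
    rw [e1, ContinuousLinearMap.adjoint_inner_right, e2, L2_inner_eq _ _ {Z}, Finset.sum_singleton,
      L2_inner_eq _ _ (h.C (lev Z)), Finset.mul_sum]
    · refine Finset.sum_congr rfl fun x _ => ?_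
      rw [hUΨ]
      by_cases hx : x ∈ h.C (lev Z) ∧ x ∉ DF Z
      · rw [if_pos hx, HilbG_dl_self, mul_one]
        simp [mul_comm]
      · rw [if_neg hx, hUz _ _ _ hx]
        simp
    · intro x hx
      exact hUz _ _ _ fun hh => hx hh.1
    · intro Z' hZ'
      ext x
      rw [hUΨ, HilbG_dl_ne (by simpa using hZ')]
      simp
  refine ⟨fun f => ?_, fun k => ?_, ?_, ?_⟩
  · have s1 := M173c_hasSum_norm st rp hrp f
    have s2 := M173c_hasSum_fm (c := c) st rp hrp f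
    have s3 := L2_hasSum_norm (adjoint Ψ₁ f)
    have hle := hasSum_le (fun Z => ?_)
      ((s1.mul_left γ).sub (s3.mul_left (2 * (dt + dt ^ 2 / γ + γ)))) ((s1.mul_left ζ).sub s2)
    · have hp : ‖proj {u | ¬ st.Near u} f‖ ≤ ‖f‖ :=
        ((proj _).le_opNorm f).trans (mul_le_of_le_one_left (norm_nonneg _) (norm_proj_le _))
      have hp2 := pow_le_pow_left₀ (norm_nonneg _) hp 2
      rw [M173c_fm_sub]
      nlinarith [mul_nonneg (sub_nonneg.2 hγζ) (sub_nonneg.2 hp2)]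
    · have hb := h.block_pos hc hd (hγ.le.trans hγζ) hγ (lev Z) (DF Z) (hDcard Z) (U f Z) (hUz f Z)
      have e : ‖adjoint Ψ₁ f Z‖ ^ 2 = ‖∑ x ∈ h.C (lev Z), U f Z x‖ ^ 2 / (h.C (lev Z)).card := by
        rw [hadj, norm_mul, mul_pow, Complex.norm_real, Real.norm_eq_abs, sq_abs, hr2,
          div_eq_inv_mul]
      rw [e]
      exact hb
  · have s1 := M173c_hasSum_norm st rp hrp (Ψ₁ k)
    have s2 := M173c_hasSum_fm (c := c) st rp hrp (Ψ₁ k)
    rw [hPΨ] at s1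
    have hle := hasSum_le (fun Z => ?_) (s1.mul_left (ζ + γ)) s2
    · rw [M173c_fm_sub]
      linarith
    · obtain ⟨e, he⟩ := L2_of_finite (fun x => if x ∈ h.C (lev Z) ∧ x ∉ DF Z then (1 : ℂ) else 0)
        (h.C (lev Z)) fun x hx => if_neg fun hh => hx hh.1
      have hl := h.lower (lev Z) (DF Z) (hDcard Z) e fun x => by
        rw [he]
      have e1 : U (Ψ₁ k) Z = (((r Z : ℝ) : ℂ) * k Z) • e := by
        ext x
        rw [hUΨ, lp.coeFn_smul, Pi.smul_apply, he]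
        split_ifs <;> simp
      change (ζ + γ) * ‖U (Ψ₁ k) Z‖ ^ 2 ≤ fm (Γ.Bop c) (U (Ψ₁ k) Z)
      rw [e1, M173c_fm_smul, norm_smul, mul_pow]
      nlinarith [mul_le_mul_of_nonneg_left hl (sq_nonneg ‖((r Z : ℝ) : ℂ) * k Z‖)]
  · refine ContinuousLinearMap.opNorm_le_bound _ (by norm_num) fun k => ?_
    have hZ : ∀ Z, ‖(1 - (adjoint Ψ₁).comp Ψ₁) k Z‖ ^ 2 ≤ (1 / 2) ^ 2 * ‖k Z‖ ^ 2 := by
      intro Z
      have hsub : DF Z ⊆ h.C (lev Z) := Finset.filter_subset _ _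
      have e0 : ∑ x ∈ h.C (lev Z), U (Ψ₁ k) Z x =
          ((((h.C (lev Z)).card : ℝ) - (DF Z).card : ℝ) : ℂ) * (((r Z : ℝ) : ℂ) * k Z) := by
        rw [← Finset.sum_sdiff hsub]
        have a1 : ∑ x ∈ DF Z, U (Ψ₁ k) Z x = 0 :=
          Finset.sum_eq_zero fun x hx => hUz _ _ _ fun hh => hh.2 hx
        have a2 : ∑ x ∈ h.C (lev Z) \ DF Z, U (Ψ₁ k) Z x =
            ∑ _x ∈ h.C (lev Z) \ DF Z, ((r Z : ℝ) : ℂ) * k Z :=
          Finset.sum_congr rfl fun x hx => by rw [hUΨ, if_pos (Finset.mem_sdiff.1 hx)]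
        rw [a1, a2, add_zero, Finset.sum_const, Finset.card_sdiff_of_subset hsub, nsmul_eq_mul,
          Nat.cast_sub (Finset.card_le_card hsub)]
        push_cast
        ring
      have e1 : (1 - (adjoint Ψ₁).comp Ψ₁) k Z =
          ((((DF Z).card : ℝ) / (h.C (lev Z)).card : ℝ) : ℂ) * k Z := by
        rw [ContinuousLinearMap.sub_apply, ContinuousLinearMap.one_apply,
          ContinuousLinearMap.comp_apply, lp.coeFn_sub, Pi.sub_apply, hadj, e0]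
        have e2 : ((DF Z).card : ℝ) / (h.C (lev Z)).card =
            1 - r Z * ((((h.C (lev Z)).card : ℝ) - (DF Z).card) * r Z) := by
          have e3 : r Z * ((((h.C (lev Z)).card : ℝ) - (DF Z).card) * r Z) =
              (((h.C (lev Z)).card : ℝ) - (DF Z).card) * r Z ^ 2 := by ring
          have := (hCpos Z).ne'
          rw [e3, hr2]
          field_simp
          ring
        rw [e2]
        push_cast
        ring
      rw [e1, ← mul_pow]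
      refine pow_le_pow_left₀ (norm_nonneg _) ?_ 2
      rw [norm_mul, Complex.norm_real, Real.norm_eq_abs, abs_of_nonneg (by positivity)]
      refine mul_le_mul_of_nonneg_right ?_ (norm_nonneg _)
      rw [div_le_iff₀ (hCpos Z)]
      linarith [hDcard Z, h.half (lev Z)]
    have hle := hasSum_le hZ (L2_hasSum_norm _) ((L2_hasSum_norm k).mul_left ((1 / 2) ^ 2))
    rw [← mul_pow] at hle
    exact (pow_le_pow_iff_left₀ (norm_nonneg _) (by positivity) two_ne_zero).1 hle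
  · ext f Z
    rw [ContinuousLinearMap.comp_apply, hadj]
    have : ∑ x ∈ h.C (lev Z), U (eop st.π c st.Child f) Z x = 0 := by
      refine Finset.sum_eq_zero fun x _ => ?_
      rw [hU, st.Uop_apply rp hrp]
      split_ifs with hx
      · exact M173c_child_zero st f (st.root_of_mem hx.1 hx.2).1
      · rfl
    rw [this]
    simp

end

end Crest.Agent.R129
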