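import Crest.Agent.R129.Forest

/-!
# R129 / Main173 : finite components with a one-dimensional top eigenspace; the exact trace

Notation.  `rp Z = (v_Z, yN (lev Z))` is a germ of the copy `Z`; `D_Z = Dset`; `Ψ₁ δ_Z = 1_{Z \ D_Z}/√|C|`,
`Ψ₂ δ_Z = 1_{D_Z}/√|C|`, `Ψ = Ψ₁ + Ψ₂` is equivariant.
-/

set_option autoImplicit false
open scoped InnerProductSpace ComplexConjugate
open ContinuousLinearMap

namespace Crest.Agent.R129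

/-- abstract part: `V = X⁻¹ Ψ₁`, `Ψ* V = Ψ₁*Ψ₁ + Ψ₂* X⁻¹ Ψ₁` is invertible (distance `≤ 3/4` from `1`),
`fm_factor` gives negativity on the range of `V` and positivity on `ker Ψ*`, with constant `γ/64`. -/
theorem Forest.indef {H H' : Type} [NormedAddCommGroup H] [InnerProductSpace ℂ H] [CompleteSpace H]
    [NormedAddCommGroup H'] [InnerProductSpace ℂ H'] [CompleteSpace H'] {T : H →L[ℂ] H} {κ dt : ℝ}
    (F : Forest T κ dt) {ζ γ α M : ℝ} (hζ : 0 < ζ) (hdt : 0 ≤ dt) (hκ : κ ≤ 9 / 16 * ζ ^ 2)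
    (hγ : 0 < γ) (herr : 64 * Forest.err dt ζ ≤ γ) (hα : α ≤ 1 / 16) (hM : 0 ≤ M)
    (hMα : 32 * M * α ^ 2 ≤ γ) (Ψ₁ Ψ₂ : H' →L[ℂ] H) (h₁ : ‖Ψ₁‖ ≤ 1) (h₂ : ‖Ψ₂‖ ≤ α)
    (hpos : ∀ f, γ * ‖f‖ ^ 2 - M * ‖adjoint Ψ₁ f‖ ^ 2 ≤ fm ((ζ : ℂ) • (1 : H →L[ℂ] H) - F.J) f)
    (hneg : ∀ k, fm ((ζ : ℂ) • (1 : H →L[ℂ] H) - F.J) (Ψ₁ k) ≤ -γ * ‖Ψ₁ k‖ ^ 2)
    (hid : ‖1 - (adjoint Ψ₁).comp Ψ₁‖ ≤ 1 / 2) (hS : (adjoint Ψ₁).comp F.S = 0) :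
    ∃ V : H' →L[ℂ] H, IsUnit ((adjoint (Ψ₁ + Ψ₂)).comp V) ∧
      (∀ k, fm (((ζ + κ / ζ : ℝ) : ℂ) • (1 : H →L[ℂ] H) - T) (V k) ≤ -(γ / 64) * ‖V k‖ ^ 2) ∧
      ∀ k, adjoint (Ψ₁ + Ψ₂) k = 0 →
        γ / 64 * ‖k‖ ^ 2 ≤ fm (((ζ + κ / ζ : ℝ) : ℂ) • (1 : H →L[ℂ] H) - T) k := by
  obtain ⟨U, hU⟩ := F.X_isUnit hζ hκ
  have hXi : ∀ x, F.X ζ ((↑U⁻¹ : H →L[ℂ] H) x) = x := fun x => by
    rw [← hU, ← mul_apply_eq_comp, U.mul_inv, one_apply_eq_self]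
  have hlow := F.X_lower hζ hκ
  have hα0 := (norm_nonneg _).trans h₂
  have hSX : ∀ x, adjoint Ψ₁ (F.X ζ x) = adjoint Ψ₁ x := fun x => by
    have : adjoint Ψ₁ (F.S x) = 0 := congrArg (fun A : H →L[ℂ] H' => A x) hS
    simp only [Forest.X, sub_apply, one_apply_eq_self, smul_apply, map_sub, map_smul, this,
      smul_zero, sub_zero]
  have hΨ₂ : ∀ x, ‖adjoint Ψ₂ x‖ ≤ α * ‖x‖ := fun x =>
    ((adjoint Ψ₂).le_opNorm x).trans (mul_le_mul_of_nonneg_right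
      (by rwa [LinearIsometryEquiv.norm_map]) (norm_nonneg _))
  have hsq : ∀ x, ‖x‖ ^ 2 ≤ 16 * ‖F.X ζ x‖ ^ 2 := fun x => by
    have := pow_le_pow_left₀ (norm_nonneg _) (hlow x) 2
    linarith
  have herr' : ∀ x : H, Forest.err dt ζ * ‖x‖ ^ 2 ≤ γ / 64 * ‖x‖ ^ 2 := fun x =>
    mul_le_mul_of_nonneg_right (by linarith) (sq_nonneg _)
  refine ⟨(↑U⁻¹ : H →L[ℂ] H).comp Ψ₁, ?_, fun k => ?_, fun k hk => ?_⟩
  · have h3 : ‖1 - (adjoint (Ψ₁ + Ψ₂)).comp ((↑U⁻¹ : H →L[ℂ] H).comp Ψ₁)‖ ≤ 3 / 4 := by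
      refine opNorm_le_bound _ (by norm_num) fun k => ?_
      have e : (1 - (adjoint (Ψ₁ + Ψ₂)).comp ((↑U⁻¹ : H →L[ℂ] H).comp Ψ₁)) k =
          (1 - (adjoint Ψ₁).comp Ψ₁) k - adjoint Ψ₂ ((↑U⁻¹ : H →L[ℂ] H) (Ψ₁ k)) := by
        simp only [sub_apply, one_apply_eq_self, comp_apply, map_add, add_apply]
        rw [← hSX ((↑U⁻¹ : H →L[ℂ] H) (Ψ₁ k)), hXi]
        abel
      have g1 := ((1 - (adjoint Ψ₁).comp Ψ₁).le_opNorm k).trans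
        (mul_le_mul_of_nonneg_right hid (norm_nonneg _))
      have g2 := hlow ((↑U⁻¹ : H →L[ℂ] H) (Ψ₁ k))
      rw [hXi] at g2
      have g3 := (Ψ₁.le_opNorm k).trans (mul_le_mul_of_nonneg_right h₁ (norm_nonneg _))
      have g4 := (hΨ₂ ((↑U⁻¹ : H →L[ℂ] H) (Ψ₁ k))).trans
        (mul_le_mul_of_nonneg_right hα (norm_nonneg _))
      rw [e]
      refine (norm_sub_le _ _).trans ?_
      linarith
    have := isUnit_one_sub_of_norm_lt_one (h3.trans_lt (by norm_num))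
    rwa [sub_sub_cancel] at this
  · have g1 := (abs_le.1 (F.fm_factor hζ hdt (((↑U⁻¹ : H →L[ℂ] H).comp Ψ₁) k))).2
    have g2 := hsq (((↑U⁻¹ : H →L[ℂ] H).comp Ψ₁) k)
    have g3 := herr' (((↑U⁻¹ : H →L[ℂ] H).comp Ψ₁) k)
    have g4 := hneg k
    have e : F.X ζ (((↑U⁻¹ : H →L[ℂ] H).comp Ψ₁) k) = Ψ₁ k := hXi _
    rw [e] at g1 g2
    have g5 := mul_le_mul_of_nonneg_left g2 hγ.le
    have g6 := mul_nonneg hγ.le (sq_nonneg ‖((↑U⁻¹ : H →L[ℂ] H).comp Ψ₁) k‖)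
    linarith
  · have g1 := (abs_le.1 (F.fm_factor hζ hdt k)).1
    have g2 := mul_le_mul_of_nonneg_left (hsq k) hγ.le
    have g3 := herr' k
    have g4 := hpos (F.X ζ k)
    rw [hSX] at g4
    have e : adjoint Ψ₁ k = -adjoint Ψ₂ k := by
      rw [map_add, add_apply] at hk
      exact eq_neg_of_add_eq_zero_left hk
    rw [e, norm_neg] at g4
    have g5 := mul_le_mul_of_nonneg_left (pow_le_pow_left₀ (norm_nonneg _) (hΨ₂ k) 2) hM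
    have g6 := mul_le_mul_of_nonneg_right hMα (sq_nonneg ‖k‖)
    rw [mul_pow] at g5
    linarith

end Crest.Agent.R129
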