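import Crest.Agent.R129.Hilb

/-!
# R129 / Trace : the trace formula
-/

set_option autoImplicit false
open scoped InnerProductSpace ComplexConjugate
open ContinuousLinearMap

namespace Crest.Agent.R129

theorem tr_hasSum_entry {ι κ : Type} (T : L2 ι ℂ →L[ℂ] L2 κ ℂ) (f : L2 ι ℂ) (k : κ) :
    HasSum (fun i => T (dl i) k * f i) (T f k) := by
  classical
  have h1 : HasSum (fun i => (sgl i (f i) : L2 ι ℂ)) f := lp.hasSum_single (by simp) f
  have h2 := ((ev k).comp T).hasSum h1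
  have h3 : (fun i => T (dl i) k * f i) = fun i => (ev k).comp T (sgl i (f i)) := by
    funext i
    have : (sgl i (f i) : L2 ι ℂ) = f i • dl i := by
      rw [dl, ← map_smul, smul_eq_mul, mul_one]
    rw [this, map_smul, smul_eq_mul, mul_comm]
    rfl
  rw [h3]
  exact h2

theorem tr_fibre {G W : Type} (π : G → W) (F : W → ℂ) (a : ℕ) (ha : 0 < a)
    (hπ : ∀ w, Nat.card {g // π g = w} = a) (h1 : HasSum (fun g => F (π g)) 1) :
    HasSum F (1 / a) := by
  have h2 : HasSum (fun p : Σ w, {g // π g = w} => F (π p.2)) 1 :=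
    (Equiv.sigmaFiberEquiv π).hasSum_iff.2 h1
  have h3 : HasSum (fun w => (a : ℂ) * F w) 1 := by
    refine h2.sigma fun w => ?_
    have : Finite {g // π g = w} := Nat.finite_of_card_ne_zero (by rw [hπ]; exact ha.ne')
    have := Fintype.ofFinite {g // π g = w}
    have h4 := hasSum_fintype (fun g : {g // π g = w} => F (π g))
    convert h4 using 1
    rw [Finset.sum_congr rfl (g := fun _ => F w) (fun g _ => by rw [g.2]), Finset.sum_const,
      Finset.card_univ, ← Nat.card_eq_fintype_card, hπ, nsmul_eq_mul]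
  have ha' : (a : ℂ) ≠ 0 := by exact_mod_cast ha.ne'
  have h5 := h3.div_const a
  have h6 : F = fun w => (a : ℂ) * F w / a := by
    funext w
    field_simp
  rw [h6]
  exact h5

/-- **Mass transport / trace formula.**  `Φ z v = ⟪δ_v, A δ_z⟫ ⟪δ_z, B δ_v⟫` is invariant, `∑_v Φ z v = 1`,
`∑_z Φ z 1 = ⟪δ_1, A B δ_1⟫` (absolutely summable by Cauchy–Schwarz: `z ↦ ⟪δ_1, A δ_z⟫` and `B δ_1` are in `ℓ²`).
Sum over `z` in the fibres of `lev` (`HasSum.sigma`), and on one fibre compare with the sum over `g` of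
`Φ (act g z₀) 1 = Φ z₀ g⁻¹`, the map `g ↦ act g z₀` having fibres of cardinality `a n` (right cosets of the
stabiliser). -/
theorem trace_formula {G Z : Type} [Group G] (act : G → Z → Z) (hone : ∀ z, act 1 z = z)
    (hmul : ∀ g h z, act (g * h) z = act h (act g z)) (lev : Z → ℕ) (z₀ : ℕ → Z) (a : ℕ → ℕ)
    (hlev : ∀ g n, lev (act g (z₀ n)) = n) (hsurj : ∀ z, ∃ g, z = act g (z₀ (lev z)))
    (hstab : ∀ n, Nat.card {g // act g (z₀ n) = z₀ n} = a n) (ha : ∀ n, 0 < a n)
    (A : L2 Z ℂ →L[ℂ] L2 G ℂ) (B : L2 G ℂ →L[ℂ] L2 Z ℂ)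
    (hA : ∀ g z v, A (dl (act g z)) (v * g) = A (dl z) v)
    (hB : ∀ g z v, B (dl (v * g)) (act g z) = B (dl v) z) (hBA : B.comp A = 1) :
    HasSum (fun n => (1 : ℝ) / a n) (⟪dl (1 : G), A (B (dl 1))⟫_ℂ).re := by
  obtain ⟨F, hF⟩ : ∃ F : Z → ℂ, F = fun z => A (dl z) 1 * B (dl 1) z := ⟨_, rfl⟩
  have hS : HasSum F (A (B (dl 1)) 1) := hF ▸ tr_hasSum_entry A (B (dl 1)) 1
  have hrow : ∀ z, HasSum (fun g => F (act g z)) 1 := by
    intro z
    have h1 := tr_hasSum_entry B (A (dl z)) z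
    have h2 : B (A (dl z)) z = 1 := by
      rw [← ContinuousLinearMap.comp_apply, hBA]
      exact sgl_self z 1
    rw [h2] at h1
    have h3 := (Equiv.inv G).hasSum_iff.2 h1
    have h4 : (fun g => F (act g z)) = (fun i => B (dl i) z * A (dl z) i) ∘ (Equiv.inv G) := by
      funext g
      simp only [hF, Function.comp_apply, Equiv.inv_apply]
      rw [← hA g z g⁻¹, ← hB g z g⁻¹, inv_mul_cancel, mul_comm]
    rw [h4]
    exact h3
  have hfib : ∀ n, HasSum (fun z : {z // lev z = n} => F z) (1 / (a n : ℂ)) := by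
    intro n
    refine tr_fibre (fun g => (⟨act g (z₀ n), hlev g n⟩ : {z // lev z = n})) _ (a n) (ha n)
      ?_ (hrow (z₀ n))
    rintro ⟨z, hz⟩
    obtain ⟨g₀, hg₀⟩ := hsurj z
    rw [hz] at hg₀
    rw [← hstab n]
    refine Nat.card_congr
      { toFun := fun g => ⟨g.1 * g₀⁻¹, ?_⟩
        invFun := fun h => ⟨h.1 * g₀, ?_⟩
        left_inv := fun g => Subtype.ext (by simp)
        right_inv := fun h => Subtype.ext (by simp) }
    · have : act g.1 (z₀ n) = z := congrArg Subtype.val g.2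
      rw [hmul, this, hg₀, ← hmul, mul_inv_cancel, hone]
    · apply Subtype.ext
      show act (h.1 * g₀) (z₀ n) = z
      rw [hmul, h.2, hg₀]
  have h2 : HasSum (fun p : Σ n, {z // lev z = n} => F p.2) (A (B (dl 1)) 1) :=
    (Equiv.sigmaFiberEquiv lev).hasSum_iff.2 hS
  have h3 := Complex.hasSum_re (h2.sigma hfib)
  have h4 : ⟪dl (1 : G), A (B (dl 1))⟫_ℂ = A (B (dl 1)) 1 := by
    rw [dl, inner_sgl_left]
    simp
  rw [h4]
  have h5 : (fun n => (1 : ℝ) / a n) = fun n => (1 / (a n : ℂ)).re := by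
    funext n
    rw [← Complex.ofReal_natCast, ← Complex.ofReal_one, ← Complex.ofReal_div, Complex.ofReal_re]
  rw [h5]
  exact h3

end Crest.Agent.R129
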