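import Crest.Agent.R129.Main174
import Crest.Agent.R129.Trace
import Crest.Agent.R129.M173b
import Crest.Agent.R129.M173c
import Crest.Agent.R129.M173d

/-!
# R129 / Main173 : finite components with a one-dimensional top eigenspace; the exact trace

Notation.  `rp Z = (v_Z, yN (lev Z))` is a germ of the copy `Z`; `D_Z = Dset`; `Ψ₁ δ_Z = 1_{Z \ D_Z}/√|C|`,
`Ψ₂ δ_Z = 1_{D_Z}/√|C|`, `Ψ = Ψ₁ + Ψ₂` is equivariant.
-/

set_option autoImplicit false
open scoped InnerProductSpace ComplexConjugate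
open ContinuousLinearMap

namespace Crest.Agent.R129

theorem m173_sBd {ι ι' : Type} {σ : ι' → ι} {τ : ι → ι'} (h : ∀ x, τ (σ x) = x) :
    SBd σ (fun _ => (1 : ℂ)) 1 :=
  sBd_of_injOn zero_le_one (fun _ => by simp) fun x y _ _ hxy => by rw [← h x, hxy, h y]

theorem m173_adj {ι ι' : Type} {σ : ι' → ι} {τ : ι → ι'} (h : ∀ x, τ (σ x) = x)
    (h' : ∀ x, σ (τ x) = x) : adjoint (spull σ fun _ => 1) = spull τ fun _ => 1 := by
  refine adjoint_eq_of_entries _ _ fun i j v w => ?_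
  rw [spull_apply (m173_sBd h), spull_apply (m173_sBd h'), one_mul, one_mul]
  by_cases hij : σ j = i
  · subst hij
    rw [h, sgl_self, sgl_self]
  · rw [sgl_ne hij, sgl_ne fun h1 => hij (by rw [← h1, h']), inner_zero_right, inner_zero_left]

theorem m173_dl {ι ι' : Type} {σ : ι' → ι} {τ : ι → ι'} (h : ∀ x, τ (σ x) = x)
    (h' : ∀ x, σ (τ x) = x) (i : ι) : spull σ (fun _ => 1) (dl i) = dl (τ i) := by
  refine lp.ext (funext fun j => ?_)
  rw [spull_apply (m173_sBd h), one_mul, dl, dl]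
  by_cases hij : σ j = i
  · subst hij
    rw [h, sgl_self, sgl_self]
  · rw [sgl_ne hij, sgl_ne fun h1 => hij (by rw [h1, h'])]

theorem m173_ext {ι H : Type} [NormedAddCommGroup H] [InnerProductSpace ℂ H]
    {T T' : L2 ι ℂ →L[ℂ] H} (h : ∀ i, T (dl i) = T' (dl i)) : T = T' := by
  refine L2_hom_ext fun i v => ?_
  have : (sgl i v : L2 ι ℂ) = v • dl i := by rw [dl, ← map_smul, smul_eq_mul, mul_one]
  rw [this, map_smul, map_smul, h]

theorem m173_main {S Y : Type} [Fintype S] {Γ : LG S Y} {sc : SC Γ} {y₀ : Y} {G : Type} [Group G]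
    (st : Str Γ sc y₀ G) (c : S → ℂ) (hc : ∀ s, ‖c s‖ = 1) (dt : ℕ)
    (hd : Γ.DegLe dt) (ζ γ α : ℝ) (hγ : 0 < γ) (hγζ : γ ≤ ζ)
    (hκ : 2 * (Fintype.card S : ℝ) ≤ 9 / 16 * ζ ^ 2) (herr : 64 * Forest.err dt ζ ≤ γ)
    (hα : α ≤ 1 / 16) (hMα : 64 * (dt + dt ^ 2 / γ + γ) * α ^ 2 ≤ γ)
    (h : Fin173 Γ sc c ζ γ α) : Goal173 h.a := by
  classical
  obtain ⟨lev, v, hv, hlev⟩ := h.exists_rp st
  obtain ⟨Ψ₁, Ψ₂, h1, h2, hΨ₁, hΨ⟩ := h.exists_psi st lev v hv hlev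
  obtain ⟨hpos, hneg, hid, hS⟩ := h.forms st hc hd hγ hγζ lev v hv Ψ₁ hΨ₁
  obtain ⟨F, hFS, hFJ⟩ := st.exists_forest hc hd
  rw [← hFJ] at hpos hneg
  rw [← hFS] at hS
  obtain ⟨V, hV, hV1, hV2⟩ := F.indef (hγ.trans_le hγζ) (Nat.cast_nonneg dt) hκ hγ herr hα
    (M := 2 * (dt + dt ^ 2 / γ + γ)) (by positivity) (by linarith) Ψ₁ Ψ₂ h1 h2 hpos hneg hid hS
  set Ψ := Ψ₁ + Ψ₂
  set z : ℝ := ζ + 2 * Fintype.card S / ζ
  have hsa : IsSelfAdjoint ((z : ℂ) • (1 : L2 G ℂ →L[ℂ] L2 G ℂ) - Top st.π c) :=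
    (IsSelfAdjoint.smul (Complex.conj_ofReal z) (IsSelfAdjoint.one _)).sub (Top_selfAdjoint _ _)
  have hγ' : 0 < γ / 64 := by positivity
  have hu := isUnit_of_indef hsa V (adjoint Ψ) hV hγ' hV1 hV2
  obtain ⟨e, he⟩ := exists_negProj hsa hu
  obtain ⟨N, hN1, hN2, hN3⟩ := he.exists_inverse hsa hu V (adjoint Ψ) hV hγ' hV1 hV2
  obtain ⟨A, hA1, hA2, hA3, hA4⟩ := exists_cstar_subalgebra G
  have heA : e ∈ A := he.mem A hA1 (sub_mem (A.smul_mem (one_mem A) _)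
    (sum_mem fun a _ => A.smul_mem (hA3 _) _))
  have hi1 : ∀ g Z, st.act g⁻¹ (st.act g Z) = Z := fun g Z => by
    rw [← st.act_mul, mul_inv_cancel, st.act_one]
  have hi2 : ∀ g Z, st.act g (st.act g⁻¹ Z) = Z := fun g Z => by
    rw [← st.act_mul, inv_mul_cancel, st.act_one]
  have hl : ∀ g Z, lev (st.act g Z) = lev Z := fun g Z => by
    conv_lhs => rw [← hv Z, st.act_cp, hlev]
  let R : G → L2 st.Copy ℂ →L[ℂ] L2 st.Copy ℂ := fun g => spull (st.act g) fun _ => 1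
  have hR : ∀ g Z, R g (dl Z) = dl (st.act g⁻¹ Z) := fun g Z => m173_dl (hi1 g) (hi2 g) Z
  have hR' : ∀ g k Z, R g k Z = k (st.act g Z) := fun g k Z => by
    rw [spull_apply (m173_sBd (hi1 g)), one_mul]
  have e1 : ∀ g, Ψ.comp (R g) = (rt g).comp Ψ := fun g => m173_ext fun Z => by
    refine lp.ext (funext fun u => ?_)
    rw [comp_apply, comp_apply, hR, rt_apply, hΨ, hΨ, hl]
    refine if_congr (exists_congr fun y => ?_) rfl rfl
    rw [← st.act_cp]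
    exact ⟨fun h3 => by rw [h3, hi2], fun h3 => by rw [← h3, hi1]⟩
  have e2 : ∀ g f, adjoint Ψ (rt g f) = R g (adjoint Ψ f) := fun g f => by
    have h3 := congrArg adjoint (e1 g⁻¹)
    have h4 : adjoint (R g⁻¹) = R g := m173_adj (hi2 g) (hi1 g)
    have h5 : adjoint (rt g⁻¹) = rt g :=
      m173_adj (fun x => inv_mul_cancel_right x g) fun x => mul_inv_cancel_right x g
    rw [adjoint_comp, adjoint_comp, h4, h5] at h3
    exact (DFunLike.congr_fun h3 f).symm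
  have e3 : ∀ g f, e (rt g f) = rt g (e f) := fun g f => DFunLike.congr_fun (hA4 e heA g) f
  have e4 : ∀ k, e (N k) = N k := fun k => DFunLike.congr_fun hN1 k
  have e5 : ∀ k, adjoint Ψ (N k) = k := fun k => DFunLike.congr_fun hN2 k
  have e6 : ∀ f, N (adjoint Ψ (e f)) = e f := fun f => DFunLike.congr_fun hN3 f
  have e7 : ∀ g k, rt g (N k) = N (R g k) := fun g k => by
    have h3 := e6 (rt g (N k))
    rw [e3, e4, e2, e5] at h3
    exact h3.symm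
  have key := trace_formula st.act st.act_one st.act_mul lev (fun n => st.cp 1 (h.yN n)) h.a
    (fun g n => hlev _ n) (fun Z => ⟨v Z, by rw [st.act_cp, one_mul, hv]⟩) (h.card_stab st)
    h.a_pos N ((adjoint Ψ).comp e)
    (fun g Z u => by rw [← rt_apply, e7, hR, hi1])
    (fun g Z u => by
      rw [comp_apply, comp_apply, ← hR', ← e2, ← e3, rt_dl, mul_inv_cancel_right])
    (ContinuousLinearMap.ext fun k => by rw [comp_apply, comp_apply, e4, e5]; rfl)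
  rw [comp_apply, e6] at key
  refine ⟨G, inferInstance, Group.fg_of_surjective st.surj, e, hA2 ▸ heA, he.idem, he.sa, ?_⟩
  rwa [Crest.OperatorAlgebra.canonicalTrace, deltaOne_eq]

/-- `exists_Str` with `y₀ = yN 0`; `Forest.indef`, `isUnit_of_indef`, `exists_negProj`, `exists_inverse` give `N`;
`trace_formula` with `A = N`, `B = Ψ* e`.  Equivariance: with `R g = spull (act g) 1` on `ℓ²(Copy)` one has
`Ψ ∘ R g = rt g ∘ Ψ` (entries), hence the same for `Ψ*` (adjoints of `R g`, `rt g` are `R g⁻¹`, `rt g⁻¹`), `e` commutes with `rt g`, and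
`rt g ∘ N = N Ψ* e rt g N = N ∘ R g`. -/
theorem main173' {S Y : Type} [Fintype S] (Γ : LG S Y) (sc : SC Γ)
    (hall : ∀ s, ∃ x y, Γ.E x (s, true) y) (c : S → ℂ) (hc : ∀ s, ‖c s‖ = 1) (dt : ℕ)
    (hd : Γ.DegLe dt) (ζ γ α : ℝ) (hγ : 0 < γ) (hγζ : γ ≤ ζ)
    (hκ : 2 * (Fintype.card S : ℝ) ≤ 9 / 16 * ζ ^ 2) (herr : 64 * Forest.err dt ζ ≤ γ)
    (hα : α ≤ 1 / 16) (hMα : 64 * (dt + dt ^ 2 / γ + γ) * α ^ 2 ≤ γ)
    (h : Fin173 Γ sc c ζ γ α) : Goal173 h.a := by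
  obtain ⟨st⟩ := exists_Str Γ sc (h.yN 0) hall
  exact m173_main st c hc dt hd ζ γ α hγ hγζ hκ herr hα hMα h

end Crest.Agent.R129
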