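import Crest.Agent.R129.St4

/-!
# R129 / St5 : old parts, ranks, the structure theorem
-/

set_option autoImplicit false
open FreeGroup

namespace Crest.Agent.R129
variable {S Y : Type} (Γ : LG S Y) (sc : SC Γ) (y₀ : Y)

section St5Aux
open Stage

theorem s5_reads_lim {g : ℕ} {u u' : Tm Y} {w : List (S × Bool)}
    (h : (stg Γ sc y₀ g).1.K.Reads u w u') : (lim Γ sc y₀).K.Reads u w u' :=
  (lim_reads_iff Γ sc y₀).2 ⟨g, h⟩

theorem s5_com_lim {g : ℕ} {u u' : Tm Y} {y x : Y}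
    (h : (stg Γ sc y₀ g).1.Com Γ u y u' x) : (lim Γ sc y₀).Com Γ u y u' x := by
  obtain ⟨w, h1, h2⟩ := h
  exact ⟨w, s5_reads_lim Γ sc y₀ h1, h2⟩

theorem s5_mem_tag {u : Tm Y} (hu : u ∈ (lim Γ sc y₀).V) : u ∈ (stg Γ sc y₀ u.tag).1.V :=
  (mem_stg_iff Γ sc y₀ hu _).2 le_rfl

theorem s5_reads_mem {u u' : Tm Y} {w : List (S × Bool)} (hu : u ∈ (lim Γ sc y₀).V)
    (h : (lim Γ sc y₀).K.Reads u w u') : u' ∈ (lim Γ sc y₀).V := by
  induction h with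
  | nil _ => exact hu
  | cons _ he _ ih =>
    apply ih
    obtain ⟨g, hg⟩ := he
    exact ⟨g, (stg Γ sc y₀ g).2.mem ((stg Γ sc y₀ g).1.K.symm hg)⟩

theorem s5_com_mem {u u' : Tm Y} {y x : Y} (hu : u ∈ (lim Γ sc y₀).V)
    (h : (lim Γ sc y₀).Com Γ u y u' x) : u' ∈ (lim Γ sc y₀).V := by
  obtain ⟨w, h1, -⟩ := h
  exact s5_reads_mem Γ sc y₀ hu h1

theorem s5_com_unique {u u₁ u₂ : Tm Y} {y x : Y} (hu : u ∈ (lim Γ sc y₀).V)
    (h₁ : (lim Γ sc y₀).Com Γ u y u₁ x) (h₂ : (lim Γ sc y₀).Com Γ u y u₂ x) : u₁ = u₂ := by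
  obtain ⟨w, hw1, hw2⟩ := Com.trans (Com.symm h₁) h₂
  exact ((lim_full_iff Γ sc y₀ (s5_com_mem Γ sc y₀ hu h₁) hw2 hw1).1 rfl).symm

/-- a copy that is full at stage `g` lies in stage `g`. -/
theorem s5_com_of_full {g : ℕ} {u u' : Tm Y} {y x : Y} (hf : (stg Γ sc y₀ g).1.Full Γ u y)
    (h : (lim Γ sc y₀).Com Γ u y u' x) : (stg Γ sc y₀ g).1.Com Γ u y u' x := by
  obtain ⟨w, h1, h2⟩ := h
  obtain ⟨u'', h3⟩ := hf w x h2
  have := LG.Reads.unique h1 (s5_reads_lim Γ sc y₀ h3)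
  subst this
  exact ⟨w, h3, h2⟩

theorem s5_stg_com_mem {g : ℕ} {u u' : Tm Y} {y x : Y} (hu : u ∈ (stg Γ sc y₀ g).1.V)
    (h : (stg Γ sc y₀ g).1.Com Γ u y u' x) : u' ∈ (stg Γ sc y₀ g).1.V := by
  obtain ⟨w, h1, -⟩ := h
  exact (stg Γ sc y₀ g).2.reads_mem hu h1

/-- a new vertex of the next stage is the position of its own name. -/
theorem s5_new {P : Stage S Y} {g : ℕ} (hP : P.Inv Γ sc y₀ g) {u : Tm Y} (hu : u ∈ hP.next.V)
    (hn : u ∉ P.V) :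
    ∃ v' y' x', u = .node g v' y' x' ∧ P.Valid Γ (v', y', x') ∧
      P.pos Γ sc g v' y' x' = u ∧
      ∀ v'' y'' x'', P.Valid Γ (v'', y'', x'') → P.pos Γ sc g v'' y'' x'' = u →
        P.cl Γ sc (v', y') ≤ P.cl Γ sc (v'', y'') := by
  rcases hu with hu | ⟨v, y, x, hv, rfl⟩
  · exact absurd hu hn
  · obtain ⟨v', y', x', h1, h2, h3, h4⟩ := hP.new_vertex hv hn
    refine ⟨v', y', x', h1, h2, h3.trans h1.symm, fun v'' y'' x'' h5 h6 => h4 v'' y'' x'' h5 ?_⟩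
    rw [h6, h1]

theorem s5_name {g : ℕ} {v : Tm Y} {y x : Y} (hu : Tm.node g v y x ∈ (lim Γ sc y₀).V) :
    (stg Γ sc y₀ g).1.Valid Γ (v, y, x) ∧
      (stg Γ sc y₀ g).1.pos Γ sc g v y x = .node g v y x ∧
      ∀ v'' y'' x'', (stg Γ sc y₀ g).1.Valid Γ (v'', y'', x'') →
        (stg Γ sc y₀ g).1.pos Γ sc g v'' y'' x'' = .node g v y x →
        (stg Γ sc y₀ g).1.cl Γ sc (v, y) ≤ (stg Γ sc y₀ g).1.cl Γ sc (v'', y'') := by
  have h1 : Tm.node g v y x ∈ (stg Γ sc y₀ g).2.next.V := s5_mem_tag Γ sc y₀ hu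
  have h2 : Tm.node g v y x ∉ (stg Γ sc y₀ g).1.V := by
    intro h
    have := (stg Γ sc y₀ g).2.tag h
    simp [Tm.tag] at this
  obtain ⟨v', y', x', e, h3, h4, h5⟩ := s5_new Γ sc y₀ (stg Γ sc y₀ g).2 h1 h2
  cases e
  exact ⟨h3, h4, h5⟩

theorem s5_ch3_of_ch2 {y x : Y} (h : Γ.Ch2 sc.eqv y x) : Γ.Ch3 sc.eqv y x :=
  ⟨x, h, sc.pc_refl x⟩

theorem s5_ch3_of_pc {y x : Y} (h : Γ.Pc sc.eqv y x) : Γ.Ch3 sc.eqv y x :=
  s5_ch3_of_ch2 Γ sc ⟨x, h, sc.pc_refl x⟩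

theorem s5_prefix_reads {V : Type} {K : LG S V} {x z : V} {p w : List (S × Bool)}
    (h : K.Reads x w z) (hp : p <+: w) : ∃ y, K.Reads x p y := by
  obtain ⟨q, rfl⟩ := hp
  obtain ⟨y, h1, -⟩ := LG.reads_append_iff.1 h
  exact ⟨y, h1⟩

/-- case A of `lim_old_conn`, inside one stage. -/
theorem s5_caseA {P : Stage S Y} {g : ℕ} (hP : P.Inv Γ sc y₀ g) {u : Tm Y} {y : Y}
    (hg : P.Germ Γ u y) {x : Y} (hx : x ∈ Γ.Comp y)
    (hO : ¬ sc.eqv x (P.pos Γ sc g u y x).home) :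
    Γ.Ch3 sc.eqv y x ∧ ∃ w, Γ.ReadsIn
      {x | x ∈ Γ.Comp y ∧ ¬ sc.eqv x (P.pos Γ sc g u y x).home} y w x := by
  -- old points are in the set
  have hold : ∀ u' z, P.Com Γ u y u' z →
      z ∈ {x | x ∈ Γ.Comp y ∧ ¬ sc.eqv x (P.pos Γ sc g u y x).home} := by
    intro u' z hc
    have hgerm := hP.germ_com hg hc
    refine ⟨?_, ?_⟩
    · obtain ⟨w, -, hw⟩ := hc
      exact ⟨w, hw⟩
    · rw [hP.pos_of_com hg hc]
      intro he
      exact hgerm.2 (Full.eqv (sc := sc) (hP.homeFull hgerm.1) (sc.eqv.symm he))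
  have hwalk : ∀ u' z, P.Com Γ u y u' z → ∃ w, Γ.ReadsIn
      {x | x ∈ Γ.Comp y ∧ ¬ sc.eqv x (P.pos Γ sc g u y x).home} y w z := by
    rintro u' z ⟨w, h1, h2⟩
    refine ⟨w, h2.readsIn fun p y' hp hy' => ?_⟩
    obtain ⟨u'', h3⟩ := s5_prefix_reads h1 hp
    exact hold u'' y' ⟨p, h3, hy'⟩
  have hv : P.Valid Γ (u, y, x) := ⟨hg, hx⟩
  by_cases hn : P.pos Γ sc g u y x ∈ P.V
  · have hc := hP.com_of_pos_mem hg hn
    exact ⟨s5_ch3_of_ch2 Γ sc (hP.n1 hg hc), hwalk _ _ hc⟩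
  · obtain ⟨v', y', x', e1, hv', e2, hmin⟩ := hP.new_vertex hv hn
    have hxx : ¬ sc.eqv x x' := by
      rw [e1] at hO
      exact hO
    have epos : P.pos Γ sc g u y x = P.pos Γ sc g v' y' x' := e1.trans e2.symm
    obtain ⟨u₀, z, z', p, c1, c2, r1, r2⟩ := (hP.pos_eq_iff hv hv').1 epos
    have c1 : P.Com Γ u y u₀ z := c1
    have c2 : P.Com Γ v' y' u₀ z' := c2
    have r1 : Γ.Reads z p x := r1
    have r2 : Γ.Reads z' p x' := r2
    have hzz : ¬ sc.eqv z z' := fun h => hxx (sc.eqv_of_reads h r1 r2)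
    refine ⟨⟨z, hP.n1 hg c1, Or.inr ⟨z', x', p, hzz, r1, r2⟩⟩, ?_⟩
    obtain ⟨w, hw⟩ := hwalk _ _ c1
    refine ⟨w ++ p, hw.append (r1.readsIn fun q x₁ hq hx₁ => ?_)⟩
    obtain ⟨x₁', hx₁'⟩ := s5_prefix_reads r2 hq
    have hz : P.Valid Γ (u, y, z) := by
      obtain ⟨w', -, hw'⟩ := c1
      exact ⟨hg, w', hw'⟩
    have hz' : P.Valid Γ (v', y', z') := by
      obtain ⟨w', -, hw'⟩ := c2
      exact ⟨hv'.1, w', hw'⟩
    have hv₁ : P.Valid Γ (u, y, x₁) := hz.extend hx₁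
    have hv₁' : P.Valid Γ (v', y', x₁') := hz'.extend hx₁'
    have e₁ : P.pos Γ sc g u y x₁ = P.pos Γ sc g v' y' x₁' :=
      (hP.pos_eq_iff hv₁ hv₁').2 ⟨u₀, z, z', q, c1, c2, hx₁, hx₁'⟩
    by_cases hn₁ : P.pos Γ sc g u y x₁ ∈ P.V
    · exact hold _ _ (hP.com_of_pos_mem hg hn₁)
    · refine ⟨hv₁.2, ?_⟩
      obtain ⟨v'', y'', x'', f1, hv'', f2, hmin'⟩ := hP.new_vertex hv₁ hn₁
      rw [f1]
      intro he
      have he : sc.eqv x₁ x'' := he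
      have s1 : P.Same Γ sc (u, y) (v'', y'') := hP.same_of_eqv hv₁ hv'' he (f1.trans f2.symm)
      have l1 : P.cl Γ sc (v'', y'') ≤ P.cl Γ sc (v', y') := hmin' v' y' x₁' hv₁' (e₁.symm.trans f1)
      have l2 : P.cl Γ sc (v', y') ≤ P.cl Γ sc (u, y) := hmin u y x hv e1
      have l3 : P.cl Γ sc (u, y) = P.cl Γ sc (v'', y'') := cl_eq_iff.2 s1
      have l4 : P.cl Γ sc (u, y) = P.cl Γ sc (v', y') := le_antisymm (l3 ▸ l1) l2
      exact hxx (hP.eqv_of_same hv hv' (cl_eq_iff.1 l4) epos)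

/-- `lim_old_conn` for a point of minimal tag. -/
theorem s5_min {u : Tm Y} (hu : u ∈ (lim Γ sc y₀).V) (y : Y)
    (hmin : ∀ u' x, (lim Γ sc y₀).Com Γ u y u' x → u.tag ≤ u'.tag) (x : Y)
    (hx : ∃ u', (lim Γ sc y₀).Com Γ u y u' x ∧ ¬ sc.eqv x u'.home) :
    Γ.Ch3 sc.eqv y x ∧ ∃ w, Γ.ReadsIn
      {x | ∃ u', (lim Γ sc y₀).Com Γ u y u' x ∧ ¬ sc.eqv x u'.home} y w x := by
  obtain ⟨g, hg⟩ : ∃ g, u.tag = g := ⟨_, rfl⟩
  have hug : u ∈ (stg Γ sc y₀ g).1.V := hg ▸ s5_mem_tag Γ sc y₀ hu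
  by_cases hf : (stg Γ sc y₀ g).1.Full Γ u y
  · -- it suffices to show that either the set is empty or every point of the component is in it
    have key : (∀ u' z, (stg Γ sc y₀ g).1.Com Γ u y u' z →
        ¬ sc.eqv z u'.home ∧ Γ.Ch3 sc.eqv y z) →
        Γ.Ch3 sc.eqv y x ∧ ∃ w, Γ.ReadsIn
          {x | ∃ u', (lim Γ sc y₀).Com Γ u y u' x ∧ ¬ sc.eqv x u'.home} y w x := by
      intro hall
      obtain ⟨u', hc, -⟩ := hx
      have hc' := s5_com_of_full Γ sc y₀ hf hc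
      refine ⟨(hall _ _ hc').2, ?_⟩
      obtain ⟨w, h1, h2⟩ := hc'
      refine ⟨w, h2.readsIn fun p z hp hz => ?_⟩
      obtain ⟨u'', h3⟩ := s5_prefix_reads h1 hp
      exact ⟨u'', s5_com_lim Γ sc y₀ ⟨p, h3, hz⟩, (hall u'' z ⟨p, h3, hz⟩).1⟩
    cases g with
    | zero =>
      obtain ⟨x₁, hx₁, rfl⟩ : ∃ x₁ ∈ Γ.Comp y₀, u = .base x₁ := hug
      by_cases he : sc.eqv y x₁
      · exfalso
        obtain ⟨u', hc, hne⟩ := hx
        obtain ⟨w, h1, h2⟩ := s5_com_of_full Γ sc y₀ hf hc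
        obtain ⟨x', h3, rfl⟩ := (base_reads_iff Γ y₀ hx₁).1 h1
        exact hne (sc.eqv_of_reads he h2 h3)
      · apply key
        rintro u' z ⟨w, h1, h2⟩
        obtain ⟨x', h3, rfl⟩ := (base_reads_iff Γ y₀ hx₁).1 h1
        exact ⟨sc.not_eqv_of_reads he h2 h3, s5_ch3_of_pc Γ sc (Or.inr ⟨x₁, x', w, he, h2, h3⟩)⟩
    | succ g =>
      have hall : (stg Γ sc y₀ g).2.AllNew u y := by
        intro u' z hc hmem
        have h1 := hmin u' z (s5_com_lim Γ sc y₀ (g := g + 1) hc)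
        have h2 := (stg Γ sc y₀ g).2.tag hmem
        omega
      apply key
      intro u' z hc
      refine ⟨?_, s5_ch3_of_ch2 Γ sc ((stg Γ sc y₀ g).2.allNew_ch2 hug hall hc)⟩
      have hu' : u' ∈ (stg Γ sc y₀ g).2.next.V := s5_stg_com_mem Γ sc y₀ hug hc
      obtain ⟨v', y', x', e, hv, e', -⟩ := s5_new Γ sc y₀ (stg Γ sc y₀ g).2 hu' (hall u' z hc)
      have hall' : (stg Γ sc y₀ g).2.AllNew u' z := Inv.AllNew.com _ hall hc
      rw [← e'] at hall'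
      have := Inv.AllNew.not_eqv _ hv hall'
      rw [e]
      exact fun h => this (sc.eqv.symm h)
  · have hgerm : (stg Γ sc y₀ g).1.Germ Γ u y := ⟨hug, hf⟩
    have hcom : ∀ z ∈ Γ.Comp y,
        (lim Γ sc y₀).Com Γ u y ((stg Γ sc y₀ g).1.pos Γ sc g u y z) z := by
      rintro z ⟨w, hw⟩
      have h1 := (stg Γ sc y₀ g).2.copy_reads (v := u) (y := y) (x := y)
        ⟨hgerm, [], LG.Reads.nil _⟩ hw
      rw [(stg Γ sc y₀ g).2.pos_self hgerm] at h1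
      exact ⟨w, s5_reads_lim Γ sc y₀ (g := g + 1) h1, hw⟩
    have hset : {x | ∃ u', (lim Γ sc y₀).Com Γ u y u' x ∧ ¬ sc.eqv x u'.home} =
        {x | x ∈ Γ.Comp y ∧ ¬ sc.eqv x ((stg Γ sc y₀ g).1.pos Γ sc g u y x).home} := by
      ext z
      constructor
      · rintro ⟨u', hc, hne⟩
        have hz : z ∈ Γ.Comp y := by
          obtain ⟨w, -, hw⟩ := hc
          exact ⟨w, hw⟩
        refine ⟨hz, ?_⟩
        rw [s5_com_unique Γ sc y₀ hu (hcom z hz) hc]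
        exact hne
      · rintro ⟨hz, hne⟩
        exact ⟨_, hcom z hz, hne⟩
    have hx' : x ∈ {x | ∃ u', (lim Γ sc y₀).Com Γ u y u' x ∧ ¬ sc.eqv x u'.home} := hx
    rw [hset] at hx' ⊢
    exact s5_caseA Γ sc y₀ (stg Γ sc y₀ g).2 hgerm hx'.1 hx'.2

end St5Aux

/-- The old part of a copy.  Take a point `(u₁, y₁)` of the copy with minimal tag `g`.
A. `(u₁,y₁)` is a germ of stage `g`.  Points `x` with `pos x` old are `Old` (else `homeFull` makes the germ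
full) and form a connected set in the 2-chain ball of `y₁`.  A new `Old` point `x` has a name
`(v',y',x')` (`new_vertex`), `¬ eqv x x'`, gluing `(u,z,z',p)` with `¬ eqv z z'`, `cl (v',y') < cl (u₁,y₁)`;
every prefix point of `p` is old or new with a name of rank `≤ cl (v',y')`, hence `Old` (`same_of_eqv`,
`cl_eq_iff`).  Center `o = y₁`.
B. `(u₁,y₁)` is full at stage `g`: all points of the copy have tag `g`.  If `g = 0`: `u₁ = base x₁`; if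
`eqv y₁ x₁` nothing is `Old`; otherwise everything is `Old` and the component is a piece.  If `g = g'+1` every
pair of the copy is `AllNew`, so every point is `Old` (`AllNew.not_eqv` with `new_vertex`) and in the
2-chain ball (`allNew_ch2`). -/
theorem lim_old_conn {u : Tm Y} (hu : u ∈ (lim Γ sc y₀).V) (y : Y) :
    ∃ o, ∀ x, (∃ u', (lim Γ sc y₀).Com Γ u y u' x ∧ ¬ sc.eqv x u'.home) →
      Γ.Ch3 sc.eqv o x ∧ ∃ w, Γ.ReadsIn
        {x | ∃ u', (lim Γ sc y₀).Com Γ u y u' x ∧ ¬ sc.eqv x u'.home} o w x := by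
  classical
  have hex : ∃ n, ∃ u₁ y₁, (lim Γ sc y₀).Com Γ u y u₁ y₁ ∧ u₁.tag = n :=
    ⟨_, u, y, Stage.com_refl Γ _ u y, rfl⟩
  obtain ⟨u₁, y₁, hc, ht⟩ := Nat.find_spec hex
  have hmin : ∀ u' x, (lim Γ sc y₀).Com Γ u₁ y₁ u' x → u₁.tag ≤ u'.tag := by
    intro u' x h
    rw [ht]
    exact Nat.find_min' hex ⟨u', x, hc.trans h, rfl⟩
  have hiff : ∀ x, (∃ u', (lim Γ sc y₀).Com Γ u y u' x ∧ ¬ sc.eqv x u'.home) ↔
      (∃ u', (lim Γ sc y₀).Com Γ u₁ y₁ u' x ∧ ¬ sc.eqv x u'.home) := by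
    intro x
    constructor
    · rintro ⟨u', h1, h2⟩
      exact ⟨u', hc.symm.trans h1, h2⟩
    · rintro ⟨u', h1, h2⟩
      exact ⟨u', hc.trans h1, h2⟩
  refine ⟨y₁, fun x hx => ?_⟩
  simp only [hiff] at hx ⊢
  exact s5_min Γ sc y₀ (s5_com_mem Γ sc y₀ hu hc) y₁ hmin x hx

/-- rank of a vertex name. -/
noncomputable def tagrk : Tm Y → ℕ ×ₗ WO Y
  | .base _ => toLex (0, ((.base y₀, y₀) : Tm Y × Y))
  | .node g v y _ => toLex (g + 1, (stg Γ sc y₀ g).1.cl Γ sc (v, y))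

/-- Let `u'` be at home in the copy through `(u, y)`.  Then `tagrk u ≤ tagrk u'`, with equality only if `u` is
at home too.  Plan: the copy is full at stage `tag u'` (`homeFull`, `Full.eqv`), so `tag u ≤ tag u'`.  Equal tags
`0`: the copy is the base copy.  Equal tags `g+1`: `u' = pos v' y' x'`, lift the path to see `u = pos v' y' x`
with `eqv y x`; `new_vertex` minimality; equality gives `Same`, then `eqv_of_same`. -/
theorem tagrk_le {u u' : Tm Y} {y z : Y} (hu : u ∈ (lim Γ sc y₀).V)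
    (hc : (lim Γ sc y₀).Com Γ u y u' z) (hz : sc.eqv z u'.home) :
    tagrk Γ sc y₀ u ≤ tagrk Γ sc y₀ u' ∧
      (tagrk Γ sc y₀ u = tagrk Γ sc y₀ u' → sc.eqv y u.home) := by
  have hu' := s5_com_mem Γ sc y₀ hu hc
  have hm' := s5_mem_tag Γ sc y₀ hu'
  have hf : (stg Γ sc y₀ u'.tag).1.Full Γ u' z :=
    Stage.Full.eqv (sc := sc) ((stg Γ sc y₀ u'.tag).2.homeFull hm') (sc.eqv.symm hz)
  have hc' := s5_com_of_full Γ sc y₀ hf hc.symm
  have htag : u.tag ≤ u'.tag := (stg Γ sc y₀ u'.tag).2.tag (s5_stg_com_mem Γ sc y₀ hm' hc')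
  cases u with
  | base a =>
    cases u' with
    | base b =>
      refine ⟨le_rfl, fun _ => ?_⟩
      obtain ⟨b', hb, e⟩ : ∃ x₁ ∈ Γ.Comp y₀, Tm.base b = .base x₁ := hm'
      cases e
      obtain ⟨w, h1, h2⟩ := hc'
      obtain ⟨x', h3, e⟩ := (base_reads_iff Γ y₀ hb).1 h1
      cases e
      exact sc.eqv_of_reads hz h2 h3
    | node g v' y' x' =>
      have hlt : tagrk Γ sc y₀ (.base a) < tagrk Γ sc y₀ (.node g v' y' x') :=
        Prod.Lex.toLex_lt_toLex.2 (Or.inl (Nat.succ_pos g))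
      exact ⟨hlt.le, fun h => absurd h hlt.ne⟩
  | node g v₁ y₁ x₁ =>
    cases u' with
    | base b => simp [Tm.tag] at htag
    | node g₂ v' y' x' =>
      have hgg : g ≤ g₂ := by simpa [Tm.tag] using htag
      rcases hgg.lt_or_eq with hlt | rfl
      · have hlt : tagrk Γ sc y₀ (.node g v₁ y₁ x₁) < tagrk Γ sc y₀ (.node g₂ v' y' x') :=
          Prod.Lex.toLex_lt_toLex.2 (Or.inl (Nat.succ_lt_succ hlt))
        exact ⟨hlt.le, fun h => absurd h hlt.ne⟩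
      · obtain ⟨hv₁, e₁, hmin⟩ := s5_name Γ sc y₀ hu
        obtain ⟨hv', e', -⟩ := s5_name Γ sc y₀ hu'
        obtain ⟨w, h1, h2⟩ := hc'
        obtain ⟨x, h3, hyx⟩ := sc.lift_reads hz h2
        have h3 : Γ.Reads x' w x := h3
        have h4 := (stg Γ sc y₀ g).2.copy_reads hv' h3
        rw [e'] at h4
        have e : (stg Γ sc y₀ g).1.pos Γ sc g v' y' x = .node g v₁ y₁ x₁ := LG.Reads.unique h4 h1
        have hvx := hv'.extend h3
        refine ⟨Prod.Lex.toLex_le_toLex.2 (Or.inr ⟨rfl, hmin v' y' x hvx e⟩), fun h => ?_⟩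
        have h5 : (stg Γ sc y₀ g).1.cl Γ sc (v₁, y₁) = (stg Γ sc y₀ g).1.cl Γ sc (v', y') :=
          congrArg (fun t => (ofLex t).2) h
        have h6 := (stg Γ sc y₀ g).2.eqv_of_same hv₁ hvx (Stage.cl_eq_iff.1 h5) (e₁.trans e.symm)
        exact sc.eqv.trans hyx (sc.eqv.symm h6)

/-- the vertices that are at home in the copy through `(u, y)`. -/
def s5H (u : Tm Y) (y : Y) : Set (Tm Y) :=
  {u' | ∃ z, (lim Γ sc y₀).Com Γ u y u' z ∧ sc.eqv z u'.home}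

open Classical in
/-- rank of a set of names. -/
noncomputable def s5rk (A : Set (Tm Y)) : WithTop (ℕ ×ₗ WO Y) :=
  if h : A.Nonempty then (tagrk Γ sc y₀ h.some : ℕ ×ₗ WO Y) else ⊤

theorem s5H_com {u u' : Tm Y} {y z : Y} (h : (lim Γ sc y₀).Com Γ u y u' z) :
    s5H Γ sc y₀ u' z = s5H Γ sc y₀ u y := by
  ext v
  constructor
  · rintro ⟨x, h1, h2⟩
    exact ⟨x, h.trans h1, h2⟩
  · rintro ⟨x, h1, h2⟩
    exact ⟨x, h.symm.trans h1, h2⟩

theorem s5H_eqv_sub {u : Tm Y} {y y' : Y} (h : sc.eqv y y') :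
    s5H Γ sc y₀ u y ⊆ s5H Γ sc y₀ u y' := by
  rintro v ⟨x, ⟨w, h1, h2⟩, h3⟩
  obtain ⟨x', h4, h5⟩ := sc.lift_reads h h2
  exact ⟨x', ⟨w, h1, h4⟩, sc.eqv.trans (sc.eqv.symm h5) h3⟩

theorem s5rk_home {u : Tm Y} (hu : u ∈ (lim Γ sc y₀).V) :
    s5rk Γ sc y₀ (s5H Γ sc y₀ u u.home) = (tagrk Γ sc y₀ u : ℕ ×ₗ WO Y) := by
  have hne : (s5H Γ sc y₀ u u.home).Nonempty :=
    ⟨u, u.home, Stage.com_refl Γ _ _ _, sc.eqv.refl _⟩
  rw [s5rk, dif_pos hne]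
  obtain ⟨z, h1, h2⟩ := hne.some_mem
  congr 1
  exact le_antisymm
    (tagrk_le Γ sc y₀ (s5_com_mem Γ sc y₀ hu h1) h1.symm (sc.eqv.refl _)).1
    (tagrk_le Γ sc y₀ hu h1 h2).1

theorem s5rk_le {u : Tm Y} (hu : u ∈ (lim Γ sc y₀).V) (y : Y) :
    s5rk Γ sc y₀ (s5H Γ sc y₀ u u.home) ≤ s5rk Γ sc y₀ (s5H Γ sc y₀ u y) ∧
      (s5rk Γ sc y₀ (s5H Γ sc y₀ u u.home) = s5rk Γ sc y₀ (s5H Γ sc y₀ u y) →
        sc.eqv y u.home) := by
  rw [s5rk_home Γ sc y₀ hu]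
  by_cases hne : (s5H Γ sc y₀ u y).Nonempty
  · rw [s5rk, dif_pos hne]
    obtain ⟨z, h1, h2⟩ := hne.some_mem
    have := tagrk_le Γ sc y₀ hu h1 h2
    exact ⟨WithTop.coe_le_coe.2 this.1, fun h => this.2 (WithTop.coe_eq_coe.1 h)⟩
  · rw [s5rk, dif_neg hne]
    exact ⟨le_top, fun h => absurd h WithTop.coe_ne_top⟩

/-- **Structure theorem.**  `G = PG Γ`, `θ : G → Tm Y` the inverse of `psi` on the limit,
`home = Tm.home ∘ θ`, `Ord = WithTop (ℕ ×ₗ WO Y)`, `rk v y = tagrk u'` for any point `(u', z)` of the copy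
through `(θ v, y)` with `eqv z u'.home` (well defined by `tagrk_le` both ways), `⊤` if there is none. -/
theorem exists_Str (hall : ∀ s, ∃ x y, Γ.E x (s, true) y) : Nonempty (Str Γ sc y₀ (PG Γ)) := by
  choose θ hθV hθ using psi_surjOn Γ sc y₀ hall
  have hθu : ∀ {u v}, u ∈ (lim Γ sc y₀).V → psi Γ y₀ u = v → θ v = u := by
    intro u v hu e
    exact psi_injOn Γ sc y₀ hall (hθV v) hu ((hθ v).trans e.symm)
  have hread : ∀ v w, (lim Γ sc y₀).K.Reads (θ v) w (θ ((wv (pgen Γ) w)⁻¹ * v)) := by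
    intro v w
    rw [lim_reads_psi Γ sc y₀ hall (hθV _) (hθV _), hθ, hθ]
  have hedge : ∀ v a, (lim Γ sc y₀).K.Reads (θ v) [a] (θ ((lv (pgen Γ) a)⁻¹ * v)) := by
    intro v a
    have := hread v [a]
    rwa [wv_cons, wv_nil, mul_one] at this
  have hold : ∀ v y x, Old Γ sc.eqv (pgen Γ) (fun v => (θ v).home) v y x ↔
      ∃ u', (lim Γ sc y₀).Com Γ (θ v) y u' x ∧ ¬ sc.eqv x u'.home := by
    intro v y x
    constructor
    · rintro ⟨w, h1, h2⟩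
      exact ⟨_, ⟨w, hread v w, h1⟩, h2⟩
    · rintro ⟨u', ⟨w, h1, h2⟩, h3⟩
      refine ⟨w, h2, ?_⟩
      rw [LG.Reads.unique h1 (hread v w)] at h3
      exact h3
  refine ⟨{
    π := pgen Γ
    surj := ?_
    pres := ?_
    closed := fun h => wv_pgen_closed Γ h
    inj := ?_
    home := fun v => (θ v).home
    old_conn := ?_
    cover := ?_
    base := ?_
    Ord := WithTop (ℕ ×ₗ WO Y)
    rk := fun v y => s5rk Γ sc y₀ (s5H Γ sc y₀ (θ v) y)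
    rk_edge := ?_
    rk_eqv := ?_
    rk_min := fun v y => (s5rk_le Γ sc y₀ (hθV v) y).1
    rk_eq := fun v y => (s5rk_le Γ sc y₀ (hθV v) y).2 }⟩
  · intro v
    obtain ⟨f, hf⟩ := QuotientGroup.mk_surjective v
    exact ⟨f, (lift_pgen Γ f).trans hf⟩
  · intro f hf
    rw [lift_pgen] at hf
    exact (QuotientGroup.eq_one_iff f).1 hf
  · intro y w x h1 h2
    have h3 := hread 1 w
    rw [h2, inv_one, one_mul] at h3
    exact (lim_full_iff Γ sc y₀ (hθV 1) h1 h3).2 rfl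
  · intro v y
    simp only [hold]
    exact lim_old_conn Γ sc y₀ (hθV v) y
  · intro v a
    obtain ⟨g, hg⟩ := LG.reads_singleton_iff.1 (hedge v a)
    exact (stg Γ sc y₀ g).2.cover hg
  · intro w x h
    have h1 : Tm.base x ∈ (lim Γ sc y₀).V := ⟨0, x, ⟨w, h⟩, rfl⟩
    have h2 : θ (wv (pgen Γ) w)⁻¹ = .base x := by
      apply hθu h1
      show (dlt Γ y₀ x)⁻¹ = _
      rw [dlt_eq Γ h]
    show sc.eqv x (θ (wv (pgen Γ) w)⁻¹).home
    rw [h2]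
    exact sc.eqv.refl x
  · intro v y a z h
    show s5rk Γ sc y₀ _ = s5rk Γ sc y₀ _
    rw [s5H_com Γ sc y₀ ⟨[a], hedge v a, LG.reads_singleton_iff.2 h⟩]
  · intro v y y' h
    show s5rk Γ sc y₀ _ = s5rk Γ sc y₀ _
    rw [Set.Subset.antisymm (s5H_eqv_sub Γ sc y₀ h) (s5H_eqv_sub Γ sc y₀ (sc.eqv.symm h))]

end Crest.Agent.R129
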