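import Crest.Agent.R129.Graph

/-!
# R129 / Torsion : the group is torsion-free

The cycle group of the Cayley graph is the direct sum of the cycle groups of the copies.  If `g` has prime order
`ℓ` and fixes no copy, a Bockstein argument gives `1 ≡ 0 (mod ℓ)`.
-/

set_option autoImplicit false
open FreeGroup

namespace Crest.Agent.R129

section chains
variable {S G : Type} [Group G] (π : S → G)

/-- the 1-chain of the edge with letter `a` that starts at `v`; `(v, s)` names the edge `v → (π s)⁻¹ v`. -/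
noncomputable def ech (v : G) (a : S × Bool) : (G × S) →₀ ℤ :=
  cond a.2 (Finsupp.single (v, a.1) 1) (-Finsupp.single (π a.1 * v, a.1) 1)

/-- the 1-chain of the walk that reads `w` from `v`. -/
noncomputable def ch : G → List (S × Bool) → ((G × S) →₀ ℤ)
  | _, [] => 0
  | v, a :: w => ech π v a + ch ((lv π a)⁻¹ * v) w

/-- boundary. -/
noncomputable def bd : ((G × S) →₀ ℤ) →+ (G →₀ ℤ) :=
  Finsupp.liftAddHom fun e => (zmultiplesHom _)
    (Finsupp.single ((π e.2)⁻¹ * e.1) (1 : ℤ) - Finsupp.single e.1 1)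

/-- right translation of chains. -/
noncomputable def shf (g : G) : ((G × S) →₀ ℤ) →+ ((G × S) →₀ ℤ) :=
  Finsupp.mapDomain.addMonoidHom fun e => (e.1 * g, e.2)

theorem ch_nil (v : G) : ch π v [] = 0 := rfl

theorem ch_cons (v : G) (a : S × Bool) (w : List (S × Bool)) :
    ch π v (a :: w) = ech π v a + ch π ((lv π a)⁻¹ * v) w := rfl

theorem ech_linv (v : G) (a : S × Bool) : ech π ((lv π a)⁻¹ * v) (linv a) = -ech π v a := by
  obtain ⟨s, b⟩ := a
  cases b <;> simp [ech, lv, linv]

theorem ch_append (v : G) (w w' : List (S × Bool)) :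
    ch π v (w ++ w') = ch π v w + ch π ((wv π w)⁻¹ * v) w' := by
  induction w generalizing v with
  | nil => simp [ch_nil]
  | cons a w ih =>
    rw [List.cons_append, ch_cons, ch_cons, ih, wv_cons, mul_inv_rev, mul_assoc, add_assoc]

theorem ch_invRev (v : G) (w : List (S × Bool)) :
    ch π ((wv π w)⁻¹ * v) (invRev w) = -ch π v w := by
  induction w generalizing v with
  | nil => simp [ch_nil]
  | cons a w ih =>
    have h1 : invRev [a] = [linv a] := by simp [invRev, linv]
    rw [invRev_cons, h1, ch_append, wv_cons, mul_inv_rev, mul_assoc, ih, wv_invRev, inv_inv,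
      mul_inv_cancel_left, ch_cons, ch_nil, ech_linv, ch_cons]
    abel

theorem ch_eq_of_mk_eq (v : G) {w w' : List (S × Bool)} (h : FreeGroup.mk w = FreeGroup.mk w') :
    ch π v w = ch π v w' := by
  have hstep : ∀ w w' : List (S × Bool), Red.Step w w' → ch π v w = ch π v w' := by
    rintro _ _ @⟨L₁, L₂, x, b⟩
    rw [ch_append, ch_append, ch_cons, ch_cons]
    have h1 : ((x, !b) : S × Bool) = linv (x, b) := rfl
    rw [h1, ech_linv, lv_linv, inv_inv, mul_inv_cancel_left]
    abel
  have h2 : Relation.EqvGen Red.Step w w' := Quot.eqvGen_exact h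
  induction h2 with
  | rel x y hxy => exact hstep x y hxy
  | refl x => rfl
  | symm x y hxy ih => exact (ih (Quot.eqvGen_sound hxy)).symm
  | trans x y z hxy hyz ih1 ih2 =>
    exact (ih1 (Quot.eqvGen_sound hxy)).trans (ih2 (Quot.eqvGen_sound hyz))

theorem bd_single (e : G × S) (n : ℤ) : bd π (Finsupp.single e n) =
    n • (Finsupp.single ((π e.2)⁻¹ * e.1) (1 : ℤ) - Finsupp.single e.1 1) := by
  rw [bd, Finsupp.liftAddHom_apply_single, zmultiplesHom_apply]

theorem bd_ech (v : G) (a : S × Bool) :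
    bd π (ech π v a) = Finsupp.single ((lv π a)⁻¹ * v) 1 - Finsupp.single v 1 := by
  obtain ⟨s, b⟩ := a
  cases b <;> simp [ech, lv, bd_single]

theorem bd_ch (v : G) (w : List (S × Bool)) :
    bd π (ch π v w) = Finsupp.single ((wv π w)⁻¹ * v) 1 - Finsupp.single v 1 := by
  induction w generalizing v with
  | nil => simp [ch_nil]
  | cons a w ih =>
    rw [ch_cons, map_add, ih, bd_ech, wv_cons, mul_inv_rev, mul_assoc]
    abel

theorem shf_single (g : G) (e : G × S) (n : ℤ) :
    shf g (Finsupp.single e n) = Finsupp.single (e.1 * g, e.2) n := by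
  simp [shf, Finsupp.mapDomain.addMonoidHom]

theorem shf_ech (g v : G) (a : S × Bool) : shf g (ech π v a) = ech π (v * g) a := by
  obtain ⟨s, b⟩ := a
  cases b <;> simp [ech, shf_single, mul_assoc]

theorem shf_ch (g v : G) (w : List (S × Bool)) : shf g (ch π v w) = ch π (v * g) w := by
  induction w generalizing v with
  | nil => simp [ch_nil]
  | cons a w ih => rw [ch_cons, map_add, ih, shf_ech, ch_cons, mul_assoc]

/-- Bockstein homomorphism.  Choose `κ : G → ZMod ℓ` with `κ (v * g) = κ v + 1` (orbit representatives of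
`zpowers g` acting on the right: `κ v = ` the exponent `i mod ℓ` with `v = out(v) * g ^ i`), and let `β` send the
edge `(v, s)` to `(κ ((π s)⁻¹ v) - κ v).val`. -/
theorem exists_bockstein {g : G} {ℓ : ℕ} (hℓ : ℓ.Prime) (hg : orderOf g = ℓ) :
    ∃ (κ : G → ZMod ℓ) (β : ((G × S) →₀ ℤ) →+ ℤ), (∀ v, κ (v * g) = κ v + 1) ∧
      (∀ z, β (shf g z) = β z) ∧
      ∀ v w, ((β (ch π v w) : ℤ) : ZMod ℓ) = κ ((wv π w)⁻¹ * v) - κ v := by
  have hex : ∀ v : G, ∃ i : ℤ,
      g ^ i = ((QuotientGroup.mk v : G ⧸ Subgroup.zpowers g).out)⁻¹ * v := by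
    intro v
    have h1 : ((QuotientGroup.mk v : G ⧸ Subgroup.zpowers g).out)⁻¹ * v ∈ Subgroup.zpowers g := by
      rw [← QuotientGroup.eq]
      simp
    exact Subgroup.mem_zpowers_iff.1 h1
  choose i hi using hex
  have hκ : ∀ v, ((i (v * g) : ℤ) : ZMod ℓ) = ((i v : ℤ) : ZMod ℓ) + 1 := by
    intro v
    have h1 : (QuotientGroup.mk (v * g) : G ⧸ Subgroup.zpowers g) = QuotientGroup.mk v :=
      QuotientGroup.mk_mul_of_mem v (Subgroup.mem_zpowers g)
    have h2 : g ^ i (v * g) = g ^ (i v + 1) := by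
      rw [hi, h1, zpow_add_one, hi, mul_assoc]
    rw [zpow_eq_zpow_iff_modEq, hg, ← ZMod.intCast_eq_intCast_iff] at h2
    rw [h2]
    push_cast
    rfl
  obtain ⟨κ, hκ⟩ : ∃ κ : G → ZMod ℓ, ∀ v, κ (v * g) = κ v + 1 := ⟨fun v => (i v : ℤ), hκ⟩
  haveI : NeZero ℓ := ⟨hℓ.ne_zero⟩
  let β : ((G × S) →₀ ℤ) →+ ℤ := Finsupp.liftAddHom fun e =>
    (zmultiplesHom ℤ) (((κ ((π e.2)⁻¹ * e.1) - κ e.1).val : ℕ) : ℤ)
  have hβ : ∀ e n, β (Finsupp.single e n) =
      n * (((κ ((π e.2)⁻¹ * e.1) - κ e.1).val : ℕ) : ℤ) := by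
    intro e n
    simp [β]
  refine ⟨κ, β, hκ, ?_, ?_⟩
  · intro z
    induction z using Finsupp.induction_linear with
    | zero => simp
    | add f f' h h' => rw [map_add, map_add, map_add, h, h']
    | single e n =>
      rw [shf_single, hβ, hβ]
      simp only [← mul_assoc, hκ, add_sub_add_right_eq_sub]
  · have he : ∀ v a, ((β (ech π v a) : ℤ) : ZMod ℓ) = κ ((lv π a)⁻¹ * v) - κ v := by
      rintro v ⟨s, b⟩
      cases b <;> simp [ech, lv, hβ]
    intro v w
    induction w generalizing v with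
    | nil => simp [ch_nil]
    | cons a w ih =>
      rw [ch_cons, map_add, Int.cast_add, ih, he, wv_cons, mul_inv_rev, mul_assoc]
      ring

end chains

/-- an invariant finitely supported function under a fixed-point-free map of prime order has sum
divisible by `ℓ` (level sets; `Equiv.Perm.card_fixedPoints_modEq` or induction removing an orbit). -/
theorem dvd_sum_of_invariant {α : Type} {ℓ : ℕ} (hℓ : ℓ.Prime) (σ : α → α) (hσ : σ^[ℓ] = id)
    (F : α →₀ ℤ) (hF : ∀ a, F (σ a) = F a) (hfix : ∀ a, σ a ≠ a) :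
    (ℓ : ℤ) ∣ F.sum fun _ n => n := by
  classical
  haveI : Fact ℓ.Prime := ⟨hℓ⟩
  have hcard : ∀ n : ℤ, ℓ ∣ (F.support.filter fun a => F a = n).card := by
    intro n
    set T := F.support.filter fun a => F a = n with hT
    have hmem : ∀ a ∈ T, σ a ∈ T := by
      intro a ha
      simp only [hT, Finset.mem_filter, Finsupp.mem_support_iff, hF] at ha ⊢
      exact ha
    let f : Function.End T := fun a => ⟨σ a, hmem a a.2⟩
    have hf : ∀ (k : ℕ) (a : T), ((f ^ k) a : α) = σ^[k] a := by
      intro k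
      induction k with
      | zero => intro a; rfl
      | succ k ih =>
        intro a
        rw [pow_succ, Function.iterate_succ_apply]
        exact ih (f a)
    have hf1 : f ^ ℓ ^ 1 = 1 := by
      funext a
      apply Subtype.ext
      rw [pow_one, hf, hσ]
      rfl
    have h2 := Equiv.Perm.card_fixedPoints_modEq hf1
    have h3 : Fintype.card (Function.fixedPoints f) = 0 := by
      rw [Fintype.card_eq_zero_iff]
      exact ⟨fun a => hfix a.1 (congrArg Subtype.val a.2)⟩
    rw [h3, Fintype.card_coe] at h2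
    exact (Nat.modEq_zero_iff_dvd).1 h2
  rw [Finsupp.sum, ← Finset.sum_fiberwise_of_maps_to (s := F.support) (t := F.support.image F)
    (g := F) (fun a ha => Finset.mem_image_of_mem _ ha)]
  refine Finset.dvd_sum fun n _ => ?_
  rw [Finset.sum_congr rfl (g := fun _ => n) (fun a ha => (Finset.mem_filter.1 ha).2),
    Finset.sum_const, nsmul_eq_mul]
  exact Dvd.dvd.mul_right (Int.natCast_dvd_natCast.2 (hcard n)) _

end Crest.Agent.R129
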