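import Crest.Agent.R129.Copy
import Crest.Agent.R129.Torsion

/-!
# R129 / Torsion2 : the group is torsion-free

The cycle group of the Cayley graph is the direct sum of the cycle groups of the copies.  If `g` has prime order
`ℓ` and fixes no copy, a Bockstein argument gives `1 ≡ 0 (mod ℓ)`.
-/

set_option autoImplicit false
open FreeGroup

namespace Crest.Agent.R129

namespace Str
variable {S Y : Type} {Γ : LG S Y} {sc : SC Γ} {y₀ : Y} {G : Type} [Group G] (st : Str Γ sc y₀ G)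

/-- the cycle group of a copy. -/
noncomputable def Cyc (Z : st.Copy) : AddSubgroup ((G × S) →₀ ℤ) :=
  AddSubgroup.closure {z | ∃ v y w, Z = st.cp v y ∧ Γ.Reads y w y ∧ z = ch st.π v w}

theorem bd_cyc {Z : st.Copy} {z : (G × S) →₀ ℤ} (h : z ∈ st.Cyc Z) : bd st.π z = 0 := by
  induction h using AddSubgroup.closure_induction with
  | mem z hz =>
    obtain ⟨v, y, w, -, hw, rfl⟩ := hz
    rw [bd_ch, st.closed hw, inv_one, one_mul, sub_self]
  | zero => exact map_zero _
  | add a b _ _ ha hb => rw [map_add, ha, hb, add_zero]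
  | neg a _ ha => rw [map_neg, ha, neg_zero]

private theorem wv_single (a : S × Bool) : wv st.π [a] = lv st.π a := by
  rw [wv_cons, wv_nil, mul_one]

private theorem cp_edge {v : G} {y x : Y} {a : S × Bool} (h : Γ.E y a x) :
    st.cp ((lv st.π a)⁻¹ * v) x = st.cp v y := by
  rw [← st.wv_single]
  exact st.cp_reads (LG.reads_singleton_iff.2 h)

private theorem supp_ch {e : G × S} (w : List (S × Bool)) : ∀ {v : G} {y z : Y}, Γ.Reads y w z →
    ch st.π v w e ≠ 0 → ∃ x x', Γ.E x (e.2, true) x' ∧ st.cp v y = st.cp e.1 x := by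
  classical
  induction w with
  | nil => intro v y z _ he; exact absurd rfl he
  | cons a w ih =>
    intro v y z hw he
    obtain ⟨y₁, h₁, h₂⟩ := LG.reads_cons_iff.1 hw
    rw [ch, Finsupp.add_apply] at he
    by_cases h0 : ech st.π v a e = 0
    · rw [h0, zero_add] at he
      obtain ⟨x, x', h₃, h₄⟩ := ih h₂ he
      exact ⟨x, x', h₃, (st.cp_edge h₁).symm.trans h₄⟩
    · obtain ⟨s, b⟩ := a
      cases b
      · have h₃ : (st.π s * v, s) = e := by
          by_contra hne
          apply h0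
          simp [ech, hne]
        subst h₃
        refine ⟨y₁, y, Γ.symm h₁, ?_⟩
        have := st.cp_edge (v := v) h₁
        simpa [lv] using this.symm
      · have h₃ : (v, s) = e := by
          by_contra hne
          apply h0
          simp [ech, hne]
        subst h₃
        exact ⟨y, y₁, h₁, rfl⟩

theorem supp_cyc {Z : st.Copy} {z : (G × S) →₀ ℤ} (h : z ∈ st.Cyc Z) {e : G × S} (he : z e ≠ 0) :
    ∃ x x', Γ.E x (e.2, true) x' ∧ Z = st.cp e.1 x := by
  induction h using AddSubgroup.closure_induction with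
  | mem z hz =>
    obtain ⟨v, y, w, rfl, hw, rfl⟩ := hz
    exact st.supp_ch w hw he
  | zero => exact absurd rfl he
  | add a b _ _ ha hb =>
    by_cases h0 : a e = 0
    · apply hb
      rwa [Finsupp.add_apply, h0, zero_add] at he
    · exact ha h0
  | neg a _ ha =>
    apply ha
    rwa [Finsupp.neg_apply, neg_ne_zero] at he

theorem shf_cyc (g : G) {Z : st.Copy} {z : (G × S) →₀ ℤ} (h : z ∈ st.Cyc Z) :
    shf g z ∈ st.Cyc (st.act g Z) := by
  induction h using AddSubgroup.closure_induction with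
  | mem z hz =>
    obtain ⟨v, y, w, rfl, hw, rfl⟩ := hz
    exact AddSubgroup.subset_closure ⟨v * g, y, w, rfl, hw, shf_ch _ _ _ _⟩
  | zero => rw [map_zero]; exact zero_mem _
  | add a b _ _ ha hb => rw [map_add]; exact add_mem ha hb
  | neg a _ ha => rw [map_neg]; exact neg_mem ha

/-- a cycle supported on edges between `Old` points of the copy `(v, y)` vanishes: with `τ x` a word from the
centre `o` to `x` inside the old part, let `Φ` send the vertex of `x` to `ch u_o (τ x)`; then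
`single e 1 = Φ (bd (single e 1))` for such edges (`ball_mk_eq`, `ch_eq_of_mk_eq`). -/
theorem eq_zero_of_old {v : G} {y : Y} {z : (G × S) →₀ ℤ} (hz : bd st.π z = 0)
    (h : ∀ e, z e ≠ 0 → ∃ w x x', Γ.Reads y w x ∧ Γ.E x (e.2, true) x' ∧ e.1 = (wv st.π w)⁻¹ * v ∧
      Old Γ sc.eqv st.π st.home v y x ∧ Old Γ sc.eqv st.π st.home v y x') : z = 0 := by
  classical
  by_contra hne
  obtain ⟨e₀, he₀⟩ : ∃ e, z e ≠ 0 := by
    by_contra hcon
    exact hne (Finsupp.ext fun e => by_contra fun he => hcon ⟨e, he⟩)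
  obtain ⟨o, ho⟩ := st.old_conn v y
  obtain ⟨wo, hwo, -⟩ : Old Γ sc.eqv st.π st.home v y o := by
    obtain ⟨w, x, x', -, -, -, hx, -⟩ := h e₀ he₀
    obtain ⟨w', hw'⟩ := (ho x hx).2
    exact hw'.left_mem
  have hτ : ∀ x, ∃ w, Old Γ sc.eqv st.π st.home v y x →
      Γ.ReadsIn (Γ.Ball o (sc.rad o)) o w x := by
    intro x
    by_cases hx : Old Γ sc.eqv st.π st.home v y x
    · obtain ⟨w, hw⟩ := (ho x hx).2
      exact ⟨w, fun _ => hw.mono fun x' hx' => sc.ch3_mem_ball (ho x' hx').1⟩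
    · exact ⟨[], fun h' => absurd h' hx⟩
  choose τ hτ using hτ
  have hpt : ∀ u : G, ∃ x, ∀ w x', Γ.Reads y w x' → u = (wv st.π w)⁻¹ * v → x = x' := by
    intro u
    by_cases hu : ∃ w x', Γ.Reads y w x' ∧ u = (wv st.π w)⁻¹ * v
    · obtain ⟨w, x, h₁, h₂⟩ := hu
      refine ⟨x, fun w' x' h₃ h₄ => st.inj' h₁ h₃ ?_⟩
      rw [h₂] at h₄
      exact inv_injective (mul_right_cancel h₄)
    · exact ⟨y, fun w x' h₁ h₂ => absurd ⟨w, x', h₁, h₂⟩ hu⟩
  choose pt hpt using hpt
  let Φ : (G →₀ ℤ) →+ ((G × S) →₀ ℤ) := Finsupp.liftAddHom fun u =>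
    zmultiplesHom _ (ch st.π ((wv st.π wo)⁻¹ * v) (τ (pt u)))
  have hΦ : ∀ u, Φ (Finsupp.single u 1) = ch st.π ((wv st.π wo)⁻¹ * v) (τ (pt u)) := by
    intro u
    simp [Φ]
  have key : ∀ e, z e ≠ 0 → Φ (bd st.π (Finsupp.single e 1)) = Finsupp.single e 1 := by
    intro e he
    obtain ⟨w, x, x', h₁, h₂, h₃, hx, hx'⟩ := h e he
    have hb : bd st.π (Finsupp.single e 1) =
        Finsupp.single ((st.π e.2)⁻¹ * e.1) 1 - Finsupp.single e.1 1 := by
      simp [bd]
    have p₁ : pt e.1 = x := hpt _ w x h₁ h₃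
    have p₂ : pt ((st.π e.2)⁻¹ * e.1) = x' := by
      refine hpt _ (w ++ [(e.2, true)]) x' (h₁.append (LG.reads_singleton_iff.2 h₂)) ?_
      rw [wv_append, st.wv_single, h₃, mul_inv_rev, mul_assoc]
      rfl
    have hm : FreeGroup.mk (τ x') = FreeGroup.mk (τ x ++ [(e.2, true)]) :=
      sc.ball_mk_eq (hτ x' hx') ((hτ x hx).append
        (.cons (hτ x hx).right_mem h₂ (.nil (hτ x' hx').right_mem)))
    have hv : (wv st.π (τ x))⁻¹ * ((wv st.π wo)⁻¹ * v) = e.1 := by
      rw [h₃, ← st.wv_eq (hwo.append (hτ x hx).reads) h₁, wv_append, mul_inv_rev, mul_assoc]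
    rw [hb, map_sub, hΦ, hΦ, p₁, p₂, ch_eq_of_mk_eq _ _ hm, ch_append, hv, add_sub_cancel_left]
    simp [ch, ech]
  apply hne
  have h1 : z = ∑ e ∈ z.support, z e • Finsupp.single e (1 : ℤ) := by
    conv_lhs => rw [← Finsupp.sum_single z, Finsupp.sum]
    simp
  have h2 : Φ (bd st.π z) = z := by
    conv_lhs => rw [h1]
    conv_rhs => rw [h1]
    rw [map_sum, map_sum]
    refine Finset.sum_congr rfl fun e he => ?_
    rw [map_zsmul, map_zsmul, key e (Finsupp.mem_support_iff.1 he)]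
  rw [← h2, hz, map_zero]

private theorem not_home {u : G} {x x₂ : Y} (hne : st.cp u x ≠ st.cp u x₂)
    (hle : st.rk u x₂ ≤ st.rk u x) : ¬ sc.eqv x (st.home u) := by
  intro h
  apply hne
  have h₁ : st.rk u (st.home u) = st.rk u x₂ :=
    le_antisymm (st.rk_min u x₂) (hle.trans_eq (st.rk_eqv h))
  exact (st.cp_eqv h).trans (st.cp_eqv (st.rk_eq u x₂ h₁)).symm

/-- independence: take `Z` of maximal rank in the support of `F`; an edge in the support of `F Z` lies in
another copy `Z'` of the support, so both end points are `Old` (`rk_min`, `rk_eq`). -/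
theorem cyc_indep (F : st.Copy →₀ ((G × S) →₀ ℤ)) (hF : ∀ Z, F Z ∈ st.Cyc Z)
    (h0 : (F.sum fun _ z => z) = 0) : F = 0 := by
  classical
  by_contra hne
  choose cv cy hc using st.cp_surj
  obtain ⟨Z, hZ, hmax⟩ := F.support.exists_max_image (fun Z => st.rk (cv Z) (cy Z))
    (Finsupp.support_nonempty_iff.2 hne)
  apply Finsupp.mem_support_iff.1 hZ
  refine st.eq_zero_of_old (v := cv Z) (y := cy Z) (st.bd_cyc (hF Z)) fun e he => ?_
  obtain ⟨Z', hZ', hZZ, he'⟩ : ∃ Z' ∈ F.support, Z' ≠ Z ∧ F Z' e ≠ 0 := by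
    by_contra hcon
    apply he
    have h1 := congrArg (fun c : (G × S) →₀ ℤ => c e) h0
    simp only [Finsupp.sum, Finsupp.finsetSum_apply, Finsupp.coe_zero, Pi.zero_apply] at h1
    rwa [Finset.sum_eq_single_of_mem Z hZ] at h1
    intro Z' hZ' hZZ
    by_contra h'
    exact hcon ⟨Z', hZ', hZZ, h'⟩
  obtain ⟨x₀, x₀', h₁, h₂⟩ := st.supp_cyc (hF Z) he
  obtain ⟨x₂, x₂', h₃, h₄⟩ := st.supp_cyc (hF Z') he'
  obtain ⟨w, x, hw, hx, hv⟩ := st.cp_eq_iff.1 ((hc Z).symm.trans h₂)
  dsimp only at hw hx hv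
  obtain ⟨x', hx', -⟩ := sc.lift (sc.eqv.symm hx) h₁
  have h₅ : Z = st.cp e.1 x := h₂.trans (st.cp_eqv hx).symm
  have hle : st.rk e.1 x₂ ≤ st.rk e.1 x := by
    rw [← st.rk_eq_of_cp_eq ((hc Z').symm.trans h₄), ← st.rk_eq_of_cp_eq ((hc Z).symm.trans h₅)]
    exact hmax Z' hZ'
  refine ⟨w, x, x', hw, hx', hv, ⟨w, hw, ?_⟩,
    ⟨w ++ [(e.2, true)], hw.append (LG.reads_singleton_iff.2 hx'), ?_⟩⟩
  · rw [← hv]
    exact st.not_home (x₂ := x₂) (fun h => hZZ (h₄.trans (h.symm.trans h₅.symm))) hle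
  · rw [wv_append, st.wv_single, mul_inv_rev, mul_assoc, ← hv]
    refine st.not_home (x₂ := x₂') (fun h => hZZ ?_) ?_
    · rw [st.cp_edge hx', st.cp_edge h₃] at h
      exact h₄.trans (h.symm.trans h₅.symm)
    · rw [st.rk_edge hx', st.rk_edge h₃]
      exact hle

private theorem mk_surj (f : FreeGroup S) : ∃ w, FreeGroup.mk w = f := Quot.exists_rep f

/-- sums of cycles of copies. -/
private noncomputable def CycSum : AddSubgroup ((G × S) →₀ ℤ) where
  carrier := {c | ∃ F : st.Copy →₀ ((G × S) →₀ ℤ), (∀ Z, F Z ∈ st.Cyc Z) ∧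
    (F.sum fun _ z => z) = c}
  zero_mem' := ⟨0, fun _ => zero_mem _, Finsupp.sum_zero_index⟩
  add_mem' := by
    rintro _ _ ⟨F, hF, rfl⟩ ⟨F', hF', rfl⟩
    exact ⟨F + F', fun Z => add_mem (hF Z) (hF' Z),
      Finsupp.sum_add_index' (fun _ => rfl) fun _ _ _ => rfl⟩
  neg_mem' := by
    rintro _ ⟨F, hF, rfl⟩
    refine ⟨-F, fun Z => neg_mem (hF Z), ?_⟩
    rw [Finsupp.sum_neg_index fun _ => rfl, Finsupp.sum, Finsupp.sum, Finset.sum_neg_distrib]

/-- the words whose walks are closed and sums of cycles of copies. -/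
private noncomputable def CycN : Subgroup (FreeGroup S) where
  carrier := {f | FreeGroup.lift st.π f = 1 ∧
    ∀ v w, FreeGroup.mk w = f → ch st.π v w ∈ st.CycSum}
  one_mem' := ⟨map_one _, fun v w hw => by
    rw [ch_eq_of_mk_eq st.π v (w' := []) hw]
    exact zero_mem _⟩
  mul_mem' := by
    intro f f' ha hb
    obtain ⟨a, rfl⟩ := mk_surj f
    obtain ⟨b, rfl⟩ := mk_surj f'
    refine ⟨by rw [_root_.map_mul, ha.1, hb.1, mul_one], fun v w hw => ?_⟩
    rw [ch_eq_of_mk_eq st.π v (w' := a ++ b) hw, ch_append]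
    exact add_mem (ha.2 _ _ rfl) (hb.2 _ _ rfl)
  inv_mem' := by
    intro f hf
    refine ⟨by rw [_root_.map_inv, hf.1, inv_one], fun v w hw => ?_⟩
    have h := hf.2 ((wv st.π w)⁻¹ * v) (invRev w) (by rw [← FreeGroup.inv_mk, hw, inv_inv])
    rw [ch_invRev] at h
    exact neg_mem_iff.1 h

private theorem cycN_normal : st.CycN.Normal := by
  constructor
  intro f ha f'
  obtain ⟨a, rfl⟩ := mk_surj f
  obtain ⟨b, rfl⟩ := mk_surj f'
  refine ⟨by rw [_root_.map_mul, _root_.map_mul, ha.1, mul_one, _root_.map_inv, mul_inv_cancel],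
    fun v w hw => ?_⟩
  have h1 : wv st.π a = 1 := ha.1
  rw [ch_eq_of_mk_eq st.π v (w' := b ++ a ++ invRev b) hw, ch_append, ch_append, wv_append, h1,
    mul_one, ch_invRev, add_neg_cancel_comm]
  exact ha.2 _ _ rfl

/-- closed walks of the Cayley graph are sums of cycles of copies (`pres`; the set of `f : FreeGroup S` with
`lift π f = 1` and `∀ v, ch v f.toWord` of this form is a normal subgroup containing the relators). -/
theorem cyc_span (v : G) (w : List (S × Bool)) (hw : wv st.π w = 1) :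
    ∃ F : st.Copy →₀ ((G × S) →₀ ℤ), (∀ Z, F Z ∈ st.Cyc Z) ∧ (F.sum fun _ z => z) = ch st.π v w := by
  classical
  have := st.cycN_normal
  have h : Subgroup.normalClosure {f | ∃ y w, Γ.Reads y w y ∧ f = FreeGroup.mk w} ≤ st.CycN := by
    refine Subgroup.normalClosure_le_normal ?_
    rintro _ ⟨y, w₀, h₀, rfl⟩
    refine ⟨st.closed h₀, fun v w hw => ?_⟩
    rw [ch_eq_of_mk_eq st.π v hw]
    refine ⟨Finsupp.single (st.cp v y) (ch st.π v w₀), fun Z => ?_, Finsupp.sum_single_index rfl⟩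
    rw [Finsupp.single_apply]
    split_ifs with hZ
    · exact AddSubgroup.subset_closure ⟨v, y, w₀, hZ.symm, h₀, rfl⟩
    · exact zero_mem _
  exact (h (st.pres _ hw)).2 v w rfl

private theorem wv_replicate (w : List (S × Bool)) (n : ℕ) :
    wv st.π (List.replicate n w).flatten = wv st.π w ^ n := by
  induction n with
  | zero => simp
  | succ n ih => rw [List.replicate_succ, List.flatten_cons, wv_append, ih, pow_succ']

/-- an element of finite order that fixes a copy is trivial. -/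
theorem eq_one_of_act_eq (tf : sc.TF) {g : G} {n : ℕ} (hn : 0 < n) (hg : g ^ n = 1) {Z : st.Copy}
    (h : st.act g Z = Z) : g = 1 := by
  obtain ⟨v, y, rfl⟩ := st.cp_surj Z
  rw [act_cp] at h
  obtain ⟨w, x, hw, hx, hv⟩ := st.cp_eq_iff.1 h.symm
  dsimp only at hw hx hv
  have h1 : wv st.π w = (v * g * v⁻¹)⁻¹ := by rw [hv]; group
  have h2 : ∀ k : ℕ, ∃ x', Γ.Reads y (List.replicate k w).flatten x' ∧ sc.eqv y x' := by
    intro k
    induction k with
    | zero => exact ⟨y, LG.Reads.nil y, sc.eqv.refl y⟩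
    | succ k ih =>
      obtain ⟨x', h₁, h₂⟩ := ih
      obtain ⟨x'', h₃, h₄⟩ := sc.lift_reads h₂ hw
      refine ⟨x'', ?_, sc.eqv.trans (sc.eqv.symm hx) h₄⟩
      rw [List.replicate_succ', List.flatten_append, List.flatten_singleton]
      exact h₁.append h₃
  obtain ⟨x', h₁, -⟩ := h2 n
  have h3 : x' = y := by
    refine st.inj h₁ ?_
    rw [st.wv_replicate, h1, inv_pow, conj_pow, hg, mul_one, mul_inv_cancel, inv_one]
  subst h3
  have h4 := tf _ x w n hn hw (sc.eqv.symm hx) h₁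
  subst h4
  rw [st.closed hw, inv_one, one_mul] at hv
  exact mul_eq_left.1 hv

include st in
private theorem not_prime_order (tf : sc.TF) {g : G} {ℓ : ℕ} (hℓ : ℓ.Prime)
    (hg : orderOf g = ℓ) : False := by
  classical
  have : Fact ℓ.Prime := ⟨hℓ⟩
  have hgl : g ^ ℓ = 1 := hg ▸ pow_orderOf_eq_one g
  have hfix : ∀ Z, st.act g Z ≠ Z := fun Z h => by
    have h1 := st.eq_one_of_act_eq tf hℓ.pos hgl h
    rw [h1, orderOf_one] at hg
    exact hℓ.one_lt.ne hg
  obtain ⟨f, hw⟩ := st.surj g⁻¹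
  obtain ⟨w, rfl⟩ := mk_surj f
  replace hw : wv st.π w = g⁻¹ := hw
  obtain ⟨κ, β, hκ, hβ, hβκ⟩ := exists_bockstein st.π hℓ hg
  have hz : ∀ k : ℕ, ch st.π 1 (List.replicate k w).flatten =
      ∑ i ∈ Finset.range k, ch st.π (g ^ i) w := by
    intro k
    induction k with
    | zero => rfl
    | succ k ih =>
      rw [List.replicate_succ', List.flatten_append, List.flatten_singleton, ch_append, ih,
        Finset.sum_range_succ, st.wv_replicate, hw, inv_pow, inv_inv, mul_one]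
  obtain ⟨F, hF, hsum⟩ := st.cyc_span 1 (List.replicate ℓ w).flatten
    (by rw [st.wv_replicate, hw, inv_pow, hgl, inv_one])
  rw [hz] at hsum
  have hshf : shf g (∑ i ∈ Finset.range ℓ, ch st.π (g ^ i) w) =
      ∑ i ∈ Finset.range ℓ, ch st.π (g ^ i) w := by
    rw [map_sum]
    simp only [shf_ch, ← pow_succ]
    have h1 := Finset.sum_range_succ (fun i => ch st.π (g ^ i) w) ℓ
    rw [Finset.sum_range_succ' (fun i => ch st.π (g ^ i) w) ℓ, hgl, pow_zero] at h1
    exact add_right_cancel h1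
  have hβi : ∀ i : ℕ, β (ch st.π (g ^ i) w) = β (ch st.π 1 w) := by
    intro i
    induction i with
    | zero => rw [pow_zero]
    | succ i ih => rw [pow_succ, ← shf_ch, hβ, ih]
  let σ : st.Copy ≃ st.Copy :=
    ⟨st.act g, st.act g⁻¹, fun Z => by rw [← act_mul, mul_inv_cancel, act_one],
      fun Z => by rw [← act_mul, inv_mul_cancel, act_one]⟩
  let F' := Finsupp.equivMapDomain σ (F.mapRange (shf g) (map_zero _))
  have hF' : ∀ Z, F' (st.act g Z) = shf g (F Z) := by
    intro Z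
    change shf g (F (σ.symm (σ Z))) = _
    rw [Equiv.symm_apply_apply]
  have hFF : F - F' = 0 := by
    refine st.cyc_indep _ (fun Z => sub_mem (hF Z) ?_) ?_
    · obtain ⟨Z, rfl⟩ := σ.surjective Z
      exact (hF' Z).symm ▸ st.shf_cyc g (hF Z)
    · rw [Finsupp.sum_sub_index fun _ _ _ => rfl, hsum, sub_eq_zero, ← hshf, ← hsum,
        Finsupp.sum_equivMapDomain, Finsupp.sum_mapRange_index fun _ => rfl, map_finsuppSum]
  have hinv : ∀ Z, F (st.act g Z) = shf g (F Z) := fun Z => by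
    rw [← hF' Z, sub_eq_zero.1 hFF]
  have hdvd : ∀ Z c, c ∈ st.Cyc Z → (ℓ : ℤ) ∣ β c := by
    intro Z c hc
    induction hc using AddSubgroup.closure_induction with
    | mem z hz =>
      obtain ⟨v, y, w, -, hw, rfl⟩ := hz
      rw [← ZMod.intCast_zmod_eq_zero_iff_dvd, hβκ, st.closed hw, inv_one, one_mul, sub_self]
    | zero => rw [map_zero]; exact dvd_zero _
    | add a b _ _ ha hb => rw [map_add]; exact dvd_add ha hb
    | neg a _ ha => rw [map_neg]; exact dvd_neg.2 ha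
  have hit : ∀ (k : ℕ) Z, (st.act g)^[k] Z = st.act (g ^ k) Z := by
    intro k
    induction k with
    | zero => intro Z; rw [pow_zero, act_one]; rfl
    | succ k ih => intro Z; rw [Function.iterate_succ_apply', ih, pow_succ, act_mul]
  have h1 := dvd_sum_of_invariant hℓ (st.act g) (funext fun Z => by rw [hit, hgl, act_one]; rfl)
    (F.mapRange (fun c => β c / ℓ) (by simp)) (fun Z => by
      rw [Finsupp.mapRange_apply, Finsupp.mapRange_apply, hinv, hβ]) hfix
  rw [Finsupp.sum_mapRange_index fun _ => rfl] at h1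
  have h2 : (ℓ : ℤ) * (F.sum fun _ c => β c / ℓ) = ℓ * β (ch st.π 1 w) := by
    have h3 := congrArg β hsum
    rw [map_finsuppSum, map_sum] at h3
    simp only [hβi, Finset.sum_const, Finset.card_range, nsmul_eq_mul] at h3
    rw [← h3, Finsupp.sum, Finsupp.sum, Finset.mul_sum]
    exact Finset.sum_congr rfl fun Z _ => Int.mul_ediv_cancel' (hdvd Z _ (hF Z))
  rw [mul_left_cancel₀ (Int.natCast_ne_zero.2 hℓ.ne_zero) h2,
    ← ZMod.intCast_zmod_eq_zero_iff_dvd, hβκ, hw, inv_inv, mul_one] at h1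
  have h4 := hκ 1
  rw [one_mul] at h4
  rw [h4, add_sub_cancel_left] at h1
  exact one_ne_zero h1

include st in
/-- Reduce to prime order `ℓ` (`Nat.exists_prime_and_dvd`, `orderOf_pow_orderOf_div`).  Take `w` with
`wv w = g⁻¹`, `z = ch 1 (w^ℓ) = ∑_{i<ℓ} shf (g^i) (ch 1 w)`; `β z = ℓ β(ch 1 w)`, `β (ch 1 w) ≡ 1`.
`z = ∑ F Z`; `shf g z = z` and `cyc_indep` give `F (act g Z) = shf g (F Z)`; `β (F Z) = ℓ h Z` with `h`
invariant; `dvd_sum_of_invariant`. -/
theorem torsionFree (tf : sc.TF) (g : G) (hg : IsOfFinOrder g) : g = 1 := by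
  by_contra hne
  obtain ⟨ℓ, hℓ, hd⟩ := Nat.exists_prime_and_dvd (n := orderOf g) (by rwa [Ne, orderOf_eq_one_iff])
  exact st.not_prime_order tf hℓ (orderOf_pow_orderOf_div hg.orderOf_pos.ne' hd)

end Str
end Crest.Agent.R129
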