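import Crest.Agent.R129.Uop
import Crest.Agent.R129.AbsP
import Crest.Agent.R129.St5
import Crest.Agent.R129.Torsion2

/-!
# R129 / Main174 : from a labelled graph with a local spectral gap to a projection in `C*_r(G)`
-/

set_option autoImplicit false
open scoped InnerProductSpace ComplexConjugate

namespace Crest.Agent.R129

/-- the statement of S0174. -/
def Goal174 : Prop :=
  ∃ (G : Type) (_ : Group G), Group.FG G ∧ (∀ g : G, IsOfFinOrder g → g = 1) ∧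
    ∃ e ∈ Crest.OperatorAlgebra.reducedGroupCStar G,
      e * e = e ∧ star e = e ∧
      0 < (Crest.OperatorAlgebra.canonicalTrace G e).re ∧
      (Crest.OperatorAlgebra.canonicalTrace G e).re < 1 / 2

/-- local gap: `ζ - B` is bounded below after removing any subset of a small ball. -/
def LocGap {S Y : Type} [Fintype S] (Γ : LG S Y) (sc : SC Γ) (c : S → ℂ) (ζ γ : ℝ) : Prop :=
  ∀ (o : Y) (D : Set Y), D ⊆ Γ.Ball o (sc.rad o) → ∀ f : L2 Y ℂ, (∀ x ∈ D, f x = 0) →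
    γ * ‖f‖ ≤ ‖proj Dᶜ ((ζ : ℂ) • f - Γ.Bop c f)‖

namespace Str
variable {S Y : Type} {Γ : LG S Y} {sc : SC Γ} {y₀ : Y} {G : Type} [Group G] (st : Str Γ sc y₀ G)

theorem M174_pyth {ι : Type} (D : Set ι) (f : L2 ι ℂ) :
    ‖f‖ ^ 2 = ‖proj D f‖ ^ 2 + ‖proj Dᶜ f‖ ^ 2 := by
  refine (L2_hasSum_norm f).unique ?_
  have h := (L2_hasSum_norm (proj D f)).add (L2_hasSum_norm (proj Dᶜ f))
  have e : (fun i => ‖f i‖ ^ 2) = fun i => ‖proj D f i‖ ^ 2 + ‖proj Dᶜ f i‖ ^ 2 := by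
    funext i
    by_cases hi : i ∈ D
    · rw [proj_apply_mem f hi, proj_apply_not_mem f (D := Dᶜ) (fun h => h hi)]
      simp
    · rw [proj_apply_not_mem f hi, proj_apply_mem f (D := Dᶜ) hi]
      simp
  rw [e]
  exact h

theorem M174_normU (rp : st.Copy → G × Y) (hrp : ∀ Z, st.cp (rp Z).1 (rp Z).2 = Z) (f : L2 G ℂ) :
    ‖st.Uop rp f‖ ^ 2 = ‖proj {u | ¬ st.Near u} f‖ ^ 2 := by
  rw [← Abs_re_self, ← Abs_re_self, st.inner_Uop rp hrp]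

/-- `‖(ζ - J) f‖² = ζ² ‖non-root part‖² + ∑_Z ‖proj Dᶜ (ζ - B) (U f Z)‖²` (`inner_Uop`, `Uop_far`, `far_eq_proj`,
`L2_hasSum_norm`; `rp Z = Quotient.out Z`). -/
theorem gap_far [Fintype S] (c : S → ℂ) {ζ γ : ℝ} (hγ : 0 ≤ γ) (hγζ : γ ≤ ζ)
    (h : LocGap Γ sc c ζ γ) (f : L2 G ℂ) :
    γ * ‖f‖ ≤ ‖(ζ : ℂ) • f - eop st.π c st.Far f‖ := by
  set rp : st.Copy → G × Y := fun Z => Quotient.out Z with hrpd
  have hrp : ∀ Z, st.cp (rp Z).1 (rp Z).2 = Z := fun Z => Quotient.out_eq Z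
  set g : L2 G ℂ := (ζ : ℂ) • f - eop st.π c st.Far f with hg
  have hζ : 0 ≤ ζ := hγ.trans hγζ
  -- non-root part
  have h1 : proj {u | ¬ st.Near u}ᶜ g = (ζ : ℂ) • proj {u | ¬ st.Near u}ᶜ f := by
    rw [hg, map_sub, map_smul, proj_compl]
    simp only [sub_apply, one_apply_eq_self]
    rw [st.far_eq_proj c f, sub_self, sub_zero]
  have h1' : ‖proj {u | ¬ st.Near u}ᶜ g‖ ^ 2 = ζ ^ 2 * ‖proj {u | ¬ st.Near u}ᶜ f‖ ^ 2 := by
    rw [h1, norm_smul, mul_pow, Complex.norm_real, Real.norm_eq_abs, sq_abs]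
  -- root part
  have h2 : ∀ Z, γ * ‖st.Uop rp f Z‖ ≤ ‖st.Uop rp g Z‖ := by
    intro Z
    obtain ⟨o, ho, -⟩ := st.Dset_subset (rp Z).1 (rp Z).2
    have hv : ∀ x ∈ st.Dset (rp Z).1 (rp Z).2, st.Uop rp f Z x = 0 := by
      intro x hx
      rw [st.Uop_apply rp hrp, if_neg (fun h => h.2 hx)]
    have h3 := h o _ ho (st.Uop rp f Z) hv
    have h4 : st.Uop rp g Z =
        proj (st.Dset (rp Z).1 (rp Z).2)ᶜ ((ζ : ℂ) • st.Uop rp f Z - Γ.Bop c (st.Uop rp f Z)) := by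
      have h5 : proj (st.Dset (rp Z).1 (rp Z).2)ᶜ (st.Uop rp f Z) = st.Uop rp f Z :=
        (proj_eq_self_iff _ _).2 fun x hx => hv x (not_not.1 hx)
      have h6 : st.Uop rp g = (ζ : ℂ) • st.Uop rp f - st.Uop rp (eop st.π c st.Far f) := by
        rw [hg, map_sub, map_smul]
      rw [h6, map_sub, map_smul, h5, ← st.Uop_far rp hrp c f Z]
      rfl
    rw [h4]
    exact h3
  have h2' : γ ^ 2 * ‖st.Uop rp f‖ ^ 2 ≤ ‖st.Uop rp g‖ ^ 2 := by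
    refine hasSum_le (fun Z => ?_) ((L2_hasSum_norm (st.Uop rp f)).mul_left (γ ^ 2))
      (L2_hasSum_norm (st.Uop rp g))
    rw [← mul_pow]
    exact pow_le_pow_left₀ (mul_nonneg hγ (norm_nonneg _)) (h2 Z) 2
  rw [st.M174_normU rp hrp, st.M174_normU rp hrp] at h2'
  have h6 := M174_pyth {u | ¬ st.Near u} g
  have h7 := M174_pyth {u | ¬ st.Near u} f
  have h8 : γ ^ 2 ≤ ζ ^ 2 := pow_le_pow_left₀ hγ hγζ 2
  refine (pow_le_pow_iff_left₀ (mul_nonneg hγ (norm_nonneg _)) (norm_nonneg _) two_ne_zero).1 ?_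
  rw [mul_pow, h6, h7, h1']
  nlinarith [mul_le_mul_of_nonneg_right h8 (sq_nonneg ‖proj {u | ¬ st.Near u}ᶜ f‖)]

/-- transplant a vector supported in the base component: choose `rp` with `rp (cp 1 y₀) = (1, y₀)`,
`Dset_base`, `Uop_surj` for `sgl (cp 1 y₀) g`. -/
theorem neg_far [Fintype S] (c : S → ℂ) {ζ γ : ℝ} {g : L2 Y ℂ} (hg : g ≠ 0)
    (hs : ∀ x, x ∉ Γ.Comp y₀ → g x = 0)
    (h : fm ((ζ : ℂ) • (1 : L2 Y ℂ →L[ℂ] L2 Y ℂ) - Γ.Bop c) g ≤ -γ * ‖g‖ ^ 2) :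
    ∃ w : L2 G ℂ, w ≠ 0 ∧
      fm ((ζ : ℂ) • (1 : L2 G ℂ →L[ℂ] L2 G ℂ) - eop st.π c st.Far) w ≤ -γ * ‖w‖ ^ 2 := by
  classical
  set Z₀ := st.cp 1 y₀ with hZ₀
  set rp : st.Copy → G × Y := Function.update (fun Z => Quotient.out Z) Z₀ (1, y₀) with hrpd
  have hrp0 : rp Z₀ = (1, y₀) := Function.update_self ..
  have hrp : ∀ Z, st.cp (rp Z).1 (rp Z).2 = Z := by
    intro Z
    by_cases hZ : Z = Z₀
    · rw [hZ, hrp0]
    · rw [hrpd, Function.update_of_ne hZ]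
      exact Quotient.out_eq Z
  obtain ⟨w, hw1, hw2⟩ := st.Uop_surj rp hrp (sgl Z₀ g) (by
    intro Z x hx
    by_cases hZ : Z = Z₀
    · subst hZ
      rw [sgl_self]
      rw [hrp0] at hx
      refine hs x fun h => hx ⟨h, ?_⟩
      rw [st.Dset_base]
      exact Set.notMem_empty x
    · rw [sgl_ne hZ]
      rfl)
  have hP : proj {u | ¬ st.Near u} w = w :=
    (proj_eq_self_iff _ _).2 fun u hu => hw1 u (not_not.1 hu)
  have hn : ‖w‖ ^ 2 = ‖g‖ ^ 2 := by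
    have := st.M174_normU rp hrp w
    rw [hP, hw2, norm_sgl] at this
    exact this.symm
  refine ⟨w, ?_, ?_⟩
  · rintro rfl
    rw [norm_zero] at hn
    exact hg (norm_eq_zero.1 (pow_eq_zero_iff (two_ne_zero) |>.1 (by rw [← hn]; simp)))
  · set k : L2 G ℂ := (ζ : ℂ) • w - eop st.π c st.Far w with hk
    have hPk : proj {u | ¬ st.Near u} k = k := by
      rw [hk, map_sub, map_smul, hP, st.far_eq_proj c w]
    have hU : st.Uop rp k Z₀ = (ζ : ℂ) • g - Γ.Bop c g := by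
      have h5 := st.Uop_far rp hrp c w Z₀
      rw [hrp0, hw2, sgl_self] at h5
      simp only [st.Dset_base] at h5
      have h8 : proj (∅ : Set Y)ᶜ (Γ.Bop c g) = Γ.Bop c g :=
        (proj_eq_self_iff _ _).2 (fun x hx => absurd (Set.notMem_empty x) hx)
      rw [h8] at h5
      rw [← h5, hk, map_sub, map_smul, hw2]
      have : ((ζ : ℂ) • (sgl Z₀ g : L2 st.Copy (L2 Y ℂ)) - st.Uop rp (eop st.π c st.Far w)) Z₀ =
          (ζ : ℂ) • (sgl Z₀ g : L2 st.Copy (L2 Y ℂ)) Z₀ - st.Uop rp (eop st.π c st.Far w) Z₀ := rfl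
      rw [this, sgl_self]
    have h6 : ⟪w, k⟫_ℂ = ⟪g, (ζ : ℂ) • g - Γ.Bop c g⟫_ℂ := by
      rw [← hU, ← inner_sgl_left, ← hw2, st.inner_Uop rp hrp, hP, hPk]
    have h7 : fm ((ζ : ℂ) • (1 : L2 G ℂ →L[ℂ] L2 G ℂ) - eop st.π c st.Far) w =
        fm ((ζ : ℂ) • (1 : L2 Y ℂ →L[ℂ] L2 Y ℂ) - Γ.Bop c) g := by
      unfold fm
      exact congrArg Complex.re h6
    rw [h7, hn]
    exact h

end Str

/-- a non-zero projection that commutes with right translations has positive trace, equal to `‖e δ₁‖²`. -/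
theorem trace_proj {G : Type} [Group G] {e : L2 G ℂ →L[ℂ] L2 G ℂ} (h1 : e * e = e) (h2 : star e = e) :
    (Crest.OperatorAlgebra.canonicalTrace G e).re = ‖e (dl 1)‖ ^ 2 := by
  have hsa : IsSelfAdjoint e := h2
  unfold Crest.OperatorAlgebra.canonicalTrace
  rw [deltaOne_eq, ← Abs_re_self, Abs_sa hsa]
  have : e (e (dl 1)) = e (dl 1) := by
    exact congrArg (fun T : L2 G ℂ →L[ℂ] L2 G ℂ => T (dl 1)) h1
  rw [this]

theorem trace_pos {G : Type} [Group G] {e : L2 G ℂ →L[ℂ] L2 G ℂ} (hc : ∀ g, e * rt g = rt g * e)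
    (hne : e ≠ 0) : e (dl 1) ≠ 0 := by
  intro h0
  refine hne (L2_hom_ext fun i v => ?_)
  have h1 : (sgl i v : L2 G ℂ) = v • dl i := by
    unfold dl
    rw [← map_smul, smul_eq_mul, mul_one]
  have h2 : dl i = rt i⁻¹ (dl (1 : G)) := by
    rw [rt_dl, inv_inv, one_mul]
  have h3 : e (rt i⁻¹ (dl 1)) = rt i⁻¹ (e (dl 1)) := by
    exact congrArg (fun T : L2 G ℂ →L[ℂ] L2 G ℂ => T (dl 1)) (hc i⁻¹)
  rw [h1, map_smul, h2, h3, h0, map_zero, smul_zero]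
  rfl

/-- `exists_neg_comp` gives `y₀`; `exists_Str`; `exists_forest`; `F = c - T` with `c = ζ + κ/ζ`, `κ = 2|S|`;
`isUnit_of_gap`, `exists_negProj`, `exists_cstar_subalgebra`; `c² τ(e) ≤ ‖T δ₁‖² = κ ≤ c²/4`. -/
theorem main174' {S Y : Type} [Fintype S] (Γ : LG S Y) (sc : SC Γ) (tf : sc.TF)
    (hall : ∀ s, ∃ x y, Γ.E x (s, true) y) (c : S → ℂ) (hc : ∀ s, ‖c s‖ = 1) (dt : ℕ)
    (hd : Γ.DegLe dt) (ζ γ : ℝ) (hζ : 0 < ζ) (hκ : 2 * (Fintype.card S : ℝ) ≤ 9 / 16 * ζ ^ 2)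
    (hγζ : γ ≤ ζ) (herr : 16 * Forest.err dt ζ < γ) (hLG : LocGap Γ sc c ζ γ)
    (hneg : ∃ f : L2 Y ℂ, f ≠ 0 ∧
      fm ((ζ : ℂ) • (1 : L2 Y ℂ →L[ℂ] L2 Y ℂ) - Γ.Bop c) f ≤ -γ * ‖f‖ ^ 2) : Goal174 := by
  obtain ⟨f, hf, hfn⟩ := hneg
  obtain ⟨y₀, g, hg, hgs, hgn⟩ := Γ.exists_neg_comp c hf hfn
  obtain ⟨st⟩ := exists_Str Γ sc y₀ hall
  set κ : ℝ := 2 * (Fintype.card S : ℝ) with hκd
  obtain ⟨F, -, hFJ⟩ : ∃ F : Forest (Top st.π c) κ dt,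
      F.S = eop st.π c st.Child ∧ F.J = eop st.π c st.Far := st.exists_forest hc hd
  have hdt : (0 : ℝ) ≤ (dt : ℝ) := Nat.cast_nonneg _
  have herr0 : 0 ≤ Forest.err dt ζ := by
    unfold Forest.err
    positivity
  have hγ : 0 ≤ γ := by linarith
  have hκ0 : 0 ≤ κ := by positivity
  have hu := F.isUnit_of_gap hζ hdt hκ herr (fun f => by
    rw [hFJ]; exact st.gap_far c hγ hγζ hLG f)
  obtain ⟨w, hw, hwn⟩ := st.neg_far c hg hgs hgn
  obtain ⟨x, hx⟩ := F.exists_neg hζ hdt hκ herr hw (by rw [hFJ]; exact hwn)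
  have hsa : IsSelfAdjoint (((ζ + κ / ζ : ℝ) : ℂ) • (1 : L2 (PG Γ) ℂ →L[ℂ] L2 (PG Γ) ℂ) -
      Top st.π c) := by
    refine IsSelfAdjoint.sub ?_ (Top_selfAdjoint st.π c)
    refine IsSelfAdjoint.smul ?_ (IsSelfAdjoint.one _)
    exact Complex.conj_ofReal _
  obtain ⟨e, he⟩ := exists_negProj hsa hu
  obtain ⟨A, hAc, hAe, hAl, hAr⟩ := exists_cstar_subalgebra (PG Γ)
  have hTA : Top st.π c ∈ A := by
    unfold Top
    exact sum_mem fun a _ => A.smul_mem (hAl _) _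
  have heA : e ∈ A := he.mem A hAc (sub_mem (A.smul_mem (one_mem A) _) hTA)
  have hne := trace_pos (hAr e heA) (he.ne_zero hx)
  refine ⟨PG Γ, inferInstance, Group.fg_of_surjective st.surj, st.torsionFree tf, e, ?_, he.idem,
    he.sa, ?_, ?_⟩
  · rw [← hAe]
    exact heA
  · rw [trace_proj he.idem he.sa]
    exact pow_pos (norm_pos_iff.2 hne) 2
  · rw [trace_proj he.idem he.sa]
    have h1 := he.norm_le (dl 1)
    have h2 : ‖Top st.π c (dl 1)‖ ^ 2 = κ := norm_Top_dl st.π c hc st.lv_injective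
    have hc0 : 0 < ζ + κ / ζ := by positivity
    have h3 : (ζ + κ / ζ) ^ 2 * ‖e (dl 1)‖ ^ 2 ≤ κ := by
      rw [← mul_pow]
      exact (pow_le_pow_left₀ (mul_nonneg hc0.le (norm_nonneg _)) h1 2).trans h2.le
    have h4 : 4 * κ ≤ (ζ + κ / ζ) ^ 2 := by
      have h5 : ζ * (κ / ζ) = κ := by field_simp
      nlinarith [sq_nonneg (ζ - κ / ζ)]
    by_contra h6
    rw [not_lt] at h6
    have h7 : 0 < (ζ + κ / ζ) ^ 2 := by positivity
    nlinarith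

end Crest.Agent.R129
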