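import Crest.Agent.R129.Lv
import Crest.Agent.R129.Avg

/-!
# R129 / MeanAux : auxiliary facts for the mean bound
-/

set_option autoImplicit false

namespace Crest.Agent.R129

section abstr
variable {A : Type} [AddCommGroup A] [Fintype A]

open Classical in
theorem Mean_avg_eq (H : AddSubgroup A) (f : A → ℝ) (z : A) :
    avg H f z = (∑ w ∈ Finset.univ.filter (fun w => w - z ∈ H), f w) /
      (Finset.univ.filter (fun w => w - z ∈ H)).card := by
  unfold avg
  congr 1
  · refine Finset.sum_nbij' (fun h => z + h) (fun w => w - z) ?_ ?_ ?_ ?_ ?_ <;> simp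
  · congr 1
    refine Finset.card_nbij' (fun h => z + h) (fun w => w - z) ?_ ?_ ?_ ?_ <;>
      intro x hx <;> simp_all

theorem Mean_avg_perm (H : AddSubgroup A) (T : A ≃ A) (hT : ∀ z w, T w - T z ∈ H ↔ w - z ∈ H)
    (g : A → ℝ) (z : A) : avg H (g ∘ T) z = avg H g (T z) := by
  classical
  rw [Mean_avg_eq, Mean_avg_eq]
  congr 1
  · refine Finset.sum_equiv T (fun w => ?_) fun w _ => rfl
    simp [hT]
  · congr 1
    refine Finset.card_equiv T fun w => ?_
    simp [hT]

theorem Mean_step {H H' : AddSubgroup A} (h : H ≤ H') (f g : A → ℝ) :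
    ∑ z, avg H f z * avg H g z = ∑ z, avg H' f z * avg H' g z +
      ∑ z, (avg H f z - avg H' f z) * (avg H g z - avg H' g z) := by
  have h1 : ∀ f g : A → ℝ, ∑ z, avg H f z * avg H' g z = ∑ z, avg H' f z * avg H' g z := by
    intro f g
    rw [avg_symm, avg_symm, avg_avg, avg_avg, sup_eq_right.2 h, sup_idem]
  have h2 := h1 f g
  have h3 := h1 g f
  simp only [mul_comm (avg H g _), mul_comm (avg H' g _)] at h3
  simp only [sub_mul, mul_sub, Finset.sum_sub_distrib]
  linarith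

theorem Mean_tele (H : ℕ → AddSubgroup A) (h : ∀ i, H (i + 1) ≤ H i) (f g : A → ℝ) (P : ℕ) :
    ∑ z, avg (H P) f z * avg (H P) g z = ∑ z, avg (H 0) f z * avg (H 0) g z +
      ∑ i ∈ Finset.range P, ∑ z, (avg (H (i + 1)) f z - avg (H i) f z) *
        (avg (H (i + 1)) g z - avg (H i) g z) := by
  induction P with
  | zero => simp
  | succ P ih => rw [Finset.sum_range_succ, Mean_step (h P), ih, add_assoc]

theorem Mean_tele_le (H : ℕ → AddSubgroup A) (h : ∀ i, H (i + 1) ≤ H i) (g : A → ℝ) (P : ℕ)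
    (s : Finset ℕ) (hs : s ⊆ Finset.range P) :
    ∑ i ∈ s, ∑ z, (avg (H (i + 1)) g z - avg (H i) g z) ^ 2 ≤ ∑ z, avg (H P) g z ^ 2 := by
  have h1 := Mean_tele H h g g P
  simp only [← sq] at h1
  have h2 : 0 ≤ ∑ z, avg (H 0) g z ^ 2 := Finset.sum_nonneg fun _ _ => sq_nonneg _
  have h3 := Finset.sum_le_sum_of_subset_of_nonneg
    (f := fun i => ∑ z, (avg (H (i + 1)) g z - avg (H i) g z) ^ 2) hs
    fun _ _ _ => Finset.sum_nonneg fun _ _ => sq_nonneg _
  linarith

omit [AddCommGroup A] in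
theorem Mean_cs {ι : Type} (s : Finset ι) (a b : ι → A → ℝ) {X Y : ℝ}
    (hX : ∑ i ∈ s, ∑ z, a i z ^ 2 ≤ X) (hY : ∑ i ∈ s, ∑ z, b i z ^ 2 ≤ Y) :
    ∑ i ∈ s, ∑ z, a i z * b i z ≤ √X * √Y := by
  rw [← Finset.sum_product'] at hX hY ⊢
  refine (Real.sum_mul_le_sqrt_mul_sqrt _ _ _).trans ?_
  gcongr

end abstr

section conc
variable (F : Type) [Field F]

/-- sequences with zero tail -/
def MeanA (P : ℕ) : AddSubgroup (ℕ → F) where
  carrier := {z | ∀ j, P < j → z j = 0}
  zero_mem' := fun _ _ => rfl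
  add_mem' := fun {a b} ha hb j hj => by simp [ha j hj, hb j hj]
  neg_mem' := fun {a} ha j hj => by simp [ha j hj]

/-- the first `i` coordinates vanish -/
def MeanH (P i : ℕ) : AddSubgroup (MeanA F P) where
  carrier := {z | ∀ j, j < i → z.1 j = 0}
  zero_mem' := fun _ _ => rfl
  add_mem' := fun {a b} ha hb j hj => by simp [ha j hj, hb j hj]
  neg_mem' := fun {a} ha j hj => by simp [ha j hj]

variable {F}

/-- the tilted subgroups -/
def MeanK (P i : ℕ) (l : F) : AddSubgroup (MeanA F P) where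
  carrier := {z | (∀ j, j < i → z.1 j = 0) ∧ z.1 i = l * z.1 (i + 1)}
  zero_mem' := ⟨fun _ _ => rfl, by simp⟩
  add_mem' := fun {a b} ha hb => ⟨fun j hj => by simp [ha.1 j hj, hb.1 j hj], by
    simp [ha.2, hb.2, mul_add]⟩
  neg_mem' := fun {a} ha => ⟨fun j hj => by simp [ha.1 j hj], by simp [ha.2]⟩

theorem mem_MeanA {P : ℕ} {z : ℕ → F} : z ∈ MeanA F P ↔ ∀ j, P < j → z j = 0 := Iff.rfl
theorem mem_MeanH {P i : ℕ} {z : MeanA F P} : z ∈ MeanH F P i ↔ ∀ j, j < i → z.1 j = 0 := Iff.rfl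
theorem mem_MeanK {P i : ℕ} {l : F} {z : MeanA F P} :
    z ∈ MeanK P i l ↔ (∀ j, j < i → z.1 j = 0) ∧ z.1 i = l * z.1 (i + 1) := Iff.rfl

theorem sub_mem_MeanH {P i : ℕ} {z w : MeanA F P} :
    w - z ∈ MeanH F P i ↔ ∀ j, j < i → w.1 j = z.1 j := by
  simp [mem_MeanH, sub_eq_zero]

theorem MeanH_succ_le (P i : ℕ) : MeanH F P (i + 1) ≤ MeanH F P i :=
  fun _ hz j hj => hz j (by omega)

noncomputable instance MeanA_fintype [Fintype F] (P : ℕ) : Fintype (MeanA F P) :=
  Set.Finite.fintype (s := {z : ℕ → F | ∀ j, P < j → z j = 0})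
    ((finite_Lv P (Finset.univ : Finset F)).subset fun _ hz => ⟨Finset.mem_univ _, hz⟩)

/-- a shear along the positions with property `i % 2 = r` -/
def MeanS (r : ℕ) (l : F) (z : ℕ → F) : ℕ → F :=
  fun i => if i % 2 = r then z i + l * z (i + 1) else z i

theorem MeanS_neg (r : ℕ) (l : F) (z : ℕ → F) : MeanS r (-l) (MeanS r l z) = z := by
  funext i
  unfold MeanS
  by_cases h : i % 2 = r
  · have : ¬ (i + 1) % 2 = r := by omega
    simp [h, this]
  · simp [h]

theorem MeanS_mem {P : ℕ} (r : ℕ) (l : F) {z : ℕ → F} (hz : z ∈ MeanA F P) :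
    MeanS r l z ∈ MeanA F P := fun j hj => by
  simp [MeanS, hz j hj, hz (j + 1) (by omega)]

theorem MeanS_last {P : ℕ} (r : ℕ) (l : F) {z : ℕ → F} (hz : z ∈ MeanA F P) :
    MeanS r l z P = z P := by
  simp [MeanS, hz (P + 1) (by omega)]

/-- the shear as an automorphism -/
def MeanE (P r : ℕ) (l : F) : MeanA F P ≃+ MeanA F P where
  toFun z := ⟨MeanS r l z.1, MeanS_mem r l z.2⟩
  invFun z := ⟨MeanS r (-l) z.1, MeanS_mem r (-l) z.2⟩
  left_inv z := Subtype.ext (MeanS_neg r l z.1)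
  right_inv z := Subtype.ext (by simpa using MeanS_neg r (-l) z.1)
  map_add' a b := Subtype.ext (by
    funext i
    simp only [MeanS, AddSubgroup.coe_add, Pi.add_apply]
    split_ifs <;> ring)

theorem Mean_map_H {P r i : ℕ} (hi : i % 2 = r) (l : F) :
    (MeanH F P i).map (MeanE P r l).toAddMonoidHom = MeanH F P i := by
  have key : ∀ (l : F) (z : MeanA F P), z ∈ MeanH F P i → ∀ j, j < i → MeanS r l z.1 j = 0 := by
    intro l z hz j hj
    unfold MeanS
    split_ifs with h
    · rw [hz j hj, hz (j + 1) (by omega)]; simp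
    · exact hz j hj
  ext z
  rw [AddSubgroup.mem_map]
  constructor
  · rintro ⟨w, hw, rfl⟩
    exact key l w hw
  · intro hz
    exact ⟨(MeanE P r l).symm z, key (-l) z hz, (MeanE P r l).apply_symm_apply z⟩

theorem Mean_map_K {P r i : ℕ} (hi : i % 2 = r) (l : F) :
    (MeanH F P (i + 1)).map (MeanE P r l).toAddMonoidHom = MeanK P i l := by
  have hi' : ¬ (i + 1) % 2 = r := by omega
  ext z
  rw [AddSubgroup.mem_map]
  constructor
  · rintro ⟨w, hw, rfl⟩
    refine ⟨fun j hj => ?_, ?_⟩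
    · change MeanS r l w.1 j = 0
      unfold MeanS
      split_ifs with h
      · rw [hw j (by omega), hw (j + 1) (by omega)]; simp
      · exact hw j (by omega)
    · change MeanS r l w.1 i = l * MeanS r l w.1 (i + 1)
      simp [MeanS, hi, hi', hw i (by omega)]
  · intro hz
    refine ⟨(MeanE P r l).symm z, fun j hj => ?_, (MeanE P r l).apply_symm_apply z⟩
    change MeanS r (-l) z.1 j = 0
    unfold MeanS
    rcases (Nat.lt_succ_iff.1 hj).eq_or_lt with rfl | hj'
    · rw [if_pos hi, hz.2]; ring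
    · split_ifs with h
      · rw [hz.1 j hj', hz.1 (j + 1) (by omega)]; simp
      · exact hz.1 j hj'

theorem MeanK_sup {P i : ℕ} (hi : i < P) {l l' : F} (h : l ≠ l') :
    MeanK P i l ⊔ MeanK P i l' = MeanH F P i := by
  classical
  refine le_antisymm (sup_le (fun z hz => hz.1) fun z hz => hz.1) fun z hz => ?_
  have hl : l - l' ≠ 0 := sub_ne_zero.2 h
  set a : F := (z.1 i - l' * z.1 (i + 1)) / (l - l') with ha
  have hm : (fun j => if j = i then l * a else if j = i + 1 then a else 0) ∈ MeanA F P :=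
    fun j hj => by simp only; rw [if_neg (by omega), if_neg (by omega)]
  rw [AddSubgroup.mem_sup]
  refine ⟨⟨_, hm⟩, ⟨fun j hj => ?_, ?_⟩, z - ⟨_, hm⟩, ⟨fun j hj => ?_, ?_⟩, by simp⟩
  · simp only
    rw [if_neg (by omega), if_neg (by omega)]
  · simp
  · simp only [AddSubgroup.coe_sub, Pi.sub_apply]
    rw [if_neg (by omega), if_neg (by omega), hz j hj, sub_zero]
  · simp only [AddSubgroup.coe_sub, Pi.sub_apply, if_true, Nat.succ_ne_self, if_false]
    rw [ha]
    field_simp
    ring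

variable [Fintype F]

/-- Bessel's inequality for the sheared functions -/
theorem Mean_bessel (P r : ℕ) (Λ : Finset F) (f : MeanA F P → ℝ) :
    ∑ p ∈ Λ ×ˢ (Finset.range P).filter (fun i => i % 2 = r), ∑ z,
      (avg (MeanH F P (p.2 + 1)) (f ∘ MeanE P r p.1) z -
        avg (MeanH F P p.2) (f ∘ MeanE P r p.1) z) ^ 2 ≤ ∑ z, f z ^ 2 := by
  refine le_trans (le_of_eq ?_) (bessel_avg (Λ ×ˢ (Finset.range P).filter (fun i => i % 2 = r))
    (fun p => MeanK P p.2 p.1) (fun p => MeanH F P p.2) (fun p _ z hz => hz.1) ?_ f)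
  · refine Finset.sum_congr rfl fun p hp => ?_
    have h := (Finset.mem_filter.1 (Finset.mem_product.1 hp).2).2
    rw [avg_comp, avg_comp, Mean_map_H h, Mean_map_K h]
    exact Equiv.sum_comp (MeanE P r p.1).toEquiv
      fun z => (avg (MeanK P p.2 p.1) f z - avg (MeanH F P p.2) f z) ^ 2
  · rintro ⟨l, i⟩ hp ⟨l', i'⟩ hp' hne
    obtain ⟨h1, h2⟩ := Finset.mem_filter.1 (Finset.mem_product.1 hp).2
    obtain ⟨h1', h2'⟩ := Finset.mem_filter.1 (Finset.mem_product.1 hp').2
    simp only at h1 h2 h1' h2' ⊢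
    rcases lt_trichotomy i i' with h | rfl | h
    · refine Or.inr (Or.inl fun z hz => ⟨fun j hj => hz j (by omega), ?_⟩)
      rw [hz i h, hz (i + 1) (by omega), mul_zero]
    · exact Or.inl ⟨MeanK_sup (Finset.mem_range.1 h1) fun e => hne (by rw [e]), rfl⟩
    · refine Or.inr (Or.inr fun z hz => ⟨fun j hj => hz j (by omega), ?_⟩)
      rw [hz i' h, hz (i' + 1) (by omega), mul_zero]

omit [Fintype F] in
theorem Mean_Tr_iff (π : Loc F) (i : ℕ) (z w : ℕ → F) :
    (∀ j, j < i → Tr π w j = Tr π z j) ↔ ∀ j, j < i → w j = z j := by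
  have key : ∀ j, (∀ k, k < j → w k = z k) → trunc j w = trunc j z := fun j h => by
    funext k
    unfold trunc
    split_ifs with hk
    · exact h k hk
    · rfl
  constructor
  · intro h j
    induction j using Nat.strong_induction_on with
    | _ j ih =>
      intro hj
      have h1 := h j hj
      unfold Tr at h1
      rw [key j fun k hk => ih k hk (by omega)] at h1
      exact (π j _).injective h1
  · intro h j hj
    unfold Tr
    rw [key j fun k hk => h k (by omega), h j hj]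

/-- the tree automorphism as a permutation -/
noncomputable def MeanT (P : ℕ) (π : Loc F) (h0 : Fix0 π) : MeanA F P ≃ MeanA F P :=
  Equiv.ofBijective (fun z => ⟨Tr π z.1, fun j hj => by
      unfold Tr
      rw [z.2 j hj]
      exact h0 _ _⟩)
    (Finite.injective_iff_bijective.1 fun z w h => Subtype.ext (funext fun j =>
      (Mean_Tr_iff π (j + 1) w.1 z.1).1 (fun k _ => congrFun (congrArg Subtype.val h) k) j
        (Nat.lt_succ_self j)))

theorem MeanT_val (P : ℕ) (π : Loc F) (h0 : Fix0 π) (z : MeanA F P) :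
    (MeanT P π h0 z).1 = Tr π z.1 := rfl

theorem Mean_avg_T (P i : ℕ) (π : Loc F) (h0 : Fix0 π) (g : MeanA F P → ℝ) (z : MeanA F P) :
    avg (MeanH F P i) (g ∘ MeanT P π h0) z = avg (MeanH F P i) g (MeanT P π h0 z) :=
  Mean_avg_perm _ _ (fun z w => by
    rw [sub_mem_MeanH, sub_mem_MeanH]
    exact Mean_Tr_iff π i z.1 w.1) g z

/-- prefix and last letter -/
def Meanmk (P : ℕ) (ν : ℕ → F) (c : F) : MeanA F P :=
  ⟨Function.update (trunc P ν) P c, fun j hj => by
    rw [Function.update_of_ne (by omega), trunc, if_neg (by omega)]⟩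

omit [Fintype F] in
theorem Meanmk_lt (P : ℕ) (ν : ℕ → F) (c : F) {j : ℕ} (hj : j < P) : (Meanmk P ν c).1 j = ν j := by
  change Function.update (trunc P ν) P c j = _
  rw [Function.update_of_ne (by omega), trunc, if_pos hj]

omit [Fintype F] in
theorem Meanmk_last (P : ℕ) (ν : ℕ → F) (c : F) : (Meanmk P ν c).1 P = c :=
  Function.update_self _ _ _

omit [Fintype F] in
theorem Mean_ext {P : ℕ} {z w : MeanA F P} (h : ∀ j, j < P → z.1 j = w.1 j) (h' : z.1 P = w.1 P) :
    z = w := by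
  refine Subtype.ext (funext fun j => ?_)
  rcases lt_trichotomy j P with hj | rfl | hj
  · exact h j hj
  · exact h'
  · rw [z.2 j hj, w.2 j hj]

omit [Fintype F] in
theorem Meanmk_congr {P : ℕ} {ν ν' : ℕ → F} (h : ∀ j, j < P → ν j = ν' j) (c : F) :
    Meanmk P ν c = Meanmk P ν' c :=
  Mean_ext (fun j hj => by rw [Meanmk_lt _ _ _ hj, Meanmk_lt _ _ _ hj, h j hj])
    (by rw [Meanmk_last, Meanmk_last])

theorem Mean_avg_last (P : ℕ) (f : MeanA F P → ℝ) (z : MeanA F P) :
    avg (MeanH F P P) f z = (∑ c, f (Meanmk P z.1 c)) / Fintype.card F := by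
  classical
  have hinj : Function.Injective (Meanmk P z.1) := fun c c' h => by
    rw [← Meanmk_last P z.1 c, h, Meanmk_last]
  have e : ∀ w : MeanA F P, w - z ∈ MeanH F P P ↔ w ∈ Finset.univ.image (Meanmk P z.1) := by
    intro w
    rw [sub_mem_MeanH, Finset.mem_image]
    constructor
    · intro h
      exact ⟨w.1 P, Finset.mem_univ _, Mean_ext (fun j hj => by rw [Meanmk_lt _ _ _ hj, h j hj])
        (Meanmk_last _ _ _)⟩
    · rintro ⟨c, -, rfl⟩ j hj
      exact Meanmk_lt _ _ _ hj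
  rw [Mean_avg_eq]
  simp only [e, Finset.filter_univ_mem]
  rw [Finset.sum_image fun c _ c' _ h => hinj h, Finset.card_image_of_injective _ hinj,
    Finset.card_univ]

theorem Mean_sum (P : ℕ) (Ψ : MeanA F P → ℝ) :
    ∑ z, Ψ z = ∑ ν ∈ Lv P ({0} : Finset F), ∑ c, Ψ (Meanmk P ν c) := by
  rw [← Finset.sum_product']
  refine Finset.sum_nbij' (fun z => (trunc P z.1, z.1 P)) (fun p => Meanmk P p.1 p.2)
    (fun z _ => ?_) (fun _ _ => Finset.mem_univ _) (fun z _ => ?_) (fun p hp => ?_) fun z _ => ?_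
  · refine Finset.mem_product.2 ⟨mem_Lv.2 ⟨?_, fun j hj => ?_⟩, Finset.mem_univ _⟩
    · simp [trunc]
    · simp only [trunc]; rw [if_neg (by omega)]
  · exact Mean_ext (fun j hj => by rw [Meanmk_lt _ _ _ hj]; exact if_pos hj) (Meanmk_last _ _ _)
  · obtain ⟨h1, h2⟩ := mem_Lv.1 (Finset.mem_product.1 hp).1
    refine Prod.ext (funext fun j => ?_) (Meanmk_last _ _ _)
    simp only [trunc]
    split_ifs with hj
    · exact Meanmk_lt _ _ _ hj
    · rcases (not_lt.1 hj).eq_or_lt with rfl | h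
      · exact (Finset.mem_singleton.1 h1).symm
      · exact (h2 j h).symm
  · congr 1
    exact (Mean_ext (fun j hj => by rw [Meanmk_lt _ _ _ hj]; exact if_pos hj)
      (Meanmk_last _ _ _)).symm

theorem Mean_card (P : ℕ) : (Fintype.card (MeanA F P) : ℝ) = (Fintype.card F : ℝ) ^ (P + 1) := by
  have := Mean_sum (F := F) P fun _ => 1
  simp only [Finset.sum_const, Finset.card_univ, nsmul_eq_mul, mul_one, card_Lv,
    Finset.card_singleton] at this
  rw [this]
  push_cast
  ring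

theorem Mean_avg_zero (P : ℕ) (f : MeanA F P → ℝ) (z : MeanA F P) :
    avg (MeanH F P 0) f z = (∑ w, f w) / (Fintype.card F : ℝ) ^ (P + 1) := by
  classical
  have e : ∀ w : MeanA F P, w - z ∈ MeanH F P 0 ↔ True := fun w =>
    iff_true_intro fun j hj => absurd hj (Nat.not_lt_zero j)
  rw [Mean_avg_eq]
  simp only [e, Finset.filter_true, Finset.card_univ, Mean_card]

theorem Mean_sq_le (P : ℕ) (C : Finset F) (g : MeanA F P → ℝ) (h0 : ∀ z, 0 ≤ g z)
    (h1 : ∀ z, g z ≤ 1) (hC : ∀ z : MeanA F P, z.1 P ∉ C → g z = 0) :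
    ∑ z, avg (MeanH F P P) g z ^ 2 ≤ C.card / Fintype.card F * ∑ z, g z := by
  have hq : (0 : ℝ) < Fintype.card F := by exact_mod_cast Fintype.card_pos
  rw [Mean_sum, Mean_sum P g, Finset.mul_sum]
  refine Finset.sum_le_sum fun ν _ => ?_
  have e : ∀ c, avg (MeanH F P P) g (Meanmk P ν c) = (∑ c', g (Meanmk P ν c')) / Fintype.card F :=
    fun c => by
      rw [Mean_avg_last]
      simp only [Meanmk_congr (fun j hj => Meanmk_lt P ν c hj)]
  simp only [e, Finset.sum_const, Finset.card_univ, nsmul_eq_mul]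
  have g0 : 0 ≤ ∑ c', g (Meanmk P ν c') := Finset.sum_nonneg fun _ _ => h0 _
  have g1 : ∑ c', g (Meanmk P ν c') ≤ C.card := by
    rw [← Finset.sum_subset (Finset.subset_univ C) fun c _ hc => hC _ (by rwa [Meanmk_last])]
    simpa using Finset.sum_le_card_nsmul C _ 1 fun c _ => h1 (Meanmk P ν c)
  calc _ = (∑ c', g (Meanmk P ν c')) / Fintype.card F * ∑ c', g (Meanmk P ν c') := by field_simp
    _ ≤ _ := by gcongr

end conc

end Crest.Agent.R129
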