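import Crest.Agent.R129.Lv
import Crest.Agent.R129.Avg
import Crest.Agent.R129.MeanAux

/-!
# R129 / Mean : the mean (over the last local permutations) number of inner edges of a set
-/

set_option autoImplicit false

namespace Crest.Agent.R129

variable {F : Type} [Field F] [Fintype F]

open Classical in
/-- the fibre over the prefix `ν` of `Sh l S`. -/
noncomputable def Ufib (P : ℕ) (C : Finset F) (S : Finset (ℕ → F)) (l : F) (ν : ℕ → F) : Finset F :=
  C.filter fun c => ∃ z ∈ S, Sh l z = Function.update ν P c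

open Classical in
/-- the fibre over the prefix `ν` of `(Sh' l)⁻¹ S`. -/
noncomputable def Vfib (P : ℕ) (C : Finset F) (S : Finset (ℕ → F)) (l : F) (ν : ℕ → F) : Finset F :=
  C.filter fun c => Sh' l (Function.update ν P c) ∈ S

/-- prefixes of length `P`. -/
noncomputable def Pre (F : Type) [Field F] [Fintype F] (P : ℕ) : Finset (ℕ → F) := Lv P {0}

set_option maxHeartbeats 1000000 in
/-- **Mean bound.**  Work in the finite group `A = {z | ∀ j > P, z j = 0}` (an `AddSubgroup` of `ℕ → F`, `|A| = q^(P+1)`), with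
the subgroups `H i = {z | ∀ j < i, z j = 0}` (`H 0 = ⊤`, `H P` = last coordinate) and `E i = avg (H i)`.  Let `f = 1_S`,
`f_l = f ∘ (Sh l)⁻¹`, `g_l = f ∘ Sh' l`, `T_l = Tr (π l)` (a bijection of `A` that permutes the cosets of every `H i`, so
`E i (g ∘ T_l) = (E i g) ∘ T_l`).  `|Ufib l ν| = q · E P f_l (ν)`, `|Vfib l ν'| = q · E P g_l (ν')`, so the left side is
`(q/|C|) ∑_l ⟨E P f_l, (E P g_l) ∘ T_l⟩ = (q/|C|) ∑_l ∑_{i=0}^{P} ⟨Δ i f_l, Δ i (g_l ∘ T_l)⟩` with `Δ 0 = E 0`,
`Δ (i+1) = E (i+1) - E i` (coordinate `i < P`).  The term `Δ 0` gives `|Λ| |S|²/|Lv|`.  For odd `i`: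
`∑_{l, i odd} ‖Δ (i+1) f_l‖² ≤ ‖f‖²` by `avg_comp` and `bessel_avg` with `H (l,i) = (Sh l)⁻¹ (H (i+1))`,
`H' (l,i) = H i = (Sh l)⁻¹ (H i)`; for even `i` the same for `g_l` with `Sh' l`.  The other factor:
`∑_i ‖Δ (i+1) g_l‖² ≤ ‖E P g_l‖² ≤ (|C|/q) |S|` (Cauchy–Schwarz, `g_l` is supported in `Lv P C`).  Cauchy–Schwarz over `(l, i)`. -/
theorem mean_bound (π : F → Loc F) (h0 : ∀ l, Fix0 (π l)) (P : ℕ) (C : Finset F) (hC : C.Nonempty)
    (Λ : Finset F) (S : Finset (ℕ → F)) (hS : S ⊆ Lv P C) :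
    ∑ l ∈ Λ, ∑ ν ∈ Pre F P,
        ((Ufib P C S l ν).card * (Vfib P C S l (trunc P (Tr (π l) ν))).card : ℝ) / C.card ≤
      Λ.card * (S.card : ℝ) ^ 2 / (Lv P C).card +
        2 * √(Λ.card * Fintype.card F / C.card) * S.card := by
  have hq : (0 : ℝ) < Fintype.card F := by exact_mod_cast Fintype.card_pos
  have hc : (0 : ℝ) < C.card := by exact_mod_cast hC.card_pos
  classical
  set f : MeanA F P → ℝ := fun z => if z.1 ∈ S then 1 else 0 with hf
  have f0 : ∀ z, 0 ≤ f z := fun z => by simp only [hf]; split_ifs <;> norm_num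
  have f1 : ∀ z, f z ≤ 1 := fun z => by simp only [hf]; split_ifs <;> norm_num
  have fC : ∀ z : MeanA F P, z.1 P ∉ C → f z = 0 := fun z hz =>
    if_neg fun h => hz (mem_Lv.1 (hS h)).1
  have fsum : ∑ z, f z = S.card := by
    rw [hf, Finset.sum_boole]
    congr 1
    refine Finset.card_nbij Subtype.val (fun z hz => by simpa using hz)
      Subtype.val_injective.injOn fun z hz => ⟨⟨z, (mem_Lv.1 (hS hz)).2⟩, by simpa using hz, rfl⟩
  have fsq : ∑ z, f z ^ 2 = S.card := by
    rw [← fsum]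
    refine Finset.sum_congr rfl fun z _ => ?_
    simp only [hf]; split_ifs <;> norm_num
  have hsum : ∀ r l, ∑ z, (f ∘ MeanE P r l) z = S.card := fun r l => by
    rw [← fsum]; exact Equiv.sum_comp (MeanE P r l).toEquiv f
  have hsq : ∀ r l, ∑ z, avg (MeanH F P P) (f ∘ MeanE P r l) z ^ 2 ≤
      C.card / Fintype.card F * S.card := fun r l => by
    rw [← hsum r l]
    exact Mean_sq_le P C _ (fun z => f0 _) (fun z => f1 _) fun z hz =>
      fC _ (by rwa [show (MeanE P r l z).1 P = z.1 P from MeanS_last r l z.2])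
  have hfib : ∀ r l (ν : ℕ → F), ∑ c, (f ∘ MeanE P r l) (Meanmk P ν c) =
      (C.filter fun c => MeanS r l (Function.update (trunc P ν) P c) ∈ S).card := by
    intro r l ν
    rw [← Finset.sum_subset (f := fun c => (f ∘ MeanE P r l) (Meanmk P ν c))
      (Finset.subset_univ C) fun c _ hc => fC _ (by
      rwa [show (MeanE P r l (Meanmk P ν c)).1 P = (Meanmk P ν c).1 P from
        MeanS_last r l (Meanmk P ν c).2, Meanmk_last]), ← Finset.sum_boole]
    rfl
  have hSh : ∀ (l : F) (z : ℕ → F), Sh l z = MeanS 1 (-l) z := fun l z => by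
    funext i
    simp only [Sh, MeanS]
    split_ifs <;> ring
  have hU : ∀ l, ∀ ν ∈ Pre F P, ((Ufib P C S l ν).card : ℝ) =
      ∑ c, (f ∘ MeanE P 1 l) (Meanmk P ν c) := by
    intro l ν hν
    have e : ∀ c, Function.update (trunc P ν) P c = Function.update ν P c := fun c => by
      funext j
      rcases lt_trichotomy j P with hj | rfl | hj
      · rw [Function.update_of_ne hj.ne, Function.update_of_ne hj.ne]; exact if_pos hj
      · simp
      · rw [Function.update_of_ne hj.ne', Function.update_of_ne hj.ne', (mem_Lv.1 hν).2 j hj]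
        exact if_neg (by omega)
    rw [hfib]
    congr 2
    refine Finset.filter_congr fun c _ => ?_
    rw [e]
    constructor
    · rintro ⟨z, hz, h⟩
      have := MeanS_neg 1 (-l) z
      rw [neg_neg, ← hSh, h] at this
      rwa [this]
    · intro h
      exact ⟨_, h, by rw [hSh, MeanS_neg]⟩
  have hV : ∀ l (w : ℕ → F), ((Vfib P C S l (trunc P w)).card : ℝ) =
      ∑ c, (f ∘ MeanE P 0 l) (Meanmk P w c) := by
    intro l w
    rw [hfib]
    congr 2
  -- the left side as an inner product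
  have hL : ∀ l, ∑ ν ∈ Pre F P,
      ((Ufib P C S l ν).card * (Vfib P C S l (trunc P (Tr (π l) ν))).card : ℝ) / C.card =
      Fintype.card F / C.card * ∑ z, avg (MeanH F P P) (f ∘ MeanE P 1 l) z *
        avg (MeanH F P P) ((f ∘ MeanE P 0 l) ∘ MeanT P (π l) (h0 l)) z := by
    intro l
    rw [Mean_sum, Finset.mul_sum]
    refine Finset.sum_congr rfl fun ν hν => ?_
    have e : ∀ c, avg (MeanH F P P) (f ∘ MeanE P 1 l) (Meanmk P ν c) *
        avg (MeanH F P P) ((f ∘ MeanE P 0 l) ∘ MeanT P (π l) (h0 l)) (Meanmk P ν c) =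
        (Ufib P C S l ν).card / Fintype.card F *
          ((Vfib P C S l (trunc P (Tr (π l) ν))).card / Fintype.card F) := fun c => by
      rw [Mean_avg_T, Mean_avg_last, Mean_avg_last, hU l ν hν, hV, MeanT_val]
      simp only [Meanmk_congr (fun j hj => Meanmk_lt P ν c hj),
        Meanmk_congr ((Mean_Tr_iff (π l) P ν _).2 fun j hj => Meanmk_lt P ν c hj)]
    simp only [e, Finset.sum_const, Finset.card_univ, nsmul_eq_mul]
    field_simp
  set a : F × ℕ → MeanA F P → ℝ := fun p z => avg (MeanH F P (p.2 + 1)) (f ∘ MeanE P 1 p.1) z -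
    avg (MeanH F P p.2) (f ∘ MeanE P 1 p.1) z with ha
  set b : F × ℕ → MeanA F P → ℝ := fun p z => avg (MeanH F P (p.2 + 1)) (f ∘ MeanE P 0 p.1) z -
    avg (MeanH F P p.2) (f ∘ MeanE P 0 p.1) z with hb
  set b' : F × ℕ → MeanA F P → ℝ := fun p z => b p (MeanT P (π p.1) (h0 p.1) z) with hb'
  have hbb : ∀ p, ∑ z, b' p z ^ 2 = ∑ z, b p z ^ 2 := fun p =>
    Equiv.sum_comp (MeanT P (π p.1) (h0 p.1)) fun z => b p z ^ 2
  have hI : ∀ l, ∑ z, avg (MeanH F P P) (f ∘ MeanE P 1 l) z *
      avg (MeanH F P P) ((f ∘ MeanE P 0 l) ∘ MeanT P (π l) (h0 l)) z =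
      (S.card : ℝ) ^ 2 / (Fintype.card F : ℝ) ^ (P + 1) +
        ∑ i ∈ Finset.range P, ∑ z, a (l, i) z * b' (l, i) z := by
    intro l
    rw [Mean_tele _ (MeanH_succ_le P)]
    congr 1
    · have e : ∑ z, ((f ∘ MeanE P 0 l) ∘ MeanT P (π l) (h0 l)) z = S.card := by
        rw [← hsum 0 l]; exact Equiv.sum_comp (MeanT P (π l) (h0 l)) _
      simp only [Mean_avg_zero, hsum, e, Finset.sum_const, Finset.card_univ, nsmul_eq_mul,
        Mean_card]
      field_simp
    · refine Finset.sum_congr rfl fun i _ => Finset.sum_congr rfl fun z _ => ?_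
      rw [Mean_avg_T, Mean_avg_T]
  have hrest : ∀ (r r' : ℕ), ∑ p ∈ Λ ×ˢ (Finset.range P).filter (fun i => i % 2 = r'), ∑ z,
      (avg (MeanH F P (p.2 + 1)) (f ∘ MeanE P r p.1) z -
        avg (MeanH F P p.2) (f ∘ MeanE P r p.1) z) ^ 2 ≤
      Λ.card * (C.card / Fintype.card F * S.card) := by
    intro r r'
    rw [Finset.sum_product, ← nsmul_eq_mul]
    refine Finset.sum_le_card_nsmul _ _ _ fun l _ => ?_
    exact (Mean_tele_le (MeanH F P) (MeanH_succ_le P) (f ∘ MeanE P r l) P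
      ((Finset.range P).filter (fun i => i % 2 = r')) (Finset.filter_subset _ _)).trans (hsq r l)
  have hodd := Mean_cs (Λ ×ˢ (Finset.range P).filter (fun i => i % 2 = 1)) a b'
    ((Mean_bessel P 1 Λ f).trans fsq.le) (by simp only [hbb]; exact hrest 0 1)
  have heven := Mean_cs (Λ ×ˢ (Finset.range P).filter (fun i => i % 2 = 0)) a b'
    (hrest 1 0) (by simp only [hbb]; exact (Mean_bessel P 0 Λ f).trans fsq.le)
  have hsplit : ∑ l ∈ Λ, ∑ i ∈ Finset.range P, ∑ z, a (l, i) z * b' (l, i) z =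
      ∑ p ∈ Λ ×ˢ (Finset.range P).filter (fun i => i % 2 = 1), ∑ z, a p z * b' p z +
      ∑ p ∈ Λ ×ˢ (Finset.range P).filter (fun i => i % 2 = 0), ∑ z, a p z * b' p z := by
    rw [Finset.sum_product, Finset.sum_product, ← Finset.sum_add_distrib]
    refine Finset.sum_congr rfl fun l _ => ?_
    rw [← Finset.sum_filter_add_sum_filter_not (Finset.range P) (fun i => i % 2 = 1)]
    congr 1
    exact Finset.sum_congr (Finset.filter_congr fun i _ => by omega) fun _ _ => rfl
  have hroot : (Fintype.card F : ℝ) / C.card *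
      (√S.card * √(Λ.card * (C.card / Fintype.card F * S.card))) =
      √(Λ.card * Fintype.card F / C.card) * S.card := by
    rw [← Real.sqrt_mul (Nat.cast_nonneg _), ← Real.sqrt_sq (Nat.cast_nonneg (α := ℝ) S.card),
      ← Real.sqrt_mul (by positivity), Real.sqrt_sq (Nat.cast_nonneg (α := ℝ) S.card),
      ← Real.sqrt_sq (show (0 : ℝ) ≤ Fintype.card F / C.card by positivity),
      ← Real.sqrt_mul (by positivity)]
    congr 1
    field_simp
  simp only [hL, hI]
  rw [← Finset.mul_sum, Finset.sum_add_distrib, hsplit, Finset.sum_const, nsmul_eq_mul, card_Lv,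
    mul_add, mul_assoc 2, ← hroot]
  refine add_le_add (le_of_eq ?_) ?_
  · push_cast
    field_simp
    ring
  · rw [mul_comm √(_ * _)] at heven
    have := mul_le_mul_of_nonneg_left (add_le_add hodd heven)
      (show (0 : ℝ) ≤ Fintype.card F / C.card by positivity)
    linarith

end Crest.Agent.R129
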