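import Crest.Agent.R129.EG

/-!
# R129 / Ping : the ping-pong system

`Gm π l = Sh' l ∘ Tr π ∘ Sh l` on sequences `ℕ → F`, `Tr π` an arbitrary tree automorphism.  The edge `z → Gm (Dt l) l z` has the
label `(l, z 0)`.  The first difference of a pair has a unique move that increases it.
-/

set_option autoImplicit false
open FreeGroup

namespace Crest.Agent.R129

section
variable {F : Type} [Field F]

def Sh (l : F) (z : ℕ → F) : ℕ → F := fun i => if i % 2 = 1 then z i - l * z (i + 1) else z i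
def Sh' (l : F) (z : ℕ → F) : ℕ → F := fun i => if i % 2 = 0 then z i + l * z (i + 1) else z i
def trunc (j : ℕ) (z : ℕ → F) : ℕ → F := fun i => if i < j then z i else 0

/-- local permutations: position, prefix. -/
abbrev Loc (F : Type) : Type := ℕ → (ℕ → F) → Equiv.Perm F

def Tr (π : Loc F) (z : ℕ → F) : ℕ → F := fun j => π j (trunc j z) (z j)
def Gm (π : Loc F) (l : F) (z : ℕ → F) : ℕ → F := Sh' l (Tr π (Sh l z))

open Classical in
/-- first difference (junk `0` for equal sequences). -/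
noncomputable def fd (z z' : ℕ → F) : ℕ := if h : ∃ i, z i ≠ z' i then Nat.find h else 0

theorem fd_spec {z z' : ℕ → F} (h : z ≠ z') :
    z (fd z z') ≠ z' (fd z z') ∧ ∀ i < fd z z', z i = z' i := by
  classical
  have hex : ∃ i, z i ≠ z' i := Function.ne_iff.1 h
  have e : fd z z' = Nat.find hex := by rw [fd, dif_pos hex]
  rw [e]
  exact ⟨Nat.find_spec hex, fun i hi => not_not.1 (Nat.find_min hex hi)⟩

theorem fd_eq {z z' : ℕ → F} {i : ℕ} (h : z i ≠ z' i) (h' : ∀ j < i, z j = z' j) : fd z z' = i := by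
  have hne : z ≠ z' := fun e => h (by rw [e])
  obtain ⟨h1, h2⟩ := fd_spec hne
  rcases lt_trichotomy (fd z z') i with a | a | a
  · exact absurd (h' _ a) h1
  · exact a
  · exact absurd (h2 _ a) h

theorem Sh_injective (l : F) : Function.Injective (Sh l) := by
  intro z z' h
  have ev : ∀ i, i % 2 ≠ 1 → z i = z' i := fun i hi => by
    have := congrFun h i
    simpa only [Sh, if_neg hi] using this
  funext i
  by_cases hi : i % 2 = 1
  · have := congrFun h i
    simp only [Sh, if_pos hi] at this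
    rw [ev (i + 1) (by omega)] at this
    exact sub_left_injective this
  · exact ev i hi

theorem Sh'_injective (l : F) : Function.Injective (Sh' l) := by
  intro z z' h
  have ev : ∀ i, i % 2 ≠ 0 → z i = z' i := fun i hi => by
    have := congrFun h i
    simpa only [Sh', if_neg hi] using this
  funext i
  by_cases hi : i % 2 = 0
  · have := congrFun h i
    simp only [Sh', if_pos hi] at this
    rw [ev (i + 1) (by omega)] at this
    exact add_right_cancel this
  · exact ev i hi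

theorem Tr_fd (π : Loc F) {z z' : ℕ → F} (h : z ≠ z') :
    Tr π z ≠ Tr π z' ∧ fd (Tr π z) (Tr π z') = fd z z' := by
  obtain ⟨h1, h2⟩ := fd_spec h
  have tr : ∀ j ≤ fd z z', trunc j z = trunc j z' := fun j hj => by
    funext i
    simp only [trunc]
    split_ifs with hi
    · exact h2 i (by omega)
    · rfl
  have a : Tr π z (fd z z') ≠ Tr π z' (fd z z') := by
    simp only [Tr]
    rw [tr _ le_rfl]
    exact fun e => h1 ((π _ _).injective e)
  refine ⟨fun e => a (by rw [e]), fd_eq a fun j hj => ?_⟩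
  simp only [Tr]
  rw [tr j hj.le, h2 j hj]

theorem Gm_injective (π : Loc F) (l : F) : Function.Injective (Gm π l) := by
  intro z z' h
  by_contra hne
  exact (Tr_fd π fun e => hne (Sh_injective l e)).1 (Sh'_injective l h)

/-- the pair `(z, z')` is *critical* for `l`. -/
def Crit (l : F) (z z' : ℕ → F) : Prop :=
  z (fd z z') - z' (fd z z') = l * (z (fd z z' + 1) - z' (fd z z' + 1))

theorem ping_Sh {l : F} (hl : l ≠ 0) {z z' : ℕ → F} (h : z ≠ z') (h0 : z 0 = z' 0) :
    (fd (Sh l z) (Sh l z') % 2 = 1 ∧ fd (Sh l z) (Sh l z') ≤ fd z z') ∨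
      (fd (Sh l z) (Sh l z') = fd z z' + 1 ∧ fd z z' % 2 = 1 ∧ Crit l z z') := by
  obtain ⟨h1, h2⟩ := fd_spec h
  unfold Crit
  obtain ⟨i, hi⟩ : ∃ i, i = fd z z' := ⟨_, rfl⟩
  rw [← hi] at h1 h2 ⊢
  have low : ∀ j, j < i → (j % 2 = 1 → j + 1 < i) → Sh l z j = Sh l z' j := fun j hj hj' => by
    simp only [Sh]
    split_ifs with c
    · rw [h2 j hj, h2 (j + 1) (hj' c)]
    · exact h2 j hj
  by_cases hp : i % 2 = 1
  · by_cases hc : z i - z' i = l * (z (i + 1) - z' (i + 1))
    · right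
      refine ⟨fd_eq ?_ fun j hj => ?_, hp, hc⟩
      · simp only [Sh, if_neg (show ¬ (i + 1) % 2 = 1 by omega)]
        intro e
        exact h1 (sub_eq_zero.1 (by rw [hc, e, sub_self, mul_zero]))
      · rcases Nat.lt_succ_iff_lt_or_eq.1 hj with a | rfl
        · exact low j a (by omega)
        · simp only [Sh, if_pos hp]
          linear_combination hc
    · left
      have e : fd (Sh l z) (Sh l z') = i := by
        refine fd_eq ?_ fun j hj => low j hj (by omega)
        simp only [Sh, if_pos hp]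
        intro e
        exact hc (by linear_combination e)
      omega
  · left
    have i0 : i ≠ 0 := by
      rintro rfl
      exact h1 h0
    obtain ⟨k, rfl⟩ : ∃ k, i = k + 1 := ⟨i - 1, by omega⟩
    have e : fd (Sh l z) (Sh l z') = k := by
      refine fd_eq ?_ fun j hj => low j (by omega) (by omega)
      simp only [Sh, if_pos (show k % 2 = 1 by omega)]
      rw [h2 k (by omega)]
      intro e
      exact h1 (mul_left_cancel₀ hl (sub_right_injective e))
    omega

theorem ping_Sh'_odd {l : F} (hl : l ≠ 0) {z z' : ℕ → F} (h : z ≠ z') (hp : fd z z' % 2 = 1) :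
    fd (Sh' l z) (Sh' l z') + 1 = fd z z' ∧ Crit l (Sh' l z) (Sh' l z') := by
  obtain ⟨h1, h2⟩ := fd_spec h
  obtain ⟨k, hk⟩ : ∃ k, fd z z' = k + 1 := ⟨fd z z' - 1, by omega⟩
  rw [hk] at h1 h2 hp ⊢
  have e : fd (Sh' l z) (Sh' l z') = k := by
    refine fd_eq ?_ fun j hj => ?_
    · simp only [Sh', if_pos (show k % 2 = 0 by omega)]
      rw [h2 k (by omega)]
      intro e
      exact h1 (mul_left_cancel₀ hl (add_left_cancel e))
    · simp only [Sh']
      split_ifs with c
      · rw [h2 j (by omega), h2 (j + 1) (by omega)]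
      · exact h2 j (by omega)
  refine ⟨by rw [e], ?_⟩
  unfold Crit
  rw [e]
  simp only [Sh', if_pos (show k % 2 = 0 by omega), if_neg (show ¬ (k + 1) % 2 = 0 by omega)]
  rw [h2 k (by omega)]
  ring

theorem ping_Sh'_even (l : F) {z z' : ℕ → F} (h : z ≠ z') (hp : fd z z' % 2 = 0) :
    fd z z' ≤ fd (Sh' l z) (Sh' l z') := by
  obtain ⟨h1, h2⟩ := fd_spec h
  have hS : Sh' l z ≠ Sh' l z' := fun e => h (Sh'_injective l e)
  by_contra hlt
  rw [not_le] at hlt
  refine (fd_spec hS).1 ?_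
  simp only [Sh']
  split_ifs with c
  · rw [h2 _ hlt, h2 _ (by omega)]
  · exact h2 _ hlt

/-- One common move.  With `i = fd z z' ≥ 1`: after `Sh l` the first difference is odd (`i` or `i - 1`), except when `i` is
odd and the pair is critical (then it is `i + 1`).  `Tr` keeps it.  `Sh' l` lowers an odd first difference by one
and makes the pair critical; an even one does not decrease. -/
theorem ping (π : Loc F) {l : F} (hl : l ≠ 0) {z z' : ℕ → F} (h : z ≠ z') (h0 : z 0 = z' 0) :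
    (fd (Gm π l z) (Gm π l z') < fd z z' ∧ fd (Gm π l z) (Gm π l z') % 2 = 0 ∧
        Crit l (Gm π l z) (Gm π l z')) ∨
      (fd z z' < fd (Gm π l z) (Gm π l z') ∧ fd z z' % 2 = 1 ∧ Crit l z z') := by
  have hS : Sh l z ≠ Sh l z' := fun e => h (Sh_injective l e)
  obtain ⟨hT, eT⟩ := Tr_fd π hS
  rcases ping_Sh hl h h0 with ⟨a, b⟩ | ⟨a, b, c⟩
  · left
    obtain ⟨c1, c2⟩ := ping_Sh'_odd hl hT (by rw [eT]; exact a)
    refine ⟨?_, ?_, c2⟩
    · show fd (Sh' l _) (Sh' l _) < _
      omega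
    · show fd (Sh' l _) (Sh' l _) % 2 = 0
      omega
  · right
    have c1 := ping_Sh'_even l hT (by rw [eT]; omega)
    refine ⟨?_, b, c⟩
    show _ < fd (Sh' l _) (Sh' l _)
    omega

theorem Crit.unique {l l' : F} {z z' : ℕ → F} (h : z ≠ z') (h₁ : Crit l z z') (h₂ : Crit l' z z') :
    l = l' := by
  have h0 : z (fd z z') - z' (fd z z') ≠ 0 := sub_ne_zero.2 (fd_spec h).1
  unfold Crit at h₁ h₂
  have h3 : z (fd z z' + 1) - z' (fd z z' + 1) ≠ 0 := fun e => h0 (by rw [h₁, e, mul_zero])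
  exact mul_right_cancel₀ h3 (h₁.symm.trans h₂)

variable (Dt : F → Loc F)

/-- the full graph. -/
def fullG : EG (ℕ → F) ({l : F // l ≠ 0} × (ℕ → F)) where
  src e := e.2
  tgt e := Gm (Dt e.1.1) e.1.1 e.2

def fullLab (e : {l : F // l ≠ 0} × (ℕ → F)) : F × F := (e.1.1, e.2 0)

theorem full_fold : (fullG Dt).Fold fullLab := by
  constructor
  · rintro ⟨l, z⟩ ⟨l', z'⟩ h1 h2
    exact Prod.ext (Subtype.ext (Prod.mk.inj h1).1) h2
  · rintro ⟨l, z⟩ ⟨l', z'⟩ h1 h2
    obtain rfl : l = l' := Subtype.ext (Prod.mk.inj h1).1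
    exact Prod.ext rfl (Gm_injective _ _ h2)

/-- a common move changes the first difference; there is at most one common move that increases it. -/
theorem move_ne {h h' : ({l : F // l ≠ 0} × (ℕ → F)) × Bool} (hl : fullLab h.1 = fullLab h'.1)
    (hb : h.2 = h'.2) (hne : (fullG Dt).hs h ≠ (fullG Dt).hs h') :
    (fullG Dt).ht h ≠ (fullG Dt).ht h' ∧
      fd ((fullG Dt).ht h) ((fullG Dt).ht h') ≠ fd ((fullG Dt).hs h) ((fullG Dt).hs h') := by
  obtain ⟨⟨l, z⟩, b⟩ := h
  obtain ⟨⟨l', z'⟩, b'⟩ := h'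
  obtain rfl : l = l' := Subtype.ext (Prod.mk.inj hl).1
  have h0 : z 0 = z' 0 := (Prod.mk.inj hl).2
  obtain rfl : b = b' := hb
  cases b
  · have hz : z ≠ z' := fun e => hne (by rw [e])
    refine ⟨hz, ?_⟩
    show fd z z' ≠ fd (Gm (Dt l.1) l.1 z) (Gm (Dt l.1) l.1 z')
    rcases ping (Dt l.1) l.2 hz h0 with a | a
    · exact a.1.ne'
    · exact a.1.ne
  · have hz : z ≠ z' := hne
    refine ⟨fun e => hz (Gm_injective (Dt l.1) l.1 e), ?_⟩
    show fd (Gm (Dt l.1) l.1 z) (Gm (Dt l.1) l.1 z') ≠ fd z z'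
    rcases ping (Dt l.1) l.2 hz h0 with a | a
    · exact a.1.ne
    · exact a.1.ne'

theorem ping_up_char {h h' : ({l : F // l ≠ 0} × (ℕ → F)) × Bool} (hl : fullLab h.1 = fullLab h'.1)
    (hb : h.2 = h'.2) (hne : (fullG Dt).hs h ≠ (fullG Dt).hs h')
    (u : fd ((fullG Dt).hs h) ((fullG Dt).hs h') < fd ((fullG Dt).ht h) ((fullG Dt).ht h')) :
    Crit h.1.1.1 ((fullG Dt).hs h) ((fullG Dt).hs h') ∧
      (h.2 = true ↔ fd ((fullG Dt).hs h) ((fullG Dt).hs h') % 2 = 1) := by
  obtain ⟨⟨l, z⟩, b⟩ := h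
  obtain ⟨⟨l', z'⟩, b'⟩ := h'
  obtain rfl : l = l' := Subtype.ext (Prod.mk.inj hl).1
  have h0 : z 0 = z' 0 := (Prod.mk.inj hl).2
  obtain rfl : b = b' := hb
  cases b
  · have hz : z ≠ z' := fun e => hne (by rw [e])
    have u' : fd (Gm (Dt l.1) l.1 z) (Gm (Dt l.1) l.1 z') < fd z z' := u
    show Crit l.1 (Gm (Dt l.1) l.1 z) (Gm (Dt l.1) l.1 z') ∧
      (false = true ↔ fd (Gm (Dt l.1) l.1 z) (Gm (Dt l.1) l.1 z') % 2 = 1)
    rcases ping (Dt l.1) l.2 hz h0 with a | a
    · exact ⟨a.2.2, fun e => absurd e (by decide), fun e => absurd a.2.1 (by omega)⟩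
    · exact absurd a.1 (by omega)
  · have hz : z ≠ z' := hne
    have u' : fd z z' < fd (Gm (Dt l.1) l.1 z) (Gm (Dt l.1) l.1 z') := u
    show Crit l.1 z z' ∧ (true = true ↔ fd z z' % 2 = 1)
    rcases ping (Dt l.1) l.2 hz h0 with a | a
    · exact absurd a.1 (by omega)
    · exact ⟨a.2.2, fun _ => a.2.1, fun _ => rfl⟩

theorem up_unique {h h' k k' : ({l : F // l ≠ 0} × (ℕ → F)) × Bool}
    (hl : fullLab h.1 = fullLab h'.1) (hb : h.2 = h'.2) (kl : fullLab k.1 = fullLab k'.1)
    (kb : k.2 = k'.2) (e : (fullG Dt).hs h = (fullG Dt).hs k) (e' : (fullG Dt).hs h' = (fullG Dt).hs k')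
    (hne : (fullG Dt).hs h ≠ (fullG Dt).hs h')
    (u₁ : fd ((fullG Dt).hs h) ((fullG Dt).hs h') < fd ((fullG Dt).ht h) ((fullG Dt).ht h'))
    (u₂ : fd ((fullG Dt).hs k) ((fullG Dt).hs k') < fd ((fullG Dt).ht k) ((fullG Dt).ht k')) : h = k := by
  have hne' : (fullG Dt).hs k ≠ (fullG Dt).hs k' := by rw [← e, ← e']; exact hne
  obtain ⟨a1, a2⟩ := ping_up_char Dt hl hb hne u₁
  obtain ⟨b1, b2⟩ := ping_up_char Dt kl kb hne' u₂
  rw [← e, ← e'] at b1 b2
  have c1 : h.1.1 = k.1.1 := Subtype.ext (Crit.unique hne a1 b1)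
  have c2 : h.2 = k.2 := Bool.eq_iff_iff.2 (a2.trans b2.symm)
  obtain ⟨⟨l, z⟩, b⟩ := h
  obtain ⟨⟨m, y⟩, c⟩ := k
  obtain rfl : l = m := c1
  obtain rfl : b = c := c2
  cases b
  · obtain rfl : z = y := Gm_injective (Dt l.1) l.1 e
    rfl
  · obtain rfl : z = y := e
    rfl

theorem ping_lw_cons {E L : Type} {lab : E → L} {a : E × Bool} {m ω' : List (E × Bool)}
    (hl : lw lab (a :: m) = lw lab ω') :
    ∃ a' m', ω' = a' :: m' ∧ lab a.1 = lab a'.1 ∧ a.2 = a'.2 ∧ lw lab m = lw lab m' := by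
  cases ω' with
  | nil => exact absurd hl (by simp [lw])
  | cons a' m' =>
    obtain ⟨h1, h2⟩ := List.cons.inj hl
    exact ⟨a', m', rfl, (Prod.mk.inj h1).1, (Prod.mk.inj h1).2, h2⟩

theorem ping_lw_invRev {E L : Type} (lab : E → L) (ω : List (E × Bool)) :
    lw lab (invRev ω) = invRev (lw lab ω) := by
  simp [lw, invRev, List.map_reverse, Function.comp_def]

theorem ping_down {z z' y y' : ℕ → F} {a a' : ({l : F // l ≠ 0} × (ℕ → F)) × Bool}
    {m m' : List (({l : F // l ≠ 0} × (ℕ → F)) × Bool)}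
    (h : (fullG Dt).Walk z (a :: m) y) (h' : (fullG Dt).Walk z' (a' :: m') y') (hne : z ≠ z')
    (hl : lw fullLab (a :: m) = lw fullLab (a' :: m')) (hr : IsReduced (a :: m))
    (hd : fd ((fullG Dt).ht a) ((fullG Dt).ht a') < fd z z') :
    fd y y' + (m.length + 1) ≤ fd z z' := by
  induction m generalizing z z' a a' m' with
  | nil =>
    obtain rfl : m' = [] := List.map_eq_nil_iff.1 (List.cons.inj hl).2.symm
    have f1 : (fullG Dt).ht a = y := LG.reads_nil_iff.1 (EG.eg_walk_cons.1 h).2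
    have f2 : (fullG Dt).ht a' = y' := LG.reads_nil_iff.1 (EG.eg_walk_cons.1 h').2
    rw [f1, f2] at hd
    exact hd
  | cons k m ih =>
    obtain ⟨e1, w1⟩ := EG.eg_walk_cons.1 h
    obtain ⟨e1', w1'⟩ := EG.eg_walk_cons.1 h'
    obtain ⟨h1, h2⟩ := List.cons.inj hl
    have l1 : fullLab a.1 = fullLab a'.1 := (Prod.mk.inj h1).1
    have l2 : a.2 = a'.2 := (Prod.mk.inj h1).2
    obtain ⟨k', m'', rfl, k1, k2, k3⟩ := ping_lw_cons (lab := fullLab) h2
    obtain ⟨e2, -⟩ := EG.eg_walk_cons.1 w1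
    obtain ⟨e2', -⟩ := EG.eg_walk_cons.1 w1'
    have n1 := (move_ne Dt l1 l2 (by rw [← e1, ← e1']; exact hne)).1
    have n2 : (fullG Dt).hs k ≠ (fullG Dt).hs k' := by rw [← e2, ← e2']; exact n1
    have n3 := (move_ne Dt k1 k2 n2).2
    obtain ⟨r1, r2⟩ := isReduced_cons_cons.1 hr
    rcases lt_or_gt_of_ne n3 with d | d
    · have := ih w1 w1' n1 h2 r2 (by rw [e2, e2']; exact d)
      simp only [List.length_cons]
      omega
    · exfalso
      have c : k = linv a := up_unique Dt (k := linv a) (k' := linv a') k1 k2 l1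
        (by simp only [linv, l2]) (by rw [EG.hs_linv, e2]) (by rw [EG.hs_linv, e2']) n2 d
        (by rw [EG.hs_linv, EG.hs_linv, EG.ht_linv, EG.ht_linv, ← e1, ← e1']; exact hd)
      have := r1 (by rw [c]; rfl)
      rw [c] at this
      revert this
      simp [linv]

theorem ping_piece {z z' y y' : ℕ → F} {ω ω' : List (({l : F // l ≠ 0} × (ℕ → F)) × Bool)}
    (h : (fullG Dt).Walk z ω y) (h' : (fullG Dt).Walk z' ω' y') (hne : z ≠ z')
    (hl : lw fullLab ω = lw fullLab ω') (hr : IsReduced ω) :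
    ∃ p p' u u', p <+: ω ∧ p' <+: ω' ∧ (fullG Dt).Walk z p u ∧ (fullG Dt).Walk z' p' u' ∧ u ≠ u' ∧
      ω.length + fd z z' ≤ 2 * fd u u' := by
  induction ω generalizing z z' ω' with
  | nil =>
    exact ⟨[], [], z, z', List.nil_prefix, List.nil_prefix, LG.Reads.nil _, LG.Reads.nil _, hne,
      by simp only [List.length_nil]; omega⟩
  | cons a m ih =>
    obtain ⟨a', m', rfl, l1, l2, l3⟩ := ping_lw_cons hl
    obtain ⟨e1, w1⟩ := EG.eg_walk_cons.1 h
    obtain ⟨e1', w1'⟩ := EG.eg_walk_cons.1 h'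
    obtain ⟨n1, n2⟩ := move_ne Dt l1 l2 (by rw [← e1, ← e1']; exact hne)
    rw [← e1, ← e1'] at n2
    rcases lt_or_gt_of_ne n2 with d | d
    · have := ping_down Dt h h' hne hl hr d
      exact ⟨[], [], z, z', List.nil_prefix, List.nil_prefix, LG.Reads.nil _, LG.Reads.nil _, hne,
        by simp only [List.length_cons]; omega⟩
    · obtain ⟨p, p', u, u', a1, a2, a3, a4, a5, a6⟩ :=
        ih w1 w1' n1 l3 (hr.infix ⟨[a], [], by simp⟩)
      exact ⟨a :: p, a' :: p', u, u', (List.prefix_cons_inj a).2 a1, (List.prefix_cons_inj a').2 a2,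
        EG.eg_walk_cons.2 ⟨e1, a3⟩, EG.eg_walk_cons.2 ⟨e1', a4⟩, a5,
        by simp only [List.length_cons]; omega⟩

theorem ping_closed_up {z z' : ℕ → F} {a a' : ({l : F // l ≠ 0} × (ℕ → F)) × Bool}
    {m m' : List (({l : F // l ≠ 0} × (ℕ → F)) × Bool)}
    (h : (fullG Dt).Walk z (a :: m) z) (h' : (fullG Dt).Walk z' (a' :: m') z') (hne : z ≠ z')
    (hl : lw fullLab (a :: m) = lw fullLab (a' :: m')) (hr : IsReduced (a :: m)) :
    fd z z' < fd ((fullG Dt).ht a) ((fullG Dt).ht a') := by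
  obtain ⟨e1, -⟩ := EG.eg_walk_cons.1 h
  obtain ⟨e1', -⟩ := EG.eg_walk_cons.1 h'
  obtain ⟨h1, -⟩ := List.cons.inj hl
  have n2 := (move_ne Dt (Prod.mk.inj h1).1 (Prod.mk.inj h1).2 (by rw [← e1, ← e1']; exact hne)).2
  rw [← e1, ← e1'] at n2
  rcases lt_or_gt_of_ne n2 with d | d
  · have := ping_down Dt h h' hne hl hr d
    omega
  · exact d

theorem ping_words (A : Type) [Fintype A] (n : ℕ) :
    ∃ T : Finset (List A), T.card ≤ (Fintype.card A + 1) ^ n ∧ ∀ w : List A, w.length ≤ n → w ∈ T := by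
  classical
  induction n with
  | zero =>
    refine ⟨{[]}, by simp, fun ω h => ?_⟩
    rw [Finset.mem_singleton]
    exact List.length_eq_zero_iff.1 (Nat.le_zero.1 h)
  | succ n ih =>
    obtain ⟨T, hT1, hT2⟩ := ih
    refine ⟨insert [] ((Finset.univ : Finset A).biUnion fun h => T.image (List.cons h)), ?_, ?_⟩
    · refine (Finset.card_insert_le _ _).trans ?_
      have a1 := Finset.card_biUnion_le_card_mul (Finset.univ : Finset A)
        (fun h => T.image (List.cons h)) ((Fintype.card A + 1) ^ n)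
        fun h _ => Finset.card_image_le.trans hT1
      rw [Finset.card_univ] at a1
      have a3 : 1 ≤ (Fintype.card A + 1) ^ n := Nat.one_le_pow _ _ (Nat.succ_pos _)
      have a4 : (Fintype.card A + 1) ^ (n + 1) =
          Fintype.card A * (Fintype.card A + 1) ^ n + (Fintype.card A + 1) ^ n := by ring
      omega
    · intro ω hl
      cases ω with
      | nil => exact Finset.mem_insert_self _ _
      | cons h ω =>
        refine Finset.mem_insert_of_mem (Finset.mem_biUnion.2 ⟨h, Finset.mem_univ _, ?_⟩)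
        exact Finset.mem_image_of_mem _ (hT2 ω (by simpa using hl))

/-- **Pieces are `up* down*`.**  After a down move the reverse move is the unique up move, so a reduced common walk
keeps going down. -/
theorem full_piece {z z' y y' : ℕ → F} {ω ω' : List (({l : F // l ≠ 0} × (ℕ → F)) × Bool)}
    (h : (fullG Dt).Walk z ω y) (h' : (fullG Dt).Walk z' ω' y') (hne : z ≠ z')
    (hl : lw fullLab ω = lw fullLab ω') (hr : IsReduced ω) :
    ∃ p p' u u', p <+: ω ∧ p' <+: ω' ∧ (fullG Dt).Walk z p u ∧ (fullG Dt).Walk z' p' u' ∧ u ≠ u' ∧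
      ω.length ≤ 2 * fd u u' := by
  obtain ⟨p, p', u, u', a1, a2, a3, a4, a5, a6⟩ := ping_piece Dt h h' hne hl hr
  exact ⟨p, p', u, u', a1, a2, a3, a4, a5, by omega⟩

/-- a non-empty reduced label word closes at one point at most.  Induction on the length: the first move is up and the
last move is down (the first difference returns to its value), so the last half edge is the inverse of the first; strip
both. -/
theorem full_closed_unique {z z' : ℕ → F} {ω ω' : List (({l : F // l ≠ 0} × (ℕ → F)) × Bool)}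
    (h : (fullG Dt).Walk z ω z) (h' : (fullG Dt).Walk z' ω' z')
    (hl : lw fullLab ω = lw fullLab ω') (hr : IsReduced ω) (hne : ω ≠ []) : z = z' := by
  induction hn : ω.length using Nat.strong_induction_on generalizing z z' ω ω' with
  | _ n ih =>
  by_contra hz
  obtain ⟨a, m, rfl⟩ := List.exists_cons_of_ne_nil hne
  obtain ⟨a', m', rfl, l1, l2, l3⟩ := ping_lw_cons hl
  have up1 := ping_closed_up Dt h h' hz hl hr
  obtain ⟨e1, w1⟩ := EG.eg_walk_cons.1 h
  obtain ⟨e1', w1'⟩ := EG.eg_walk_cons.1 h'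
  have hi := LG.Reads.invRev h
  have hi' := LG.Reads.invRev h'
  have hli : lw fullLab (invRev (a :: m)) = lw fullLab (invRev (a' :: m')) := by
    rw [ping_lw_invRev, ping_lw_invRev, hl]
  have hri := isReduced_invRev hr
  rcases List.eq_nil_or_concat' m with rfl | ⟨m₀, g, rfl⟩
  · obtain rfl : m' = [] := List.map_eq_nil_iff.1 l3.symm
    have f1 : (fullG Dt).ht a = z := LG.reads_nil_iff.1 w1
    have f2 : (fullG Dt).ht a' = z' := LG.reads_nil_iff.1 w1'
    rw [f1, f2] at up1
    exact lt_irrefl _ up1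
  · rcases List.eq_nil_or_concat' m' with rfl | ⟨m₀', g', rfl⟩
    · exact absurd (List.map_eq_nil_iff.1 l3) (by simp)
    have i1 : invRev (a :: (m₀ ++ [g])) = linv g :: invRev (a :: m₀) := by
      simp [invRev, linv]
    have i2 : invRev (a' :: (m₀' ++ [g'])) = linv g' :: invRev (a' :: m₀') := by
      simp [invRev, linv]
    rw [i1] at hi hli hri
    rw [i2] at hi' hli
    have up2 := ping_closed_up Dt hi hi' hz hli hri
    obtain ⟨e2, -⟩ := EG.eg_walk_cons.1 hi
    obtain ⟨e2', -⟩ := EG.eg_walk_cons.1 hi'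
    obtain ⟨k1, -⟩ := List.cons.inj hli
    have k2 : fullLab (linv g).1 = fullLab (linv g').1 := (Prod.mk.inj k1).1
    have k3 : (linv g).2 = (linv g').2 := (Prod.mk.inj k1).2
    have hz' : (fullG Dt).hs a ≠ (fullG Dt).hs a' := by rw [← e1, ← e1']; exact hz
    have c1 : a = linv g := up_unique Dt l1 l2 k2 k3 (e1.symm.trans e2) (e1'.symm.trans e2') hz'
      (by rw [← e1, ← e1']; exact up1) (by rw [← e2, ← e2']; exact up2)
    have c2 : a' = linv g' := EG.Fold.half _ (full_fold Dt) (by rw [← l1, c1, k2])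
      (by rw [← l2, c1, k3]) (e1'.symm.trans e2')
    obtain ⟨u, w2, w3⟩ := LG.reads_append_iff.1 w1
    obtain ⟨u', w2', w3'⟩ := LG.reads_append_iff.1 w1'
    have d1 : u = (fullG Dt).ht a := by
      rw [c1, EG.ht_linv]
      exact (EG.eg_walk_cons.1 w3).1
    have d2 : u' = (fullG Dt).ht a' := by
      rw [c2, EG.ht_linv]
      exact (EG.eg_walk_cons.1 w3').1
    rw [d1] at w2
    rw [d2] at w2'
    have l4 : lw fullLab m₀ = lw fullLab m₀' := by
      rw [EG.eg_lw_append, EG.eg_lw_append] at l3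
      exact (List.append_inj' l3 rfl).1
    have n0 : m₀ ≠ [] := by
      rintro rfl
      have := (isReduced_cons_cons.1 hr).1 (by rw [c1]; rfl)
      rw [c1] at this
      revert this
      simp [linv]
    refine (move_ne Dt l1 l2 hz').1 (ih m₀.length ?_ w2 w2' l4 (hr.infix ⟨[a], [g], by simp⟩) n0 rfl)
    rw [← hn]
    simp only [List.length_cons, List.length_append]
    omega

/-- at most `(2 q² + 1)^n` points lie on a non-empty reduced closed walk of length `≤ n`. -/
theorem card_short_cycles [Fintype F] (n : ℕ) (s : Finset (ℕ → F))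
    (hs : ∀ z ∈ s, ∃ ω, (fullG Dt).Walk z ω z ∧ IsReduced ω ∧ ω ≠ [] ∧ ω.length ≤ n) :
    s.card ≤ (2 * Fintype.card F ^ 2 + 1) ^ n := by
  classical
  obtain ⟨T, hT, hm⟩ := ping_words ((F × F) × Bool) n
  choose! ω h1 h2 h3 h4 using hs
  have hc : s.card ≤ T.card := by
    refine Finset.card_le_card_of_injOn (fun z => lw fullLab (ω z)) (fun z hz => ?_) ?_
    · exact hm _ (by rw [EG.eg_lw_length]; exact h4 z hz)
    · intro z hz z' hz' e
      exact full_closed_unique Dt (h1 z hz) (h1 z' hz') e (h2 z hz) (h3 z hz)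
  refine hc.trans (hT.trans (le_of_eq ?_))
  congr 2
  simp only [Fintype.card_prod, Fintype.card_bool]
  ring

end

end Crest.Agent.R129
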