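import Crest.Agent.R129.Graph

/-!
# R129 / SC : the small cancellation hypothesis `SC` and the output `Str` of the structure theorem
-/

set_option autoImplicit false
open FreeGroup

namespace Crest.Agent.R129

/-- The small cancellation hypothesis.  `eqv` is the orbit relation of labelled automorphisms. -/
structure SC {S Y : Type} (Γ : LG S Y) where
  eqv : Setoid Y
  lift : ∀ {y y' z a}, eqv y y' → Γ.E y a z → ∃ z', Γ.E y' a z' ∧ eqv z z'
  closed : ∀ {y y' w}, eqv y y' → Γ.Reads y w y → Γ.Reads y' w y'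
  rad : Y → ℕ
  chain : ∀ {y z}, Γ.Ch3 eqv y z → ∃ w, Γ.Reads y w z ∧ w.length + 2 ≤ rad y
  tree : ∀ {y w}, Γ.Reads y w y → IsReduced w → w.length ≤ 2 * rad y + 1 → w = []

namespace SC
variable {S Y : Type} {Γ : LG S Y} (sc : SC Γ)

/-- "torsion-freeness of the deck group". -/
def TF : Prop := ∀ (y x : Y) (w : List (S × Bool)) (n : ℕ), 0 < n → Γ.Reads y w x → sc.eqv y x →
  Γ.Reads y (List.replicate n w).flatten y → x = y

theorem lift_reads {y y' z : Y} {w : List (S × Bool)} (h : sc.eqv y y') (hw : Γ.Reads y w z) :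
    ∃ z', Γ.Reads y' w z' ∧ sc.eqv z z' := by
  induction w generalizing y y' with
  | nil => exact ⟨y', LG.Reads.nil _, LG.reads_nil_iff.1 hw ▸ h⟩
  | cons a w ih =>
    obtain ⟨x, h1, h2⟩ := LG.reads_cons_iff.1 hw
    obtain ⟨x', h3, h4⟩ := sc.lift h h1
    obtain ⟨z', h5, h6⟩ := ih h4 h2
    exact ⟨z', LG.Reads.cons h3 h5, h6⟩

theorem eqv_of_reads {y y' z z' : Y} {w : List (S × Bool)} (h : sc.eqv y y') (hw : Γ.Reads y w z)
    (hw' : Γ.Reads y' w z') : sc.eqv z z' := by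
  obtain ⟨z'', h1, h2⟩ := sc.lift_reads h hw
  exact h1.unique hw' ▸ h2

theorem not_eqv_of_reads {y y' z z' : Y} {w : List (S × Bool)} (h : ¬ sc.eqv y y')
    (hw : Γ.Reads y w z) (hw' : Γ.Reads y' w z') : ¬ sc.eqv z z' := by
  exact fun h' => h (sc.eqv_of_reads h' hw.invRev hw'.invRev)

theorem pc_refl (y : Y) : Γ.Pc sc.eqv y y := Or.inl rfl

theorem pc_symm {y z : Y} (h : Γ.Pc sc.eqv y z) : Γ.Pc sc.eqv z y := by
  rcases h with h | ⟨y', z', w, h1, h2, h3⟩
  · exact Or.inl h.symm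
  · exact Or.inr ⟨z', y', invRev w, sc.not_eqv_of_reads h1 h2 h3, h2.invRev, h3.invRev⟩

theorem sc_short {y : Y} {w : List (S × Bool)} (h : Γ.Reads y w y)
    (hl : w.length ≤ 2 * sc.rad y + 1) : FreeGroup.mk w = 1 := by
  obtain ⟨r, h1, h2, h3, h4⟩ := LG.exists_reduced w
  rw [← h3, sc.tree (LG.ReadsIn.red h h2) h1 (h4.trans hl), FreeGroup.one_eq_mk]

theorem sc_ball_key {y x z : Y} {w : List (S × Bool)}
    (h : Γ.ReadsIn (Γ.Ball y (sc.rad y)) x w z) : ∀ τ τ' : List (S × Bool), Γ.Reads y τ x →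
    τ.length ≤ sc.rad y → Γ.Reads y τ' z → τ'.length ≤ sc.rad y →
    FreeGroup.mk τ * FreeGroup.mk w = FreeGroup.mk τ' := by
  induction h with
  | nil _ =>
    intro τ τ' h1 h2 h3 h4
    have := sc.sc_short (h1.append h3.invRev) (by rw [List.length_append, invRev_length]; omega)
    rw [← FreeGroup.mul_mk, ← FreeGroup.inv_mk, mul_inv_eq_one] at this
    rw [← FreeGroup.one_eq_mk, mul_one, this]
  | @cons x x' z a w _ hE hw ih =>
    intro τ τ' h1 h2 h3 h4
    obtain ⟨σ, h5, h6⟩ := hw.left_mem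
    have := sc.sc_short ((h1.append (LG.reads_singleton_iff.2 hE)).append h5.invRev) (by
      rw [List.length_append, List.length_append, invRev_length, List.length_singleton]; omega)
    rw [← FreeGroup.mul_mk, ← FreeGroup.mul_mk, ← FreeGroup.inv_mk, mul_inv_eq_one] at this
    rw [← ih σ τ' h5 h6 h3 h4, ← this, mul_assoc, FreeGroup.mul_mk (L₁ := [a])]
    rfl

/-- closed walks inside the ball of radius `rad y` are freely trivial.  Plan: choose for every `x` in the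
ball a word `τ x` from `y` of length `≤ rad y`; for an edge `x -a-> x'` in the ball the word
`τ x ++ [a] ++ invRev (τ x')` is closed of length `≤ 2 rad y + 1`, its reduced form is `[]` by `tree`,
so `mk (τ x) * mk [a] = mk (τ x')`; induction gives `mk (τ x) * mk w = mk (τ z)`. -/
theorem ball_triv {y x : Y} {w : List (S × Bool)} (h : Γ.ReadsIn (Γ.Ball y (sc.rad y)) x w x) :
    FreeGroup.mk w = 1 := by
  obtain ⟨τ, h1, h2⟩ := h.left_mem
  exact mul_eq_left.1 (sc.sc_ball_key h τ τ h1 h2 h1 h2)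

theorem ball_mk_eq {y x z : Y} {w w' : List (S × Bool)}
    (h : Γ.ReadsIn (Γ.Ball y (sc.rad y)) x w z) (h' : Γ.ReadsIn (Γ.Ball y (sc.rad y)) x w' z) :
    FreeGroup.mk w = FreeGroup.mk w' := by
  have := sc.ball_triv (h.append h'.invRev)
  rwa [← FreeGroup.mul_mk, ← FreeGroup.inv_mk, mul_inv_eq_one] at this

theorem ch3_mem_ball {y z : Y} (h : Γ.Ch3 sc.eqv y z) : z ∈ Γ.Ball y (sc.rad y) := by
  obtain ⟨w, h1, h2⟩ := sc.chain h
  exact ⟨w, h1, by omega⟩

/-- a piece word read from a point of the 2-chain ball stays in the ball. -/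
theorem piece_readsIn {o y y' z z' : Y} {w : List (S × Bool)} (ho : Γ.Ch2 sc.eqv o y)
    (h : ¬ sc.eqv y y') (hw : Γ.Reads y w z) (hw' : Γ.Reads y' w z') :
    Γ.ReadsIn {x | Γ.Ch3 sc.eqv o x} y w z := by
  refine hw.readsIn fun p x hp hx => ?_
  obtain ⟨q, rfl⟩ := hp
  obtain ⟨x', h1, -⟩ := LG.reads_append_iff.1 hw'
  exact ⟨y, ho, Or.inr ⟨y', x', p, h, hx, h1⟩⟩

/-- Uniqueness of the entering walk.  `O` is a subset of the 3-chain ball of `o`, connected to `o`
inside `O`.  Two reduced words of length `≤ 2` read from `x`, ending in `O`, with no proper prefix ending in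
`O`, are equal.  Plan: join the end points by a reduced word `r` inside `O`; `w₁ ++ r` is reduced,
`mk (w₁ ++ r) = mk w₂` by `ball_mk_eq` (all vertices are within `2` of `O`), so `w₂ = w₁ ++ r`,
and `r = []` as `w₁` cannot be a proper prefix of `w₂`. -/
theorem enter_unique {O : Set Y} {o x z₁ z₂ : Y} {w₁ w₂ : List (S × Bool)}
    (hO : ∀ x ∈ O, Γ.Ch3 sc.eqv o x ∧ ∃ w, Γ.ReadsIn O o w x)
    (h₁ : Γ.Reads x w₁ z₁) (h₂ : Γ.Reads x w₂ z₂) (hz₁ : z₁ ∈ O) (hz₂ : z₂ ∈ O)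
    (r₁ : IsReduced w₁) (r₂ : IsReduced w₂) (l₁ : w₁.length ≤ 2) (l₂ : w₂.length ≤ 2)
    (p₁ : ∀ p y, p <+: w₁ → p ≠ w₁ → Γ.Reads x p y → y ∉ O)
    (p₂ : ∀ p y, p <+: w₂ → p ≠ w₂ → Γ.Reads x p y → y ∉ O) : w₁ = w₂ := by
  have near : ∀ {w z}, Γ.Reads x w z → z ∈ O → w.length ≤ 2 →
      Γ.ReadsIn (Γ.Ball o (sc.rad o)) x w z := by
    intro w z hw hz hl
    refine hw.readsIn fun p y hp hy => ?_
    obtain ⟨q, rfl⟩ := hp
    obtain ⟨y', h1, h2⟩ := LG.reads_append_iff.1 hw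
    obtain rfl := h1.unique hy
    obtain ⟨τ, h3, h4⟩ := sc.chain (hO z hz).1
    refine ⟨τ ++ invRev q, h3.append h2.invRev, ?_⟩
    rw [List.length_append] at hl ⊢
    rw [invRev_length]
    omega
  obtain ⟨-, u₁, hu₁⟩ := hO z₁ hz₁
  obtain ⟨-, u₂, hu₂⟩ := hO z₂ hz₂
  obtain ⟨r, hr, hred, -, -⟩ := LG.exists_reduced (invRev u₁ ++ u₂)
  have hro : Γ.ReadsIn O z₁ r z₂ := (hu₁.invRev.append hu₂).red hred
  obtain ⟨α, β, γ, e1, e2, hαγ⟩ := tripod r₁ hr
  have hβ : β = [] := by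
    by_contra hβ
    obtain ⟨y, h1, h2⟩ := LG.reads_append_iff.1 (e1 ▸ h₁)
    refine p₁ α y ⟨β, e1.symm⟩ (fun e => hβ ?_) h1 (hro.mem_of_prefix ⟨γ, e2.symm⟩ h2.invRev)
    exact List.append_right_eq_self.1 (e1.symm.trans e.symm)
  subst hβ
  rw [List.append_nil] at e1
  rw [invRev_empty, List.nil_append] at e2
  subst e1 e2
  have e := red_eq hαγ r₂ (sc.ball_mk_eq ((near h₁ hz₁ l₁).append
    (hro.mono fun y hy => sc.ch3_mem_ball (hO y hy).1)) (near h₂ hz₂ l₂))
  by_contra hne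
  exact p₂ w₁ z₁ ⟨r, e⟩ hne h₁ hz₁

end SC

/-- `x` is a point of the copy through the germ `(v, y)` that is not "at home" in this copy. -/
def Old {S Y G : Type} [Group G] (Γ : LG S Y) (r : Setoid Y) (π : S → G) (home : G → Y)
    (v : G) (y x : Y) : Prop :=
  ∃ w, Γ.Reads y w x ∧ ¬ r x (home ((wv π w)⁻¹ * v))

/-- Output of the structure theorem for `G = ⟨S | closed words of Γ⟩`.  A germ `(v, y) : G × Y` determines
the copy `x ↦ (wv π w)⁻¹ * v` (`w` any word from `y` to `x`) of the component of `y`; `(v, home v)` is the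
first copy that contains `v`; `rk` is the order in which copies are attached. -/
structure Str {S Y : Type} (Γ : LG S Y) (sc : SC Γ) (y₀ : Y) (G : Type) [Group G] where
  π : S → G
  surj : Function.Surjective (FreeGroup.lift π)
  pres : ∀ f : FreeGroup S, FreeGroup.lift π f = 1 →
    f ∈ Subgroup.normalClosure {f | ∃ y w, Γ.Reads y w y ∧ f = FreeGroup.mk w}
  closed : ∀ {y w}, Γ.Reads y w y → wv π w = 1
  inj : ∀ {y w x}, Γ.Reads y w x → wv π w = 1 → x = y
  home : G → Y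
  old_conn : ∀ v y, ∃ o, ∀ x, Old Γ sc.eqv π home v y x →
      Γ.Ch3 sc.eqv o x ∧ ∃ w, Γ.ReadsIn {x | Old Γ sc.eqv π home v y x} o w x
  cover : ∀ v a, (∃ x, Γ.E (home v) a x) ∨ ∃ x, Γ.E x a (home ((lv π a)⁻¹ * v))
  base : ∀ {w x}, Γ.Reads y₀ w x → sc.eqv x (home (wv π w)⁻¹)
  Ord : Type
  [ord : LinearOrder Ord]
  rk : G → Y → Ord
  rk_edge : ∀ {v y a z}, Γ.E y a z → rk ((lv π a)⁻¹ * v) z = rk v y
  rk_eqv : ∀ {v y y'}, sc.eqv y y' → rk v y = rk v y'
  rk_min : ∀ v y, rk v (home v) ≤ rk v y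
  rk_eq : ∀ v y, rk v (home v) = rk v y → sc.eqv y (home v)

attribute [instance] Str.ord

namespace Str
variable {S Y : Type} {Γ : LG S Y} {sc : SC Γ} {y₀ : Y} {G : Type} [Group G] (st : Str Γ sc y₀ G)

theorem wv_eq {y x : Y} {w w' : List (S × Bool)} (h : Γ.Reads y w x) (h' : Γ.Reads y w' x) :
    wv st.π w = wv st.π w' := by
  have := st.closed (h.append h'.invRev)
  rwa [wv_append, wv_invRev, mul_inv_eq_one] at this

theorem inj' {y x x' : Y} {w w' : List (S × Bool)} (h : Γ.Reads y w x) (h' : Γ.Reads y w' x')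
    (he : wv st.π w = wv st.π w') : x = x' := by
  refine (st.inj (h.invRev.append h') ?_).symm
  rw [wv_append, wv_invRev, he, inv_mul_cancel]

theorem rk_reads {v : G} {y x : Y} {w : List (S × Bool)} (h : Γ.Reads y w x) :
    st.rk ((wv st.π w)⁻¹ * v) x = st.rk v y := by
  induction w generalizing v y with
  | nil => rw [wv_nil, inv_one, one_mul, LG.reads_nil_iff.1 h]
  | cons a w ih =>
    obtain ⟨z, h1, h2⟩ := LG.reads_cons_iff.1 h
    rw [wv_cons, mul_inv_rev, mul_assoc, ih h2, st.rk_edge h1]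

/-- an edge cannot be a parent edge and a child edge at the same time (`rk_min` twice, `rk_eq`). -/
theorem excl {v : G} {a : S × Bool} {x x' : Y} (h : Γ.E (st.home v) a x')
    (h' : Γ.E x a (st.home ((lv st.π a)⁻¹ * v))) :
    sc.eqv x' (st.home ((lv st.π a)⁻¹ * v)) := by
  refine st.rk_eq _ _ (le_antisymm (st.rk_min _ _) ?_)
  rw [st.rk_edge h, st.rk_edge h']
  exact st.rk_min _ _

include st in
theorem fg [Finite S] : Group.FG G := by
  exact Group.fg_of_surjective st.surj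

end Str

end Crest.Agent.R129
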