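import Crest.Agent.R129.SC

/-!
# R129 / St1 : construction of the Cayley graph by attaching copies, generation by generation (definitions)

A stage is a folded graph `K` on a subset `V` of the term type `Tm Y`.  A *germ* is a pair `(v, y)`,
`v ∈ V`, `y : Y` such that not every word readable from `y` in `Γ` is readable from `v` in `K`.  The next
stage attaches a copy of the component of `y` for every germ; the point `x` of the copy is placed at
`pos g P v y x`; two points of two copies are glued iff they are `Rel`-related.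
-/

set_option autoImplicit false
open FreeGroup

namespace Crest.Agent.R129

/-- names of vertices. -/
inductive Tm (Y : Type) : Type
  | base (y : Y) : Tm Y
  | node (g : ℕ) (v : Tm Y) (y x : Y) : Tm Y

def Tm.tag {Y : Type} : Tm Y → ℕ
  | .base _ => 0
  | .node g _ _ _ => g + 1

def Tm.home {Y : Type} : Tm Y → Y
  | .base y => y
  | .node _ _ _ x => x

/-- pairs `(v, y)` with a well-order. -/
def WO (Y : Type) : Type := Tm Y × Y

noncomputable instance (Y : Type) : LinearOrder (WO Y) := (exists_wellFoundedLT (Tm Y × Y)).choose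
instance (Y : Type) : WellFoundedLT (WO Y) := (exists_wellFoundedLT (Tm Y × Y)).choose_spec

structure Stage (S Y : Type) where
  V : Set (Tm Y)
  K : LG S (Tm Y)

/-- the presented group. -/
def PG {S Y : Type} (Γ : LG S Y) : Type :=
  FreeGroup S ⧸ Subgroup.normalClosure {f | ∃ y w, Γ.Reads y w y ∧ f = FreeGroup.mk w}

noncomputable instance {S Y : Type} (Γ : LG S Y) : Group (PG Γ) :=
  inferInstanceAs (Group (FreeGroup S ⧸ _))

/-- generators of the presented group. -/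
def pgen {S Y : Type} (Γ : LG S Y) (s : S) : PG Γ := QuotientGroup.mk (FreeGroup.of s)

open Classical in
/-- value of any word from `y` to `x`. -/
noncomputable def dlt {S Y : Type} (Γ : LG S Y) (y x : Y) : PG Γ :=
  if h : ∃ w, Γ.Reads y w x then wv (pgen Γ) h.choose else 1

/-- the group element of a vertex. -/
noncomputable def psi {S Y : Type} (Γ : LG S Y) (y₀ : Y) : Tm Y → PG Γ
  | .base x => (dlt Γ y₀ x)⁻¹
  | .node _ v y x => (dlt Γ y x)⁻¹ * psi Γ y₀ v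

section PG
variable {S Y : Type} (Γ : LG S Y)

theorem lift_pgen (f : FreeGroup S) : FreeGroup.lift (pgen Γ) f = QuotientGroup.mk f := by
  have : (FreeGroup.lift (pgen Γ) : FreeGroup S →* PG Γ) = QuotientGroup.mk' _ := by
    ext s
    simp only [FreeGroup.lift_apply_of]
    rfl
  rw [this]
  rfl


theorem wv_pgen_closed {y : Y} {w : List (S × Bool)} (h : Γ.Reads y w y) : wv (pgen Γ) w = 1 := by
  unfold wv
  rw [lift_pgen]
  exact (QuotientGroup.eq_one_iff _).2 (Subgroup.subset_normalClosure ⟨y, w, h, rfl⟩)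


theorem dlt_eq {y x : Y} {w : List (S × Bool)} (h : Γ.Reads y w x) :
    dlt Γ y x = wv (pgen Γ) w := by
  have hex : ∃ w, Γ.Reads y w x := ⟨w, h⟩
  unfold dlt
  rw [dif_pos hex]
  have h1 := wv_pgen_closed Γ (hex.choose_spec.append h.invRev)
  rw [wv_append, wv_invRev] at h1
  exact mul_inv_eq_one.1 h1


end PG

namespace Stage
variable {S Y : Type} (Γ : LG S Y) (sc : SC Γ) (P : Stage S Y)

/-- common reading. -/
def Com (v : Tm Y) (y : Y) (u : Tm Y) (z : Y) : Prop := ∃ w, P.K.Reads v w u ∧ Γ.Reads y w z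

def Full (v : Tm Y) (y : Y) : Prop := ∀ w z, Γ.Reads y w z → ∃ u, P.K.Reads v w u

def Germ (v : Tm Y) (y : Y) : Prop := v ∈ P.V ∧ ¬ P.Full Γ v y

/-- two germs define the same copy. -/
def Same (γ γ' : Tm Y × Y) : Prop :=
  ∃ u z z', P.Com Γ γ.1 γ.2 u z ∧ P.Com Γ γ'.1 γ'.2 u z' ∧ sc.eqv z z'

theorem com_refl (v : Tm Y) (y : Y) : P.Com Γ v y v y := ⟨[], LG.Reads.nil _, LG.Reads.nil _⟩

theorem same_refl (γ : Tm Y × Y) : P.Same Γ sc γ γ :=
  ⟨γ.1, γ.2, γ.2, com_refl Γ P _ _, com_refl Γ P _ _, sc.eqv.refl _⟩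

/-- rank of the copy of a germ. -/
noncomputable def cl (γ : Tm Y × Y) : WO Y :=
  (wellFounded_lt (α := WO Y)).min {γ' : WO Y | P.Same Γ sc γ γ'} ⟨γ, same_refl Γ sc P γ⟩

/-- `t = (v, y, x)`: germ `(v, y)` and point `x` of the component of `y`. -/
def Valid (t : Tm Y × Y × Y) : Prop := P.Germ Γ t.1 t.2.1 ∧ t.2.2 ∈ Γ.Comp t.2.1

/-- the gluing relation. -/
def Rel (t t' : Tm Y × Y × Y) : Prop :=
  ∃ u z z' w, P.Com Γ t.1 t.2.1 u z ∧ P.Com Γ t'.1 t'.2.1 u z' ∧ Γ.Reads z w t.2.2 ∧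
    Γ.Reads z' w t'.2.2

def IsRep (t t' : Tm Y × Y × Y) : Prop :=
  P.Valid Γ t' ∧ P.Rel Γ t t' ∧
    ∀ t'', P.Valid Γ t'' → P.Rel Γ t t'' → P.cl Γ sc (t'.1, t'.2.1) ≤ P.cl Γ sc (t''.1, t''.2.1)

noncomputable def rep (t : Tm Y × Y × Y) : Tm Y × Y × Y :=
  @Classical.epsilon _ ⟨t⟩ (P.IsRep Γ sc t)

open Classical in
/-- position of the point `x` of the copy attached at the germ `(v, y)`. -/
noncomputable def pos (g : ℕ) (v : Tm Y) (y x : Y) : Tm Y :=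
  if h : ∃ u, P.Com Γ v y u x then h.choose
  else .node g (P.rep Γ sc (v, y, x)).1 (P.rep Γ sc (v, y, x)).2.1 (P.rep Γ sc (v, y, x)).2.2

/-- edges of the next stage. -/
def NE (g : ℕ) (u : Tm Y) (a : S × Bool) (u' : Tm Y) : Prop :=
  P.K.E u a u' ∨ ∃ v y x x', P.Valid Γ (v, y, x) ∧ Γ.E x a x' ∧ u = P.pos Γ sc g v y x ∧
    u' = P.pos Γ sc g v y x'

/-- the invariants of a stage. -/
structure Inv (y₀ : Y) (g : ℕ) : Prop where
  mem : ∀ {u a u'}, P.K.E u a u' → u ∈ P.V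
  tag : ∀ {u}, u ∈ P.V → u.tag ≤ g
  n1 : ∀ {v y u z}, P.Germ Γ v y → P.Com Γ v y u z → Γ.Ch2 sc.eqv y z
  n3 : ∀ {v y z u y' z' w₁ w₂}, P.Germ Γ v y → P.Germ Γ v z → P.K.Reads v w₁ u → Γ.Reads y w₁ y' →
    P.K.Reads v w₂ u → Γ.Reads z w₂ z' → FreeGroup.mk w₁ = FreeGroup.mk w₂
  full : ∀ {v y w x u}, v ∈ P.V → P.Full Γ v y → Γ.Reads y w x → P.K.Reads v w u → (x = y ↔ u = v)
  conn : ∀ {u}, u ∈ P.V → ∃ w, P.K.Reads (.base y₀) w u
  psiE : ∀ {u a u'}, P.K.E u a u' → psi Γ y₀ u' = (lv (pgen Γ) a)⁻¹ * psi Γ y₀ u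
  homeFull : ∀ {u}, u ∈ P.V → P.Full Γ u u.home
  cover : ∀ {u a u'}, P.K.E u a u' → (∃ x, Γ.E u.home a x) ∨ ∃ x, Γ.E x a u'.home

variable {Γ sc P}

theorem Com.symm {v u : Tm Y} {y z : Y} (h : P.Com Γ v y u z) : P.Com Γ u z v y := by
  obtain ⟨w, h1, h2⟩ := h
  exact ⟨invRev w, h1.invRev, h2.invRev⟩


theorem Com.trans {v u u' : Tm Y} {y z z' : Y} (h : P.Com Γ v y u z) (h' : P.Com Γ u z u' z') :
    P.Com Γ v y u' z' := by
  obtain ⟨w, h1, h2⟩ := h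
  obtain ⟨w', h1', h2'⟩ := h'
  exact ⟨w ++ w', h1.append h1', h2.append h2'⟩


theorem Full.com {v u : Tm Y} {y z : Y} (h : P.Full Γ v y) (h' : P.Com Γ v y u z) :
    P.Full Γ u z := by
  obtain ⟨w, h1, h2⟩ := h'
  intro w' x hx
  obtain ⟨u', hu'⟩ := h (w ++ w') x (h2.append hx)
  obtain ⟨u'', hu1, hu2⟩ := LG.reads_append_iff.1 hu'
  obtain rfl := h1.unique hu1
  exact ⟨u', hu2⟩


theorem Full.eqv {v : Tm Y} {y z : Y} (h : P.Full Γ v y) (h' : sc.eqv y z) : P.Full Γ v z := by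
  intro w x hx
  obtain ⟨x', hx', -⟩ := sc.lift_reads (sc.eqv.symm h') hx
  exact h w x' hx'


theorem Same.symm {γ γ' : Tm Y × Y} (h : P.Same Γ sc γ γ') : P.Same Γ sc γ' γ := by
  obtain ⟨u, z, z', h1, h2, h3⟩ := h
  exact ⟨u, z', z, h2, h1, sc.eqv.symm h3⟩


/-- lift the common word of the middle germ with `sc.lift_reads`. -/
theorem Same.trans {γ γ' γ'' : Tm Y × Y} (h : P.Same Γ sc γ γ') (h' : P.Same Γ sc γ' γ'') :
    P.Same Γ sc γ γ'' := by
  obtain ⟨u, z, z', h1, h2, h3⟩ := h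
  obtain ⟨u₂, z₂, z₂', h1', h2', h3'⟩ := h'
  obtain ⟨w, hw1, hw2⟩ := h2.symm.trans h1'
  obtain ⟨z₃, hz₃, he⟩ := sc.lift_reads (sc.eqv.symm h3) hw2
  exact ⟨u₂, z₃, z₂', h1.trans ⟨w, hw1, hz₃⟩, h2', sc.eqv.trans (sc.eqv.symm he) h3'⟩


theorem cl_eq_iff {γ γ' : Tm Y × Y} : P.cl Γ sc γ = P.cl Γ sc γ' ↔ P.Same Γ sc γ γ' := by
  constructor
  · intro h
    have h1 : P.Same Γ sc γ (P.cl Γ sc γ) :=
      (wellFounded_lt (α := WO Y)).min_mem {γ' : WO Y | P.Same Γ sc γ γ'} ⟨γ, same_refl Γ sc P γ⟩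
    have h2 : P.Same Γ sc γ' (P.cl Γ sc γ') :=
      (wellFounded_lt (α := WO Y)).min_mem {γ'' : WO Y | P.Same Γ sc γ' γ''}
        ⟨γ', same_refl Γ sc P γ'⟩
    rw [h] at h1
    exact h1.trans h2.symm
  · intro h
    have hs : {γ'' : WO Y | P.Same Γ sc γ γ''} = {γ'' : WO Y | P.Same Γ sc γ' γ''} := by
      ext γ''
      exact ⟨fun h' => Same.trans h.symm h', fun h' => Same.trans h h'⟩
    unfold cl
    congr 1


theorem Rel.symm {t t' : Tm Y × Y × Y} (h : P.Rel Γ t t') : P.Rel Γ t' t := by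
  obtain ⟨u, z, z', w, h1, h2, h3, h4⟩ := h
  exact ⟨u, z', z, w, h2, h1, h4, h3⟩


theorem Valid.rel_refl {t : Tm Y × Y × Y} (h : P.Valid Γ t) : P.Rel Γ t t := by
  obtain ⟨-, w, hw⟩ := h
  exact ⟨t.1, t.2.1, t.2.1, w, com_refl Γ P _ _, com_refl Γ P _ _, hw, hw⟩


theorem Rel.extend {v v' : Tm Y} {y y' x x' z z' : Y} {w : List (S × Bool)}
    (h : P.Rel Γ (v, y, x) (v', y', x')) (hw : Γ.Reads x w z) (hw' : Γ.Reads x' w z') :
    P.Rel Γ (v, y, z) (v', y', z') := by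
  obtain ⟨u, a, a', w₀, h1, h2, h3, h4⟩ := h
  exact ⟨u, a, a', w₀ ++ w, h1, h2, h3.append hw, h4.append hw'⟩


theorem Valid.extend {v : Tm Y} {y x z : Y} {w : List (S × Bool)} (h : P.Valid Γ (v, y, x))
    (hw : Γ.Reads x w z) : P.Valid Γ (v, y, z) := by
  obtain ⟨h1, w₀, h2⟩ := h
  exact ⟨h1, w₀ ++ w, h2.append hw⟩


section
variable {y₀ : Y} {g : ℕ} (hP : P.Inv Γ sc y₀ g)
include hP

theorem Inv.reads_mem {v u : Tm Y} {w : List (S × Bool)} (hv : v ∈ P.V) (h : P.K.Reads v w u) :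
    u ∈ P.V := by
  induction w generalizing v with
  | nil =>
    obtain rfl := LG.reads_nil_iff.1 h
    exact hv
  | cons a w ih =>
    obtain ⟨v', h1, h2⟩ := LG.reads_cons_iff.1 h
    exact ih (hP.mem (P.K.symm h1)) h2


theorem Inv.germ_com {v u : Tm Y} {y z : Y} (h : P.Germ Γ v y) (h' : P.Com Γ v y u z) :
    P.Germ Γ u z := by
  refine ⟨?_, fun hf => h.2 (hf.com h'.symm)⟩
  obtain ⟨w, h1, -⟩ := h'
  exact hP.reads_mem h.1 h1


/-- a common word read from a germ stays in the 2-chain ball (apply `n1` to the prefixes). -/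
theorem Inv.com_readsIn {v u u' : Tm Y} {y z z' : Y} {w : List (S × Bool)} (h : P.Germ Γ v y)
    (h' : P.Com Γ v y u z) (hw : P.K.Reads u w u') (hw' : Γ.Reads z w z') :
    Γ.ReadsIn {x | Γ.Ch2 sc.eqv y x} z w z' := by
  refine hw'.readsIn fun p x hp hx => ?_
  obtain ⟨t, rfl⟩ := hp
  obtain ⟨u'', hu1, -⟩ := LG.reads_append_iff.1 hw
  exact hP.n1 h (h'.trans ⟨p, hu1, hx⟩)


/-- the old part of a copy injects into `Γ` (`ball_mk_eq`, `Reads.eq_of_mk_eq`). -/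
theorem Inv.com_unique {v u u' : Tm Y} {y z : Y} (h : P.Germ Γ v y) (h₁ : P.Com Γ v y u z)
    (h₂ : P.Com Γ v y u' z) : u = u' := by
  obtain ⟨w₁, a₁, b₁⟩ := h₁
  obtain ⟨w₂, a₂, b₂⟩ := h₂
  have hsub : {x | Γ.Ch2 sc.eqv y x} ⊆ Γ.Ball y (sc.rad y) := fun x hx =>
    sc.ch3_mem_ball ⟨x, hx, sc.pc_refl x⟩
  have c₁ := (hP.com_readsIn h (com_refl Γ P v y) a₁ b₁).mono hsub
  have c₂ := (hP.com_readsIn h (com_refl Γ P v y) a₂ b₂).mono hsub
  exact a₁.eq_of_mk_eq a₂ (sc.ball_mk_eq c₁ c₂)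


/-- the old part of a copy injects into `K` (`n3` with `z = y`). -/
theorem Inv.com_unique' {v u : Tm Y} {y z z' : Y} (h : P.Germ Γ v y) (h₁ : P.Com Γ v y u z)
    (h₂ : P.Com Γ v y u z') : z = z' := by
  obtain ⟨w₁, a₁, b₁⟩ := h₁
  obtain ⟨w₂, a₂, b₂⟩ := h₂
  exact b₁.eq_of_mk_eq b₂ (hP.n3 h h a₁ b₁ a₂ b₂)


end

end Stage

end Crest.Agent.R129
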