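import Crest.Agent.R129.St1

/-!
# R129 / St1b : the gluing relation is an equivalence; positions; the next stage
-/

set_option autoImplicit false
open FreeGroup

namespace Crest.Agent.R129
namespace Stage
variable {S Y : Type} {Γ : LG S Y} {sc : SC Γ} {P : Stage S Y}

theorem st1b_lift {z₁ z₂ x₁ x₂ : Y} {w s : List (S × Bool)} (he : sc.eqv z₂ z₁)
    (h₁ : Γ.Reads z₁ w x₁) (h₂ : Γ.Reads z₂ w x₂) (hs : Γ.Reads z₂ s x₂) : Γ.Reads z₁ s x₁ := by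
  have hc := sc.closed he (hs.append h₂.invRev)
  obtain ⟨b, hb, hb'⟩ := LG.reads_append_iff.1 hc
  have : b = x₁ := hb'.unique' h₁.invRev
  rwa [this] at hb

theorem st1b_red {V : Type} {K : LG S V} {x z : V} {w w' : List (S × Bool)} (h : K.Reads x w z)
    (hr : Red w w') : K.Reads x w' z := LG.ReadsIn.red h hr

section
variable {y₀ : Y} {g : ℕ} (hP : P.Inv Γ sc y₀ g)
include hP

theorem Inv.st1b_ball {v u u' : Tm Y} {y z z' : Y} {r : List (S × Bool)} (h : P.Germ Γ v y)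
    (h' : P.Com Γ v y u z) (hw : P.K.Reads u r u') (hw' : Γ.Reads z r z') :
    Γ.ReadsIn (Γ.Ball y (sc.rad y)) z r z' :=
  (hP.com_readsIn h h' hw hw').mono fun x hx => sc.ch3_mem_ball ⟨x, hx, sc.pc_refl x⟩

theorem Inv.st1b_piece {v u : Tm Y} {y z z' x x' : Y} {w : List (S × Bool)} (h : P.Germ Γ v y)
    (h' : P.Com Γ v y u z) (hn : ¬ sc.eqv z z') (hw : Γ.Reads z w x) (hw' : Γ.Reads z' w x') :
    Γ.ReadsIn (Γ.Ball y (sc.rad y)) z w x :=
  (sc.piece_readsIn (hP.n1 h h') hn hw hw').mono fun _ hx => sc.ch3_mem_ball hx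

/-- Transitivity.  `t₁ ~ t₂` via `(u,z₁,z₂,w)`, `t₂ ~ t₃` via `(u',z₂',z₃,w')`, `r` a common word from
`(u,z₂)` to `(u',z₂')`.  If `eqv z₁ z₂`: lift `r` to `z₁ → z₁'`, `r ++ w' ++ invRev w` is closed at `z₂`
hence at `z₁` (`sc.closed`), so `z₁' -w'-> x₁` and `(u',z₁',z₃,w')` works.  Symmetric if `eqv z₂' z₃`.
Otherwise reduce `r, w, w'` (`exists_reduced`, `ReadsIn.red`), all three walks lie in the ball around the base
point `y₂` of the middle germ (`com_readsIn`, `piece_readsIn`), `mk (r ++ w') = mk w`; `tripod` gives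
`r = α ++ β`, `w' = invRev β ++ γ`, `w = α ++ γ` (`red_eq`); use the end point of `α` and the word `γ`. -/
theorem Inv.rel_trans {t₁ t₂ t₃ : Tm Y × Y × Y} (h₂ : P.Valid Γ t₂) (h : P.Rel Γ t₁ t₂)
    (h' : P.Rel Γ t₂ t₃) : P.Rel Γ t₁ t₃ := by
  obtain ⟨u, z₁, z₂, w, c₁, c₂, hw₁, hw₂⟩ := h
  obtain ⟨u', z₂', z₃, w', c₂', c₃, hw₂', hw₃⟩ := h'
  obtain ⟨r, hrK, hr⟩ := c₂.symm.trans c₂'
  by_cases e₁ : sc.eqv z₂ z₁
  · obtain ⟨a, ha, ha'⟩ := LG.reads_append_iff.1 (st1b_lift e₁ hw₁ hw₂ (hr.append hw₂'))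
    exact ⟨u', a, z₃, w', c₁.trans ⟨r, hrK, ha⟩, c₃, ha', hw₃⟩
  by_cases e₃ : sc.eqv z₂' z₃
  · obtain ⟨a, ha, ha'⟩ := LG.reads_append_iff.1 (st1b_lift e₃ hw₃ hw₂' (hr.invRev.append hw₂))
    exact ⟨u, z₁, a, w, c₁, c₃.trans ⟨invRev r, hrK.invRev, ha⟩, hw₁, ha'⟩
  have b1 := hP.st1b_ball h₂.1 c₂ hrK hr
  have b2 := hP.st1b_piece h₂.1 c₂ e₁ hw₂ hw₁
  have b3 := hP.st1b_piece h₂.1 c₂' e₃ hw₂' hw₃
  have hmk := sc.ball_mk_eq (b1.append b3) b2
  obtain ⟨r₀, rr, rr', rr'', -⟩ := LG.exists_reduced r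
  obtain ⟨w₀, wr, wr', wr'', -⟩ := LG.exists_reduced w
  obtain ⟨w₀', vr, vr', vr'', -⟩ := LG.exists_reduced w'
  obtain ⟨α, β, γ, e1, e2, e3⟩ := tripod rr vr
  have e4 : w₀ = α ++ γ := by
    refine red_eq wr e3 ?_
    rw [wr'', ← hmk, ← FreeGroup.mul_mk, ← rr'', ← vr'', e1, e2, ← FreeGroup.mul_mk,
      ← FreeGroup.mul_mk, ← FreeGroup.mul_mk, ← FreeGroup.inv_mk]
    group
  have k1 := st1b_red hrK rr'
  have k2 := st1b_red hw₁ wr'
  have k3 := st1b_red hw₃ vr'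
  rw [e1] at k1
  rw [e4] at k2
  rw [e2] at k3
  obtain ⟨u'', hu1, hu2⟩ := LG.reads_append_iff.1 k1
  obtain ⟨a, ha, ha'⟩ := LG.reads_append_iff.1 k2
  obtain ⟨b, hb, hb'⟩ := LG.reads_append_iff.1 k3
  exact ⟨u'', a, b, γ, c₁.trans ⟨α, hu1, ha⟩, c₃.trans ⟨invRev β, hu2.invRev, hb⟩, ha', hb'⟩

/-- related to an old point means old, at the same vertex (same case distinction, no tripod needed). -/
theorem Inv.rel_old {v v' u : Tm Y} {y y' x x' : Y} (h₁ : P.Valid Γ (v, y, x))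
    (h : P.Rel Γ (v, y, x) (v', y', x')) (hu : P.Com Γ v y u x) : P.Com Γ v' y' u x' := by
  obtain ⟨u₀, z, z', w, c, c', hw, hw'⟩ := h
  obtain ⟨r, hrK, hr⟩ := c.symm.trans hu
  by_cases e : sc.eqv z z'
  · exact c'.trans ⟨r, hrK, st1b_lift e hw' hw hr⟩
  have b1 := hP.st1b_ball h₁.1 c hrK hr
  have b2 := hP.st1b_piece h₁.1 c e hw hw'
  have hmk := sc.ball_mk_eq b1 b2
  obtain ⟨r₀, rr, rr', rr'', -⟩ := LG.exists_reduced r
  obtain ⟨w₀, wr, wr', wr'', -⟩ := LG.exists_reduced w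
  have e4 : w₀ = r₀ := red_eq wr rr (by rw [wr'', rr'', hmk])
  have k2 := st1b_red hw' wr'
  rw [e4] at k2
  exact c'.trans ⟨r₀, st1b_red hrK rr', k2⟩

theorem Inv.isRep_rep {t : Tm Y × Y × Y} (h : P.Valid Γ t) : P.IsRep Γ sc t (P.rep Γ sc t) := by
  have _ := hP
  have hne : {c : WO Y | ∃ t'', P.Valid Γ t'' ∧ P.Rel Γ t t'' ∧
      c = P.cl Γ sc (t''.1, t''.2.1)}.Nonempty := ⟨_, t, h, h.rel_refl, rfl⟩
  obtain ⟨c, ⟨t', hv, hr, rfl⟩, hmin⟩ := (wellFounded_lt (α := WO Y)).has_min _ hne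
  have hex : ∃ t', P.IsRep Γ sc t t' :=
    ⟨t', hv, hr, fun t'' hv'' hr'' => not_lt.1 (hmin _ ⟨t'', hv'', hr'', rfl⟩)⟩
  exact Classical.epsilon_spec hex

theorem Inv.rep_eq {t t' : Tm Y × Y × Y} (h : P.Valid Γ t) (h' : P.Valid Γ t')
    (hr : P.Rel Γ t t') : P.rep Γ sc t = P.rep Γ sc t' := by
  have e0 : ∀ t'', P.Rel Γ t t'' ↔ P.Rel Γ t' t'' := fun t'' =>
    ⟨fun h1 => hP.rel_trans h hr.symm h1, fun h1 => hP.rel_trans h' hr h1⟩
  have e : P.IsRep Γ sc t = P.IsRep Γ sc t' := by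
    funext s
    simp only [IsRep, e0]
  unfold rep
  rw [e]

theorem Inv.pos_of_com {v u : Tm Y} {y x : Y} (h : P.Germ Γ v y) (hu : P.Com Γ v y u x) :
    P.pos Γ sc g v y x = u := by
  have hex : ∃ u, P.Com Γ v y u x := ⟨u, hu⟩
  rw [pos, dif_pos hex]
  exact hP.com_unique h hex.choose_spec hu

theorem Inv.pos_self {v : Tm Y} {y : Y} (h : P.Germ Γ v y) : P.pos Γ sc g v y y = v :=
  hP.pos_of_com h (com_refl Γ P v y)

/-- a position in the old vertex set comes from a common reading (tags). -/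
theorem Inv.com_of_pos_mem {v : Tm Y} {y x : Y} (h : P.Germ Γ v y)
    (hu : P.pos Γ sc g v y x ∈ P.V) : P.Com Γ v y (P.pos Γ sc g v y x) x := by
  by_cases hex : ∃ u, P.Com Γ v y u x
  · obtain ⟨u, hu'⟩ := hex
    rw [hP.pos_of_com h hu']
    exact hu'
  · exfalso
    have := hP.tag hu
    rw [pos, dif_neg hex] at this
    simp [Tm.tag] at this

theorem Inv.pos_new {v : Tm Y} {y x : Y} (h : P.Germ Γ v y) (hu : P.pos Γ sc g v y x ∉ P.V) :
    P.pos Γ sc g v y x = .node g (P.rep Γ sc (v, y, x)).1 (P.rep Γ sc (v, y, x)).2.1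
      (P.rep Γ sc (v, y, x)).2.2 := by
  by_cases hex : ∃ u, P.Com Γ v y u x
  · obtain ⟨u, hu'⟩ := hex
    exfalso
    apply hu
    rw [hP.pos_of_com h hu']
    obtain ⟨w, hw, -⟩ := hu'
    exact hP.reads_mem h.1 hw
  · rw [pos, dif_neg hex]

theorem Inv.pos_eq_iff {v v' : Tm Y} {y y' x x' : Y} (h : P.Valid Γ (v, y, x))
    (h' : P.Valid Γ (v', y', x')) :
    P.pos Γ sc g v y x = P.pos Γ sc g v' y' x' ↔ P.Rel Γ (v, y, x) (v', y', x') := by
  constructor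
  · intro he
    by_cases hm : P.pos Γ sc g v y x ∈ P.V
    · have c := hP.com_of_pos_mem h.1 hm
      have c' := hP.com_of_pos_mem h'.1 (he ▸ hm)
      rw [← he] at c'
      exact ⟨_, x, x', [], c, c', LG.Reads.nil _, LG.Reads.nil _⟩
    · have hm' : P.pos Γ sc g v' y' x' ∉ P.V := he ▸ hm
      rw [hP.pos_new h.1 hm, hP.pos_new h'.1 hm'] at he
      have e : P.rep Γ sc (v, y, x) = P.rep Γ sc (v', y', x') := by
        injection he with _ e1 e2 e3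
        exact Prod.ext e1 (Prod.ext e2 e3)
      have r1 := hP.isRep_rep h
      have r2 := hP.isRep_rep h'
      rw [← e] at r2
      exact hP.rel_trans r1.1 r1.2.1 r2.2.1.symm
  · intro hr
    by_cases hex : ∃ u, P.Com Γ v y u x
    · obtain ⟨u, hu⟩ := hex
      rw [hP.pos_of_com h.1 hu, hP.pos_of_com h'.1 (hP.rel_old h hr hu)]
    · have hex' : ¬ ∃ u, P.Com Γ v' y' u x' := fun ⟨u, hu⟩ => hex ⟨u, hP.rel_old h' hr.symm hu⟩
      rw [pos, dif_neg hex, pos, dif_neg hex', hP.rep_eq h h' hr]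

theorem Inv.pos_inj {v : Tm Y} {y x x' : Y} (h : P.Valid Γ (v, y, x)) (h' : P.Valid Γ (v, y, x'))
    (he : P.pos Γ sc g v y x = P.pos Γ sc g v y x') : x = x' := by
  obtain ⟨u, z, z', w, c, c', hw, hw'⟩ := (hP.pos_eq_iff h h').1 he
  have e : z = z' := hP.com_unique' h.1 c c'
  subst e
  exact hw.unique hw'

/-- the same copy: equal positions means equivalent points. -/
theorem Inv.eqv_of_same {v v' : Tm Y} {y y' x x' : Y} (h : P.Valid Γ (v, y, x))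
    (h' : P.Valid Γ (v', y', x')) (hs : P.Same Γ sc (v, y) (v', y'))
    (he : P.pos Γ sc g v y x = P.pos Γ sc g v' y' x') : sc.eqv x x' := by
  obtain ⟨u, z, z', c, c', e⟩ := hs
  obtain ⟨s, hs'⟩ := h'.2
  obtain ⟨w, -, hw⟩ := id c
  obtain ⟨w', -, hw'⟩ := id c'
  have k : Γ.Reads z' (invRev w' ++ s) x' := hw'.invRev.append hs'
  obtain ⟨x'', k', e'⟩ := sc.lift_reads (sc.eqv.symm e) k
  have hv : P.Valid Γ (v, y, x'') := ⟨h.1, _, hw.append k'⟩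
  have hr : P.Rel Γ (v, y, x'') (v', y', x') := ⟨u, z, z', _, c, c', k', k⟩
  have e2 : x = x'' := hP.pos_inj h hv (he.trans ((hP.pos_eq_iff hv h').2 hr).symm)
  rw [e2]
  exact sc.eqv.symm e'

/-- conversely: equal positions and equivalent points means the same copy.  (Lift the path
`x' → y'` to `x → y''`; `Rel.extend` gives `pos v y y'' = pos v' y' y' = v'`.) -/
theorem Inv.same_of_eqv {v v' : Tm Y} {y y' x x' : Y} (h : P.Valid Γ (v, y, x))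
    (h' : P.Valid Γ (v', y', x')) (hs : sc.eqv x x')
    (he : P.pos Γ sc g v y x = P.pos Γ sc g v' y' x') : P.Same Γ sc (v, y) (v', y') := by
  obtain ⟨s, hs'⟩ := h'.2
  obtain ⟨y'', k, e⟩ := sc.lift_reads (sc.eqv.symm hs) hs'.invRev
  have hr := ((hP.pos_eq_iff h h').1 he).extend k hs'.invRev
  have hv : P.Valid Γ (v', y', y') := h'.extend hs'.invRev
  have c := hP.rel_old hv hr.symm (com_refl Γ P v' y')
  exact ⟨v', y'', y', c, com_refl Γ P v' y', sc.eqv.symm e⟩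

theorem Inv.ne_func {u u₁ u₂ : Tm Y} {a : S × Bool} (h₁ : P.NE Γ sc g u a u₁)
    (h₂ : P.NE Γ sc g u a u₂) : u₁ = u₂ := by
  have key : ∀ {u₁ : Tm Y} {v : Tm Y} {y x x' : Y}, P.K.E u a u₁ → P.Valid Γ (v, y, x) →
      Γ.E x a x' → u = P.pos Γ sc g v y x → P.pos Γ sc g v y x' = u₁ := by
    intro u₁ v y x x' hE hv hx hu
    have c := hP.com_of_pos_mem hv.1 (hu ▸ hP.mem hE)
    rw [← hu] at c
    exact hP.pos_of_com hv.1 (c.trans ⟨[a], LG.reads_singleton_iff.2 hE,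
      LG.reads_singleton_iff.2 hx⟩)
  rcases h₁ with h₁ | ⟨v, y, x, x', hv, hx, hu, hu₁⟩
  · rcases h₂ with h₂ | ⟨v, y, x, x', hv, hx, hu, hu₂⟩
    · exact P.K.func h₁ h₂
    · rw [hu₂, key h₁ hv hx hu]
  · rcases h₂ with h₂ | ⟨v₂, y₂, x₂, x₂', hv₂, hx₂, hu', hu₂⟩
    · rw [hu₁, key h₂ hv hx hu]
    · have r1 := LG.reads_singleton_iff.2 hx
      have r2 := LG.reads_singleton_iff.2 hx₂
      have hr := ((hP.pos_eq_iff hv hv₂).1 (hu.symm.trans hu')).extend r1 r2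
      rw [hu₁, hu₂]
      exact (hP.pos_eq_iff (hv.extend r1) (hv₂.extend r2)).2 hr

end

theorem ne_symm {g : ℕ} {u u' : Tm Y} {a : S × Bool} (h : P.NE Γ sc g u a u') :
    P.NE Γ sc g u' (linv a) u := by
  rcases h with h | ⟨v, y, x, x', hv, hx, hu, hu'⟩
  · exact Or.inl (P.K.symm h)
  · exact Or.inr ⟨v, y, x', x, hv.extend (LG.reads_singleton_iff.2 hx), Γ.symm hx, hu', hu⟩

/-- the next stage. -/
def Inv.next {y₀ : Y} {g : ℕ} (hP : P.Inv Γ sc y₀ g) : Stage S Y where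
  V := P.V ∪ {u | ∃ v y x, P.Valid Γ (v, y, x) ∧ u = P.pos Γ sc g v y x}
  K := ⟨P.NE Γ sc g, ne_symm, hP.ne_func⟩

end Stage

end Crest.Agent.R129
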