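import Crest.Agent.R129.St1b

/-!
# R129 / St2 : geometry of the next stage (chord lemma, two-segment and four-segment lemmas)
-/

set_option autoImplicit false
open FreeGroup

namespace Crest.Agent.R129
namespace Stage
variable {S Y : Type} {Γ : LG S Y} {sc : SC Γ} {P : Stage S Y} {y₀ : Y} {g : ℕ}
  (hP : P.Inv Γ sc y₀ g)

theorem Inv.next_reads {v u : Tm Y} {w : List (S × Bool)} (h : P.K.Reads v w u) :
    hP.next.K.Reads v w u := by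
  induction w generalizing v with
  | nil => rw [LG.reads_nil_iff] at h ⊢; exact h
  | cons a w ih =>
    obtain ⟨y, hy, hw⟩ := LG.reads_cons_iff.1 h
    exact LG.Reads.cons (Γ := hP.next.K) (Or.inl hy) (ih hw)

/-- walks of `Γ` are walks of the attached copy. -/
theorem Inv.copy_reads {v : Tm Y} {y x x' : Y} {w : List (S × Bool)} (h : P.Valid Γ (v, y, x))
    (hw : Γ.Reads x w x') :
    hP.next.K.Reads (P.pos Γ sc g v y x) w (P.pos Γ sc g v y x') := by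
  induction w generalizing x with
  | nil => rw [LG.reads_nil_iff] at hw; subst hw; exact LG.Reads.nil _
  | cons a w ih =>
    obtain ⟨z, hz, hw'⟩ := LG.reads_cons_iff.1 hw
    exact LG.Reads.cons (Γ := hP.next.K) (Or.inr ⟨v, y, x, z, h, hz, rfl, rfl⟩)
      (ih (h.extend (LG.reads_singleton_iff.2 hz)) hw')

theorem Inv.next_full_pos {v : Tm Y} {y x : Y} (h : P.Valid Γ (v, y, x)) :
    hP.next.Full Γ (P.pos Γ sc g v y x) x := by
  intro w z hw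
  exact ⟨_, hP.copy_reads h hw⟩

/-- every pair `(v, y)` with `v` old is full in the next stage. -/
theorem Inv.next_full {v : Tm Y} (hv : v ∈ P.V) (y : Y) : hP.next.Full Γ v y := by
  by_cases hf : P.Full Γ v y
  · intro w z hw
    obtain ⟨u, hu⟩ := hf w z hw
    exact ⟨u, hP.next_reads hu⟩
  · have hg : P.Germ Γ v y := ⟨hv, hf⟩
    have hval : P.Valid Γ (v, y, y) := ⟨hg, ⟨[], LG.Reads.nil _⟩⟩
    have := hP.next_full_pos hval
    rwa [hP.pos_self hg] at this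

/-- an edge of the next stage between old vertices is old: both ends `x, x'` are in the old part, a common
word `r` from `x` to `x'` has `mk r = mk [a]` (ball around `y`; `x'` and `x` are in the 2-chain ball), so
its reduced form is `[a]`. -/
theorem Inv.old_edge {u u' : Tm Y} {a : S × Bool} (hu : u ∈ P.V) (hu' : u' ∈ P.V)
    (h : hP.next.K.E u a u') : P.K.E u a u' := by
  rcases h with h | ⟨v, y, x, x', hval, he, rfl, rfl⟩
  · exact h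
  have hg : P.Germ Γ v y := hval.1
  have c₁ := hP.com_of_pos_mem hg hu
  have c₂ := hP.com_of_pos_mem hg hu'
  obtain ⟨r, hr, hr'⟩ := c₁.symm.trans c₂
  have hb : ∀ t, Γ.Ch2 sc.eqv y t → t ∈ Γ.Ball y (sc.rad y) := fun t ht =>
    sc.ch3_mem_ball ⟨t, ht, sc.pc_refl t⟩
  have h1 : Γ.ReadsIn (Γ.Ball y (sc.rad y)) x r x' :=
    (hP.com_readsIn hg c₁ hr hr').mono hb
  have h2 : Γ.ReadsIn (Γ.Ball y (sc.rad y)) x [a] x' :=
    LG.ReadsIn.cons h1.left_mem he (LG.ReadsIn.nil h1.right_mem)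
  obtain ⟨r', hr1, hr2, hr3, -⟩ := LG.exists_reduced r
  have : r' = [a] := red_eq hr1 IsReduced.singleton (hr3.trans (sc.ball_mk_eq h1 h2))
  subst this
  exact LG.reads_singleton_iff.1 (LG.ReadsIn.red hr hr2)

/-- all common readings of `(v, y)` in the next stage end at new vertices. -/
def Inv.AllNew (v : Tm Y) (y : Y) : Prop := ∀ u z, hP.next.Com Γ v y u z → u ∉ P.V

theorem Inv.allNew_of_germ {v : Tm Y} {y : Y} (h : hP.next.Germ Γ v y) : hP.AllNew v y := by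
  intro u z hc hu
  exact h.2 ((hP.next_full hu z).com hc.symm)

theorem Inv.AllNew.com {v u : Tm Y} {y z : Y} (h : hP.AllNew v y) (h' : hP.next.Com Γ v y u z) :
    hP.AllNew u z := by
  intro u' z' hc
  exact h _ _ (h'.trans hc)

/-- an all-new pair is not equivalent to a point of an attached copy (that copy contains the old
vertex `v' = pos v' y' y'`). -/
theorem Inv.AllNew.not_eqv {v' : Tm Y} {y' x y : Y} (hv : P.Valid Γ (v', y', x))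
    (h : hP.AllNew (P.pos Γ sc g v' y' x) y) : ¬ sc.eqv x y := by
  intro he
  obtain ⟨w, hw⟩ := hv.2
  have hw' : Γ.Reads x (invRev w) y' := LG.Reads.invRev hw
  obtain ⟨z', hz', -⟩ := sc.lift_reads he hw'
  have hg : P.Germ Γ v' y' := hv.1
  have h1 := hP.copy_reads hv hw'
  rw [hP.pos_self hg] at h1
  exact h _ _ ⟨_, h1, hz'⟩ hg.1

include hP in
/-- two copies intersect in a connected set: `π = invRev p ++ r ++ p'`, where the two gluings are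
`(u,_,_,p)`, `(u',_,_,p')` and `r` is the common reduced form (`n3`) of the two common words `u → u'`. -/
theorem Inv.inter {v v' : Tm Y} {y y' a a' b b' : Y} (h₁ : P.Valid Γ (v, y, a))
    (h₂ : P.Valid Γ (v, y, a')) (h₃ : P.Valid Γ (v', y', b)) (h₄ : P.Valid Γ (v', y', b'))
    (e : P.pos Γ sc g v y a = P.pos Γ sc g v' y' b)
    (e' : P.pos Γ sc g v y a' = P.pos Γ sc g v' y' b') :
    ∃ w, Γ.Reads a w a' ∧ Γ.Reads b w b' := by
  obtain ⟨u, z, z', p, c₁, c₂, hp, hp'⟩ := (hP.pos_eq_iff h₁ h₃).1 e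
  obtain ⟨u', t, t', q, d₁, d₂, hq, hq'⟩ := (hP.pos_eq_iff h₂ h₄).1 e'
  obtain ⟨w₁, k₁, l₁⟩ := c₁.symm.trans d₁
  obtain ⟨w₂, k₂, l₂⟩ := c₂.symm.trans d₂
  have hm := hP.n3 (hP.germ_com h₁.1 c₁) (hP.germ_com h₃.1 c₂) k₁ l₁ k₂ l₂
  obtain ⟨r₁, a1, a2, a3, -⟩ := LG.exists_reduced w₁
  obtain ⟨r₂, b1, b2, b3, -⟩ := LG.exists_reduced w₂
  have : r₁ = r₂ := red_eq a1 b1 (a3.trans (hm.trans b3.symm))
  subst this
  exact ⟨invRev p ++ (r₁ ++ q),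
    LG.Reads.append (LG.Reads.invRev hp) (LG.Reads.append (LG.ReadsIn.red l₁ a2) hq),
    LG.Reads.append (LG.Reads.invRev hp') (LG.Reads.append (LG.ReadsIn.red l₂ b2) hq')⟩

include hP in
/-- **Chord lemma.**  A reduced piece `σ` of new points in copy 2 that starts in copy 1 and ends in copy 3 is
covered by copies 1 and 3.  Plan.  Gluing 1-2: `(u₁, z₁, o₁, p₁)`, gluing 3-2: `(u₂, z₃, o₂, p₂)`, with
`p₁, p₂` reduced.  If `eqv z₁ o₁` then `eqv a x₁` and `σ₁ = σ, σ₂ = []`; if `eqv z₃ o₂`, `σ₁ = []`.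
Otherwise let `r` be a reduced common word from `(u₁,o₁)` to `(u₂,o₂)`.  All four walks are in the 3-chain
ball of `o₁` (`(u₁,o₁)` is a germ; if `σ.length ≤ 1` its only vertices are `x₁, x₂`), so `mk (p₁ ++ σ) = mk (r ++ p₂)`.  `tripod`: `p₁ = α β`, `σ = β⁻¹ γ`,
`r = α' β'`, `p₂ = β'⁻¹ γ'`, `α γ = α' γ'`.  If `α` is a prefix of `α'`, the end point of `α` from `o₁` is old and
on `σ`: contradiction.  So `α = α' ε`, `γ' = ε γ`; take `σ₁ = invRev β`, `σ₂ = γ`; both `a'` and `b'` are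
related to the point `o₁·α` of copy 2 (prefixes of `p₁` and of `p₂`). -/
theorem Inv.chord {v₁ v₂ v₃ : Tm Y} {y₁ y₂ y₃ a x₁ x₂ b : Y} {σ : List (S × Bool)}
    (h₁ : P.Valid Γ (v₁, y₁, a)) (h₂ : P.Valid Γ (v₂, y₂, x₁)) (h₃ : P.Valid Γ (v₃, y₃, b))
    (e₁ : P.pos Γ sc g v₁ y₁ a = P.pos Γ sc g v₂ y₂ x₁)
    (e₃ : P.pos Γ sc g v₃ y₃ b = P.pos Γ sc g v₂ y₂ x₂)
    (hσ : Γ.Reads x₁ σ x₂) (hr : IsReduced σ)
    (hp : (∃ c d, ¬ sc.eqv x₁ c ∧ Γ.Reads c σ d) ∨ σ.length ≤ 1)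
    (hnew : ∀ p x, p <+: σ → Γ.Reads x₁ p x → P.pos Γ sc g v₂ y₂ x ∉ P.V) :
    ∃ σ₁ σ₂ a' b', σ = σ₁ ++ σ₂ ∧ Γ.Reads a σ₁ a' ∧ Γ.Reads b' σ₂ b ∧
      P.pos Γ sc g v₁ y₁ a' = P.pos Γ sc g v₃ y₃ b' := by
  have h₂' : P.Valid Γ (v₂, y₂, x₂) := h₂.extend hσ
  have R₁ := (hP.pos_eq_iff h₁ h₂).1 e₁
  have R₃ := (hP.pos_eq_iff h₃ h₂').1 e₃
  obtain ⟨u₁, z₁, o₁, q₁, c₁, d₁, k₁, l₁⟩ := id R₁
  obtain ⟨u₂, z₃, o₂, q₂, c₃, d₂, k₂, l₂⟩ := id R₃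
  simp only at c₁ d₁ k₁ l₁ c₃ d₂ k₂ l₂
  by_cases n₁ : sc.eqv z₁ o₁
  · have hax : sc.eqv a x₁ := sc.eqv_of_reads n₁ k₁ l₁
    obtain ⟨a', ha', -⟩ := sc.lift_reads (sc.eqv.symm hax) hσ
    refine ⟨σ, [], a', b, by simp, ha', LG.Reads.nil _, ?_⟩
    rw [e₃]
    exact (hP.pos_eq_iff (h₁.extend ha') h₂').2 (R₁.extend ha' hσ)
  by_cases n₃ : sc.eqv z₃ o₂
  · have hbx : sc.eqv b x₂ := sc.eqv_of_reads n₃ k₂ l₂
    have hσ' := LG.Reads.invRev hσ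
    obtain ⟨b', hb', -⟩ := sc.lift_reads (sc.eqv.symm hbx) hσ'
    refine ⟨[], σ, a, b', by simp, LG.Reads.nil _, ?_, ?_⟩
    · simpa using LG.Reads.invRev hb'
    · rw [e₁]
      exact ((hP.pos_eq_iff (h₃.extend hb') h₂).2 (R₃.extend hb' hσ')).symm
  obtain ⟨p₁, rp₁, red₁, -, -⟩ := LG.exists_reduced q₁
  obtain ⟨p₂, rp₂, red₂, -, -⟩ := LG.exists_reduced q₂
  replace k₁ : Γ.Reads z₁ p₁ a := LG.ReadsIn.red k₁ red₁
  replace l₁ : Γ.Reads o₁ p₁ x₁ := LG.ReadsIn.red l₁ red₁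
  replace k₂ : Γ.Reads z₃ p₂ b := LG.ReadsIn.red k₂ red₂
  replace l₂ : Γ.Reads o₂ p₂ x₂ := LG.ReadsIn.red l₂ red₂
  obtain ⟨r₀, kr, lr⟩ := d₁.symm.trans d₂
  obtain ⟨r, rr, redr, -, -⟩ := LG.exists_reduced r₀
  replace kr : P.K.Reads u₁ r u₂ := LG.ReadsIn.red kr redr
  replace lr : Γ.Reads o₁ r o₂ := LG.ReadsIn.red lr redr
  have hg : P.Germ Γ u₁ o₁ := hP.germ_com h₂.1 d₁
  have n₁' : ¬ sc.eqv o₁ z₁ := fun h => n₁ (sc.eqv.symm h)
  have n₃' : ¬ sc.eqv o₂ z₃ := fun h => n₃ (sc.eqv.symm h)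
  have hoo : Γ.Ch2 sc.eqv o₁ o₁ := ⟨o₁, sc.pc_refl _, sc.pc_refl _⟩
  have hox : Γ.Ch2 sc.eqv o₁ x₁ := ⟨o₁, sc.pc_refl _, Or.inr ⟨z₁, a, p₁, n₁', l₁, k₁⟩⟩
  have hoo₂ : Γ.Ch2 sc.eqv o₁ o₂ := hP.n1 hg ⟨r, kr, lr⟩
  have W₁ := sc.piece_readsIn hoo n₁' l₁ k₁
  have W₂ := sc.piece_readsIn hoo₂ n₃' l₂ k₂
  have W₃ : Γ.ReadsIn {x | Γ.Ch3 sc.eqv o₁ x} o₁ r o₂ :=
    (hP.com_readsIn hg (com_refl Γ P _ _) kr lr).mono fun t ht =>
      (⟨t, ht, sc.pc_refl t⟩ : Γ.Ch3 sc.eqv o₁ t)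
  have W₄ : Γ.ReadsIn {x | Γ.Ch3 sc.eqv o₁ x} x₁ σ x₂ := by
    rcases hp with ⟨c, d, hc, hd⟩ | hl
    · exact sc.piece_readsIn hox hc hσ hd
    · match σ, hl, hσ with
      | [], _, hσ =>
        rw [LG.reads_nil_iff] at hσ
        subst hσ
        exact LG.ReadsIn.nil W₁.right_mem
      | [c], _, hσ =>
        exact LG.ReadsIn.cons W₁.right_mem (LG.reads_singleton_iff.1 hσ) (LG.ReadsIn.nil W₂.right_mem)
      | _ :: _ :: _, hl, _ => simp at hl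
  have hb : {x | Γ.Ch3 sc.eqv o₁ x} ⊆ Γ.Ball o₁ (sc.rad o₁) := fun t ht => sc.ch3_mem_ball ht
  have hm : FreeGroup.mk (p₁ ++ σ) = FreeGroup.mk (r ++ p₂) :=
    sc.ball_mk_eq ((W₁.append W₄).mono hb) ((W₃.append W₂).mono hb)
  obtain ⟨α, β, γ, rfl, rfl, rα⟩ := tripod rp₁ hr
  obtain ⟨α', β', γ', rfl, rfl, rα'⟩ := tripod rr rp₂
  have hm' : FreeGroup.mk (α ++ γ) = FreeGroup.mk (α' ++ γ') := by
    simp only [← FreeGroup.mul_mk, ← FreeGroup.inv_mk] at hm ⊢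
    simp only [mul_assoc, mul_inv_cancel_left] at hm
    exact hm
  have he := red_eq rα rα' hm'
  obtain ⟨t, ht, ht'⟩ := LG.reads_append_iff.1 l₁
  have hxt : Γ.Reads x₁ (invRev β) t := LG.Reads.invRev ht'
  rcases List.append_eq_append_iff.1 he with ⟨ε, rfl, rfl⟩ | ⟨ε, rfl, rfl⟩
  · exfalso
    rw [List.append_assoc] at kr
    obtain ⟨ut, hut, -⟩ := LG.reads_append_iff.1 kr
    have hc : P.Com Γ v₂ y₂ ut t := d₁.trans ⟨α, hut, ht⟩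
    apply hnew (invRev β) t (List.prefix_append _ _) hxt
    rw [hP.pos_of_com h₂.1 hc]
    exact hP.reads_mem hg.1 hut
  · obtain ⟨a', ha', ha''⟩ := LG.reads_append_iff.1 k₁
    rw [← List.append_assoc] at k₂ l₂
    obtain ⟨b', hb', hb''⟩ := LG.reads_append_iff.1 k₂
    obtain ⟨t', ht₁, ht₂⟩ := LG.reads_append_iff.1 l₂
    obtain ⟨t'', ht₃, ht₄⟩ := LG.reads_append_iff.1 hσ
    have e1 : t'' = t := ht₃.unique hxt
    have e2 : t'' = t' := ht₄.unique' ht₂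
    subst e1
    subst e2
    have haa : Γ.Reads a (invRev β) a' := LG.Reads.invRev ha''
    refine ⟨invRev β, γ, a', b', rfl, haa, hb'', ?_⟩
    have v₂t : P.Valid Γ (v₂, y₂, t'') := h₂.extend hxt
    have f₁ : P.pos Γ sc g v₁ y₁ a' = P.pos Γ sc g v₂ y₂ t'' :=
      (hP.pos_eq_iff (h₁.extend haa) v₂t).2 ⟨u₁, z₁, o₁, _, c₁, d₁, ha', ht⟩
    have f₃ : P.pos Γ sc g v₃ y₃ b' = P.pos Γ sc g v₂ y₂ t'' :=
      (hP.pos_eq_iff (h₃.extend (LG.Reads.invRev hb'')) v₂t).2 ⟨u₂, z₃, o₂, _, c₃, d₂, hb', ht₁⟩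
    rw [f₁, f₃]

end Stage
end Crest.Agent.R129
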