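import Crest.Agent.R129.St2

/-!
# R129 / St2b : two-segment and four-segment lemmas
-/

set_option autoImplicit false
open FreeGroup

namespace Crest.Agent.R129
namespace Stage
variable {S Y : Type} {Γ : LG S Y} {sc : SC Γ} {P : Stage S Y} {y₀ : Y} {g : ℕ}
  (hP : P.Inv Γ sc y₀ g)

/-- prefix version of the all-new property, in the form needed by `chord`. -/
theorem Inv.AllNew.hnew {v : Tm Y} {y x d e : Y} {σ : List (S × Bool)} (hv : P.Valid Γ (v, y, x))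
    (h : hP.AllNew (P.pos Γ sc g v y x) d) (hd : Γ.Reads d σ e) :
    ∀ p t, p <+: σ → Γ.Reads x p t → P.pos Γ sc g v y t ∉ P.V := by
  rintro p t ⟨q, rfl⟩ ht
  obtain ⟨m, hm, -⟩ := LG.reads_append_iff.1 hd
  exact h _ _ ⟨p, hP.copy_reads hv ht, hm⟩

theorem Inv.AllNew.step {v : Tm Y} {y x x' d e : Y} {σ : List (S × Bool)} (hv : P.Valid Γ (v, y, x))
    (h : hP.AllNew (P.pos Γ sc g v y x) d) (hx : Γ.Reads x σ x') (hd : Γ.Reads d σ e) :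
    hP.AllNew (P.pos Γ sc g v y x') e :=
  Inv.AllNew.com hP h ⟨σ, hP.copy_reads hv hx, hd⟩

/-- **Two segments.**  Induction on the common word (generalising the starting pair, which stays
all-new): the first edge lies in an attached copy (it is not an old edge); reduce the middle segment and
apply `chord` (it is a piece by `AllNew.not_eqv`). -/
theorem Inv.twoSeg {v u : Tm Y} {y z : Y} (hv : v ∈ hP.next.V) (h : hP.AllNew v y)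
    (hc : hP.next.Com Γ v y u z) :
    ∃ v₁ y₁ a a' v₂ y₂ b' b w₁ w₂ m, P.Valid Γ (v₁, y₁, a) ∧ P.Valid Γ (v₂, y₂, b') ∧
      v = P.pos Γ sc g v₁ y₁ a ∧ Γ.Reads a w₁ a' ∧
      P.pos Γ sc g v₁ y₁ a' = P.pos Γ sc g v₂ y₂ b' ∧ Γ.Reads b' w₂ b ∧
      u = P.pos Γ sc g v₂ y₂ b ∧ Γ.Reads y w₁ m ∧ Γ.Reads m w₂ z := by
  obtain ⟨w, hw, hw'⟩ := hc
  induction w generalizing v y with
  | nil =>
    rw [LG.reads_nil_iff] at hw hw'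
    subst hw hw'
    rcases hv with hv | ⟨v₁, y₁, a, hval, rfl⟩
    · exact absurd hv (h _ _ (com_refl Γ _ _ _))
    · exact ⟨v₁, y₁, a, a, v₁, y₁, a, a, [], [], y, hval, hval, rfl, LG.Reads.nil _, rfl,
        LG.Reads.nil _, rfl, LG.Reads.nil _, LG.Reads.nil _⟩
  | cons c w ih =>
    obtain ⟨v', hv', hw₁⟩ := LG.reads_cons_iff.1 hw
    obtain ⟨y', hy', hw₂⟩ := LG.reads_cons_iff.1 hw'
    have hn' : hP.AllNew v' y' := Inv.AllNew.com hP h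
      ⟨[c], LG.reads_singleton_iff.2 hv', LG.reads_singleton_iff.2 hy'⟩
    rcases hv' with hold | ⟨v₀, y₀', x, x', hval, he, rfl, rfl⟩
    · exact absurd (hP.mem hold) (h _ _ (com_refl Γ _ _ _))
    have hval' : P.Valid Γ (v₀, y₀', x') := hval.extend (LG.reads_singleton_iff.2 he)
    obtain ⟨v₁, y₁, a, a', v₂, y₂, b', b, w₁, w₂, m, h₁, h₂, e₁, r₁, e₂, r₂, e₃, s₁, s₂⟩ :=
      ih (Or.inr ⟨v₀, y₀', x', hval', rfl⟩) hn' hw₁ hw₂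
    obtain ⟨σ, rσ, red, -, -⟩ := LG.exists_reduced w₁
    replace r₁ : Γ.Reads a σ a' := LG.ReadsIn.red r₁ red
    replace s₁ : Γ.Reads y' σ m := LG.ReadsIn.red s₁ red
    rw [e₁] at hn'
    obtain ⟨σ₁, σ₂, a'', b'', rfl, t₁, t₂, t₃⟩ := hP.chord hval' h₁ h₂ e₁ e₂.symm r₁ rσ
      (Or.inl ⟨y', m, Inv.AllNew.not_eqv hP h₁ hn', s₁⟩) (Inv.AllNew.hnew hP h₁ hn' s₁)
    obtain ⟨m', hm₁, hm₂⟩ := LG.reads_append_iff.1 s₁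
    exact ⟨v₀, y₀', x, a'', v₂, y₂, b'', b, c :: σ₁, σ₂ ++ w₂, m', hval,
      h₂.extend (LG.Reads.invRev t₂), rfl, LG.Reads.cons he t₁, t₃, t₂.append r₂, e₃,
      LG.Reads.cons hy' hm₁, hm₂.append s₂⟩

theorem Inv.allNew_ch2 {v u : Tm Y} {y z : Y} (hv : v ∈ hP.next.V) (h : hP.AllNew v y)
    (hc : hP.next.Com Γ v y u z) : Γ.Ch2 sc.eqv y z := by
  obtain ⟨v₁, y₁, a, a', v₂, y₂, b', b, w₁, w₂, m, h₁, h₂, rfl, r₁, e₂, r₂, rfl, s₁, s₂⟩ :=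
    hP.twoSeg hv h hc
  have hn := Inv.AllNew.step hP h₁ h r₁ s₁
  rw [e₂] at hn
  exact ⟨m, Or.inr ⟨a, a', w₁, fun he => Inv.AllNew.not_eqv hP h₁ h (sc.eqv.symm he), s₁, r₁⟩,
    Or.inr ⟨b', b, w₂, fun he => Inv.AllNew.not_eqv hP h₂ hn (sc.eqv.symm he), s₂, r₂⟩⟩

theorem Inv.allNew_readsIn {v u : Tm Y} {y z : Y} {w : List (S × Bool)} (hv : v ∈ hP.next.V)
    (h : hP.AllNew v y) (hw : hP.next.K.Reads v w u) (hw' : Γ.Reads y w z) :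
    Γ.ReadsIn (Γ.Ball y (sc.rad y)) y w z := by
  refine hw'.readsIn ?_
  rintro p t ⟨q, rfl⟩ ht
  obtain ⟨m, hm, -⟩ := LG.reads_append_iff.1 hw
  exact sc.ch3_mem_ball ⟨t, hP.allNew_ch2 hv h ⟨p, hm, ht⟩, sc.pc_refl t⟩

omit hP in
/-- a chain of three pieces stays in the ball. -/
theorem chain3_readsIn {x₀ x₁ x₂ x₃ d₀ d₁ d₂ e₀ e₁ e₂ : Y} {w₁ w₂ w₃ : List (S × Bool)}
    (n₀ : ¬ sc.eqv x₀ d₀) (a₀ : Γ.Reads x₀ w₁ x₁) (b₀ : Γ.Reads d₀ w₁ e₀)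
    (n₁ : ¬ sc.eqv x₁ d₁) (a₁ : Γ.Reads x₁ w₂ x₂) (b₁ : Γ.Reads d₁ w₂ e₁)
    (n₂ : ¬ sc.eqv x₂ d₂) (a₂ : Γ.Reads x₂ w₃ x₃) (b₂ : Γ.Reads d₂ w₃ e₂) :
    Γ.ReadsIn (Γ.Ball x₀ (sc.rad x₀)) x₀ (w₁ ++ (w₂ ++ w₃)) x₃ := by
  have p₀ : Γ.Pc sc.eqv x₀ x₁ := Or.inr ⟨_, _, _, n₀, a₀, b₀⟩
  have p₁ : Γ.Pc sc.eqv x₁ x₂ := Or.inr ⟨_, _, _, n₁, a₁, b₁⟩
  have W₀ := sc.piece_readsIn (o := x₀) ⟨x₀, sc.pc_refl _, sc.pc_refl _⟩ n₀ a₀ b₀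
  have W₁ := sc.piece_readsIn (o := x₀) ⟨x₀, sc.pc_refl _, p₀⟩ n₁ a₁ b₁
  have W₂ := sc.piece_readsIn (o := x₀) ⟨x₁, p₀, p₁⟩ n₂ a₂ b₂
  exact (W₀.append (W₁.append W₂)).mono fun t ht => sc.ch3_mem_ball ht

omit hP in
theorem piece_ball {x₀ x₁ d₀ e₀ : Y} {w : List (S × Bool)}
    (n₀ : ¬ sc.eqv x₀ d₀) (a₀ : Γ.Reads x₀ w x₁) (b₀ : Γ.Reads d₀ w e₀) :
    Γ.ReadsIn (Γ.Ball x₀ (sc.rad x₀)) x₀ w x₁ :=
  (sc.piece_readsIn (o := x₀) ⟨x₀, sc.pc_refl _, sc.pc_refl _⟩ n₀ a₀ b₀).mono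
    fun _ ht => sc.ch3_mem_ball ht

/-- **Four segments.**  Replace `w₁` by its two-segment form `s₁ s₂` in copies `Z₁, Z₂` (freely equal: both
are walks from `y` to `y'` in the 2-chain ball of `y`, by `allNew_ch2` for prefixes), `w₂` by `s₃ s₄` in
`Z₃, Z₄`.  Loop `s₁ · s₂ · s₄⁻¹ · s₃⁻¹`.  `chord` on (the reduced form of) `s₂` between `Z₁, Z₄`: `β · γ`;
`chord` on `s₃⁻¹` between `Z₄, Z₁`: `β' · γ'`.  Now `A = γ' s₁ β` is a walk of `Z₁` from `c'` to `c`, and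
`B = γ s₄⁻¹ β'` a walk of `Z₄` from `ĉ` to `ĉ'`, each a chain of three pieces.  If `eqv c ĉ`: `B` lifts to
a walk from `c` ending at `c'` (`pos_inj` and uniqueness of reading in the next stage), and `A B` is a closed walk
in the 3-chain ball of `c`.  Otherwise `inter` gives a piece `π : c → c'`, `ĉ → ĉ'`, and `mk (A π) = 1`
(ball of `c`), `mk B = mk π` (ball of `ĉ`).  Hence `mk (A B) = 1`, conjugate. -/
theorem Inv.fourSeg {v u : Tm Y} {y z y' z' : Y} {w₁ w₂ : List (S × Bool)} (hv : v ∈ hP.next.V)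
    (hy : hP.AllNew v y) (hz : hP.AllNew v z) (h₁ : hP.next.K.Reads v w₁ u) (h₁' : Γ.Reads y w₁ y')
    (h₂ : hP.next.K.Reads v w₂ u) (h₂' : Γ.Reads z w₂ z') : FreeGroup.mk w₁ = FreeGroup.mk w₂ := by
  obtain ⟨v₁, y₁, a₁, a₁', v₂, y₂, b₂', b₂, s₁, s₂', m, V₁, V₂, e₁, r₁, f₁, r₂, g₁, t₁, t₂⟩ :=
    hP.twoSeg hv hy ⟨w₁, h₁, h₁'⟩
  obtain ⟨v₃, y₃, a₃, a₃', v₄, y₄, b₄', b₄, s₃', s₄, n, V₃, V₄, e₃, r₃, f₃, r₄, g₃, t₃, t₄⟩ :=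
    hP.twoSeg hv hz ⟨w₂, h₂, h₂'⟩
  obtain ⟨s₂, rs₂, red₂, -, -⟩ := LG.exists_reduced s₂'
  obtain ⟨s₃, rs₃, red₃, -, -⟩ := LG.exists_reduced s₃'
  replace r₂ : Γ.Reads b₂' s₂ b₂ := LG.ReadsIn.red r₂ red₂
  replace t₂ : Γ.Reads m s₂ y' := LG.ReadsIn.red t₂ red₂
  replace r₃ : Γ.Reads a₃ s₃ a₃' := LG.ReadsIn.red r₃ red₃
  replace t₃ : Γ.Reads z s₃ n := LG.ReadsIn.red t₃ red₃
  have k₁ : hP.next.K.Reads v (s₁ ++ s₂) u := by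
    have a := hP.copy_reads V₁ r₁
    have b := hP.copy_reads V₂ r₂
    rw [← e₁, f₁] at a
    rw [← g₁] at b
    exact a.append b
  have k₂ : hP.next.K.Reads v (s₃ ++ s₄) u := by
    have a := hP.copy_reads V₃ r₃
    have b := hP.copy_reads V₄ r₄
    rw [← e₃, f₃] at a
    rw [← g₃] at b
    exact a.append b
  have m₁ : FreeGroup.mk w₁ = FreeGroup.mk (s₁ ++ s₂) :=
    sc.ball_mk_eq (hP.allNew_readsIn hv hy h₁ h₁') (hP.allNew_readsIn hv hy k₁ (t₁.append t₂))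
  have m₂ : FreeGroup.mk w₂ = FreeGroup.mk (s₃ ++ s₄) :=
    sc.ball_mk_eq (hP.allNew_readsIn hv hz h₂ h₂') (hP.allNew_readsIn hv hz k₂ (t₃.append t₄))
  rw [m₁, m₂]
  -- all-new pairs
  have N₁ : hP.AllNew (P.pos Γ sc g v₁ y₁ a₁) y := e₁ ▸ hy
  have N₁z : hP.AllNew (P.pos Γ sc g v₁ y₁ a₁) z := e₁ ▸ hz
  have N₃ : hP.AllNew (P.pos Γ sc g v₃ y₃ a₃) z := e₃ ▸ hz
  have V₁' := V₁.extend r₁
  have V₃' := V₃.extend r₃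
  have V₄' := V₄.extend r₄
  have N₁' : hP.AllNew (P.pos Γ sc g v₁ y₁ a₁') m := Inv.AllNew.step hP V₁ N₁ r₁ t₁
  have N₂ : hP.AllNew (P.pos Γ sc g v₂ y₂ b₂') m := f₁ ▸ N₁'
  have N₃' : hP.AllNew (P.pos Γ sc g v₃ y₃ a₃') n := Inv.AllNew.step hP V₃ N₃ r₃ t₃
  have N₄ : hP.AllNew (P.pos Γ sc g v₄ y₄ b₄') n := f₃ ▸ N₃'
  have N₄' : hP.AllNew (P.pos Γ sc g v₄ y₄ b₄) z' := Inv.AllNew.step hP V₄ N₄ r₄ t₄
  obtain ⟨β, γ, c, ch, rfl, c₁, c₂, c₃⟩ := hP.chord V₁' V₂ V₄' f₁ (g₃.symm.trans g₁) r₂ rs₂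
    (Or.inl ⟨m, y', Inv.AllNew.not_eqv hP V₂ N₂, t₂⟩) (Inv.AllNew.hnew hP V₂ N₂ t₂)
  have r₃' := LG.Reads.invRev r₃
  have t₃' := LG.Reads.invRev t₃
  obtain ⟨β', γ', ch', c', hs₃, d₁, d₂, d₃⟩ := hP.chord V₄ V₃' V₁ f₃.symm (e₁.symm.trans e₃) r₃'
    (isReduced_invRev rs₃) (Or.inl ⟨n, z, Inv.AllNew.not_eqv hP V₃' N₃', t₃'⟩)
    (Inv.AllNew.hnew hP V₃' N₃' t₃')
  rw [hs₃] at t₃'
  obtain ⟨m', hm₁, hm₂⟩ := LG.reads_append_iff.1 t₂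
  obtain ⟨n', hn₁, hn₂⟩ := LG.reads_append_iff.1 t₃'
  have Vc := V₁'.extend c₁
  have Vc' := V₁.extend (LG.Reads.invRev d₂)
  have Vch := V₄'.extend (LG.Reads.invRev c₂)
  have Vch' := V₄.extend d₁
  have Nc : hP.AllNew (P.pos Γ sc g v₁ y₁ c) m' := Inv.AllNew.step hP V₁' N₁' c₁ hm₁
  have Nch : hP.AllNew (P.pos Γ sc g v₄ y₄ ch) m' := c₃ ▸ Nc
  have nc := Inv.AllNew.not_eqv hP Vc Nc
  have nch := Inv.AllNew.not_eqv hP Vch Nch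
  have nb₄ := Inv.AllNew.not_eqv hP V₄' N₄'
  have nb₄' := Inv.AllNew.not_eqv hP V₄ N₄
  have WA : Γ.ReadsIn (Γ.Ball c (sc.rad c)) c (invRev β ++ (invRev s₁ ++ invRev γ')) c' :=
    chain3_readsIn nc (LG.Reads.invRev c₁) (LG.Reads.invRev hm₁)
      (Inv.AllNew.not_eqv hP V₁' N₁') (LG.Reads.invRev r₁) (LG.Reads.invRev t₁)
      (Inv.AllNew.not_eqv hP V₁ N₁z) (LG.Reads.invRev d₂) (LG.Reads.invRev hn₂)
  have key : FreeGroup.mk (invRev β ++ (invRev s₁ ++ invRev γ')) =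
      FreeGroup.mk (γ ++ (invRev s₄ ++ β')) := by
    by_cases hcc : sc.eqv c ch
    · obtain ⟨x₁, hx₁, ex₁⟩ := sc.lift_reads (sc.eqv.symm hcc) c₂
      obtain ⟨x₂, hx₂, ex₂⟩ := sc.lift_reads ex₁ (LG.Reads.invRev r₄)
      obtain ⟨x₃, hx₃, -⟩ := sc.lift_reads ex₂ d₁
      have q₁ := hP.copy_reads Vc (hx₁.append (hx₂.append hx₃))
      have q₂ := hP.copy_reads Vch (c₂.append ((LG.Reads.invRev r₄).append d₁))
      rw [← c₃, d₃] at q₂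
      have : x₃ = c' := hP.pos_inj (Vc.extend (hx₁.append (hx₂.append hx₃))) Vc' (q₁.unique q₂)
      subst this
      exact sc.ball_mk_eq WA (chain3_readsIn nc hx₁ hm₂
        (fun he => nb₄ (sc.eqv.trans ex₁ he)) hx₂ (LG.Reads.invRev t₄)
        (fun he => nb₄' (sc.eqv.trans ex₂ he)) hx₃ hn₁)
    · obtain ⟨π, hπ, hπ'⟩ := hP.inter Vc Vc' Vch Vch' c₃ d₃.symm
      have q₁ := sc.ball_mk_eq WA (piece_ball hcc hπ hπ')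
      have q₂ := sc.ball_mk_eq (piece_ball (fun he => hcc (sc.eqv.symm he)) hπ' hπ)
        (chain3_readsIn nch c₂ hm₂ nb₄ (LG.Reads.invRev r₄) (LG.Reads.invRev t₄) nb₄' d₁ hn₁)
      exact q₁.trans q₂
  have h3 : FreeGroup.mk s₃ = (FreeGroup.mk β' * FreeGroup.mk γ')⁻¹ := by
    rw [FreeGroup.mul_mk, ← hs₃, FreeGroup.inv_mk, invRev_invRev]
  simp only [← FreeGroup.mul_mk, ← FreeGroup.inv_mk] at key ⊢
  rw [h3]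
  have : FreeGroup.mk γ = (FreeGroup.mk β)⁻¹ * ((FreeGroup.mk s₁)⁻¹ * (FreeGroup.mk γ')⁻¹) *
      ((FreeGroup.mk s₄)⁻¹ * FreeGroup.mk β')⁻¹ := by
    rw [key]; group
  rw [this]; group

end Stage
end Crest.Agent.R129
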