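import Crest.Agent.R129.St2b

/-!
# R129 / St3 : the invariants pass to the next stage; the base stage; the sequence of stages
-/

set_option autoImplicit false
open FreeGroup

namespace Crest.Agent.R129

theorem st3_wv_snoc {S G : Type} [Group G] (π : S → G) (w : List (S × Bool)) (a : S × Bool) :
    wv π (w ++ [a]) = wv π w * lv π a := by
  rw [wv_append, wv_cons, wv_nil, mul_one]

theorem st3_ch3_ball {S Y : Type} {Γ : LG S Y} (sc : SC Γ) (y : Y) :
    {x | Γ.Ch3 sc.eqv y x} ⊆ Γ.Ball y (sc.rad y) := fun _ hx => sc.ch3_mem_ball hx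

theorem st3_ch2_ball {S Y : Type} {Γ : LG S Y} (sc : SC Γ) (y : Y) :
    {x | Γ.Ch2 sc.eqv y x} ⊆ Γ.Ball y (sc.rad y) := fun x hx =>
  sc.ch3_mem_ball ⟨x, hx, sc.pc_refl x⟩

/-- a piece word is a walk in the ball around its starting point -/
theorem st3_piece {S Y : Type} {Γ : LG S Y} (sc : SC Γ) {y y' z z' : Y} {w : List (S × Bool)}
    (h : ¬ sc.eqv y y') (hw : Γ.Reads y w z) (hw' : Γ.Reads y' w z') :
    Γ.ReadsIn (Γ.Ball y (sc.rad y)) y w z :=
  (sc.piece_readsIn ⟨y, sc.pc_refl y, sc.pc_refl y⟩ h hw hw').mono (st3_ch3_ball sc y)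

theorem st3_lift_back {S Y : Type} {Γ : LG S Y} (sc : SC Γ) {x x' z : Y} {a : S × Bool}
    (h : Γ.E x a x') (he : sc.eqv x' z) : ∃ z', Γ.E z' a z := by
  obtain ⟨z', hz, -⟩ := sc.lift he (Γ.symm h)
  exact ⟨z', by simpa using Γ.symm hz⟩

namespace Stage
variable {S Y : Type} {Γ : LG S Y} {sc : SC Γ} {P : Stage S Y} {y₀ : Y} {g : ℕ}
  (hP : P.Inv Γ sc y₀ g)

include hP in
theorem Inv.psi_reads {v u : Tm Y} {w : List (S × Bool)} (h : P.K.Reads v w u) :
    psi Γ y₀ u = (wv (pgen Γ) w)⁻¹ * psi Γ y₀ v := by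
  induction h with
  | nil _ => simp
  | cons _ hE _ ih => rw [ih, hP.psiE hE, wv_cons, mul_inv_rev, mul_assoc]

include hP in
/-- old point: `psi_reads` along the common word; new point: `Rel` to the representative. -/
theorem Inv.psi_pos {v : Tm Y} {y x : Y} (h : P.Valid Γ (v, y, x)) :
    psi Γ y₀ (P.pos Γ sc g v y x) = (dlt Γ y x)⁻¹ * psi Γ y₀ v := by
  by_cases hm : P.pos Γ sc g v y x ∈ P.V
  · obtain ⟨w, hw, hw'⟩ := hP.com_of_pos_mem h.1 hm
    rw [hP.psi_reads hw, dlt_eq Γ hw']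
  · obtain ⟨-, ⟨u, z, z', w, ⟨w₁, h₁, h₁'⟩, ⟨w₂, h₂, h₂'⟩, h₃, h₄⟩, -⟩ := hP.isRep_rep h
    rw [hP.pos_new h.1 hm, psi, dlt_eq Γ (h₁'.append h₃), dlt_eq Γ (h₂'.append h₄), wv_append,
      wv_append, mul_inv_rev, mul_inv_rev, mul_assoc, mul_assoc, ← hP.psi_reads h₂,
      ← hP.psi_reads h₁]

include hP in
/-- description of a new vertex: it is the position of its own name, with minimal rank. -/
theorem Inv.new_vertex {v : Tm Y} {y x : Y} (h : P.Valid Γ (v, y, x))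
    (hn : P.pos Γ sc g v y x ∉ P.V) :
    ∃ v' y' x', P.pos Γ sc g v y x = .node g v' y' x' ∧ P.Valid Γ (v', y', x') ∧
      P.pos Γ sc g v' y' x' = .node g v' y' x' ∧
      ∀ v'' y'' x'', P.Valid Γ (v'', y'', x'') → P.pos Γ sc g v'' y'' x'' = .node g v' y' x' →
        P.cl Γ sc (v', y') ≤ P.cl Γ sc (v'', y'') := by
  obtain ⟨h₁, h₂, h₃⟩ := hP.isRep_rep h
  have e := hP.pos_new h.1 hn
  generalize P.rep Γ sc (v, y, x) = t at h₁ h₂ h₃ e
  obtain ⟨v', y', x'⟩ := t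
  refine ⟨v', y', x', e, h₁, ((hP.pos_eq_iff h h₁).2 h₂).symm.trans e, fun v'' y'' x'' h' e' => ?_⟩
  exact h₃ _ h' ((hP.pos_eq_iff h h').1 (e.trans e'.symm))

/-- Cases: some common reading ends at an old vertex `(u₀, z₀)`; if it is full in `P` use `hP.full`
(transported with `Full.com`, uniqueness of reading); if it is a germ use `copy_reads`, `pos_inj`.  Otherwise
the pair is all-new: `allNew_ch2` + `ball_triv` for `→`, `fourSeg` with `w₂ = []` for `←`. -/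
theorem Inv.next_fullInv {v u : Tm Y} {y x : Y} {w : List (S × Bool)} (hv : v ∈ hP.next.V)
    (hf : hP.next.Full Γ v y) (hw : Γ.Reads y w x) (hw' : hP.next.K.Reads v w u) :
    x = y ↔ u = v := by
  by_cases hA : hP.AllNew v y
  · constructor
    · rintro rfl
      have hb : Γ.ReadsIn (Γ.Ball x (sc.rad x)) x w x := by
        refine hw.readsIn fun p z ⟨q, hq⟩ hz => ?_
        subst hq
        obtain ⟨m, hm, -⟩ := LG.reads_append_iff.1 hw'
        exact st3_ch2_ball sc x (hP.allNew_ch2 hv hA ⟨p, hm, hz⟩)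
      exact hw'.eq_of_mk_eq (LG.Reads.nil v) (sc.ball_triv hb)
    · rintro rfl
      exact hw.eq_of_mk_eq (LG.Reads.nil y)
        (hP.fourSeg hv hA hA hw' hw (LG.Reads.nil u) (LG.Reads.nil y))
  · unfold Inv.AllNew at hA
    push Not at hA
    obtain ⟨u₀, z₀, ⟨r, hr, hr'⟩, hu₀⟩ := hA
    by_cases hF : P.Full Γ u₀ z₀
    · obtain ⟨v₁, hv₁⟩ := hF _ _ hr'.invRev
      obtain rfl : v₁ = v := (hP.next_reads hv₁).unique hr.invRev
      have hF' : P.Full Γ v₁ y := hF.com ⟨_, hv₁, hr'.invRev⟩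
      obtain ⟨u₁, hu₁⟩ := hF' _ _ hw
      obtain rfl : u₁ = u := (hP.next_reads hu₁).unique hw'
      exact hP.full (hP.reads_mem hu₀ hv₁) hF' hw hu₁
    · have h₀ : P.Valid Γ (u₀, z₀, z₀) := ⟨⟨hu₀, hF⟩, [], LG.Reads.nil _⟩
      have h₁ := h₀.extend hr'.invRev
      have e₁ := hP.copy_reads h₀ hr'.invRev
      rw [hP.pos_self h₀.1] at e₁
      have e₂ : P.pos Γ sc g u₀ z₀ y = v := e₁.unique hr.invRev
      have e₃ := hP.copy_reads h₁ hw
      rw [e₂] at e₃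
      have e₄ : P.pos Γ sc g u₀ z₀ x = u := e₃.unique hw'
      constructor
      · rintro rfl
        exact e₄.symm.trans e₂
      · rintro rfl
        exact hP.pos_inj (h₁.extend hw) h₁ (e₄.trans e₂.symm)

include hP in
/-- an edge from an old to a new vertex lies in the copy that names the new vertex -/
theorem Inv.st3_cover {v : Tm Y} {y x x' : Y} {a : S × Bool} (h : P.Valid Γ (v, y, x))
    (hE : Γ.E x a x') (ho : P.pos Γ sc g v y x ∈ P.V) (hn : P.pos Γ sc g v y x' ∉ P.V) :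
    ∃ z, Γ.E z a (P.pos Γ sc g v y x').home := by
  have h' : P.Valid Γ (v, y, x') := h.extend (LG.reads_singleton_iff.2 hE)
  obtain ⟨v₃, y₃, x₃, e, h₃, e₃, -⟩ := hP.new_vertex h' hn
  obtain ⟨u₀, z, z', p₀, hc, -, hp₀, hp₀'⟩ := (hP.pos_eq_iff h' h₃).1 (e.trans e₃.symm)
  rw [e]
  change ∃ z, Γ.E z a x₃
  by_cases hz : sc.eqv z z'
  · exact st3_lift_back sc hE (sc.eqv_of_reads hz hp₀ hp₀')
  obtain ⟨p, hpr, hred, -, -⟩ := LG.exists_reduced p₀
  have hp : Γ.Reads z p x' := LG.ReadsIn.red hp₀ hred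
  have hp' : Γ.Reads z' p x₃ := LG.ReadsIn.red hp₀' hred
  obtain ⟨r₀, hr₀, hr₀'⟩ := hc.symm.trans (hP.com_of_pos_mem h.1 ho)
  obtain ⟨r, hrr, hred', -, -⟩ := LG.exists_reduced r₀
  have hr : P.K.Reads u₀ r (P.pos Γ sc g v y x) := LG.ReadsIn.red hr₀ hred'
  have hr' : Γ.Reads z r x := LG.ReadsIn.red hr₀' hred'
  have b1 := (hP.com_readsIn h.1 hc hr hr').mono (st3_ch2_ball sc y)
  have b2 := (sc.piece_readsIn (hP.n1 h.1 hc) hz hp hp').mono (st3_ch3_ball sc y)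
  have b3 : Γ.ReadsIn (Γ.Ball y (sc.rad y)) z (r ++ [a]) x' :=
    b1.append (LG.ReadsIn.cons b1.right_mem hE (LG.ReadsIn.nil b2.right_mem))
  have hmk := sc.ball_mk_eq b3 b2
  obtain ⟨α, β, γ, e1, e2, hαγ⟩ := tripod hrr (s := [a]) (by simp)
  cases β with
  | nil =>
    simp only [List.append_nil, invRev_empty, List.nil_append] at e1 e2
    subst e1 e2
    rw [← red_eq hαγ hpr hmk] at hp'
    obtain ⟨m, -, hm⟩ := LG.reads_append_iff.1 hp'
    exact ⟨m, LG.reads_singleton_iff.1 hm⟩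
  | cons b β =>
    exfalso
    have hlen := congrArg List.length e2
    simp only [List.length_cons, List.length_nil, List.length_append, invRev_length] at hlen
    obtain rfl : β = [] := List.eq_nil_of_length_eq_zero (by omega)
    obtain rfl : γ = [] := List.eq_nil_of_length_eq_zero (by omega)
    have hb : a = linv b := by simpa [invRev, linv] using e2
    subst e1
    obtain ⟨m, hm, hm'⟩ := LG.reads_append_iff.1 hr'
    obtain ⟨k, hk, -⟩ := LG.reads_append_iff.1 hr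
    have hx : m = x' := Γ.func (hb ▸ Γ.symm (LG.reads_singleton_iff.1 hm')) hE
    subst hx
    have hc' : P.Com Γ v y k m := hc.trans ⟨α, hk, hm⟩
    exact hn (hP.pos_of_com h.1 hc' ▸ (hP.germ_com h.1 hc').1)

/-- An edge of the next stage that is not old.  Among the valid `(v,y,x)` with `Γ.E x a x'`,
`u = pos x`, `u' = pos x'` take one with minimal `cl (v,y)`.  Not both ends are old (`old_edge`).  If a new
end has a name of the same rank, `cl_eq_iff` + `eqv_of_same` + `sc.lift` finish.  Otherwise each new end lies in a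
copy of smaller rank.  Both ends new: `chord` with `σ = [a]` (length `≤ 1`) puts the edge into one of the
smaller copies.  One end old (`x`), the other new with
gluing `(u₀, z, z', p)`, `p` reduced: `r` common reduced word `z → x`, `mk (r ++ [a]) = mk p` in the ball of `y`;
either `r` ends with `linv a` (then `x'` is old) or `p = r ++ [a]`, and the edge lies in the smaller copy. -/
theorem Inv.next_cover {u u' : Tm Y} {a : S × Bool} (h : hP.next.K.E u a u') :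
    (∃ x, Γ.E u.home a x) ∨ ∃ x, Γ.E x a u'.home := by
  by_cases hu : u ∈ P.V <;> by_cases hu' : u' ∈ P.V
  · exact hP.cover (hP.old_edge hu hu' h)
  · rcases h with h | ⟨v, y, x, x', hv, hE, rfl, rfl⟩
    · exact hP.cover h
    · exact Or.inr (hP.st3_cover hv hE hu hu')
  · rcases h with h | ⟨v, y, x, x', hv, hE, rfl, rfl⟩
    · exact hP.cover h
    · obtain ⟨z, hz⟩ := hP.st3_cover (hv.extend (LG.reads_singleton_iff.2 hE)) (Γ.symm hE) hu' hu
      exact Or.inl ⟨z, by simpa using Γ.symm hz⟩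
  · rcases h with h | ⟨v, y, x, x', hv, hE, rfl, rfl⟩
    · exact hP.cover h
    have hE' := LG.reads_singleton_iff.2 hE
    obtain ⟨v₁, y₁, x₁, e₁, h₁, e₁', -⟩ := hP.new_vertex hv hu
    obtain ⟨v₃, y₃, x₃, e₃, h₃, e₃', -⟩ := hP.new_vertex (hv.extend hE') hu'
    obtain ⟨σ₁, σ₂, a', b', e, r₁, r₂, -⟩ := hP.chord h₁ hv h₃ (e₁'.trans e₁.symm)
      (e₃'.trans e₃.symm) hE' (by simp) (Or.inr (by simp)) (fun p z hp hz => by
        rcases List.prefix_cons_iff.1 hp with rfl | ⟨t, rfl, ht⟩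
        · rwa [← LG.reads_nil_iff.1 hz]
        · obtain rfl := List.prefix_nil.1 ht
          rwa [hz.unique hE'])
    rw [e₁, e₃]
    rcases List.singleton_eq_append_iff.1 e with ⟨rfl, rfl⟩ | ⟨rfl, rfl⟩
    · exact Or.inr ⟨b', LG.reads_singleton_iff.1 r₂⟩
    · exact Or.inl ⟨a', LG.reads_singleton_iff.1 r₁⟩

theorem Inv.next_inv : hP.next.Inv Γ sc y₀ (g + 1) := by
  refine ⟨?_, ?_, ?_, ?_, ?_, ?_, ?_, ?_, ?_⟩
  · rintro u a u' (h | ⟨v, y, x, x', hv, -, rfl, -⟩)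
    · exact Or.inl (hP.mem h)
    · exact Or.inr ⟨v, y, x, hv, rfl⟩
  · intro u hu
    by_cases ho : u ∈ P.V
    · exact (hP.tag ho).trans (Nat.le_succ g)
    · obtain ⟨v, y, x, hv, rfl⟩ := hu.resolve_left ho
      rw [hP.pos_new hv.1 ho]
      exact le_rfl
  · exact fun h hc => hP.allNew_ch2 h.1 (hP.allNew_of_germ h) hc
  · exact fun h h' h₁ h₁' h₂ h₂' =>
      hP.fourSeg h.1 (hP.allNew_of_germ h) (hP.allNew_of_germ h') h₁ h₁' h₂ h₂'
  · exact fun hv hf hw hw' => hP.next_fullInv hv hf hw hw'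
  · rintro u (hu | ⟨v, y, x, hv, rfl⟩)
    · obtain ⟨w, hw⟩ := hP.conn hu
      exact ⟨w, hP.next_reads hw⟩
    · obtain ⟨w, hw⟩ := hP.conn hv.1.1
      obtain ⟨w', hw'⟩ := hv.2
      have h₀ : P.Valid Γ (v, y, y) := ⟨hv.1, [], LG.Reads.nil _⟩
      have e := hP.copy_reads h₀ hw'
      rw [hP.pos_self hv.1] at e
      exact ⟨w ++ w', (hP.next_reads hw).append e⟩
  · rintro u a u' (h | ⟨v, y, x, x', hv, hE, rfl, rfl⟩)
    · exact hP.psiE h
    · have hE' := LG.reads_singleton_iff.2 hE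
      obtain ⟨w, hw⟩ := hv.2
      rw [hP.psi_pos hv, hP.psi_pos (hv.extend hE'), dlt_eq Γ hw, dlt_eq Γ (hw.append hE'),
        st3_wv_snoc, mul_inv_rev, mul_assoc]
  · intro u hu
    by_cases ho : u ∈ P.V
    · exact hP.next_full ho _
    · obtain ⟨v, y, x, hv, rfl⟩ := hu.resolve_left ho
      obtain ⟨v', y', x', e, h', e', -⟩ := hP.new_vertex hv ho
      have := hP.next_full_pos h'
      rw [e'] at this
      rw [e]
      exact this
  · exact fun h => hP.next_cover h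

end Stage

variable {S Y : Type} (Γ : LG S Y) (sc : SC Γ) (y₀ : Y)

/-- the base stage: the component of `y₀`. -/
def baseStage : Stage S Y where
  V := {u | ∃ x ∈ Γ.Comp y₀, u = .base x}
  K :=
    { E := fun u a u' => ∃ x x', x ∈ Γ.Comp y₀ ∧ Γ.E x a x' ∧ u = .base x ∧ u' = .base x'
      symm := by
        rintro _ a _ ⟨x, x', ⟨w, hw⟩, h, rfl, rfl⟩
        exact ⟨x', x, ⟨w ++ [a], hw.append (LG.reads_singleton_iff.2 h)⟩, Γ.symm h, rfl, rfl⟩
      func := by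
        rintro _ a _ _ ⟨x, x', -, h, rfl, rfl⟩ ⟨z, z', -, h', e, rfl⟩
        cases e
        rw [Γ.func h h'] }

theorem base_reads_iff {x : Y} (hx : x ∈ Γ.Comp y₀) {w : List (S × Bool)} {u : Tm Y} :
    (baseStage Γ y₀).K.Reads (.base x) w u ↔ ∃ x', Γ.Reads x w x' ∧ u = .base x' := by
  induction w generalizing x with
  | nil =>
    simp only [LG.reads_nil_iff]
    exact ⟨fun h => ⟨x, rfl, h.symm⟩, fun ⟨x', h, h'⟩ => by rw [h', h]⟩
  | cons a w ih =>
    simp only [LG.reads_cons_iff]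
    have key : ∀ {m}, Γ.E x a m → m ∈ Γ.Comp y₀ := fun h =>
      hx.elim fun w hw => ⟨w ++ [a], hw.append (LG.reads_singleton_iff.2 h)⟩
    constructor
    · rintro ⟨_, ⟨z, m, -, hE, e, rfl⟩, h⟩
      cases e
      obtain ⟨x', h', e'⟩ := (ih (key hE)).1 h
      exact ⟨x', ⟨m, hE, h'⟩, e'⟩
    · rintro ⟨x', ⟨m, hE, h'⟩, e'⟩
      exact ⟨.base m, ⟨x, m, hx, hE, rfl, rfl⟩, (ih (key hE)).2 ⟨x', h', e'⟩⟩

/-- For a germ `(base x, y)` one has `¬ eqv x y` (else full), so common words are pieces; `n3`: both words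
are pieces from `x`; `full`: if `eqv x y` use `sc.closed`, otherwise both walks are pieces. -/
theorem base_inv : (baseStage Γ y₀).Inv Γ sc y₀ 0 := by
  have hfull : ∀ {x}, x ∈ Γ.Comp y₀ → (baseStage Γ y₀).Full Γ (.base x) x := fun hx w z hw =>
    ⟨.base z, (base_reads_iff Γ y₀ hx).2 ⟨z, hw, rfl⟩⟩
  have hgerm : ∀ {x y}, x ∈ Γ.Comp y₀ → (baseStage Γ y₀).Germ Γ (.base x) y → ¬ sc.eqv x y :=
    fun hx h he => h.2 ((hfull hx).eqv he)
  refine ⟨?_, ?_, ?_, ?_, ?_, ?_, ?_, ?_, ?_⟩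
  · rintro _ a _ ⟨x, x', hx, -, rfl, -⟩
    exact ⟨x, hx, rfl⟩
  · rintro _ ⟨x, -, rfl⟩
    exact le_rfl
  · intro v y u z h ⟨w, hw, hw'⟩
    obtain ⟨x, hx, rfl⟩ := h.1
    obtain ⟨x', h', -⟩ := (base_reads_iff Γ y₀ hx).1 hw
    exact ⟨y, sc.pc_refl y, Or.inr ⟨x, x', w, fun he => hgerm hx h (sc.eqv.symm he), hw', h'⟩⟩
  · intro v y z u y' z' w₁ w₂ h h' h₁ h₁' h₂ h₂'
    obtain ⟨x, hx, rfl⟩ := h.1
    obtain ⟨x₁, r₁, rfl⟩ := (base_reads_iff Γ y₀ hx).1 h₁
    obtain ⟨x₂, r₂, e⟩ := (base_reads_iff Γ y₀ hx).1 h₂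
    cases e
    exact sc.ball_mk_eq (st3_piece sc (hgerm hx h) r₁ h₁') (st3_piece sc (hgerm hx h') r₂ h₂')
  · rintro _ y w x u ⟨x₀, hx, rfl⟩ - hw hw'
    obtain ⟨x₁, r₁, rfl⟩ := (base_reads_iff Γ y₀ hx).1 hw'
    rw [Tm.base.injEq]
    by_cases he : sc.eqv x₀ y
    · constructor
      · rintro rfl
        exact r₁.unique (sc.closed (sc.eqv.symm he) hw)
      · rintro rfl
        exact hw.unique (sc.closed he r₁)
    · constructor
      · rintro rfl
        exact r₁.eq_of_mk_eq (LG.Reads.nil _)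
          (sc.ball_triv (st3_piece sc (fun h => he (sc.eqv.symm h)) hw r₁))
      · rintro rfl
        exact hw.eq_of_mk_eq (LG.Reads.nil _) (sc.ball_triv (st3_piece sc he r₁ hw))
  · rintro _ ⟨x, ⟨w, hw⟩, rfl⟩
    exact ⟨w, (base_reads_iff Γ y₀ ⟨[], LG.Reads.nil _⟩).2 ⟨x, hw, rfl⟩⟩
  · rintro _ a _ ⟨x, x', ⟨w, hw⟩, hE, rfl, rfl⟩
    rw [psi, psi, dlt_eq Γ hw, dlt_eq Γ (hw.append (LG.reads_singleton_iff.2 hE)), st3_wv_snoc,
      mul_inv_rev]
  · rintro _ ⟨x, hx, rfl⟩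
    exact hfull hx
  · rintro _ a _ ⟨x, x', -, hE, rfl, rfl⟩
    exact Or.inl ⟨x', hE⟩

/-- the sequence of stages. -/
noncomputable def stg : (g : ℕ) → {P : Stage S Y // P.Inv Γ sc y₀ g}
  | 0 => ⟨baseStage Γ y₀, base_inv Γ sc y₀⟩
  | g + 1 => ⟨(stg g).2.next, (stg g).2.next_inv⟩

theorem stg_succ (g : ℕ) : (stg Γ sc y₀ (g + 1)).1 = (stg Γ sc y₀ g).2.next := rfl

end Crest.Agent.R129
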