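import Crest.Agent.R129.St3

/-!
# R129 / St4 : the limit graph is the Cayley graph; the structure theorem
-/

set_option autoImplicit false
open FreeGroup

namespace Crest.Agent.R129
variable {S Y : Type} (Γ : LG S Y) (sc : SC Γ) (y₀ : Y)

theorem stg_V_mono {g g' : ℕ} (h : g ≤ g') : (stg Γ sc y₀ g).1.V ⊆ (stg Γ sc y₀ g').1.V := by
  induction h with
  | refl => exact Set.Subset.rfl
  | step _ ih => exact ih.trans (by rw [stg_succ]; exact Set.subset_union_left)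

theorem stg_E_mono {g g' : ℕ} (h : g ≤ g') {u u' : Tm Y} {a : S × Bool}
    (he : (stg Γ sc y₀ g).1.K.E u a u') : (stg Γ sc y₀ g').1.K.E u a u' := by
  induction h with
  | refl => exact he
  | step _ ih => rw [stg_succ]; exact Or.inl ih

theorem St4_reads_map {V : Type} {K K' : LG S V} (h : ∀ {u a u'}, K.E u a u' → K'.E u a u')
    {u u' : V} {w : List (S × Bool)} (hw : K.Reads u w u') : K'.Reads u w u' := by
  induction w generalizing u with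
  | nil => rw [LG.reads_nil_iff] at hw ⊢; exact hw
  | cons a w ih =>
    obtain ⟨y, hy, hw⟩ := LG.reads_cons_iff.1 hw
    exact LG.Reads.cons (h hy) (ih hw)

theorem St4_reads_mono {g g' : ℕ} (h : g ≤ g') {u u' : Tm Y} {w : List (S × Bool)}
    (hw : (stg Γ sc y₀ g).1.K.Reads u w u') : (stg Γ sc y₀ g').1.K.Reads u w u' :=
  St4_reads_map (fun he => stg_E_mono Γ sc y₀ h he) hw

/-- the limit stage. -/
def lim : Stage S Y where
  V := {u | ∃ g, u ∈ (stg Γ sc y₀ g).1.V}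
  K :=
    { E := fun u a u' => ∃ g, (stg Γ sc y₀ g).1.K.E u a u'
      symm := fun ⟨g, h⟩ => ⟨g, (stg Γ sc y₀ g).1.K.symm h⟩
      func := fun ⟨g, h⟩ ⟨g', h'⟩ => (stg Γ sc y₀ (max g g')).1.K.func
        (stg_E_mono Γ sc y₀ (le_max_left _ _) h) (stg_E_mono Γ sc y₀ (le_max_right _ _) h') }

theorem lim_reads_iff {u u' : Tm Y} {w : List (S × Bool)} :
    (lim Γ sc y₀).K.Reads u w u' ↔ ∃ g, (stg Γ sc y₀ g).1.K.Reads u w u' := by
  refine ⟨fun hw => ?_, fun ⟨g, hw⟩ => St4_reads_map (K' := (lim Γ sc y₀).K) (fun he => ⟨g, he⟩) hw⟩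
  induction w generalizing u with
  | nil =>
    rw [LG.reads_nil_iff] at hw
    subst hw
    exact ⟨0, LG.Reads.nil _⟩
  | cons a w ih =>
    obtain ⟨y, ⟨g, hy⟩, hw⟩ := LG.reads_cons_iff.1 hw
    obtain ⟨g', hw⟩ := ih hw
    exact ⟨max g g', LG.Reads.cons (stg_E_mono Γ sc y₀ (le_max_left _ _) hy)
      (St4_reads_mono Γ sc y₀ (le_max_right _ _) hw)⟩

/-- a vertex appears exactly at the stage given by its tag. -/
theorem mem_stg_iff {u : Tm Y} (hu : u ∈ (lim Γ sc y₀).V) (g : ℕ) :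
    u ∈ (stg Γ sc y₀ g).1.V ↔ u.tag ≤ g := by
  refine ⟨fun h => (stg Γ sc y₀ g).2.tag h, fun h => ?_⟩
  obtain ⟨g₀, hg₀⟩ := hu
  refine stg_V_mono Γ sc y₀ h ?_
  clear h
  induction g₀ with
  | zero =>
    have := (stg Γ sc y₀ 0).2.tag hg₀
    rw [Nat.le_zero.1 this]
    exact hg₀
  | succ k ih =>
    by_cases hk : u ∈ (stg Γ sc y₀ k).1.V
    · exact ih hk
    · have hg₁ := hg₀
      rw [stg_succ] at hg₁
      rcases hg₁ with h | ⟨v, y, x, hv, rfl⟩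
      · exact absurd h hk
      · obtain ⟨v', y', x', e, -⟩ := (stg Γ sc y₀ k).2.new_vertex hv hk
        have : ((stg Γ sc y₀ k).1.pos Γ sc k v y x).tag = k + 1 := by rw [e]; rfl
        rw [this]
        exact hg₀

theorem lim_full {u : Tm Y} (hu : u ∈ (lim Γ sc y₀).V) (y : Y) : (lim Γ sc y₀).Full Γ u y := by
  obtain ⟨g, hg⟩ := hu
  intro w z hw
  obtain ⟨u', hu'⟩ := (stg Γ sc y₀ g).2.next_full hg y w z hw
  exact ⟨u', (lim_reads_iff Γ sc y₀).2 ⟨g + 1, hu'⟩⟩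

theorem lim_full_iff {u u' : Tm Y} {y x : Y} {w : List (S × Bool)} (hu : u ∈ (lim Γ sc y₀).V)
    (hw : Γ.Reads y w x) (hw' : (lim Γ sc y₀).K.Reads u w u') : x = y ↔ u' = u := by
  obtain ⟨g, hg⟩ := hu
  obtain ⟨g', hw'⟩ := (lim_reads_iff Γ sc y₀).1 hw'
  have h1 : u ∈ (stg Γ sc y₀ (max g g')).1.V := stg_V_mono Γ sc y₀ (le_max_left _ _) hg
  exact (stg Γ sc y₀ (max g g' + 1)).2.full (stg_V_mono Γ sc y₀ (Nat.le_succ _) h1)
    ((stg Γ sc y₀ (max g g')).2.next_full h1 y) hw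
    (St4_reads_mono Γ sc y₀ ((le_max_right _ _).trans (Nat.le_succ _)) hw')

theorem St4_edge_mem {u u' : Tm Y} {a : S × Bool} (h : (lim Γ sc y₀).K.E u a u') :
    u' ∈ (lim Γ sc y₀).V := by
  obtain ⟨g, h⟩ := h
  exact ⟨g, (stg Γ sc y₀ g).2.mem ((stg Γ sc y₀ g).1.K.symm h)⟩

theorem St4_edge (hall : ∀ s, ∃ x y, Γ.E x (s, true) y) {u : Tm Y} (hu : u ∈ (lim Γ sc y₀).V)
    (a : S × Bool) : ∃ u', (lim Γ sc y₀).K.E u a u' := by
  obtain ⟨s, b⟩ := a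
  obtain ⟨x, y, h⟩ := hall s
  cases b
  · obtain ⟨u', hu'⟩ := lim_full Γ sc y₀ hu y [(s, false)] x (LG.reads_singleton_iff.2 (Γ.symm h))
    exact ⟨u', LG.reads_singleton_iff.1 hu'⟩
  · obtain ⟨u', hu'⟩ := lim_full Γ sc y₀ hu x [(s, true)] y (LG.reads_singleton_iff.2 h)
    exact ⟨u', LG.reads_singleton_iff.1 hu'⟩

/-- every word is readable from every vertex. -/
theorem lim_complete (hall : ∀ s, ∃ x y, Γ.E x (s, true) y) {u : Tm Y} (hu : u ∈ (lim Γ sc y₀).V)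
    (w : List (S × Bool)) : ∃ u' ∈ (lim Γ sc y₀).V, (lim Γ sc y₀).K.Reads u w u' := by
  induction w generalizing u with
  | nil => exact ⟨u, hu, LG.Reads.nil _⟩
  | cons a w ih =>
    obtain ⟨y, hy⟩ := St4_edge Γ sc y₀ hall hu a
    obtain ⟨u', hu', hw⟩ := ih (St4_edge_mem Γ sc y₀ hy)
    exact ⟨u', hu', LG.Reads.cons hy hw⟩

/-- the end point of the edge with letter `a`. -/
noncomputable def St4_step (hall : ∀ s, ∃ x y, Γ.E x (s, true) y) (a : S × Bool)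
    (u : (lim Γ sc y₀).V) : (lim Γ sc y₀).V :=
  ⟨(St4_edge Γ sc y₀ hall u.2 a).choose,
    St4_edge_mem Γ sc y₀ (St4_edge Γ sc y₀ hall u.2 a).choose_spec⟩

theorem St4_step_spec (hall : ∀ s, ∃ x y, Γ.E x (s, true) y) (a : S × Bool)
    (u : (lim Γ sc y₀).V) : (lim Γ sc y₀).K.E u.1 a (St4_step Γ sc y₀ hall a u).1 :=
  (St4_edge Γ sc y₀ hall u.2 a).choose_spec

theorem St4_step_eq (hall : ∀ s, ∃ x y, Γ.E x (s, true) y) {a : S × Bool}
    {u u' : (lim Γ sc y₀).V} (h : (lim Γ sc y₀).K.E u.1 a u'.1) :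
    St4_step Γ sc y₀ hall a u = u' :=
  Subtype.ext ((lim Γ sc y₀).K.func (St4_step_spec Γ sc y₀ hall a u) h)

/-- the permutation of a generator. -/
noncomputable def St4_perm (hall : ∀ s, ∃ x y, Γ.E x (s, true) y) (s : S) :
    Equiv.Perm (lim Γ sc y₀).V where
  toFun := St4_step Γ sc y₀ hall (s, false)
  invFun := St4_step Γ sc y₀ hall (s, true)
  left_inv := fun u => St4_step_eq Γ sc y₀ hall
    ((lim Γ sc y₀).K.symm (St4_step_spec Γ sc y₀ hall (s, false) u))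
  right_inv := fun u => St4_step_eq Γ sc y₀ hall
    ((lim Γ sc y₀).K.symm (St4_step_spec Γ sc y₀ hall (s, true) u))

theorem St4_lv (hall : ∀ s, ∃ x y, Γ.E x (s, true) y) {a : S × Bool}
    {u u' : (lim Γ sc y₀).V} (h : (lim Γ sc y₀).K.E u.1 a u'.1) :
    lv (St4_perm Γ sc y₀ hall) a u' = u := by
  obtain ⟨s, b⟩ := a
  cases b
  · exact St4_step_eq Γ sc y₀ hall (a := (s, true)) ((lim Γ sc y₀).K.symm h)
  · exact St4_step_eq Γ sc y₀ hall (a := (s, false)) ((lim Γ sc y₀).K.symm h)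

theorem St4_wv (hall : ∀ s, ∃ x y, Γ.E x (s, true) y) {w : List (S × Bool)}
    {u u' : (lim Γ sc y₀).V} (h : (lim Γ sc y₀).K.Reads u.1 w u'.1) :
    wv (St4_perm Γ sc y₀ hall) w u' = u := by
  induction w generalizing u with
  | nil =>
    rw [wv_nil]
    exact (Subtype.ext (LG.reads_nil_iff.1 h)).symm
  | cons a w ih =>
    obtain ⟨y, hy, hw⟩ := LG.reads_cons_iff.1 h
    rw [wv_cons, Equiv.Perm.mul_apply, ih (u := ⟨y, St4_edge_mem Γ sc y₀ hy⟩) hw]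
    exact St4_lv Γ sc y₀ hall hy

theorem St4_base_mem : Tm.base y₀ ∈ (lim Γ sc y₀).V :=
  ⟨0, y₀, ⟨[], LG.Reads.nil _⟩, rfl⟩

theorem St4_psi_base : psi Γ y₀ (.base y₀) = 1 := by
  rw [psi, dlt_eq Γ (LG.Reads.nil y₀), wv_nil, inv_one]

theorem St4_psi_reads {u u' : Tm Y} {w : List (S × Bool)} (h : (lim Γ sc y₀).K.Reads u w u') :
    psi Γ y₀ u' = (wv (pgen Γ) w)⁻¹ * psi Γ y₀ u := by
  obtain ⟨g, h⟩ := (lim_reads_iff Γ sc y₀).1 h
  exact (stg Γ sc y₀ g).2.psi_reads h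

theorem St4_conn {u : Tm Y} (hu : u ∈ (lim Γ sc y₀).V) :
    ∃ w, (lim Γ sc y₀).K.Reads (.base y₀) w u := by
  obtain ⟨g, hg⟩ := hu
  obtain ⟨w, hw⟩ := (stg Γ sc y₀ g).2.conn hg
  exact ⟨w, (lim_reads_iff Γ sc y₀).2 ⟨g, hw⟩⟩

/-- `psi` is injective on the limit.  Plan: each `s` acts on the subtype `V∞` by the permutation `τ s` with
`E (τ s u) (s,true) u`; `Reads u w u' → FreeGroup.lift τ (mk w) u' = u`; closed words of `Γ` act trivially
(`lim_full`, `lim_full_iff`), so the normal closure lies in the kernel; use `conn` and `psi_reads`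
(`psi (base y₀) = 1`). -/
theorem psi_injOn (hall : ∀ s, ∃ x y, Γ.E x (s, true) y) :
    Set.InjOn (psi Γ y₀) (lim Γ sc y₀).V := by
  intro u hu u' hu' he
  obtain ⟨w, hw⟩ := St4_conn Γ sc y₀ hu
  obtain ⟨w', hw'⟩ := St4_conn Γ sc y₀ hu'
  have hker : Subgroup.normalClosure {f | ∃ y w, Γ.Reads y w y ∧ f = FreeGroup.mk w} ≤
      (FreeGroup.lift (St4_perm Γ sc y₀ hall)).ker := by
    refine Subgroup.normalClosure_le_normal ?_
    rintro _ ⟨y, r, hr, rfl⟩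
    change wv (St4_perm Γ sc y₀ hall) r = 1
    ext v
    obtain ⟨v', hv'⟩ := lim_full Γ sc y₀ v.2 y r y hr
    have e := (lim_full_iff Γ sc y₀ v.2 hr hv').1 rfl
    rw [e] at hv'
    rw [St4_wv Γ sc y₀ hall hv', Equiv.Perm.one_apply]
  rw [St4_psi_reads Γ sc y₀ hw, St4_psi_reads Γ sc y₀ hw', mul_left_inj, inv_inj, wv, wv,
    lift_pgen, lift_pgen] at he
  have h1 := hker (QuotientGroup.eq.1 he)
  rw [MonoidHom.mem_ker, MonoidHom.map_mul, MonoidHom.map_inv, inv_mul_eq_one] at h1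
  have h2 := St4_wv Γ sc y₀ hall (u := ⟨_, St4_base_mem Γ sc y₀⟩) (u' := ⟨u, hu⟩) hw
  have h3 := St4_wv Γ sc y₀ hall (u := ⟨_, St4_base_mem Γ sc y₀⟩) (u' := ⟨u', hu'⟩) hw'
  rw [wv] at h2 h3
  rw [h1, ← h3] at h2
  exact congrArg Subtype.val ((Equiv.injective _) h2)

theorem psi_surjOn (hall : ∀ s, ∃ x y, Γ.E x (s, true) y) (v : PG Γ) :
    ∃ u ∈ (lim Γ sc y₀).V, psi Γ y₀ u = v := by
  obtain ⟨f, hf⟩ := QuotientGroup.mk_surjective (s := Subgroup.normalClosure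
    {f | ∃ y w, Γ.Reads y w y ∧ f = FreeGroup.mk w}) (v⁻¹ : PG Γ)
  obtain ⟨w, rfl⟩ := Quot.exists_rep f
  obtain ⟨u, hu, hw⟩ := lim_complete Γ sc y₀ hall (St4_base_mem Γ sc y₀) w
  refine ⟨u, hu, ?_⟩
  rw [St4_psi_reads Γ sc y₀ hw, St4_psi_base, mul_one, wv, lift_pgen, inv_eq_iff_eq_inv]
  exact hf

theorem lim_reads_psi (hall : ∀ s, ∃ x y, Γ.E x (s, true) y) {u u' : Tm Y}
    (hu : u ∈ (lim Γ sc y₀).V) (hu' : u' ∈ (lim Γ sc y₀).V) (w : List (S × Bool)) :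
    (lim Γ sc y₀).K.Reads u w u' ↔ psi Γ y₀ u' = (wv (pgen Γ) w)⁻¹ * psi Γ y₀ u := by
  refine ⟨St4_psi_reads Γ sc y₀, fun h => ?_⟩
  obtain ⟨u'', hu'', hw⟩ := lim_complete Γ sc y₀ hall hu w
  have := psi_injOn Γ sc y₀ hall hu'' hu' ((St4_psi_reads Γ sc y₀ hw).trans h.symm)
  rwa [this] at hw

end Crest.Agent.R129
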