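import Crest.Agent.R129.Classify

/-!
# R129 / Uop : the root part of a vector, copy by copy
-/

set_option autoImplicit false
open scoped InnerProductSpace ComplexConjugate
open FreeGroup

namespace Crest.Agent.R129
namespace Str
variable {S Y : Type} {Γ : LG S Y} {sc : SC Γ} {y₀ : Y} {G : Type} [Group G] (st : Str Γ sc y₀ G)

theorem Uop_cp_pt (v : G) {y x : Y} (hx : x ∈ Γ.Comp y) : st.cp (st.pt v y x) x = st.cp v y := by
  obtain ⟨w, hw⟩ := hx
  rw [st.pt_eq hw, st.cp_reads hw]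

theorem Uop_pt_inj {v : G} {y x x' : Y} (hx : x ∈ Γ.Comp y) (hx' : x' ∈ Γ.Comp y)
    (h : st.pt v y x = st.pt v y x') : x = x' := by
  obtain ⟨w, hw⟩ := hx
  obtain ⟨w', hw'⟩ := hx'
  rw [st.pt_eq hw, st.pt_eq hw'] at h
  exact st.inj' hw hw' (inv_injective (mul_right_cancel h))

omit st in
theorem Uop_comp_edge {y x x' : Y} {a : S × Bool} (hx : x ∈ Γ.Comp y) (h : Γ.E x a x') :
    x' ∈ Γ.Comp y := by
  obtain ⟨w, hw⟩ := hx
  exact ⟨w ++ [a], hw.append (LG.reads_singleton_iff.2 h)⟩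

theorem Uop_pt_edge (v : G) {y x x' : Y} {a : S × Bool} (hx' : x' ∈ Γ.Comp y) (h : Γ.E x' a x) :
    lv st.π a * st.pt v y x = st.pt v y x' := by
  obtain ⟨w, hw⟩ := hx'
  rw [st.pt_eq hw, st.pt_eq (hw.append (LG.reads_singleton_iff.2 h)), wv_append, wv_cons, wv_nil]
  group

theorem Uop_far_iff {v : G} {y x : Y} (hx : x ∈ Γ.Comp y) (hD : x ∉ st.Dset v y) (a : S × Bool) :
    st.Far (lv st.π a * st.pt v y x) a ↔
      ∃ x', Γ.E x' a x ∧ x' ∈ Γ.Comp y ∧ x' ∉ st.Dset v y := by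
  obtain ⟨h1, h2⟩ := st.root_of_mem hx hD
  constructor
  · rintro ⟨⟨z, hz, hz'⟩, h3, -⟩
    rw [inv_mul_cancel_left] at hz'
    obtain ⟨x', h4, h5⟩ := sc.lift (sc.eqv.trans hz' (sc.eqv.symm h2)) (Γ.symm hz)
    have h6 : Γ.E x' a x := by simpa using Γ.symm h4
    have h7 : x' ∈ Γ.Comp y := Uop_comp_edge hx h4
    have h8 := st.Uop_pt_edge v h7 h6
    refine ⟨x', h6, h7, ?_⟩
    rw [h8] at h3 h5
    obtain ⟨x'', h9, h10, h11⟩ := st.mem_of_root (v := v) (y := y) h3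
      ((st.cp_eqv h5).trans (st.Uop_cp_pt v h7))
    rwa [← st.Uop_pt_inj h9 h7 h11]
  · rintro ⟨x', h3, h4, h5⟩
    obtain ⟨h6, h7⟩ := st.root_of_mem h4 h5
    obtain ⟨z, h8, h9⟩ := sc.lift h7 h3
    refine ⟨⟨z, ?_, ?_⟩, ?_, ?_⟩
    · rwa [st.Uop_pt_edge v h4 h3]
    · rw [inv_mul_cancel_left]
      exact sc.eqv.trans (sc.eqv.symm h9) h2
    · rwa [st.Uop_pt_edge v h4 h3]
    · rwa [inv_mul_cancel_left]

section U
variable (rp : st.Copy → G × Y)

open Classical in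
/-- the root part of `f`, arranged copy by copy (`rp Z` is a germ of the copy `Z`). -/
noncomputable def Uop : L2 G ℂ →L[ℂ] L2 st.Copy (L2 Y ℂ) :=
  ((curry st.Copy Y).toContinuousLinearEquiv : L2 (st.Copy × Y) ℂ →L[ℂ] L2 st.Copy (L2 Y ℂ)).comp
    (spull (fun p : st.Copy × Y => st.pt (rp p.1).1 (rp p.1).2 p.2)
      fun p => if p.2 ∈ Γ.Comp (rp p.1).2 ∧ p.2 ∉ st.Dset (rp p.1).1 (rp p.1).2 then 1 else 0)

variable (hrp : ∀ Z, st.cp (rp Z).1 (rp Z).2 = Z)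
include hrp

theorem Uop_inj {p q : st.Copy × Y}
    (hp : p.2 ∈ Γ.Comp (rp p.1).2 ∧ p.2 ∉ st.Dset (rp p.1).1 (rp p.1).2)
    (hq : q.2 ∈ Γ.Comp (rp q.1).2 ∧ q.2 ∉ st.Dset (rp q.1).1 (rp q.1).2)
    (h : st.pt (rp p.1).1 (rp p.1).2 p.2 = st.pt (rp q.1).1 (rp q.1).2 q.2) : p = q := by
  have key : ∀ p : st.Copy × Y, p.2 ∈ Γ.Comp (rp p.1).2 ∧ p.2 ∉ st.Dset (rp p.1).1 (rp p.1).2 →
      st.cp (st.pt (rp p.1).1 (rp p.1).2 p.2) (st.home (st.pt (rp p.1).1 (rp p.1).2 p.2)) = p.1 :=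
    fun p hp => ((st.cp_eqv (st.root_of_mem hp.1 hp.2).2).symm.trans
      (st.Uop_cp_pt _ hp.1)).trans (hrp p.1)
  have h1 : p.1 = q.1 := by rw [← key p hp, ← key q hq, h]
  obtain ⟨Z, x⟩ := p
  obtain ⟨Z', x'⟩ := q
  obtain rfl : Z = Z' := h1
  exact Prod.ext rfl (st.Uop_pt_inj hp.1 hq.1 h)

theorem Uop_onto {u : G} (hu : ¬ st.Near u) : ∃ p : st.Copy × Y,
    (p.2 ∈ Γ.Comp (rp p.1).2 ∧ p.2 ∉ st.Dset (rp p.1).1 (rp p.1).2) ∧
      st.pt (rp p.1).1 (rp p.1).2 p.2 = u := by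
  obtain ⟨x, h1, h2, h3⟩ := st.mem_of_root hu (hrp (st.cp u (st.home u))).symm
  exact ⟨(st.cp u (st.home u), x), ⟨h1, h2⟩, h3⟩

open Classical in
theorem Uop_sBd : SBd (fun p : st.Copy × Y => st.pt (rp p.1).1 (rp p.1).2 p.2)
    (fun p => if p.2 ∈ Γ.Comp (rp p.1).2 ∧ p.2 ∉ st.Dset (rp p.1).1 (rp p.1).2 then (1 : ℂ) else 0)
    1 := by
  refine sBd_of_injOn zero_le_one (fun p => by split_ifs <;> simp) fun p q hp hq h => ?_
  exact st.Uop_inj rp hrp (by_contra fun h' => hp (if_neg h')) (by_contra fun h' => hq (if_neg h')) h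

open Classical in
theorem Uop_apply (f : L2 G ℂ) (Z : st.Copy) (x : Y) : st.Uop rp f Z x =
    if x ∈ Γ.Comp (rp Z).2 ∧ x ∉ st.Dset (rp Z).1 (rp Z).2 then f (st.pt (rp Z).1 (rp Z).2 x)
    else 0 := by
  show curry st.Copy Y (spull _ _ f) Z x = _
  rw [curry_apply, spull_apply (st.Uop_sBd rp hrp)]
  split_ifs <;> simp

/-- `(Z, x) ↦ pt x` is a bijection from the support set onto the roots. -/
theorem inner_Uop (f g : L2 G ℂ) :
    ⟪st.Uop rp f, st.Uop rp g⟫_ℂ = ⟪proj {u | ¬ st.Near u} f, proj {u | ¬ st.Near u} g⟫_ℂ := by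
  classical
  show ⟪curry st.Copy Y (spull _ _ f), curry st.Copy Y (spull _ _ g)⟫_ℂ = _
  rw [LinearIsometryEquiv.inner_map_map]
  let P : st.Copy × Y → Prop := fun p =>
    p.2 ∈ Γ.Comp (rp p.1).2 ∧ p.2 ∉ st.Dset (rp p.1).1 (rp p.1).2
  have hi : Function.Injective fun p : Subtype P => st.pt (rp p.1.1).1 (rp p.1.1).2 p.1.2 :=
    fun p q h => Subtype.ext (st.Uop_inj rp hrp p.2 q.2 h)
  have h1 := (hi.hasSum_iff (fun u hu => by
    have : u ∉ {u | ¬ st.Near u} := fun h => by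
      obtain ⟨p, hp, e⟩ := st.Uop_onto rp hrp h
      exact hu ⟨⟨p, hp⟩, e⟩
    rw [proj_apply_not_mem _ this, inner_zero_left])).2
    (L2_hasSum_inner (proj {u | ¬ st.Near u} f) (proj {u | ¬ st.Near u} g))
  refine HasSum.unique (((Subtype.val_injective (p := P)).hasSum_iff (fun p hp => ?_)).2
    (L2_hasSum_inner _ _)) ?_
  · rw [spull_apply (st.Uop_sBd rp hrp), if_neg (fun h => hp ⟨⟨p, h⟩, rfl⟩), zero_mul,
      inner_zero_left]
  · convert h1 using 1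
    funext p
    have hm : st.pt (rp p.1.1).1 (rp p.1.1).2 p.1.2 ∈ {u | ¬ st.Near u} :=
      (st.root_of_mem p.2.1 p.2.2).1
    simp only [Function.comp]
    rw [spull_apply (st.Uop_sBd rp hrp), spull_apply (st.Uop_sBd rp hrp), if_pos p.2, one_mul,
      one_mul, proj_apply_mem _ hm, proj_apply_mem _ hm]

theorem Uop_far [Fintype S] (c : S → ℂ) (f : L2 G ℂ) (Z : st.Copy) :
    st.Uop rp (eop st.π c st.Far f) Z =
      proj (st.Dset (rp Z).1 (rp Z).2)ᶜ (Γ.Bop c (st.Uop rp f Z)) := by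
  classical
  apply lp.ext; funext x
  rw [st.Uop_apply rp hrp]
  by_cases hD : x ∈ st.Dset (rp Z).1 (rp Z).2
  · rw [if_neg fun h => h.2 hD, proj_apply_not_mem _
      (show x ∉ (st.Dset (rp Z).1 (rp Z).2)ᶜ from fun h => h hD)]
  rw [proj_apply_mem _ (show x ∈ (st.Dset (rp Z).1 (rp Z).2)ᶜ from hD), LG.Bop_apply]
  by_cases hx : x ∈ Γ.Comp (rp Z).2
  · rw [if_pos ⟨hx, hD⟩, eop_apply]
    refine Finset.sum_congr rfl fun a _ => ?_
    rw [st.Uop_apply rp hrp]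
    by_cases h : st.Far (lv st.π a * st.pt (rp Z).1 (rp Z).2 x) a
    · obtain ⟨x', h1, h2, h3⟩ := (st.Uop_far_iff hx hD a).1 h
      rw [if_pos h, if_pos ⟨x', h1⟩, Γ.back_eq h1, if_pos ⟨h2, h3⟩, st.Uop_pt_edge _ h2 h1]
    · rw [if_neg h]
      split_ifs with h1 h2
      · obtain ⟨x', h1⟩ := h1
        rw [Γ.back_eq h1] at h2
        exact absurd ((st.Uop_far_iff hx hD a).2 ⟨x', h1, h2⟩) h
      · rw [mul_zero]
      · rfl
  · rw [if_neg fun h => hx h.1]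
    refine (Finset.sum_eq_zero fun a _ => ?_).symm
    split_ifs with h1
    · obtain ⟨x', h1⟩ := h1
      rw [Γ.back_eq h1, st.Uop_apply rp hrp, if_neg fun h => hx (Uop_comp_edge h.1 h1), mul_zero]
    · rfl

omit hrp in
theorem far_eq_proj [Fintype S] (c : S → ℂ) (f : L2 G ℂ) :
    proj {u | ¬ st.Near u} (eop st.π c st.Far f) = eop st.π c st.Far f := by
  classical
  rw [proj_eq_self_iff]
  intro x hx
  rw [eop_apply]
  refine Finset.sum_eq_zero fun a _ => if_neg fun h => hx ?_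
  have := h.2.2
  rwa [inv_mul_cancel_left] at this

/-- every family supported in the right sets comes from a root vector (`adjoint` of `Uop`, or a
`spull` along `u ↦ (cp u (home u), point of u)`). -/
theorem Uop_surj (φ : L2 st.Copy (L2 Y ℂ))
    (hφ : ∀ Z x, ¬ (x ∈ Γ.Comp (rp Z).2 ∧ x ∉ st.Dset (rp Z).1 (rp Z).2) → φ Z x = 0) :
    ∃ f : L2 G ℂ, (∀ u, st.Near u → f u = 0) ∧ st.Uop rp f = φ := by
  classical
  have hex : ∀ u : G, ∃ p : st.Copy × Y, ¬ st.Near u →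
      (p.2 ∈ Γ.Comp (rp p.1).2 ∧ p.2 ∉ st.Dset (rp p.1).1 (rp p.1).2) ∧
        st.pt (rp p.1).1 (rp p.1).2 p.2 = u := by
    intro u
    by_cases hu : st.Near u
    · exact ⟨(st.cp u y₀, y₀), fun h => absurd hu h⟩
    · exact (st.Uop_onto rp hrp hu).imp fun p hp _ => hp
  choose τ hτ using hex
  have hb : SBd τ (fun u => if st.Near u then (0 : ℂ) else 1) 1 := by
    refine sBd_of_injOn zero_le_one (fun u => by split_ifs <;> simp) fun u u' hu hu' h => ?_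
    have h1 := (hτ u fun h' => hu (if_pos h')).2
    have h2 := (hτ u' fun h' => hu' (if_pos h')).2
    rw [← h1, ← h2, h]
  refine ⟨spull τ (fun u => if st.Near u then (0 : ℂ) else 1) ((curry st.Copy Y).symm φ),
    fun u hu => by rw [spull_apply hb, if_pos hu, zero_mul], ?_⟩
  apply lp.ext; funext Z
  apply lp.ext; funext x
  rw [st.Uop_apply rp hrp]
  split_ifs with h
  · have h1 := (st.root_of_mem h.1 h.2).1
    have h2 : τ (st.pt (rp Z).1 (rp Z).2 x) = (Z, x) :=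
      st.Uop_inj rp hrp (hτ _ h1).1 h (hτ _ h1).2
    rw [spull_apply hb, if_neg h1, one_mul, h2, ← curry_apply, LinearIsometryEquiv.apply_symm_apply]
  · exact (hφ Z x h).symm

end U

end Str
end Crest.Agent.R129
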